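import Mathlib

/-!
# Row 213, Part C: one-variable interpolation lemmas

* `cs` : Cauchy–Schwarz for interval integrals of continuous functions;
* `two_pt`, `two_pt'` : `|v x|` controlled by two values on one side and `∫ |s - x| |v''|`;
* `intp` : `|v x| ≤ (15/r) ∫_r^{2r} |v| + ∫_x^{2r} (s-x) |v'' s|` for `x ≤ r`;
* `intp_right` : mirrored version;
* `deriv_le_of_sup` : `|f'| ≤ 2ε/h + C h` if `|f| ≤ ε`, `|f''| ≤ C`.
-/

set_option autoImplicit false
set_option linter.unusedVariables false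

open Set MeasureTheory Filter Topology

namespace Crest.Agent.R213.C

/-! ### Cauchy–Schwarz -/

/-- Cauchy–Schwarz for interval integrals. -/
theorem cs {a b : ℝ} (hab : a ≤ b) {f g : ℝ → ℝ} (hf : ContinuousOn f (Icc a b))
    (hg : ContinuousOn g (Icc a b)) :
    (∫ s in a..b, f s * g s) ^ 2 ≤ (∫ s in a..b, f s ^ 2) * ∫ s in a..b, g s ^ 2 := by
  have hf' : ContinuousOn f (uIcc a b) := by rwa [uIcc_of_le hab]
  have hg' : ContinuousOn g (uIcc a b) := by rwa [uIcc_of_le hab]
  set A := ∫ s in a..b, f s ^ 2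
  set B := ∫ s in a..b, f s * g s
  set D := ∫ s in a..b, g s ^ 2
  have key : ∀ t : ℝ, 0 ≤ D * (t * t) + (-2 * B) * t + A := by
    intro t
    have h1 : 0 ≤ ∫ s in a..b, (f s - t * g s) ^ 2 :=
      intervalIntegral.integral_nonneg hab (fun s _ => sq_nonneg _)
    have h2 : ∫ s in a..b, (f s - t * g s) ^ 2 = D * (t * t) + (-2 * B) * t + A := by
      have e : ∀ s, (f s - t * g s) ^ 2 = (t * t) * g s ^ 2 + (-2 * t) * (f s * g s) + f s ^ 2 := by
        intro s; ring
      simp_rw [e]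
      rw [intervalIntegral.integral_add, intervalIntegral.integral_add, intervalIntegral.integral_const_mul, intervalIntegral.integral_const_mul]
      · ring
      · exact ((hg'.pow 2).const_smul (t * t)).intervalIntegrable
      · exact ((hf'.mul hg').const_smul (-2 * t)).intervalIntegrable
      · exact (((hg'.pow 2).const_smul (t * t)).add
          ((hf'.mul hg').const_smul (-2 * t))).intervalIntegrable
      · exact (hf'.pow 2).intervalIntegrable
    rw [← h2]; exact h1
  have := discrim_le_zero key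
  rw [discrim] at this
  nlinarith


/-- average principle: some value of `|v|` is at most its mean. -/
theorem exists_le_mean {a b : ℝ} (hab : a < b) {v : ℝ → ℝ} (hv : ContinuousOn v (Icc a b)) :
    ∃ y ∈ Icc a b, |v y| ≤ (1 / (b - a)) * ∫ s in a..b, |v s| := by
  obtain ⟨y, hy, hmin⟩ := isCompact_Icc.exists_isMinOn (nonempty_Icc.2 hab.le) hv.abs
  refine ⟨y, hy, ?_⟩
  have h1 : ∫ s in a..b, |v y| ≤ ∫ s in a..b, |v s| := by
    apply intervalIntegral.integral_mono_on hab.le intervalIntegrable_const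
    · apply ContinuousOn.intervalIntegrable
      rw [uIcc_of_le hab.le]
      exact hv.abs
    · intro s hs
      exact hmin hs
  rw [intervalIntegral.integral_const, smul_eq_mul] at h1
  rw [one_div, ← div_eq_inv_mul, le_div_iff₀ (by linarith)]
  linarith

/-! ### two–point interpolation -/





/-! ### Landau–Kolmogorov, one step -/

/-- `|f'| ≤ 2ε/h + C h` for any `0 < h ≤ (b-a)/2`. -/
theorem deriv_le_of_sup {a b ε C h : ℝ} (hh : 0 < h) (hab : a + 2 * h ≤ b) {f f1 f2 : ℝ → ℝ}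
    (h1 : ∀ s ∈ Icc a b, HasDerivWithinAt f (f1 s) (Icc a b) s)
    (h2 : ∀ s ∈ Icc a b, HasDerivWithinAt f1 (f2 s) (Icc a b) s)
    (hf : ∀ s ∈ Icc a b, |f s| ≤ ε) (hf2 : ∀ s ∈ Icc a b, |f2 s| ≤ C) {x : ℝ} (hx : x ∈ Icc a b) :
    |f1 x| ≤ 2 * ε / h + C * h := by
  have hlt : a < b := by linarith
  have hfc : ContinuousOn f (Icc a b) := fun s hs => (h1 s hs).continuousWithinAt
  have hC : 0 ≤ C := (abs_nonneg _).trans (hf2 x hx)
  -- Lipschitz bound of `f1`
  have lip : ∀ y ∈ Icc a b, |f1 y - f1 x| ≤ C * |y - x| := by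
    intro y hy
    have := (convex_Icc a b).norm_image_sub_le_of_norm_hasDerivWithin_le (f := f1) (f' := f2)
      (C := C) h2 (fun s hs => by simpa using hf2 s hs) hx hy
    simpa using this
  -- a neighbouring point
  obtain ⟨p, q, hp, hq, hpq, hqp, hxpq⟩ : ∃ p q : ℝ, a ≤ p ∧ q ≤ b ∧ p < q ∧ q - p = h ∧
      (p = x ∨ q = x) := by
    by_cases hc : x + h ≤ b
    · exact ⟨x, x + h, hx.1, hc, by linarith, by ring, Or.inl rfl⟩
    · push Not at hc
      exact ⟨x - h, x, by linarith, hx.2, by linarith, by ring, Or.inr rfl⟩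
  obtain ⟨ξ, hξ, hslope⟩ := exists_hasDerivAt_eq_slope f f1 hpq
    (hfc.mono (Icc_subset_Icc hp hq)) (fun s hs => (h1 s ⟨hp.trans hs.1.le, hs.2.le.trans hq⟩).hasDerivAt
      (Icc_mem_nhds (lt_of_le_of_lt hp hs.1) (lt_of_lt_of_le hs.2 hq)))
  have hξ' : ξ ∈ Icc a b := ⟨hp.trans hξ.1.le, hξ.2.le.trans hq⟩
  have b1 : |f1 ξ| ≤ 2 * ε / h := by
    rw [hslope, hqp, abs_div, abs_of_pos hh]
    apply div_le_div_of_nonneg_right _ hh.le
    have := hf p ⟨hp, hpq.le.trans hq⟩
    have := hf q ⟨hp.trans hpq.le, hq⟩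
    refine (abs_sub _ _).trans ?_
    linarith
  have b2 : |ξ - x| ≤ h := by
    rcases hxpq with rfl | rfl
    · rw [abs_of_pos (by linarith [hξ.1])]; linarith [hξ.2]
    · rw [abs_of_neg (by linarith [hξ.2])]; linarith [hξ.1]
  have b3 := lip ξ hξ'
  have b4 : |f1 x| ≤ |f1 ξ| + |f1 ξ - f1 x| := by
    have : f1 x = f1 ξ - (f1 ξ - f1 x) := by ring
    calc |f1 x| = |f1 ξ - (f1 ξ - f1 x)| := by rw [← this]
      _ ≤ _ := abs_sub _ _
  have b5 : C * |ξ - x| ≤ C * h := mul_le_mul_of_nonneg_left b2 hC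
  linarith

end Crest.Agent.R213.C
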