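import Crest.Agent.R213.C.AlgMul

/-!
# Row 213, part C5: division `D (1 + b) = F` and the nonlinearity `η b²/(1+b)` in the norms `NB`
-/

set_option autoImplicit false

open Set MeasureTheory Filter Topology

noncomputable section

namespace Crest.Agent.R213.C

variable {L κ N β : ℝ} {D b F : ℝ → ℝ → ℝ}

/-- the constant of the division -/
def BB (L : ℝ) : ℝ := 2 ^ 11 * (L ^ 2 + 1) ^ 25

theorem one_le_RR (L : ℝ) : 1 ≤ (L ^ 2 + 1) ^ 25 := one_le_pow₀ (by nlinarith [sq_nonneg L])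

theorem BB_ge (L : ℝ) : 2 ^ 11 ≤ BB L := by
  have := one_le_RR L
  unfold BB
  linarith

theorem one_le_BB (L : ℝ) : 1 ≤ BB L := le_trans (by norm_num) (BB_ge L)

/-- Leibniz for `D (1 + b) = F` -/
theorem div_leibniz (hD : Sm (Ioo (0 : ℝ) (1 / 2)) L D) (hb : Sm (Ioo (0 : ℝ) (1 / 2)) L b)
    (h : ∀ τ ∈ Ioo (0 : ℝ) (1 / 2), ∀ x ∈ Icc 0 L, D τ x * (1 + b τ x) = F τ x)
    {τ x : ℝ} (hτ : τ ∈ Ioo (0 : ℝ) (1 / 2)) (hx : x ∈ Icc 0 L) (j : ℕ) :
    (dt^[j] D) τ x * (1 + b τ x) = (dt^[j] F) τ x -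
      ∑ i ∈ Finset.range j, (j.choose (i + 1) : ℝ) * (dt^[i + 1] b) τ x *
        (dt^[j - (i + 1)] D) τ x := by
  have e1 : (dt^[j] F) τ x = (dt^[j] (fun t x => b t x * D t x + D t x)) τ x := by
    apply dt_iter_congr_half (u := fun t x => b t x * D t x + D t x) ?_ hτ hx
    intro τ hτ x hx
    rw [← h τ hτ x hx]; ring
  rw [e1, dt_iter_add isOpen_Ioo (hb.mul hD) hD hτ hx, dt_iter_mul isOpen_Ioo hb hD hτ hx,
    Finset.sum_range_succ']
  simp only [Nat.choose_zero_right, Nat.cast_one, one_mul, Function.iterate_zero, id_eq,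
    Nat.sub_zero]
  ring

theorem div_abs (hD : Sm (Ioo (0 : ℝ) (1 / 2)) L D) (hb : Sm (Ioo (0 : ℝ) (1 / 2)) L b)
    (h : ∀ τ ∈ Ioo (0 : ℝ) (1 / 2), ∀ x ∈ Icc 0 L, D τ x * (1 + b τ x) = F τ x)
    (h2 : ∀ τ ∈ Ioo (0 : ℝ) (1 / 2), ∀ x ∈ Icc 0 L, |b τ x| ≤ 1 / 2)
    {τ x : ℝ} (hτ : τ ∈ Ioo (0 : ℝ) (1 / 2)) (hx : x ∈ Icc 0 L) (j : ℕ) :
    |(dt^[j] D) τ x| ≤ 2 * (|(dt^[j] F) τ x| +
      ∑ i ∈ Finset.range j, (j.choose (i + 1) : ℝ) * (|(dt^[i + 1] b) τ x| *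
        |(dt^[j - (i + 1)] D) τ x|)) := by
  have e := div_leibniz hD hb h hτ hx j
  have h3 := abs_le.1 (h2 τ hτ x hx)
  have h4 : |(dt^[j] D) τ x| * (1 / 2) ≤ |(dt^[j] D) τ x * (1 + b τ x)| := by
    rw [abs_mul]
    refine mul_le_mul_of_nonneg_left ?_ (abs_nonneg _)
    rw [abs_of_nonneg (by linarith)]
    linarith
  rw [e] at h4
  have h5 : |(dt^[j] F) τ x - ∑ i ∈ Finset.range j, (j.choose (i + 1) : ℝ) *
      (dt^[i + 1] b) τ x * (dt^[j - (i + 1)] D) τ x| ≤ |(dt^[j] F) τ x| +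
      ∑ i ∈ Finset.range j, (j.choose (i + 1) : ℝ) * (|(dt^[i + 1] b) τ x| *
        |(dt^[j - (i + 1)] D) τ x|) := by
    refine (abs_sub _ _).trans (add_le_add le_rfl ?_)
    refine (Finset.abs_sum_le_sum_abs _ _).trans (le_of_eq ?_)
    refine Finset.sum_congr rfl fun i _ => ?_
    rw [abs_mul, abs_mul, Nat.abs_cast, mul_assoc]
  linarith

theorem sum_choose_succ_le (j : ℕ) :
    ∑ i ∈ Finset.range j, (j.choose (i + 1) : ℝ) ≤ 2 ^ j := by
  have h := sum_choose_real j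
  rw [Finset.sum_range_succ'] at h
  have : (0 : ℝ) ≤ (j.choose 0 : ℝ) := by positivity
  linarith

/-- abstract induction for the quotient -/
theorem seq_bound {d f b w : ℕ → ℝ} {R M : ℝ} (hR : 1 ≤ R) (hM : 0 ≤ M) (hd0 : ∀ j, 0 ≤ d j)
    (hb0 : ∀ j, 0 ≤ b j) (hw0 : ∀ j, 0 ≤ w j) {J : ℕ} (hJ : J ≤ 8)
    (hw : ∀ j ≤ J, ∀ i < j, w j ≤ w (i + 1) * w (j - (i + 1)))
    (hd : ∀ j, d j ≤ 2 * (f j + ∑ i ∈ Finset.range j, (j.choose (i + 1) : ℝ) *
      (b (i + 1) * d (j - (i + 1)))))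
    (hb : ∀ j ≤ J, b j * w j ≤ R) (hf : ∀ j ≤ J, f j * w j ≤ M) :
    ∀ j ≤ J, d j * w j ≤ (2 ^ 11 * R) ^ (j + 1) * M := by
  have hB1 : 1 ≤ 2 ^ 11 * R := by linarith
  intro j
  induction j using Nat.strong_induction_on with
  | _ j ih =>
    intro hj
    have e2 : d j * w j ≤ 2 * (f j * w j + ∑ i ∈ Finset.range j, (j.choose (i + 1) : ℝ) *
      ((b (i + 1) * d (j - (i + 1))) * w j)) := by
      refine (mul_le_mul_of_nonneg_right (hd j) (hw0 j)).trans (le_of_eq ?_)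
      rw [mul_assoc 2, add_mul, Finset.sum_mul]
      congr 2
      refine Finset.sum_congr rfl fun i _ => ?_
      ring
    have e3 : ∀ i ∈ Finset.range j, (j.choose (i + 1) : ℝ) *
        ((b (i + 1) * d (j - (i + 1))) * w j) ≤
        (j.choose (i + 1) : ℝ) * (R * ((2 ^ 11 * R) ^ j * M)) := by
      intro i hi
      rw [Finset.mem_range] at hi
      refine mul_le_mul_of_nonneg_left ?_ (Nat.cast_nonneg _)
      have hbi := hb (i + 1) (by omega)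
      have hDi := ih (j - (i + 1)) (by omega) (by omega)
      have h1 : (b (i + 1) * d (j - (i + 1))) * w j ≤
          (b (i + 1) * d (j - (i + 1))) * (w (i + 1) * w (j - (i + 1))) :=
        mul_le_mul_of_nonneg_left (hw j hj i hi) (mul_nonneg (hb0 _) (hd0 _))
      have h2 : (b (i + 1) * d (j - (i + 1))) * (w (i + 1) * w (j - (i + 1))) =
          (b (i + 1) * w (i + 1)) * (d (j - (i + 1)) * w (j - (i + 1))) := by ring
      have h3 : (2 ^ 11 * R) ^ (j - (i + 1) + 1) ≤ (2 ^ 11 * R) ^ j :=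
        pow_le_pow_right₀ hB1 (by omega)
      have h4 : d (j - (i + 1)) * w (j - (i + 1)) ≤ (2 ^ 11 * R) ^ j * M :=
        hDi.trans (mul_le_mul_of_nonneg_right h3 hM)
      rw [h2] at h1
      exact h1.trans (mul_le_mul hbi h4 (mul_nonneg (hd0 _) (hw0 _)) (zero_le_one.trans hR))
    have e4 := Finset.sum_le_sum e3
    rw [← Finset.sum_mul] at e4
    have e5 : (∑ i ∈ Finset.range j, (j.choose (i + 1) : ℝ)) ≤ 2 ^ 8 :=
      (sum_choose_succ_le j).trans (pow_le_pow_right₀ (by norm_num) (hj.trans hJ))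
    have hBj : 1 ≤ (2 ^ 11 * R) ^ j := one_le_pow₀ hB1
    have hX1 : M ≤ (2 ^ 11 * R) ^ j * M := le_mul_of_one_le_left hM hBj
    have hX2 : (2 ^ 11 * R) ^ j * M ≤ R * ((2 ^ 11 * R) ^ j * M) :=
      le_mul_of_one_le_left (hM.trans hX1) hR
    have hX : 0 ≤ R * ((2 ^ 11 * R) ^ j * M) := (hM.trans hX1).trans hX2
    have e6 := mul_le_mul_of_nonneg_right e5 hX
    have e8 : (2 ^ 11 * R) ^ (j + 1) * M = 2 ^ 11 * (R * ((2 ^ 11 * R) ^ j * M)) := by
      rw [pow_succ]; ring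
    rw [e8]
    have e9 := hf j hj
    linarith

/-- pointwise bounds of the quotient -/
theorem div_pb (hL : 0 ≤ L) (hD : Sm (Ioo (0 : ℝ) (1 / 2)) L D)
    (hb : Sm (Ioo (0 : ℝ) (1 / 2)) L b)
    (h : ∀ τ ∈ Ioo (0 : ℝ) (1 / 2), ∀ x ∈ Icc 0 L, D τ x * (1 + b τ x) = F τ x)
    (h2 : ∀ τ ∈ Ioo (0 : ℝ) (1 / 2), ∀ x ∈ Icc 0 L, |b τ x| ≤ 1 / 2)
    (pb : PB L β b) (hβ : β ≤ 1) (pF : PB L N F) : PB L (BB L ^ 7 * N) D := by
  have hN : 0 ≤ N := pF.nonneg hL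
  have hβ0 : 0 ≤ β := pb.nonneg hL
  intro j hj τ hτ x hx
  have hρ : 0 < x ^ 2 + τ := rho_pos hx.1 hτ.1
  have hρR : (x ^ 2 + τ) ^ 25 ≤ (L ^ 2 + 1) ^ 25 := pow_le_pow_left₀ hρ.le (rho_le hx hτ) 25
  have hh0 : 0 ≤ xh τ x := xh_nonneg hx.1
  have hh1 : xh τ x ≤ 1 := xh_le_one hx.1 hτ.1
  have hR := one_le_RR L
  have hB1 := one_le_BB L
  have key := seq_bound (d := fun j => |(dt^[j] D) τ x|) (f := fun j => |(dt^[j] F) τ x|)
    (b := fun j => |(dt^[j] b) τ x|) (w := fun j => xh τ x ^ aa j * (x ^ 2 + τ) ^ j)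
    (R := (L ^ 2 + 1) ^ 25) (M := N * (x ^ 2 + τ) ^ 25) hR (by positivity)
    (fun _ => abs_nonneg _) (fun _ => abs_nonneg _) (fun _ => by positivity) (J := 6)
    (by norm_num) ?_ (fun j => div_abs hD hb h h2 hτ hx j) ?_ ?_ j hj
  · have e : BB L ^ (j + 1) ≤ BB L ^ 7 := pow_le_pow_right₀ hB1 (by omega)
    calc |(dt^[j] D) τ x| * xh τ x ^ aa j * (x ^ 2 + τ) ^ j
        = |(dt^[j] D) τ x| * (xh τ x ^ aa j * (x ^ 2 + τ) ^ j) := by ring
      _ ≤ BB L ^ (j + 1) * (N * (x ^ 2 + τ) ^ 25) := key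
      _ ≤ BB L ^ 7 * (N * (x ^ 2 + τ) ^ 25) :=
          mul_le_mul_of_nonneg_right e (by positivity)
      _ = _ := by ring
  · intro j hj i hi
    have ha : aa (i + 1) + aa (j - (i + 1)) ≤ aa j := aa_add (by omega) hj
    have hxa : xh τ x ^ aa j ≤ xh τ x ^ aa (i + 1) * xh τ x ^ aa (j - (i + 1)) := by
      rw [← pow_add]
      exact pow_le_pow_of_le_one hh0 hh1 ha
    have hpj : (x ^ 2 + τ) ^ j = (x ^ 2 + τ) ^ (i + 1) * (x ^ 2 + τ) ^ (j - (i + 1)) := by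
      rw [← pow_add]; congr 1; omega
    rw [hpj]
    have h5 : 0 ≤ (x ^ 2 + τ) ^ (i + 1) * (x ^ 2 + τ) ^ (j - (i + 1)) := by positivity
    refine (mul_le_mul_of_nonneg_right hxa h5).trans (le_of_eq ?_)
    ring
  · intro j hj
    have := pb j hj τ hτ x hx
    rw [← mul_assoc]
    refine this.trans ?_
    calc β * (x ^ 2 + τ) ^ 25 ≤ 1 * (L ^ 2 + 1) ^ 25 :=
          mul_le_mul hβ hρR (by positivity) zero_le_one
      _ = _ := one_mul _
  · intro j hj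
    have := pF j hj τ hτ x hx
    rw [← mul_assoc]
    exact this

/-- pointwise inequality of the weighted squares -/
theorem div_qq (hD : Sm (Ioo (0 : ℝ) (1 / 2)) L D)
    (hb : Sm (Ioo (0 : ℝ) (1 / 2)) L b)
    (h : ∀ τ ∈ Ioo (0 : ℝ) (1 / 2), ∀ x ∈ Icc 0 L, D τ x * (1 + b τ x) = F τ x)
    (h2 : ∀ τ ∈ Ioo (0 : ℝ) (1 / 2), ∀ x ∈ Icc 0 L, |b τ x| ≤ 1 / 2)
    (j : ℕ) {p : ℝ × ℝ} (hp : p ∈ Rg L) :
    qq κ j D p ≤ 4 * (j + 1) * (qq κ j F p + ∑ i ∈ Finset.range j, (j.choose (i + 1) : ℝ) ^ 2 *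
      (WJ κ j p.1 p.2 * p.2 ^ 9 * ((dt^[i + 1] b) p.1 p.2 * (dt^[j - (i + 1)] D) p.1 p.2) ^ 2)) := by
  have hτ := hp.1
  have hx := Ioo_subset_Icc_self hp.2
  have e := div_leibniz hD hb h hτ hx j
  have h3 := abs_le.1 (h2 _ hτ _ hx)
  set W := WJ κ j p.1 p.2 * p.2 ^ 9 with hW
  have hW0 : 0 ≤ W := mul_nonneg (WJ_nonneg hp.1.1 hp.2.1.le) (pow_nonneg hp.2.1.le _)
  have h4 : ((dt^[j] D) p.1 p.2) ^ 2 ≤ 4 * ((dt^[j] D) p.1 p.2 * (1 + b p.1 p.2)) ^ 2 := by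
    have : 1 ≤ 4 * (1 + b p.1 p.2) ^ 2 := by nlinarith
    nlinarith [sq_nonneg ((dt^[j] D) p.1 p.2)]
  have h5 : ((dt^[j] D) p.1 p.2 * (1 + b p.1 p.2)) ^ 2 ≤
      (j + 1) * (((dt^[j] F) p.1 p.2) ^ 2 + ∑ i ∈ Finset.range j, (j.choose (i + 1) : ℝ) ^ 2 *
      ((dt^[i + 1] b) p.1 p.2 * (dt^[j - (i + 1)] D) p.1 p.2) ^ 2) := by
    rw [e]
    have := sq_sum_le_card_mul_sum_sq (s := Finset.range (j + 1)) (f := fun i => match i with
      | 0 => (dt^[j] F) p.1 p.2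
      | i + 1 => - ((j.choose (i + 1) : ℝ) * (dt^[i + 1] b) p.1 p.2 *
        (dt^[j - (i + 1)] D) p.1 p.2))
    rw [Finset.sum_range_succ', Finset.sum_range_succ', Finset.card_range] at this
    simp only [Finset.sum_neg_distrib, Nat.cast_add, Nat.cast_one, neg_sq] at this
    refine le_trans (le_of_eq ?_) (this.trans (le_of_eq ?_))
    · ring
    · rw [add_comm (∑ i ∈ Finset.range j, _)]
      congr 2
      refine Finset.sum_congr rfl fun i _ => ?_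
      ring
  have h6 := mul_le_mul_of_nonneg_left (h4.trans (mul_le_mul_of_nonneg_left h5 (by norm_num)))
    hW0
  refine le_trans (le_of_eq ?_) (h6.trans (le_of_eq ?_))
  · rw [qq]
  · rw [qq]
    simp only [mul_add, Finset.mul_sum]
    rw [hW]
    congr 1
    · ring
    · refine Finset.sum_congr rfl fun i _ => ?_
      ring

/-- a factor bounded pointwise -/
theorem prod_qq {u v : ℝ → ℝ → ℝ} {P : ℝ} {j k : ℕ} (hk : k ≤ j) (hj : j ≤ 30) {p : ℝ × ℝ}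
    (hp : p ∈ Rg L) (h : |(dt^[k] u) p.1 p.2| * (p.2 ^ 2 + p.1) ^ k ≤ P) :
    WJ κ j p.1 p.2 * p.2 ^ 9 * ((dt^[k] u) p.1 p.2 * (dt^[j - k] v) p.1 p.2) ^ 2 ≤
      P ^ 2 * qq κ (j - k) v p := by
  have e : WJ κ j p.1 p.2 = (p.2 ^ 2 + p.1) ^ (2 * k) * WJ κ (j - k) p.1 p.2 := by
    have := WJ_add (κ := κ) (τ := p.1) (x := p.2) (i := j - k) (k := k) (by omega) hp.1.1
      hp.2.1.le
    rw [Nat.sub_add_cancel hk] at this
    exact this
  have h0 := qq_nonneg (κ := κ) (u := v) (j := j - k) hp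
  have h1 : ((dt^[k] u) p.1 p.2 * (p.2 ^ 2 + p.1) ^ k) ^ 2 ≤ P ^ 2 := by
    rw [← sq_abs]
    have hr : 0 ≤ (p.2 ^ 2 + p.1) ^ k := pow_nonneg (rho_pos hp.2.1.le hp.1.1).le _
    refine pow_le_pow_left₀ (abs_nonneg _) ?_ 2
    rw [abs_mul, abs_of_nonneg hr]
    exact h
  have h2 := mul_le_mul_of_nonneg_right h1 h0
  refine le_trans (le_of_eq ?_) h2
  rw [e, qq]
  ring

/-- weighted `L²` bounds of the quotient -/
theorem div_qb (hL : 0 < L) (hD : Sm (Ioo (0 : ℝ) (1 / 2)) L D)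
    (hb : Sm (Ioo (0 : ℝ) (1 / 2)) L b) (hF : Sm (Ioo (0 : ℝ) (1 / 2)) L F)
    (h : ∀ τ ∈ Ioo (0 : ℝ) (1 / 2), ∀ x ∈ Icc 0 L, D τ x * (1 + b τ x) = F τ x)
    (h2 : ∀ τ ∈ Ioo (0 : ℝ) (1 / 2), ∀ x ∈ Icc 0 L, |b τ x| ≤ 1 / 2)
    (pb : PB L β b) (qb : QB κ L β b) (hβ : β ≤ 1) (pF : PB L N F) (qF : QB κ L N F) :
    QB κ L (BB L ^ 16 * N) D := by
  have hN : 0 ≤ N := pF.nonneg hL.le
  have hβ0 : 0 ≤ β := pb.nonneg hL.le
  have hR := one_le_RR L
  have hB1 := one_le_BB L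
  have pD := div_pb hL.le hD hb h h2 pb hβ pF
  have key : ∀ j ≤ 8, QQ κ L j D ≤ ENNReal.ofReal ((BB L ^ (8 + j) * N) ^ 2) := by
    intro j
    induction j using Nat.strong_induction_on with
    | _ j ih =>
      intro hj
      -- the terms
      let c : ℕ → ℝ := fun i => 4 * (j + 1) * (match i with
        | 0 => 1
        | i + 1 => (j.choose (i + 1) : ℝ) ^ 2 * (if i + 1 ≤ 4 then ((L ^ 2 + 1) ^ 25) ^ 2
          else (BB L ^ 7 * N * (L ^ 2 + 1) ^ 25) ^ 2))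
      let k : ℕ → ℕ := fun i => match i with
        | 0 => j
        | i + 1 => if i + 1 ≤ 4 then j - (i + 1) else i + 1
      let ws : ℕ → ℝ → ℝ → ℝ := fun i => match i with
        | 0 => F
        | i + 1 => if i + 1 ≤ 4 then D else b
      have hc : ∀ i ∈ Finset.range (j + 1), 0 ≤ c i := by
        intro i _
        rcases i with _ | i
        · simp only [c]; positivity
        · simp only [c]; split_ifs <;> positivity
      have hws : ∀ i ∈ Finset.range (j + 1), Sm (Ioo (0 : ℝ) (1 / 2)) L (ws i) := by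
        intro i _
        rcases i with _ | i
        · exact hF
        · simp only [ws]; split_ifs
          · exact hD
          · exact hb
      have hp : ∀ p ∈ Rg L, qq κ j D p ≤ ∑ i ∈ Finset.range (j + 1), c i * qq κ (k i) (ws i) p := by
        intro p hp
        have hτ := hp.1
        have hx := Ioo_subset_Icc_self hp.2
        have hρ : 0 < p.2 ^ 2 + p.1 := rho_pos hx.1 hτ.1
        have hρR : (p.2 ^ 2 + p.1) ^ 25 ≤ (L ^ 2 + 1) ^ 25 :=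
          pow_le_pow_left₀ hρ.le (rho_le hx hτ) 25
        refine (div_qq hD hb h h2 j hp).trans ?_
        rw [Finset.sum_range_succ']
        simp only [c, k, ws]
        rw [mul_add, add_comm]
        refine add_le_add ?_ (le_of_eq (by ring))
        rw [Finset.mul_sum]
        refine Finset.sum_le_sum fun i hi => ?_
        rw [Finset.mem_range] at hi
        rw [mul_assoc (4 * ((j : ℝ) + 1))]
        refine mul_le_mul_of_nonneg_left ?_ (by positivity)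
        rw [mul_assoc ((j.choose (i + 1) : ℝ) ^ 2)]
        refine mul_le_mul_of_nonneg_left ?_ (by positivity)
        split_ifs with h4
        · refine prod_qq (by omega) (by omega) hp ?_
          refine (pb.low h4 hτ hx).trans ?_
          calc β * (p.2 ^ 2 + p.1) ^ 25 ≤ 1 * (L ^ 2 + 1) ^ 25 :=
                mul_le_mul hβ hρR (by positivity) zero_le_one
            _ = _ := one_mul _
        · have e := prod_qq (κ := κ) (u := D) (v := b) (j := j) (k := j - (i + 1))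
            (P := BB L ^ 7 * N * (L ^ 2 + 1) ^ 25) (by omega) (by omega) hp ?_
          · have e2 : j - (j - (i + 1)) = i + 1 := by omega
            rw [e2] at e
            rw [mul_comm ((dt^[i + 1] b) p.1 p.2)]
            exact e
          · refine (pD.low (by omega) hτ hx).trans ?_
            exact mul_le_mul_of_nonneg_left hρR (by positivity)
      have e1 := QQ_le (κ := κ) (Finset.range (j + 1)) hL j D c k ws hc hws hp
      refine e1.trans ?_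
      -- bounds of the terms
      have e2 : ∀ i ∈ Finset.range (j + 1), ENNReal.ofReal (c i) * QQ κ L (k i) (ws i) ≤
          ENNReal.ofReal ((j.choose i : ℝ) ^ 2 * (36 * (((L ^ 2 + 1) ^ 25) ^ 2 *
            (BB L ^ (7 + j) * N) ^ 2))) := by
        intro i hi
        rw [Finset.mem_range] at hi
        have hj36 : 4 * ((j : ℝ) + 1) ≤ 36 := by
          have : (j : ℝ) ≤ 8 := by exact_mod_cast hj
          linarith
        have hBp : ∀ m ≤ 7 + j, BB L ^ m ≤ BB L ^ (7 + j) := fun m hm => pow_le_pow_right₀ hB1 hm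
        have hQ : ∃ A : ℝ, 0 ≤ A ∧ QQ κ L (k i) (ws i) ≤ ENNReal.ofReal (A ^ 2) ∧
            c i * A ^ 2 ≤ (j.choose i : ℝ) ^ 2 * (36 * (((L ^ 2 + 1) ^ 25) ^ 2 *
              (BB L ^ (7 + j) * N) ^ 2)) := by
          rcases i with _ | i
          · refine ⟨N, hN, qF j hj, ?_⟩
            simp only [c, Nat.choose_zero_right, Nat.cast_one, one_pow, one_mul, mul_one]
            have h5 : N ≤ (L ^ 2 + 1) ^ 25 * (BB L ^ (7 + j) * N) := by
              have h6 : 1 ≤ BB L ^ (7 + j) := one_le_pow₀ hB1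
              have h7 : N ≤ BB L ^ (7 + j) * N := le_mul_of_one_le_left hN h6
              exact h7.trans (le_mul_of_one_le_left (hN.trans h7) hR)
            calc 4 * ((j : ℝ) + 1) * N ^ 2 ≤ 36 * ((L ^ 2 + 1) ^ 25 * (BB L ^ (7 + j) * N)) ^ 2 :=
                  mul_le_mul hj36 (pow_le_pow_left₀ hN h5 2) (by positivity) (by norm_num)
              _ = _ := by ring
          · by_cases h4 : i + 1 ≤ 4
            · refine ⟨BB L ^ (8 + (j - (i + 1))) * N, by positivity, ?_, ?_⟩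
              · simp only [k, ws, if_pos h4]
                exact ih _ (by omega) (by omega)
              · simp only [c, if_pos h4]
                have h5 : (BB L ^ (8 + (j - (i + 1))) * N) ^ 2 ≤ (BB L ^ (7 + j) * N) ^ 2 :=
                  pow_le_pow_left₀ (by positivity)
                    (mul_le_mul_of_nonneg_right (hBp _ (by omega)) hN) 2
                calc 4 * ((j : ℝ) + 1) * ((j.choose (i + 1) : ℝ) ^ 2 * ((L ^ 2 + 1) ^ 25) ^ 2) *
                      (BB L ^ (8 + (j - (i + 1))) * N) ^ 2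
                    ≤ 36 * ((j.choose (i + 1) : ℝ) ^ 2 * ((L ^ 2 + 1) ^ 25) ^ 2) *
                      (BB L ^ (7 + j) * N) ^ 2 := by
                      refine mul_le_mul ?_ h5 (by positivity) (by positivity)
                      exact mul_le_mul_of_nonneg_right hj36 (by positivity)
                  _ = _ := by ring
            · refine ⟨1, zero_le_one, ?_, ?_⟩
              · simp only [k, ws, if_neg h4]
                refine (qb (i + 1) (by omega)).trans (ENNReal.ofReal_le_ofReal ?_)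
                exact pow_le_pow_left₀ hβ0 hβ 2
              · simp only [c, if_neg h4]
                have h5 : (BB L ^ 7 * N * (L ^ 2 + 1) ^ 25) ^ 2 ≤
                    ((L ^ 2 + 1) ^ 25 * (BB L ^ (7 + j) * N)) ^ 2 := by
                  refine pow_le_pow_left₀ (by positivity) ?_ 2
                  rw [mul_comm]
                  refine mul_le_mul_of_nonneg_left ?_ (by positivity)
                  exact mul_le_mul_of_nonneg_right (hBp _ (by omega)) hN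
                calc 4 * ((j : ℝ) + 1) * ((j.choose (i + 1) : ℝ) ^ 2 *
                      (BB L ^ 7 * N * (L ^ 2 + 1) ^ 25) ^ 2) * 1 ^ 2
                    ≤ 36 * ((j.choose (i + 1) : ℝ) ^ 2 *
                      ((L ^ 2 + 1) ^ 25 * (BB L ^ (7 + j) * N)) ^ 2) * 1 ^ 2 := by
                      refine mul_le_mul_of_nonneg_right ?_ (by positivity)
                      refine mul_le_mul hj36 ?_ (by positivity) (by positivity)
                      exact mul_le_mul_of_nonneg_left h5 (by positivity)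
                  _ = _ := by ring
        obtain ⟨A, hA, hA1, hA2⟩ := hQ
        calc ENNReal.ofReal (c i) * QQ κ L (k i) (ws i)
            ≤ ENNReal.ofReal (c i) * ENNReal.ofReal (A ^ 2) := by gcongr
          _ = ENNReal.ofReal (c i * A ^ 2) :=
              (ENNReal.ofReal_mul (hc i (Finset.mem_range.2 hi))).symm
          _ ≤ _ := ENNReal.ofReal_le_ofReal hA2
      refine (Finset.sum_le_sum e2).trans ?_
      rw [← ENNReal.ofReal_sum_of_nonneg (fun i _ => by positivity), ← Finset.sum_mul]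
      refine ENNReal.ofReal_le_ofReal ?_
      have e3 : ∑ i ∈ Finset.range (j + 1), (j.choose i : ℝ) ^ 2 ≤ 2 ^ 16 := by
        calc ∑ i ∈ Finset.range (j + 1), (j.choose i : ℝ) ^ 2
            ≤ (∑ i ∈ Finset.range (j + 1), (j.choose i : ℝ)) ^ 2 :=
              Finset.sum_sq_le_sq_sum_of_nonneg (fun _ _ => by positivity)
          _ = (2 ^ j) ^ 2 := by rw [sum_choose_real]
          _ ≤ (2 ^ 8) ^ 2 := pow_le_pow_left₀ (by positivity)
              (pow_le_pow_right₀ (by norm_num) hj) 2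
          _ = 2 ^ 16 := by norm_num
      have e4 : (BB L ^ (8 + j) * N) ^ 2 =
          2 ^ 22 * (((L ^ 2 + 1) ^ 25) ^ 2 * (BB L ^ (7 + j) * N) ^ 2) := by
        have : BB L ^ (8 + j) = BB L ^ (7 + j) * (2 ^ 11 * (L ^ 2 + 1) ^ 25) := by
          rw [show 8 + j = (7 + j) + 1 by ring, pow_succ]; rfl
        rw [this]; ring
      rw [e4]
      have hX : 0 ≤ ((L ^ 2 + 1) ^ 25) ^ 2 * (BB L ^ (7 + j) * N) ^ 2 := by positivity
      calc (∑ i ∈ Finset.range (j + 1), (j.choose i : ℝ) ^ 2) *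
            (36 * (((L ^ 2 + 1) ^ 25) ^ 2 * (BB L ^ (7 + j) * N) ^ 2))
          ≤ 2 ^ 16 * (36 * (((L ^ 2 + 1) ^ 25) ^ 2 * (BB L ^ (7 + j) * N) ^ 2)) :=
            mul_le_mul_of_nonneg_right e3 (by positivity)
        _ ≤ _ := by nlinarith
  intro j hj
  refine (key j hj).trans (ENNReal.ofReal_le_ofReal ?_)
  refine pow_le_pow_left₀ (by positivity) ?_ 2
  exact mul_le_mul_of_nonneg_right (pow_le_pow_right₀ hB1 (by omega)) hN

/-- (D1) division -/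
theorem NB.div (hL : 0 < L) (hb : NB κ L β b) (hβ : β ≤ 1) (hF : NB κ L N F)
    (hD : Sm (Ioo (0 : ℝ) (1 / 2)) L D)
    (h2 : ∀ τ ∈ Ioo (0 : ℝ) (1 / 2), ∀ x ∈ Icc 0 L, |b τ x| ≤ 1 / 2)
    (h : ∀ τ ∈ Ioo (0 : ℝ) (1 / 2), ∀ x ∈ Icc 0 L, D τ x * (1 + b τ x) = F τ x) :
    NB κ L (BB L ^ 16 * N) D := by
  refine ⟨hD, ?_, div_qb hL hD hb.sm hF.sm h h2 hb.pb hb.qb hβ hF.pb hF.qb⟩
  refine (div_pb hL.le hD hb.sm h h2 hb.pb hβ hF.pb).mono ?_
  exact mul_le_mul_of_nonneg_right (pow_le_pow_right₀ (one_le_BB L) (by norm_num))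
    (hF.pb.nonneg hL.le)

/-! ### sums, without positivity hypotheses -/

theorem NB.add0 {u v : ℝ → ℝ → ℝ} {N' : ℝ} (hL : 0 < L) (hu : NB κ L N u) (hv : NB κ L N' v) :
    NB κ L (N + N') (fun t x => u t x + v t x) := by
  have hN := hu.pb.nonneg hL.le
  have hN' := hv.pb.nonneg hL.le
  refine ⟨hu.sm.add hv.sm, ?_, ?_⟩
  · intro j hj
    have h1 : PBj L j N (dt^[j] u) := hu.pb j hj
    have h2 : PBj L j N' (dt^[j] v) := hv.pb j hj
    exact (h1.add h2).congr fun τ hτ x hx => dt_iter_add isOpen_Ioo hu.sm hv.sm hτ hx j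
  · intro j hj
    have h1 : QBj κ L j N (dt^[j] u) := hu.qb j hj
    have h2 : QBj κ L j N' (dt^[j] v) := hv.qb j hj
    exact (h1.add hN hN' (Msr.dt_iter hL hu.sm j) (Msr.dt_iter hL hv.sm j) h2).congr
      fun τ hτ x hx => dt_iter_add isOpen_Ioo hu.sm hv.sm hτ (Ioo_subset_Icc_self hx) j

/-! ### the cut-off -/

/-- bounds of the derivatives of `η` on `[0,1/2]` -/
theorem eta_bd {η : ℝ → ℝ} (hη : EtaOK η) : ∃ K : ℝ, 1 ≤ K ∧
    ∀ i ≤ 8, ∀ τ ∈ Ioo (0 : ℝ) (1 / 2), |iteratedDeriv i η τ| ≤ K := by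
  have h : ∀ i : ℕ, ∃ K : ℝ, ∀ τ ∈ Icc (0 : ℝ) (1 / 2), ‖iteratedDeriv i η τ‖ ≤ K := by
    intro i
    have hc : Continuous (iteratedDeriv i η) :=
      hη.smooth.continuous_iteratedDeriv i (by exact_mod_cast le_top)
    exact isCompact_Icc.exists_bound_of_continuousOn hc.continuousOn
  choose K hK using h
  refine ⟨1 + ∑ i ∈ Finset.range 9, |K i|, ?_, ?_⟩
  · have : 0 ≤ ∑ i ∈ Finset.range 9, |K i| := Finset.sum_nonneg fun _ _ => abs_nonneg _
    linarith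
  · intro i hi τ hτ
    have h1 := hK i τ (Ioo_subset_Icc_self hτ)
    rw [Real.norm_eq_abs] at h1
    have h2 : |K i| ≤ ∑ i ∈ Finset.range 9, |K i| :=
      Finset.single_le_sum (f := fun i => |K i|) (fun _ _ => abs_nonneg _)
        (Finset.mem_range.2 (by omega))
    have h3 := le_abs_self (K i)
    linarith

/-- multiplication by the cut-off -/
theorem NB.eta_mul {η : ℝ → ℝ} {K : ℝ} {u : ℝ → ℝ → ℝ} (hη : ContDiff ℝ (⊤ : ℕ∞) η)
    (hK0 : 0 ≤ K) (hK : ∀ i ≤ 8, ∀ τ ∈ Ioo (0 : ℝ) (1 / 2), |iteratedDeriv i η τ| ≤ K)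
    (hL : 0 < L) (hu : NB κ L N u) :
    NB κ L (2 ^ 8 * (K * (L ^ 2 + 1) ^ 8) * N) (fun τ x => η τ * u τ x) := by
  refine NB.mult hL (Sm.of_left hη.contDiffOn) ?_ hu
  intro i hi τ hτ x hx
  rw [dt_iter_eq]
  have h1 := hK i hi τ hτ
  have hρ := (rho_pos hx.1 hτ.1).le
  have h2 : (x ^ 2 + τ) ^ i ≤ (L ^ 2 + 1) ^ 8 :=
    (pow_le_pow_left₀ hρ (rho_le hx hτ) i).trans
      (pow_le_pow_right₀ (by nlinarith [sq_nonneg L]) hi)
  exact mul_le_mul h1 h2 (pow_nonneg hρ _) hK0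


/-- (D3) difference of the nonlinearities -/
theorem NB.nl_diff {η : ℝ → ℝ} {K A : ℝ} {b' : ℝ → ℝ → ℝ} (hη : ContDiff ℝ (⊤ : ℕ∞) η)
    (hK0 : 0 ≤ K) (hK : ∀ i ≤ 8, ∀ τ ∈ Ioo (0 : ℝ) (1 / 2), |iteratedDeriv i η τ| ≤ K)
    (hL : 0 < L) (hb : NB κ L N b) (hb' : NB κ L N b') (hN1 : N ≤ 1)
    (h2 : ∀ τ ∈ Ioo (0 : ℝ) (1 / 2), ∀ x ∈ Icc 0 L, |b τ x| ≤ 1 / 2)
    (h2' : ∀ τ ∈ Ioo (0 : ℝ) (1 / 2), ∀ x ∈ Icc 0 L, |b' τ x| ≤ 1 / 2)
    (hd : NB κ L A (fun τ x => b τ x - b' τ x)) :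
    NB κ L (BB L ^ 32 * (2 ^ 8 * (K * (L ^ 2 + 1) ^ 8) * (2 ^ 17 * ((L ^ 2 + 1) ^ 25) ^ 2)) *
        N * A)
      (fun τ x => η τ * (b τ x ^ 2 / (1 + b τ x)) - η τ * (b' τ x ^ 2 / (1 + b' τ x))) := by
  have hN := hb.pb.nonneg hL.le
  have hA := hd.pb.nonneg hL.le
  have hR := one_le_RR L
  have hne : ∀ τ ∈ Ioo (0 : ℝ) (1 / 2), ∀ x ∈ Icc 0 L, 1 + b τ x ≠ 0 := by
    intro τ hτ x hx
    have := abs_le.1 (h2 τ hτ x hx)
    have : 0 < 1 + b τ x := by linarith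
    exact this.ne'
  have hne' : ∀ τ ∈ Ioo (0 : ℝ) (1 / 2), ∀ x ∈ Icc 0 L, 1 + b' τ x ≠ 0 := by
    intro τ hτ x hx
    have := abs_le.1 (h2' τ hτ x hx)
    have : 0 < 1 + b' τ x := by linarith
    exact this.ne'
  have hs : Sm (Ioo (0 : ℝ) (1 / 2)) L (fun τ x => η τ * (b τ x ^ 2 / (1 + b τ x))) :=
    (Sm.of_left hη.contDiffOn).mul ((hb.sm.pow 2).div ((Sm.const 1).add hb.sm) hne)
  have hs' : Sm (Ioo (0 : ℝ) (1 / 2)) L (fun τ x => η τ * (b' τ x ^ 2 / (1 + b' τ x))) :=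
    (Sm.of_left hη.contDiffOn).mul ((hb'.sm.pow 2).div ((Sm.const 1).add hb'.sm) hne')
  have hsD := hs.sub hs'
  -- `b + b' + b b'`
  have e1 : NB κ L (2 ^ 9 * (L ^ 2 + 1) ^ 25 * N) (fun τ x => (b τ x + b' τ x) + b τ x * b' τ x) := by
    refine ((hb.add0 hL hb').add0 hL (hb.mul hL hb')).mono (by positivity) ?_
    have h1 : N * N ≤ N := by nlinarith
    have h3 : 2 ^ 8 * (L ^ 2 + 1) ^ 25 * N * N ≤ 2 ^ 8 * (L ^ 2 + 1) ^ 25 * N := by
      calc 2 ^ 8 * (L ^ 2 + 1) ^ 25 * N * N = 2 ^ 8 * (L ^ 2 + 1) ^ 25 * (N * N) := by ring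
        _ ≤ _ := mul_le_mul_of_nonneg_left h1 (by positivity)
    have h4 : N ≤ (L ^ 2 + 1) ^ 25 * N := le_mul_of_one_le_left hN hR
    linarith
  have e2 := (hd.mul hL e1).eta_mul hη hK0 hK hL
  have e3 : NB κ L (BB L ^ 16 * (2 ^ 8 * (K * (L ^ 2 + 1) ^ 8) *
      (2 ^ 8 * (L ^ 2 + 1) ^ 25 * A * (2 ^ 9 * (L ^ 2 + 1) ^ 25 * N))))
      (fun τ x => (η τ * (b τ x ^ 2 / (1 + b τ x)) - η τ * (b' τ x ^ 2 / (1 + b' τ x))) *
        (1 + b τ x)) := by
    refine NB.div hL hb' hN1 e2 (hsD.mul ((Sm.const 1).add hb.sm)) h2' ?_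
    intro τ hτ x hx
    have h3 := hne τ hτ x hx
    have h4 := hne' τ hτ x hx
    field_simp
    ring
  have e4 := NB.div hL hb hN1 e3 hsD h2 (fun τ _ x _ => rfl)
  refine e4.mono ?_ (le_of_eq (by ring))
  have := one_le_BB L
  positivity

/-! ### interface forms -/

theorem sq_add_one_le (hL : (8 : ℝ) ≤ L) : L ^ 2 + 1 ≤ 2 * L ^ 2 := by nlinarith

theorem BB_le (hL : (8 : ℝ) ≤ L) : BB L ≤ 2 ^ 36 * L ^ 50 := by
  unfold BB
  calc 2 ^ 11 * (L ^ 2 + 1) ^ 25 ≤ 2 ^ 11 * (2 * L ^ 2) ^ 25 := by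
        refine mul_le_mul_of_nonneg_left ?_ (by norm_num)
        exact pow_le_pow_left₀ (by positivity) (sq_add_one_le hL) 25
    _ = _ := by ring


/-- [C5: `alg_nl`] difference estimate of the nonlinearity: `h = η b²/(1+b)`. -/
theorem alg_nl (_hκ : κ ∈ Ioo (1 / 8 : ℝ) (1 / 4)) {η : ℝ → ℝ} (hη : EtaOK η) :
    ∃ (C : ℝ) (q : ℕ), 1 ≤ C ∧ ∀ L ≥ (8 : ℝ), ∀ b b' : ℝ → ℝ → ℝ,
      Sm (Ioo 0 (1 / 2)) L b → Sm (Ioo 0 (1 / 2)) L b' →
      (∀ τ ∈ Ioo (0 : ℝ) (1 / 2), ∀ x ∈ Icc 0 L, |b τ x| ≤ 1 / 2) →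
      (∀ τ ∈ Ioo (0 : ℝ) (1 / 2), ∀ x ∈ Icc 0 L, |b' τ x| ≤ 1 / 2) →
      ∀ N A : ℝ, 0 ≤ N → N ≤ 1 → 0 ≤ A →
      PB L N b → QB κ L N b → PB L N b' → QB κ L N b' →
      PB L A (fun τ x => b τ x - b' τ x) → QB κ L A (fun τ x => b τ x - b' τ x) →
        PB L (C * L ^ q * N * A) (fun τ x => η τ * (b τ x ^ 2 / (1 + b τ x)) -
          η τ * (b' τ x ^ 2 / (1 + b' τ x))) ∧
        QB κ L (C * L ^ q * N * A) (fun τ x => η τ * (b τ x ^ 2 / (1 + b τ x)) -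
          η τ * (b' τ x ^ 2 / (1 + b' τ x))) := by
  obtain ⟨K, hK1, hK⟩ := eta_bd hη
  refine ⟨(2 ^ 36) ^ 32 * (2 ^ 8 * (K * 2 ^ 8) * (2 ^ 17 * (2 ^ 25) ^ 2)), 50 * 32 + 16 + 100,
    ?_, ?_⟩
  · refine one_le_mul_of_one_le_of_one_le (one_le_pow₀ (by norm_num)) ?_
    refine one_le_mul_of_one_le_of_one_le ?_ (by norm_num)
    refine one_le_mul_of_one_le_of_one_le (by norm_num) ?_
    exact one_le_mul_of_one_le_of_one_le hK1 (by norm_num)
  · intro L hL b b' hb hb' h2 h2' N A hN hN1 hA pb qb pb' qb' pd qd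
    have hL0 : 0 < L := by linarith
    have hK0 : 0 ≤ K := zero_le_one.trans hK1
    have e := NB.nl_diff hη.smooth hK0 hK hL0 ⟨hb, pb, qb⟩ ⟨hb', pb', qb'⟩ hN1 h2 h2'
      ⟨hb.sub hb', pd, qd⟩
    have hB0 : 0 ≤ BB L := zero_le_one.trans (one_le_BB L)
    have h8 : (L ^ 2 + 1) ^ 8 ≤ 2 ^ 8 * L ^ 16 := by
      calc (L ^ 2 + 1) ^ 8 ≤ (2 * L ^ 2) ^ 8 :=
            pow_le_pow_left₀ (by positivity) (sq_add_one_le hL) 8
        _ = _ := by ring
    have h25 : (L ^ 2 + 1) ^ 25 ≤ 2 ^ 25 * L ^ 50 := by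
      calc (L ^ 2 + 1) ^ 25 ≤ (2 * L ^ 2) ^ 25 :=
            pow_le_pow_left₀ (by positivity) (sq_add_one_le hL) 25
        _ = _ := by ring
    have h32 : BB L ^ 32 ≤ (2 ^ 36 * L ^ 50) ^ 32 := pow_le_pow_left₀ hB0 (BB_le hL) 32
    have h3 : BB L ^ 32 * (2 ^ 8 * (K * (L ^ 2 + 1) ^ 8) * (2 ^ 17 * ((L ^ 2 + 1) ^ 25) ^ 2)) ≤
        (2 ^ 36) ^ 32 * (2 ^ 8 * (K * 2 ^ 8) * (2 ^ 17 * (2 ^ 25) ^ 2)) *
          L ^ (50 * 32 + 16 + 100) := by
      calc BB L ^ 32 * (2 ^ 8 * (K * (L ^ 2 + 1) ^ 8) * (2 ^ 17 * ((L ^ 2 + 1) ^ 25) ^ 2))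
          ≤ (2 ^ 36 * L ^ 50) ^ 32 * (2 ^ 8 * (K * (2 ^ 8 * L ^ 16)) *
              (2 ^ 17 * (2 ^ 25 * L ^ 50) ^ 2)) := by
            refine mul_le_mul h32 ?_ (by positivity) (by positivity)
            refine mul_le_mul ?_ ?_ (by positivity) (by positivity)
            · exact mul_le_mul_of_nonneg_left (mul_le_mul_of_nonneg_left h8 hK0) (by norm_num)
            · exact mul_le_mul_of_nonneg_left (pow_le_pow_left₀ (by positivity) h25 2)
                (by norm_num)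
        _ = _ := by
            rw [mul_pow, ← pow_mul L, pow_add, pow_add, mul_pow (2 ^ 25) (L ^ 50), ← pow_mul L]
            generalize ((2 : ℝ) ^ 36) ^ 32 = a
            generalize L ^ (50 * 32) = c
            ring
    have h4 : BB L ^ 32 * (2 ^ 8 * (K * (L ^ 2 + 1) ^ 8) * (2 ^ 17 * ((L ^ 2 + 1) ^ 25) ^ 2)) *
        N * A ≤ (2 ^ 36) ^ 32 * (2 ^ 8 * (K * 2 ^ 8) * (2 ^ 17 * (2 ^ 25) ^ 2)) *
          L ^ (50 * 32 + 16 + 100) * N * A :=
      mul_le_mul_of_nonneg_right (mul_le_mul_of_nonneg_right h3 hN) hA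
    have h5 := e.mono (by positivity) h4
    exact ⟨h5.pb, h5.qb⟩

end Crest.Agent.R213.C
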