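import Crest.Agent.R213.C.Algebra

/-!
# Row 213, part C5: products in the classes `PB` / `QB` (helper436)

* level-wise classes `PBj L j N u`, `QBj κ L j N u` (with exact Minkowski inequality, sums, products);
* `NB.mul` (M1), `NB.mult` (M2), `alg_mul`.
-/

set_option autoImplicit false

open Set MeasureTheory Filter Topology

noncomputable section

namespace Crest.Agent.R213.C

variable {κ L N N' : ℝ} {i j l : ℕ} {u v : ℝ → ℝ → ℝ}

/-- pointwise bound at level `j`: `|u| x̂^{a_j} ρ^j ≤ N ρ^25` -/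
def PBj (L : ℝ) (j : ℕ) (N : ℝ) (u : ℝ → ℝ → ℝ) : Prop :=
  ∀ τ ∈ Ioo (0 : ℝ) (1 / 2), ∀ x ∈ Icc 0 L,
    |u τ x| * xh τ x ^ aa j * (x ^ 2 + τ) ^ j ≤ N * (x ^ 2 + τ) ^ 25

/-- `L²` bound at level `j`: `∫∫ W_j u² x⁹ ≤ N²` -/
def QBj (κ L : ℝ) (j : ℕ) (N : ℝ) (u : ℝ → ℝ → ℝ) : Prop :=
  N2T (1 / 2) L (WJ κ j) u ≤ ENNReal.ofReal (N ^ 2)

/-- measurability on the region -/
def Msr (L : ℝ) (u : ℝ → ℝ → ℝ) : Prop :=
  AEMeasurable (fun p : ℝ × ℝ => u p.1 p.2) (volume.restrict (Rg L))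

theorem Msr.of_sm (hu : Sm (Ioo 0 (1 / 2)) L u) : Msr L u :=
  (hu.continuousOn.mono (Set.prod_mono subset_rfl Ioo_subset_Icc_self)).aemeasurable
    (measurableSet_Rg L)

theorem Msr.mul (hu : Msr L u) (hv : Msr L v) : Msr L (fun τ x => u τ x * v τ x) :=
  AEMeasurable.mul hu hv

theorem Msr.add (hu : Msr L u) (hv : Msr L v) : Msr L (fun τ x => u τ x + v τ x) :=
  AEMeasurable.add hu hv

theorem Msr.const_mul (c : ℝ) (hu : Msr L u) : Msr L (fun τ x => c * u τ x) :=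
  AEMeasurable.const_mul hu c

theorem measurable_WJ (κ : ℝ) (j : ℕ) : Measurable (fun p : ℝ × ℝ => WJ κ j p.1 p.2) := by
  unfold WJ
  fun_prop

theorem aa_add' (h : i + l ≤ 6) : aa i + aa l ≤ aa (i + l) := by
  have := aa_add (i := i) (j := i + l) (Nat.le_add_right _ _) h
  rwa [Nat.add_sub_cancel_left] at this

section basic

variable {τ x : ℝ}

theorem WJ_pos (hτ : 0 < τ) (hx : 0 ≤ x) (κ : ℝ) (j : ℕ) : 0 < WJ κ j τ x :=
  div_pos (Real.rpow_pos_of_pos hτ _) (pow_pos (rho_pos hx hτ) _)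

theorem WJ_add' (h : i + l ≤ 30) (hτ : 0 < τ) (hx : 0 ≤ x) :
    WJ κ (i + l) τ x = (x ^ 2 + τ) ^ (2 * i) * WJ κ l τ x := by
  rw [add_comm i l, WJ_add (by omega) hτ hx]

end basic

/-! ### pointwise bounds -/

theorem PBj.mono (h : PBj L j N u) (hN : N ≤ N') : PBj L j N' u := fun τ hτ x hx =>
  (h τ hτ x hx).trans (mul_le_mul_of_nonneg_right hN (pow_nonneg (rho_pos hx.1 hτ.1).le _))

theorem PBj.congr (h : PBj L j N u) (huv : ∀ τ ∈ Ioo (0 : ℝ) (1 / 2), ∀ x ∈ Icc 0 L, v τ x = u τ x) :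
    PBj L j N v := fun τ hτ x hx => by rw [huv τ hτ x hx]; exact h τ hτ x hx

theorem PBj.zero (hN : 0 ≤ N) : PBj L j N (fun _ _ => 0) := fun τ hτ x hx => by
  have := (rho_pos hx.1 hτ.1).le
  simp only [abs_zero, zero_mul]
  positivity

theorem PBj.add (h : PBj L j N u) (h' : PBj L j N' v) : PBj L j (N + N') (fun τ x => u τ x + v τ x) :=
  fun τ hτ x hx => by
    have h1 := h τ hτ x hx
    have h2 := h' τ hτ x hx
    have h3 : 0 ≤ xh τ x ^ aa j * (x ^ 2 + τ) ^ j :=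
      mul_nonneg (pow_nonneg (xh_nonneg hx.1) _) (pow_nonneg (rho_pos hx.1 hτ.1).le _)
    calc |u τ x + v τ x| * xh τ x ^ aa j * (x ^ 2 + τ) ^ j
        = |u τ x + v τ x| * (xh τ x ^ aa j * (x ^ 2 + τ) ^ j) := by ring
      _ ≤ (|u τ x| + |v τ x|) * (xh τ x ^ aa j * (x ^ 2 + τ) ^ j) :=
          mul_le_mul_of_nonneg_right (abs_add_le _ _) h3
      _ = |u τ x| * xh τ x ^ aa j * (x ^ 2 + τ) ^ j + |v τ x| * xh τ x ^ aa j * (x ^ 2 + τ) ^ j := by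
          ring
      _ ≤ _ := by rw [add_mul]; exact add_le_add h1 h2

theorem PBj.const_mul (c : ℝ) (h : PBj L j N u) : PBj L j (|c| * N) (fun τ x => c * u τ x) :=
  fun τ hτ x hx => by
    have h1 := h τ hτ x hx
    calc |c * u τ x| * xh τ x ^ aa j * (x ^ 2 + τ) ^ j
        = |c| * (|u τ x| * xh τ x ^ aa j * (x ^ 2 + τ) ^ j) := by rw [abs_mul]; ring
      _ ≤ |c| * (N * (x ^ 2 + τ) ^ 25) := mul_le_mul_of_nonneg_left h1 (abs_nonneg c)
      _ = _ := by ring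

theorem PBj.sum {ι : Type*} {s : Finset ι} {f : ι → ℝ → ℝ → ℝ} {M : ι → ℝ}
    (h : ∀ a ∈ s, PBj L j (M a) (f a)) :
    PBj L j (∑ a ∈ s, M a) (fun τ x => ∑ a ∈ s, f a τ x) := by
  classical
  induction s using Finset.induction_on with
  | empty => simpa using PBj.zero le_rfl
  | insert a s ha ih =>
    simp only [Finset.sum_insert ha]
    exact (h a (Finset.mem_insert_self a s)).add
      (ih fun b hb => h b (Finset.mem_insert_of_mem hb))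

/-- comparison: `|u| ≤ c |v|` pointwise -/
theorem PBj.of_abs_le {c : ℝ} (hc : 0 ≤ c)
    (huv : ∀ τ ∈ Ioo (0 : ℝ) (1 / 2), ∀ x ∈ Icc 0 L, |u τ x| ≤ c * |v τ x|)
    (h : PBj L j N v) : PBj L j (c * N) u := fun τ hτ x hx => by
  have h1 := h τ hτ x hx
  have h2 := huv τ hτ x hx
  have h3 : 0 ≤ xh τ x ^ aa j * (x ^ 2 + τ) ^ j :=
    mul_nonneg (pow_nonneg (xh_nonneg hx.1) _) (pow_nonneg (rho_pos hx.1 hτ.1).le _)
  calc |u τ x| * xh τ x ^ aa j * (x ^ 2 + τ) ^ j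
      = |u τ x| * (xh τ x ^ aa j * (x ^ 2 + τ) ^ j) := by ring
    _ ≤ (c * |v τ x|) * (xh τ x ^ aa j * (x ^ 2 + τ) ^ j) := mul_le_mul_of_nonneg_right h2 h3
    _ = c * (|v τ x| * xh τ x ^ aa j * (x ^ 2 + τ) ^ j) := by ring
    _ ≤ c * (N * (x ^ 2 + τ) ^ 25) := mul_le_mul_of_nonneg_left h1 hc
    _ = _ := by ring

/-- product of levels `i` and `l` -/
theorem PBj.mul (hN : 0 ≤ N) (hil : i + l ≤ 6)
    (h : PBj L i N u) (h' : PBj L l N' v) :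
    PBj L (i + l) ((L ^ 2 + 1) ^ 25 * (N * N')) (fun τ x => u τ x * v τ x) := fun τ hτ x hx => by
  have h1 := h τ hτ x hx
  have h2 := h' τ hτ x hx
  have hx0 := xh_nonneg (t := τ) hx.1
  have hx1 := xh_le_one hx.1 hτ.1
  have hr0 := rho_pos hx.1 hτ.1
  have hr1 := rho_le hx hτ
  set z := xh τ x with hz
  set r := x ^ 2 + τ with hr
  have e1 : z ^ aa (i + l) ≤ z ^ aa i * z ^ aa l := by
    rw [← pow_add]
    exact pow_le_pow_of_le_one hx0 hx1 (aa_add' hil)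
  have e3 : r ^ 25 ≤ (L ^ 2 + 1) ^ 25 := pow_le_pow_left₀ hr0.le hr1 _
  have hb0 : 0 ≤ N' * r ^ 25 := le_trans (by positivity) h2
  calc |u τ x * v τ x| * z ^ aa (i + l) * r ^ (i + l)
      ≤ |u τ x * v τ x| * (z ^ aa i * z ^ aa l) * r ^ (i + l) := by gcongr
    _ = (|u τ x| * z ^ aa i * r ^ i) * (|v τ x| * z ^ aa l * r ^ l) := by
        rw [abs_mul, pow_add]; ring
    _ ≤ (N * r ^ 25) * (N' * r ^ 25) :=
        mul_le_mul h1 h2 (by positivity) (by positivity)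
    _ ≤ (N * (L ^ 2 + 1) ^ 25) * (N' * r ^ 25) := by gcongr
    _ = _ := by ring

/-- multiplication by a coefficient `f` with `|f| ρ^i ≤ K` -/
theorem PBj.mult {K : ℝ} (hil : i + l ≤ 6) {f : ℝ → ℝ → ℝ}
    (hf : ∀ τ ∈ Ioo (0 : ℝ) (1 / 2), ∀ x ∈ Icc 0 L, |f τ x| * (x ^ 2 + τ) ^ i ≤ K)
    (h : PBj L l N u) :
    PBj L (i + l) (K * N) (fun τ x => f τ x * u τ x) := fun τ hτ x hx => by
  have h1 := h τ hτ x hx
  have h2 := hf τ hτ x hx
  have hx0 := xh_nonneg (t := τ) hx.1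
  have hx1 := xh_le_one hx.1 hτ.1
  have hr0 := rho_pos hx.1 hτ.1
  have hK : 0 ≤ K := le_trans (by positivity) h2
  set z := xh τ x with hz
  set r := x ^ 2 + τ with hr
  have e1 : z ^ aa (i + l) ≤ z ^ aa l :=
    pow_le_pow_of_le_one hx0 hx1 ((Nat.le_add_left _ _).trans (aa_add' hil))
  calc |f τ x * u τ x| * z ^ aa (i + l) * r ^ (i + l)
      ≤ |f τ x * u τ x| * z ^ aa l * r ^ (i + l) := by gcongr
    _ = (|f τ x| * r ^ i) * (|u τ x| * z ^ aa l * r ^ l) := by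
        rw [abs_mul, pow_add]; ring
    _ ≤ K * (N * r ^ 25) := mul_le_mul h2 h1 (by positivity) hK
    _ = _ := by ring

/-! ### `L²` bounds -/

theorem QBj.mono (h : QBj κ L j N u) (hN0 : 0 ≤ N) (hN : N ≤ N') : QBj κ L j N' u :=
  h.trans (ENNReal.ofReal_le_ofReal (pow_le_pow_left₀ hN0 hN 2))

/-- master comparison: pointwise domination of the integrands -/
theorem QBj.of_le {κ' : ℝ} {c : ℝ}
    (huv : ∀ τ ∈ Ioo (0 : ℝ) (1 / 2), ∀ x ∈ Ioo 0 L,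
      WJ κ j τ x * (u τ x) ^ 2 ≤ c ^ 2 * (WJ κ' l τ x * (v τ x) ^ 2))
    (h : QBj κ' L l N v) : QBj κ L j (c * N) u := by
  unfold QBj N2T at h ⊢
  calc ∫⁻ p in Rg L, ENNReal.ofReal (WJ κ j p.1 p.2 * p.2 ^ 9 * (u p.1 p.2) ^ 2)
      ≤ ∫⁻ p in Rg L, ENNReal.ofReal (c ^ 2) *
          ENNReal.ofReal (WJ κ' l p.1 p.2 * p.2 ^ 9 * (v p.1 p.2) ^ 2) := by
        apply setLIntegral_mono_ae' (measurableSet_Rg L)
        refine Filter.Eventually.of_forall fun p hp => ?_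
        rw [← ENNReal.ofReal_mul (sq_nonneg c)]
        apply ENNReal.ofReal_le_ofReal
        have h9 : (0 : ℝ) ≤ p.2 ^ 9 := pow_nonneg hp.2.1.le 9
        have := mul_le_mul_of_nonneg_left (huv p.1 hp.1 p.2 hp.2) h9
        nlinarith [this]
    _ = ENNReal.ofReal (c ^ 2) *
          ∫⁻ p in Rg L, ENNReal.ofReal (WJ κ' l p.1 p.2 * p.2 ^ 9 * (v p.1 p.2) ^ 2) :=
        lintegral_const_mul' _ _ ENNReal.ofReal_ne_top
    _ ≤ ENNReal.ofReal (c ^ 2) * ENNReal.ofReal (N ^ 2) := mul_le_mul_right h _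
    _ = ENNReal.ofReal ((c * N) ^ 2) := by rw [← ENNReal.ofReal_mul (sq_nonneg c), mul_pow]

theorem QBj.congr (h : QBj κ L j N u)
    (huv : ∀ τ ∈ Ioo (0 : ℝ) (1 / 2), ∀ x ∈ Ioo 0 L, v τ x = u τ x) : QBj κ L j N v := by
  have := QBj.of_le (κ := κ) (j := j) (u := v) (c := 1) (fun τ hτ x hx => by
    rw [huv τ hτ x hx]; simp) h
  simpa using this

theorem QBj.zero : QBj κ L j N (fun _ _ => 0) := by
  unfold QBj N2T
  simp

theorem QBj.const_mul (c : ℝ) (h : QBj κ L j N u) : QBj κ L j (|c| * N) (fun τ x => c * u τ x) :=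
  QBj.of_le (fun τ _ x _ => le_of_eq (by rw [sq_abs]; ring)) h

theorem QBj.of_abs_le {c : ℝ}
    (huv : ∀ τ ∈ Ioo (0 : ℝ) (1 / 2), ∀ x ∈ Ioo 0 L, |u τ x| ≤ c * |v τ x|)
    (h : QBj κ L j N v) : QBj κ L j (c * N) u :=
  QBj.of_le (fun τ hτ x hx => by
    have h1 := huv τ hτ x hx
    have h2 : (u τ x) ^ 2 ≤ c ^ 2 * (v τ x) ^ 2 := by
      rw [← sq_abs (u τ x), ← sq_abs (v τ x), ← mul_pow]
      exact pow_le_pow_left₀ (abs_nonneg _) h1 2
    have h3 := (WJ_pos hτ.1 hx.1.le κ j).le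
    calc WJ κ j τ x * u τ x ^ 2 ≤ WJ κ j τ x * (c ^ 2 * v τ x ^ 2) :=
          mul_le_mul_of_nonneg_left h2 h3
      _ = _ := by ring) h

/-- the square-root form used for Minkowski -/
theorem QBj_iff (hN : 0 ≤ N) : QBj κ L j N u ↔
    (∫⁻ p in Rg L, (ENNReal.ofReal (√(WJ κ j p.1 p.2 * p.2 ^ 9) * |u p.1 p.2|)) ^ (2 : ℝ)) ^
      (1 / (2 : ℝ)) ≤ ENNReal.ofReal N := by
  have e : ∫⁻ p in Rg L, (ENNReal.ofReal (√(WJ κ j p.1 p.2 * p.2 ^ 9) * |u p.1 p.2|)) ^ (2 : ℝ)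
      = ∫⁻ p in Rg L, ENNReal.ofReal (WJ κ j p.1 p.2 * p.2 ^ 9 * (u p.1 p.2) ^ 2) := by
    apply setLIntegral_congr_fun (measurableSet_Rg L)
    intro p hp
    have h9 : (0 : ℝ) ≤ p.2 ^ 9 := pow_nonneg hp.2.1.le 9
    have hW := (WJ_pos hp.1.1 hp.2.1.le κ j).le
    simp only
    rw [ENNReal.rpow_two, ← ENNReal.ofReal_pow (by positivity), mul_pow, Real.sq_sqrt (by positivity),
      sq_abs]
  rw [e]
  have e2 : ENNReal.ofReal (N ^ 2) = (ENNReal.ofReal N) ^ (2 : ℝ) := by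
    rw [ENNReal.rpow_two, ENNReal.ofReal_pow hN]
  have e3 : QBj κ L j N u ↔ (∫⁻ p in Rg L,
      ENNReal.ofReal (WJ κ j p.1 p.2 * p.2 ^ 9 * (u p.1 p.2) ^ 2)) ≤ ENNReal.ofReal (N ^ 2) :=
    Iff.rfl
  rw [e3, e2, one_div, ENNReal.rpow_inv_le_iff (by norm_num)]

theorem QBj.add (hN : 0 ≤ N) (hN' : 0 ≤ N') (hu : Msr L u) (hv : Msr L v)
    (h : QBj κ L j N u) (h' : QBj κ L j N' v) :
    QBj κ L j (N + N') (fun τ x => u τ x + v τ x) := by
  rw [QBj_iff hN] at h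
  rw [QBj_iff hN'] at h'
  rw [QBj_iff (add_nonneg hN hN')]
  have mw : Measurable (fun p : ℝ × ℝ => √(WJ κ j p.1 p.2 * p.2 ^ 9)) :=
    ((measurable_WJ κ j).mul (by fun_prop)).sqrt
  have mu : AEMeasurable (fun p : ℝ × ℝ => ENNReal.ofReal (√(WJ κ j p.1 p.2 * p.2 ^ 9) * |u p.1 p.2|))
      (volume.restrict (Rg L)) :=
    (mw.aemeasurable.mul (AEMeasurable.norm hu)).ennreal_ofReal
  have mv : AEMeasurable (fun p : ℝ × ℝ => ENNReal.ofReal (√(WJ κ j p.1 p.2 * p.2 ^ 9) * |v p.1 p.2|))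
      (volume.restrict (Rg L)) :=
    (mw.aemeasurable.mul (AEMeasurable.norm hv)).ennreal_ofReal
  calc _ ≤ (∫⁻ p in Rg L, (((fun p : ℝ × ℝ =>
          ENNReal.ofReal (√(WJ κ j p.1 p.2 * p.2 ^ 9) * |u p.1 p.2|)) + (fun p : ℝ × ℝ =>
          ENNReal.ofReal (√(WJ κ j p.1 p.2 * p.2 ^ 9) * |v p.1 p.2|))) p) ^ (2 : ℝ)) ^
          (1 / (2 : ℝ)) := by
        gcongr with p
        simp only [Pi.add_apply]
        rw [← ENNReal.ofReal_add (by positivity) (by positivity)]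
        apply ENNReal.ofReal_le_ofReal
        rw [← mul_add]
        exact mul_le_mul_of_nonneg_left (abs_add_le _ _) (Real.sqrt_nonneg _)
    _ ≤ _ := ENNReal.lintegral_Lp_add_le mu mv (by norm_num)
    _ ≤ ENNReal.ofReal N + ENNReal.ofReal N' := add_le_add h h'
    _ = _ := (ENNReal.ofReal_add hN hN').symm

theorem QBj.sum {ι : Type*} {s : Finset ι} {f : ι → ℝ → ℝ → ℝ} {M : ι → ℝ}
    (hM : ∀ a ∈ s, 0 ≤ M a) (hf : ∀ a ∈ s, Msr L (f a)) (h : ∀ a ∈ s, QBj κ L j (M a) (f a)) :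
    QBj κ L j (∑ a ∈ s, M a) (fun τ x => ∑ a ∈ s, f a τ x) := by
  classical
  have key : QBj κ L j (∑ a ∈ s, M a) (fun τ x => ∑ a ∈ s, f a τ x) ∧
      Msr L (fun τ x => ∑ a ∈ s, f a τ x) ∧ 0 ≤ ∑ a ∈ s, M a := by
    induction s using Finset.induction_on with
    | empty =>
      refine ⟨?_, ?_, ?_⟩
      · simpa using QBj.zero (κ := κ) (L := L) (j := j) (N := 0)
      · simp only [Finset.sum_empty, Msr]
        exact aemeasurable_const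
      · simp
    | insert a s ha ih =>
      obtain ⟨h1, h2, h3⟩ := ih (fun b hb => hM b (Finset.mem_insert_of_mem hb))
        (fun b hb => hf b (Finset.mem_insert_of_mem hb))
        (fun b hb => h b (Finset.mem_insert_of_mem hb))
      have ma := Finset.mem_insert_self a s
      simp only [Finset.sum_insert ha]
      exact ⟨(h a ma).add (hM a ma) h3 (hf a ma) h2 h1, (hf a ma).add h2, add_nonneg (hM a ma) h3⟩
  exact key.1

/-- product, the low-order factor bounded pointwise -/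
theorem QBj.mul (hi : i ≤ 4) (hl : l ≤ 26)
    (h : PBj L i N u) (h' : QBj κ L l N' v) :
    QBj κ L (i + l) ((L ^ 2 + 1) ^ 25 * (N * N')) (fun τ x => u τ x * v τ x) := by
  have key := QBj.of_le (κ := κ) (κ' := κ) (j := i + l) (l := l) (u := fun τ x => u τ x * v τ x)
    (c := N * (L ^ 2 + 1) ^ 25) (v := v) (N := N') (L := L) (fun τ hτ x hx => ?_) h'
  · convert key using 1
    ring
  · have h1 := h τ hτ x (Ioo_subset_Icc_self hx)
    have hr0 := rho_pos hx.1.le hτ.1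
    have hr1 := rho_le (Ioo_subset_Icc_self hx) hτ
    rw [aa_zero hi, pow_zero, mul_one] at h1
    rw [WJ_add' (by omega) hτ.1 hx.1.le]
    have hW := (WJ_pos hτ.1 hx.1.le κ l).le
    set r := x ^ 2 + τ with hr
    have e3 : r ^ 25 ≤ (L ^ 2 + 1) ^ 25 := pow_le_pow_left₀ hr0.le hr1 _
    have h2 : (|u τ x| * r ^ i) ^ 2 ≤ (N * (L ^ 2 + 1) ^ 25) ^ 2 := by
      have hN : 0 ≤ N := nonneg_of_mul_nonneg_left (le_trans (by positivity) h1) (by positivity)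
      have : |u τ x| * r ^ i ≤ N * (L ^ 2 + 1) ^ 25 := h1.trans (by gcongr)
      exact pow_le_pow_left₀ (by positivity) this 2
    calc r ^ (2 * i) * WJ κ l τ x * (u τ x * v τ x) ^ 2
        = (WJ κ l τ x * v τ x ^ 2) * (|u τ x| * r ^ i) ^ 2 := by
          rw [mul_pow |u τ x|, sq_abs]; ring
      _ ≤ (WJ κ l τ x * v τ x ^ 2) * (N * (L ^ 2 + 1) ^ 25) ^ 2 :=
          mul_le_mul_of_nonneg_left h2 (by positivity)
      _ = _ := by ring

theorem QBj.mult {K : ℝ} (hil : i + l ≤ 30) {f : ℝ → ℝ → ℝ}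
    (hf : ∀ τ ∈ Ioo (0 : ℝ) (1 / 2), ∀ x ∈ Icc 0 L, |f τ x| * (x ^ 2 + τ) ^ i ≤ K)
    (h : QBj κ L l N u) :
    QBj κ L (i + l) (K * N) (fun τ x => f τ x * u τ x) := by
  refine QBj.of_le (κ := κ) (κ' := κ) (j := i + l) (l := l) (u := fun τ x => f τ x * u τ x)
    (c := K) (v := u) (N := N) (L := L) (fun τ hτ x hx => ?_) h
  have h1 := hf τ hτ x (Ioo_subset_Icc_self hx)
  have hr0 := rho_pos hx.1.le hτ.1
  rw [WJ_add' hil hτ.1 hx.1.le]
  have hW := (WJ_pos hτ.1 hx.1.le κ l).le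
  set r := x ^ 2 + τ with hr
  have h2 : (|f τ x| * r ^ i) ^ 2 ≤ K ^ 2 := pow_le_pow_left₀ (by positivity) h1 2
  calc r ^ (2 * i) * WJ κ l τ x * (f τ x * u τ x) ^ 2
      = (WJ κ l τ x * u τ x ^ 2) * (|f τ x| * r ^ i) ^ 2 := by
        rw [mul_pow |f τ x|, sq_abs]; ring
    _ ≤ (WJ κ l τ x * u τ x ^ 2) * K ^ 2 := mul_le_mul_of_nonneg_left h2 (by positivity)
    _ = _ := by ring

/-! ### The product estimates for `PB`, `QB`, `NB` -/

theorem Msr.dt_iter (hL : 0 < L) (hu : Sm (Ioo 0 (1 / 2)) L u) (j : ℕ) : Msr L (dt^[j] u) :=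
  Msr.of_sm (hu.dt_iter isOpen_Ioo hL j)

theorem sum_choose_le (hj : j ≤ 8) {A : ℝ} (hA : 0 ≤ A) :
    ∑ i ∈ Finset.range (j + 1), (|(j.choose i : ℝ)| * A) ≤ 2 ^ 8 * A := by
  rw [← Finset.sum_mul]
  refine mul_le_mul_of_nonneg_right ?_ hA
  simp only [Nat.abs_cast]
  rw [sum_choose_real]
  exact pow_le_pow_right₀ (by norm_num) hj

/-- one level of a Leibniz sum, pointwise -/
theorem PBj.leib {A : ℝ} (hu : Sm (Ioo 0 (1 / 2)) L u) (hv : Sm (Ioo 0 (1 / 2)) L v)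
    (hj : j ≤ 8) (hA : 0 ≤ A)
    (h : ∀ i ≤ j, PBj L j A (fun τ x => (dt^[i] u) τ x * (dt^[j - i] v) τ x)) :
    PBj L j (2 ^ 8 * A) (dt^[j] (fun τ x => u τ x * v τ x)) := by
  have h1 : PBj L j (∑ i ∈ Finset.range (j + 1), (|(j.choose i : ℝ)| * A))
      (fun τ x => ∑ i ∈ Finset.range (j + 1),
        (j.choose i : ℝ) * ((dt^[i] u) τ x * (dt^[j - i] v) τ x)) :=
    PBj.sum fun i hi => (h i (Nat.lt_succ_iff.1 (Finset.mem_range.1 hi))).const_mul _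
  refine (h1.mono (sum_choose_le hj hA)).congr fun τ hτ x hx => ?_
  rw [dt_iter_mul isOpen_Ioo hu hv hτ hx]
  exact Finset.sum_congr rfl fun i _ => by ring

theorem QBj.leib {A : ℝ} (hL : 0 < L) (hu : Sm (Ioo 0 (1 / 2)) L u)
    (hv : Sm (Ioo 0 (1 / 2)) L v) (hj : j ≤ 8) (hA : 0 ≤ A)
    (h : ∀ i ≤ j, QBj κ L j A (fun τ x => (dt^[i] u) τ x * (dt^[j - i] v) τ x)) :
    QBj κ L j (2 ^ 8 * A) (dt^[j] (fun τ x => u τ x * v τ x)) := by
  have h1 : QBj κ L j (∑ i ∈ Finset.range (j + 1), (|(j.choose i : ℝ)| * A))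
      (fun τ x => ∑ i ∈ Finset.range (j + 1),
        (j.choose i : ℝ) * ((dt^[i] u) τ x * (dt^[j - i] v) τ x)) :=
    QBj.sum (fun i _ => by positivity)
      (fun i _ => ((Msr.dt_iter hL hu i).mul (Msr.dt_iter hL hv (j - i))).const_mul _)
      fun i hi => (h i (Nat.lt_succ_iff.1 (Finset.mem_range.1 hi))).const_mul _
  refine (h1.mono (Finset.sum_nonneg fun i _ => by positivity) (sum_choose_le hj hA)).congr
    fun τ hτ x hx => ?_
  rw [dt_iter_mul isOpen_Ioo hu hv hτ (Ioo_subset_Icc_self hx)]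
  exact Finset.sum_congr rfl fun i _ => by ring

theorem PB.mul (hu : Sm (Ioo 0 (1 / 2)) L u) (hv : Sm (Ioo 0 (1 / 2)) L v)
    (hN : 0 ≤ N) (hN' : 0 ≤ N') (pu : PB L N u) (pv : PB L N' v) :
    PB L (2 ^ 8 * ((L ^ 2 + 1) ^ 25 * (N * N'))) (fun τ x => u τ x * v τ x) := by
  intro j hj
  refine PBj.leib hu hv (by omega) (by positivity) fun i hi => ?_
  have h1 : PBj L i N (dt^[i] u) := pu i (by omega)
  have h2 : PBj L (j - i) N' (dt^[j - i] v) := pv (j - i) (by omega)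
  have := PBj.mul hN (by omega) h1 h2
  rwa [Nat.add_sub_cancel' hi] at this

theorem QB.mul (hL : 0 < L) (hu : Sm (Ioo 0 (1 / 2)) L u) (hv : Sm (Ioo 0 (1 / 2)) L v)
    (hN : 0 ≤ N) (hN' : 0 ≤ N') (pu : PB L N u) (pv : PB L N' v)
    (qu : QB κ L N u) (qv : QB κ L N' v) :
    QB κ L (2 ^ 8 * ((L ^ 2 + 1) ^ 25 * (N * N'))) (fun τ x => u τ x * v τ x) := by
  intro j hj
  refine QBj.leib hL hu hv hj (by positivity) fun i hi => ?_
  rcases le_total i 4 with h4 | h4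
  · have h1 : PBj L i N (dt^[i] u) := pu i (by omega)
    have h2 : QBj κ L (j - i) N' (dt^[j - i] v) := qv (j - i) (by omega)
    have := QBj.mul h4 (by omega) h1 h2
    rwa [Nat.add_sub_cancel' hi] at this
  · have h1 : PBj L (j - i) N' (dt^[j - i] v) := pv (j - i) (by omega)
    have h2 : QBj κ L i N (dt^[i] u) := qu i (by omega)
    have := QBj.mul (by omega) (by omega) h1 h2
    rw [Nat.sub_add_cancel hi, mul_comm N' N] at this
    exact this.congr fun τ _ x _ => mul_comm _ _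

/-- (M1) products -/
theorem NB.mul (hL : 0 < L) (hu : NB κ L N u) (hv : NB κ L N' v) :
    NB κ L (2 ^ 8 * (L ^ 2 + 1) ^ 25 * N * N') (fun τ x => u τ x * v τ x) := by
  have hN := hu.pb.nonneg hL.le
  have hN' := hv.pb.nonneg hL.le
  have e : 2 ^ 8 * (L ^ 2 + 1) ^ 25 * N * N' = 2 ^ 8 * ((L ^ 2 + 1) ^ 25 * (N * N')) := by ring
  rw [e]
  exact ⟨hu.sm.mul hv.sm, PB.mul hu.sm hv.sm hN hN' hu.pb hv.pb,
    QB.mul hL hu.sm hv.sm hN hN' hu.pb hv.pb hu.qb hv.qb⟩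

theorem PB.mult {K : ℝ} {a : ℝ → ℝ → ℝ} (hK0 : 0 ≤ K) (ha : Sm (Ioo 0 (1 / 2)) L a)
    (hu : Sm (Ioo 0 (1 / 2)) L u) (hN : 0 ≤ N)
    (hK : ∀ i ≤ 8, ∀ τ ∈ Ioo (0 : ℝ) (1 / 2), ∀ x ∈ Icc 0 L,
      |(dt^[i] a) τ x| * (x ^ 2 + τ) ^ i ≤ K) (pu : PB L N u) :
    PB L (2 ^ 8 * (K * N)) (fun τ x => a τ x * u τ x) := by
  intro j hj
  refine PBj.leib ha hu (by omega) (by positivity) fun i hi => ?_
  have h2 : PBj L (j - i) N (dt^[j - i] u) := pu (j - i) (by omega)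
  have := PBj.mult (i := i) (by omega) (hK i (by omega)) h2
  rwa [Nat.add_sub_cancel' hi] at this

theorem QB.mult {K : ℝ} {a : ℝ → ℝ → ℝ} (hL : 0 < L) (hK0 : 0 ≤ K)
    (ha : Sm (Ioo 0 (1 / 2)) L a)
    (hu : Sm (Ioo 0 (1 / 2)) L u) (hN : 0 ≤ N)
    (hK : ∀ i ≤ 8, ∀ τ ∈ Ioo (0 : ℝ) (1 / 2), ∀ x ∈ Icc 0 L,
      |(dt^[i] a) τ x| * (x ^ 2 + τ) ^ i ≤ K) (qu : QB κ L N u) :
    QB κ L (2 ^ 8 * (K * N)) (fun τ x => a τ x * u τ x) := by
  intro j hj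
  refine QBj.leib hL ha hu hj (by positivity) fun i hi => ?_
  have h2 : QBj κ L (j - i) N (dt^[j - i] u) := qu (j - i) (by omega)
  have := QBj.mult (i := i) (by omega) (hK i (by omega)) h2
  rwa [Nat.add_sub_cancel' hi] at this

/-- (M2) multiplication by a coefficient with `|∂_τ^i a| ρ^i ≤ K`, `i ≤ 8` -/
theorem NB.mult {K : ℝ} {a : ℝ → ℝ → ℝ} (hL : 0 < L) (ha : Sm (Ioo 0 (1 / 2)) L a)
    (hK : ∀ i ≤ 8, ∀ τ ∈ Ioo (0 : ℝ) (1 / 2), ∀ x ∈ Icc 0 L,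
      |(dt^[i] a) τ x| * (x ^ 2 + τ) ^ i ≤ K) (hu : NB κ L N u) :
    NB κ L (2 ^ 8 * K * N) (fun τ x => a τ x * u τ x) := by
  have hN := hu.pb.nonneg hL.le
  have hK0 : 0 ≤ K := le_trans (by positivity)
    (hK 0 (by norm_num) (1 / 4) (by constructor <;> norm_num) 0 ⟨le_rfl, hL.le⟩)
  rw [mul_assoc]
  exact ⟨ha.mul hu.sm, PB.mult hK0 ha hu.sm hN hK hu.pb, QB.mult hL hK0 ha hu.sm hN hK hu.qb⟩


end Crest.Agent.R213.C
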