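import Crest.Agent.R213.J0
import Crest.Agent.R213.C.CDefs

-- ▼ part R213/C/SupLoc
section

/-!
Row 213, part C (block SUP for C8): local supremum in `τ` of the fixed-time norm from the
space-time norms of `u` and `∂_τ u` (no weights).
-/

set_option autoImplicit false

open Set MeasureTheory Filter Topology

noncomputable section

namespace Crest.Agent.R213.C

/-- One variable: `f(τ)² ≤ 2/(b-a) ∫ f² + 2(b-a) ∫ f'²` for all `τ ∈ [a,b]`. -/
theorem sup_pt0 {f f' : ℝ → ℝ} {a b τ : ℝ} (hab : a < b) (hτ : τ ∈ Icc a b)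
    (hf : ∀ t ∈ Icc a b, HasDerivAt f (f' t) t) (hf' : ContinuousOn f' (Icc a b)) :
    f τ ^ 2 ≤ 2 / (b - a) * (∫ t in a..b, f t ^ 2) + 2 * (b - a) * ∫ t in a..b, f' t ^ 2 := by
  have hba : 0 < b - a := sub_pos.2 hab
  have hfc : ContinuousOn f (Icc a b) := fun t ht => (hf t ht).continuousAt.continuousWithinAt
  have ii : ∀ {g : ℝ → ℝ}, ContinuousOn g (Icc a b) →
      IntervalIntegrable g volume a b := fun {g} hg =>
    ContinuousOn.intervalIntegrable (by rwa [uIcc_of_le hab.le])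
  set J : ℝ := ∫ t in a..b, |f' t| with hJ
  have hJ0 : 0 ≤ J := intervalIntegral.integral_nonneg hab.le fun t _ => abs_nonneg _
  have h1 : ∀ t ∈ Icc a b, f τ ^ 2 ≤ 2 * f t ^ 2 + 2 * J ^ 2 := by
    intro t ht
    have hsub : uIcc τ t ⊆ Icc a b := ordConnected_Icc.uIcc_subset hτ ht
    have e : ∫ s in τ..t, f' s = f t - f τ :=
      intervalIntegral.integral_eq_sub_of_hasDerivAt (fun s hs => hf s (hsub hs))
        (ContinuousOn.intervalIntegrable (hf'.mono hsub))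
    have h2 : |∫ s in τ..t, f' s| ≤ J := by
      rw [← Real.norm_eq_abs]
      refine intervalIntegral.norm_integral_le_integral_norm_uIoc.trans ?_
      rw [hJ, intervalIntegral.integral_of_le hab.le]
      refine setIntegral_mono_set ?_ ?_ ?_
      · exact ((ii hf'.abs).1)
      · exact Eventually.of_forall fun s => abs_nonneg _
      · refine HasSubset.Subset.eventuallyLE fun r hr => ?_
        rw [uIoc, mem_Ioc] at hr
        exact ⟨lt_of_le_of_lt (le_min hτ.1 ht.1) hr.1, hr.2.trans (max_le hτ.2 ht.2)⟩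
    rw [e] at h2
    have h3 : |f τ| ≤ |f t| + J := by
      have := abs_sub_abs_le_abs_sub (f τ) (f t)
      rw [abs_sub_comm] at this
      linarith
    have h4 : |f τ| ^ 2 ≤ (|f t| + J) ^ 2 := pow_le_pow_left₀ (abs_nonneg _) h3 2
    rw [sq_abs] at h4
    nlinarith [sq_nonneg (|f t| - J), sq_abs (f t)]
  have hB : J ^ 2 ≤ (b - a) * ∫ t in a..b, f' t ^ 2 := by
    have h2 : ∫ t in a..b, (2 * (J / (b - a)) * |f' t| - (J / (b - a)) ^ 2) ≤
        ∫ t in a..b, f' t ^ 2 := by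
      refine intervalIntegral.integral_mono_on hab.le
        (ii ((continuousOn_const.mul hf'.abs).sub continuousOn_const))
        (ii (hf'.pow 2)) fun t ht => ?_
      nlinarith [sq_nonneg (|f' t| - J / (b - a)), sq_abs (f' t)]
    have i1 : IntervalIntegrable (fun t => 2 * (J / (b - a)) * |f' t|) volume a b :=
      ii (continuousOn_const.mul hf'.abs)
    have i2 : IntervalIntegrable (fun _ : ℝ => (J / (b - a)) ^ 2) volume a b :=
      ii continuousOn_const
    rw [intervalIntegral.integral_sub i1 i2, intervalIntegral.integral_const_mul,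
      intervalIntegral.integral_const, ← hJ, smul_eq_mul] at h2
    have e : 2 * (J / (b - a)) * J - (b - a) * (J / (b - a)) ^ 2 = J ^ 2 / (b - a) := by
      field_simp; ring
    rw [e, div_le_iff₀ hba] at h2
    linarith
  have h5 : ∫ t in a..b, f τ ^ 2 ≤ ∫ t in a..b, (2 * f t ^ 2 + 2 * J ^ 2) :=
    intervalIntegral.integral_mono_on hab.le (ii continuousOn_const)
      (ii ((continuousOn_const.mul (hfc.pow 2)).add continuousOn_const)) h1
  have i3 : IntervalIntegrable (fun t => 2 * f t ^ 2) volume a b :=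
    ii (continuousOn_const.mul (hfc.pow 2))
  have i4 : IntervalIntegrable (fun _ : ℝ => 2 * J ^ 2) volume a b := ii continuousOn_const
  rw [intervalIntegral.integral_const, intervalIntegral.integral_add i3 i4,
    intervalIntegral.integral_const_mul, intervalIntegral.integral_const, smul_eq_mul,
    smul_eq_mul] at h5
  have h6 : (b - a) * f τ ^ 2 ≤ (b - a) * (2 / (b - a) * (∫ t in a..b, f t ^ 2) +
      2 * (b - a) * ∫ t in a..b, f' t ^ 2) := by
    have e : (b - a) * (2 / (b - a) * (∫ t in a..b, f t ^ 2) +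
      2 * (b - a) * ∫ t in a..b, f' t ^ 2) = 2 * (∫ t in a..b, f t ^ 2) +
        (b - a) * (2 * ((b - a) * ∫ t in a..b, f' t ^ 2)) := by
      field_simp
    rw [e]
    refine h5.trans (add_le_add le_rfl (mul_le_mul_of_nonneg_left ?_ hba.le))
    linarith
  exact le_of_mul_le_mul_left h6 hba

variable {s : Set ℝ} {L : ℝ} {u : ℝ → ℝ → ℝ}

/-- fixed-time squared norm in `L²(x⁹dx)` -/
def nsq (L : ℝ) (u : ℝ → ℝ → ℝ) (τ : ℝ) : ℝ := ∫ x in (0 : ℝ)..L, x ^ 9 * u τ x ^ 2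

theorem nsq_nonneg (hL : 0 ≤ L) (u : ℝ → ℝ → ℝ) (τ : ℝ) : 0 ≤ nsq L u τ :=
  intervalIntegral.integral_nonneg hL fun _ hx => mul_nonneg (pow_nonneg hx.1 9) (sq_nonneg _)


/-- swap of the two integrals for a function continuous on the closed rectangle -/
theorem swap_rect {F : ℝ → ℝ → ℝ} {a b c d : ℝ} (hab : a ≤ b) (hcd : c ≤ d)
    (hF : ContinuousOn (fun p : ℝ × ℝ => F p.1 p.2) (Icc a b ×ˢ Icc c d)) :
    ∫ t in a..b, ∫ x in c..d, F t x = ∫ x in c..d, ∫ t in a..b, F t x := by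
  refine intervalIntegral_intervalIntegral_swap ?_
  rw [uIoc_of_le hab, uIoc_of_le hcd]
  exact (hF.integrableOn_compact (isCompact_Icc.prod isCompact_Icc)).mono_set
    (prod_mono Ioc_subset_Icc_self Ioc_subset_Icc_self)

/-- continuity of `t ↦ ∫ F t x dx` on a closed rectangle -/
theorem continuousOn_intervalIntegral_rect {F : ℝ → ℝ → ℝ} {a b c d : ℝ} (hcd : c ≤ d)
    (hF : ContinuousOn (fun p : ℝ × ℝ => F p.1 p.2) (Icc a b ×ˢ Icc c d)) :
    ContinuousOn (fun t => ∫ x in c..d, F t x) (Icc a b) := by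
  obtain ⟨M, hM⟩ := (isCompact_Icc.prod isCompact_Icc).exists_bound_of_continuousOn hF
  intro t ht
  refine intervalIntegral.continuousWithinAt_of_dominated_interval (bound := fun _ => M) ?_ ?_
    intervalIntegrable_const ?_
  · filter_upwards [self_mem_nhdsWithin] with r hr
    rw [uIoc_of_le hcd]
    refine (ContinuousOn.mono ?_ Ioc_subset_Icc_self).aestronglyMeasurable measurableSet_Ioc
    exact hF.comp (f := fun x : ℝ => (r, x)) (by fun_prop) fun x hx => ⟨hr, hx⟩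
  · filter_upwards [self_mem_nhdsWithin] with r hr
    refine Eventually.of_forall fun x hx => ?_
    rw [uIoc_of_le hcd] at hx
    exact hM (r, x) ⟨hr, Ioc_subset_Icc_self hx⟩
  · refine Eventually.of_forall fun x hx => ?_
    rw [uIoc_of_le hcd] at hx
    exact (hF (t, x) ⟨ht, Ioc_subset_Icc_self hx⟩).comp (f := fun r : ℝ => (r, x))
      (by fun_prop) fun r hr => ⟨hr, Ioc_subset_Icc_self hx⟩

theorem continuousOn_nsq (hs : IsOpen s) (hL : 0 ≤ L) (hu : Sm s L u) :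
    ContinuousOn (nsq L u) s := by
  intro t ht
  have hc : ContinuousOn (fun p : ℝ × ℝ => p.2 ^ 9 * u p.1 p.2 ^ 2) (s ×ˢ Icc 0 L) :=
    (continuous_snd.pow 9).continuousOn.mul (hu.continuousOn.pow 2)
  obtain ⟨ε, hε, hb⟩ := Metric.isOpen_iff.1 hs t ht
  have hsub : Icc (t - ε / 2) (t + ε / 2) ⊆ s := fun r hr => hb (by
    rw [Metric.mem_ball, Real.dist_eq, abs_lt]
    constructor <;> linarith [hr.1, hr.2])
  exact ((continuousOn_intervalIntegral_rect (F := fun t x => x ^ 9 * u t x ^ 2) hL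
    (hc.mono (prod_mono_left hsub))).continuousAt
      (Icc_mem_nhds (by linarith) (by linarith))).continuousWithinAt

/-- **(SUP)**: the fixed-time norm on `[a,b]` from the space-time norms. -/
theorem sup_loc (hs : IsOpen s) (hL : 0 < L) (hu : Sm s L u) {a b τ : ℝ} (hab : a < b)
    (hsub : Icc a b ⊆ s) (hτ : τ ∈ Icc a b) :
    nsq L u τ ≤ 2 / (b - a) * (∫ t in a..b, nsq L u t) +
      2 * (b - a) * ∫ t in a..b, nsq L (dt u) t := by
  have hba : 0 < b - a := sub_pos.2 hab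
  have hut : Sm s L (dt u) := hu.dt hs hL
  have hc0 : ContinuousOn (fun p : ℝ × ℝ => u p.1 p.2) (Icc a b ×ˢ Icc 0 L) :=
    hu.continuousOn.mono (prod_mono_left hsub)
  have hc0' : ContinuousOn (fun p : ℝ × ℝ => dt u p.1 p.2) (Icc a b ×ˢ Icc 0 L) :=
    hut.continuousOn.mono (prod_mono_left hsub)
  have hc1 : ContinuousOn (fun p : ℝ × ℝ => p.2 ^ 9 * u p.1 p.2 ^ 2) (Icc a b ×ˢ Icc 0 L) :=
    (continuous_snd.pow 9).continuousOn.mul (hc0.pow 2)
  have hc2 : ContinuousOn (fun p : ℝ × ℝ => p.2 ^ 9 * dt u p.1 p.2 ^ 2) (Icc a b ×ˢ Icc 0 L) :=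
    (continuous_snd.pow 9).continuousOn.mul (hc0'.pow 2)
  unfold nsq
  rw [swap_rect (F := fun t x => x ^ 9 * u t x ^ 2) hab.le hL.le hc1,
    swap_rect (F := fun t x => x ^ 9 * dt u t x ^ 2) hab.le hL.le hc2,
    ← intervalIntegral.integral_const_mul, ← intervalIntegral.integral_const_mul]
  have sw : ∀ {F : ℝ → ℝ → ℝ}, ContinuousOn (fun p : ℝ × ℝ => F p.1 p.2) (Icc a b ×ˢ Icc 0 L) →
      ContinuousOn (fun x => ∫ t in a..b, F t x) (Icc 0 L) := fun {F} hF =>
    continuousOn_intervalIntegral_rect (F := fun x t => F t x) hab.le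
      (hF.comp (f := fun p : ℝ × ℝ => (p.2, p.1)) (by fun_prop) fun p hp => ⟨hp.2, hp.1⟩)
  have ii : ∀ {g : ℝ → ℝ}, ContinuousOn g (Icc 0 L) →
      IntervalIntegrable g volume 0 L := fun {g} hg =>
    ContinuousOn.intervalIntegrable (by rwa [uIcc_of_le hL.le])
  have i1 : IntervalIntegrable (fun x => 2 / (b - a) * ∫ t in a..b, x ^ 9 * u t x ^ 2)
      volume 0 L := ii (continuousOn_const.mul (sw (F := fun t x => x ^ 9 * u t x ^ 2) hc1))
  have i2 : IntervalIntegrable (fun x => 2 * (b - a) * ∫ t in a..b, x ^ 9 * dt u t x ^ 2)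
      volume 0 L := ii (continuousOn_const.mul (sw (F := fun t x => x ^ 9 * dt u t x ^ 2) hc2))
  rw [← intervalIntegral.integral_add i1 i2]
  have hτs : τ ∈ s := hsub hτ
  refine intervalIntegral.integral_mono_on hL.le
    (ii ((continuousOn_pow 9).mul ((hu.continuousOn_right hτs).pow 2))) (i1.add i2) fun x hx => ?_
  have h1 := sup_pt0 (f := fun t => u t x) (f' := fun t => dt u t x) hab hτ
    (fun t ht => hu.hasDt hs (hsub ht) hx)
    (hc0'.comp (f := fun t : ℝ => (t, x)) (by fun_prop) fun t ht => ⟨ht, hx⟩)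
  have h2 := mul_le_mul_of_nonneg_left h1 (pow_nonneg hx.1 9)
  refine h2.trans (le_of_eq ?_)
  rw [intervalIntegral.integral_const_mul, intervalIntegral.integral_const_mul]
  ring

end Crest.Agent.R213.C
end
end

-- ▼ part R213/C/C8Defs

/-!
# Row 213, part C8: definitions (frozen by helper189)

All predicates are uniform in the index `i` of the iteration, on compact time intervals of
`(0,1/2)`, and all constants may depend on the interval, on `L`, `φ` and on the level.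
-/

set_option autoImplicit false

open Set MeasureTheory Filter Topology

noncomputable section

namespace Crest.Agent.R213.C8

open Crest.Agent.R213 Crest.Agent.R213.C

/-- `|u_i| x^e ≤ C` uniformly in `i`, on compact time intervals. -/
def UB (L : ℝ) (e : ℕ) (u : ℕ → ℝ → ℝ → ℝ) : Prop :=
  ∀ a b : ℝ, 0 < a → a < b → b < 1 / 2 →
    ∃ C : ℝ, ∀ i, ∀ τ ∈ Icc a b, ∀ x ∈ Ioo 0 L, |u i τ x| * x ^ e ≤ C

/-- `∫_a^b ∫_0^L x⁹ u_i² ≤ C` uniformly in `i`. -/
def UL2 (L : ℝ) (u : ℕ → ℝ → ℝ → ℝ) : Prop :=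
  ∀ a b : ℝ, 0 < a → a < b → b < 1 / 2 →
    ∃ C : ℝ, ∀ i, ∫ t in a..b, nsq L (u i) t ≤ C

/-- `sup_τ ∫_0^L x⁹ u_i² ≤ C` uniformly in `i`. -/
def USup (L : ℝ) (u : ℕ → ℝ → ℝ → ℝ) : Prop :=
  ∀ a b : ℝ, 0 < a → a < b → b < 1 / 2 →
    ∃ C : ℝ, ∀ i, ∀ τ ∈ Icc a b, nsq L (u i) τ ≤ C

/-- `h = φ ht`, `ht = hNL`. -/
def hh (L : ℝ) (φ : ℝ → ℝ → ℝ) (η : ℝ → ℝ) (δ : ℝ → ℝ → ℝ) : ℝ → ℝ → ℝ :=
  fun τ x => φ τ x * hNL L φ η δ τ x

/-- levels of `b = φ δ_xx` along the iteration -/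
def bj (L : ℝ) (φ : ℝ → ℝ → ℝ) (d : ℕ → ℝ → ℝ → ℝ) (j : ℕ) : ℕ → ℝ → ℝ → ℝ :=
  fun i => dt^[j] (bb L φ (d i))

/-- levels of `h = η b²/(1+b)` along the iteration -/
def hj (L : ℝ) (φ : ℝ → ℝ → ℝ) (η : ℝ → ℝ) (d : ℕ → ℝ → ℝ → ℝ) (j : ℕ) : ℕ → ℝ → ℝ → ℝ :=
  fun i => dt^[j] (hh L φ η (d i))

/-- levels of `δ` along the iteration -/
def dj (d : ℕ → ℝ → ℝ → ℝ) (j : ℕ) : ℕ → ℝ → ℝ → ℝ := fun i => dt^[j] (d i)

/-- Induction hypothesis at stage `J ≥ 9`. -/
structure Hyp (L : ℝ) (φ : ℝ → ℝ → ℝ) (d : ℕ → ℝ → ℝ → ℝ) (J : ℕ) : Prop where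
  l2 : ∀ l, l < J → UL2 L (bj L φ d l)
  ub0 : ∀ l, l + 5 ≤ J → UB L 0 (bj L φ d l)
  ub2 : ∀ l, l + 4 = J → UB L 2 (bj L φ d l)
  ub4 : ∀ l, l + 3 = J → UB L 4 (bj L φ d l)

end Crest.Agent.R213.C8
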