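import Crest.Agent.R213.C.Leib
import Crest.Agent.R213.C.C8Defs

-- ▼ part R213/C/AllJAlg
section

/-!
# Row 213, part C8: the nonlinearity `h (1+b) = η b²` at level `J`

`h_J (1+b) = (2 η b - h) b_J + lower_J`, where `lower_J` only contains products of levels `< J`
with sum of levels `≤ J`.
-/

set_option autoImplicit false

open Set Finset

noncomputable section

namespace Crest.Agent.R213.C8

open Crest.Agent.R213.Leib

variable {s : Set ℝ} {L t x : ℝ} {u v : ℝ → ℝ → ℝ}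

/-- The nonlinearity relation `h (1+b) = η b²` on `s × [0,L]`. -/
structure NL (s : Set ℝ) (L : ℝ) (η : ℝ → ℝ) (b h : ℝ → ℝ → ℝ) : Prop where
  smη : ContDiff ℝ (⊤ : ℕ∞) η
  η0 : ∀ τ, 0 ≤ η τ
  η1 : ∀ τ, η τ ≤ 1
  smb : Sm s L b
  smh : Sm s L h
  eq : ∀ τ ∈ s, ∀ x ∈ Icc 0 L, h τ x * (1 + b τ x) = η τ * b τ x ^ 2

theorem dt_iter_left (f : ℝ → ℝ) (j : ℕ) :
    (dt^[j]) (fun t _ => f t) t x = iteratedDeriv j f t := by
  rw [dt_iter_eq]

theorem sm_left {f : ℝ → ℝ} (hf : ContDiff ℝ (⊤ : ℕ∞) f) : Sm s L (fun t _ => f t) :=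
  Sm.of_left hf.contDiffOn

theorem dt_iter_one_add (hu : Sm s L u) (hs : IsOpen s) (ht : t ∈ s) (hx : x ∈ Icc 0 L) (j : ℕ) :
    (dt^[j + 1]) (fun t x => 1 + u t x) t x = (dt^[j + 1]) u t x := by
  rw [dt_iter_add (Sm.const 1) hu hs ht hx]
  rw [dt_iter_left (fun _ => (1 : ℝ))]
  simp [iteratedDeriv_const]

/-- the square -/
theorem dt_iter_sq (hu : Sm s L u) (hs : IsOpen s) (ht : t ∈ s) (hx : x ∈ Icc 0 L) (j : ℕ) :
    (dt^[j]) (fun t x => u t x ^ 2) t x =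
      ∑ i ∈ range (j + 1), (j.choose i : ℝ) * (dt^[i]) u t x * (dt^[j - i]) u t x := by
  rw [← dt_iter_mul hu hu hs ht hx j]
  exact dt_iter_congr hs (fun r _ => by ring) ht j

theorem sum_choose_succ_le (J : ℕ) : ∑ l ∈ range J, ((J + 1).choose (l + 1) : ℝ) ≤ 2 ^ (J + 1) := by
  have h := sum_choose_real (J + 1)
  rw [Finset.sum_range_succ, Finset.sum_range_succ'] at h
  have h1 : (0 : ℝ) ≤ ((J + 1).choose 0 : ℝ) := Nat.cast_nonneg _
  have h2 : (0 : ℝ) ≤ ((J + 1).choose (J + 1) : ℝ) := Nat.cast_nonneg _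
  linarith

theorem sum_choose_succ_le' (J : ℕ) :
    ∑ l ∈ range (J + 1), ((J + 1).choose (l + 1) : ℝ) ≤ 2 ^ (J + 1) := by
  have h := sum_choose_real (J + 1)
  rw [Finset.sum_range_succ'] at h
  have h1 : (0 : ℝ) ≤ ((J + 1).choose 0 : ℝ) := Nat.cast_nonneg _
  linarith

/-- The nonlinearity at level `J+1`: pointwise bound, with an arbitrary bound `T` for the products
of lower levels. -/
theorem alg {η : ℝ → ℝ} {b h : ℝ → ℝ → ℝ} (hN : NL s L η b h) (hs : IsOpen s) (ht : t ∈ s)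
    (hx : x ∈ Icc 0 L) (J : ℕ) {K T : ℝ} (hK : 0 ≤ K)
    (hη : ∀ l ≤ J + 1, |iteratedDeriv l η t| ≤ K) (hb : |b t x| ≤ 1 / 20)
    (hT1 : ∀ p q, p ≤ J → q ≤ J → p + q ≤ J + 1 → |(dt^[p]) b t x| * |(dt^[q]) b t x| ≤ T)
    (hT2 : ∀ p q, p ≤ J → q ≤ J → p + q ≤ J + 1 → |(dt^[p]) h t x| * |(dt^[q]) b t x| ≤ T) :
    |(dt^[J + 1]) h t x| ≤ 1 / 8 * |(dt^[J + 1]) b t x| + 8 * (1 + K) * 4 ^ (J + 1) * T := by
  set B : ℕ → ℝ := fun j => (dt^[j]) b t x with hB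
  set H : ℕ → ℝ := fun j => (dt^[j]) h t x with hH
  set G : ℕ → ℝ := fun l => iteratedDeriv l η t with hG
  have hT : 0 ≤ T := le_trans (by positivity) (hT1 0 0 (Nat.zero_le _) (Nat.zero_le _) (by omega))
  have hB0 : B 0 = b t x := rfl
  have hH0 : H 0 = h t x := rfl
  have hG0 : G 0 = η t := by simp [hG]
  -- the two expansions
  have e1 : (dt^[J + 1]) (fun t x => h t x * (1 + b t x)) t x =
      (∑ l ∈ range J, ((J + 1).choose (l + 1) : ℝ) * H (l + 1) * B (J - l)) + H 0 * B (J + 1)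
        + H (J + 1) * (1 + B 0) := by
    rw [dt_iter_mul hN.smh ((Sm.const 1).add hN.smb) hs ht hx (J + 1)]
    rw [Finset.sum_range_succ, Finset.sum_range_succ']
    congr 1
    · congr 1
      · refine Finset.sum_congr rfl fun l hl => ?_
        have hlJ : l < J := Finset.mem_range.mp hl
        have : J + 1 - (l + 1) = (J - l - 1) + 1 := by omega
        rw [this, dt_iter_one_add hN.smb hs ht hx]
        have : J - l - 1 + 1 = J - l := by omega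
        rw [this]
      · rw [Nat.sub_zero, dt_iter_one_add hN.smb hs ht hx]
        simp [hB, hH]
    · simp [hB, hH]
  have e3 : ∀ k, (dt^[k]) (fun t x => b t x ^ 2) t x =
      ∑ i ∈ range (k + 1), (k.choose i : ℝ) * B i * B (k - i) := fun k =>
    dt_iter_sq hN.smb hs ht hx k
  have e2 : (dt^[J + 1]) (fun t x => η t * b t x ^ 2) t x =
      (∑ l ∈ range (J + 1), ((J + 1).choose (l + 1) : ℝ) * G (l + 1) *
        (dt^[J - l]) (fun t x => b t x ^ 2) t x) +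
      G 0 * ((∑ l ∈ range J, ((J + 1).choose (l + 1) : ℝ) * B (l + 1) * B (J - l))
        + B 0 * B (J + 1) + B (J + 1) * B 0) := by
    rw [dt_iter_mul (u := fun t _ => η t) (sm_left hN.smη) (hN.smb.pow 2) hs ht hx (J + 1)]
    rw [Finset.sum_range_succ']
    congr 1
    · refine Finset.sum_congr rfl fun l hl => ?_
      rw [dt_iter_left]
      have : J + 1 - (l + 1) = J - l := by omega
      rw [this]
    · rw [dt_iter_left, Nat.sub_zero, e3, Finset.sum_range_succ, Finset.sum_range_succ']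
      simp only [Nat.choose_zero_right, Nat.cast_one, one_mul, Nat.sub_zero, Nat.choose_self,
        Nat.sub_self, hG]
      congr 1
      congr 1
      congr 1
      refine Finset.sum_congr rfl fun l hl => ?_
      have : J + 1 - (l + 1) = J - l := by omega
      rw [this]
  have e4 : (dt^[J + 1]) (fun t x => h t x * (1 + b t x)) t x =
      (dt^[J + 1]) (fun t x => η t * b t x ^ 2) t x :=
    dt_iter_congr hs (fun r hr => hN.eq r hr x hx) ht (J + 1)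
  -- bounds of the three lower order sums
  have c1 : |∑ l ∈ range J, ((J + 1).choose (l + 1) : ℝ) * H (l + 1) * B (J - l)|
      ≤ 2 ^ (J + 1) * T := by
    calc |∑ l ∈ range J, ((J + 1).choose (l + 1) : ℝ) * H (l + 1) * B (J - l)|
        ≤ ∑ l ∈ range J, |((J + 1).choose (l + 1) : ℝ) * H (l + 1) * B (J - l)| :=
          Finset.abs_sum_le_sum_abs _ _
      _ ≤ ∑ l ∈ range J, ((J + 1).choose (l + 1) : ℝ) * T := by
          refine Finset.sum_le_sum fun l hl => ?_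
          have hlJ : l < J := Finset.mem_range.mp hl
          rw [abs_mul, abs_mul, Nat.abs_cast, mul_assoc]
          exact mul_le_mul_of_nonneg_left (hT2 _ _ (by omega) (by omega) (by omega))
            (Nat.cast_nonneg _)
      _ = (∑ l ∈ range J, ((J + 1).choose (l + 1) : ℝ)) * T := by rw [Finset.sum_mul]
      _ ≤ 2 ^ (J + 1) * T := mul_le_mul_of_nonneg_right (sum_choose_succ_le J) hT
  have c2 : |∑ l ∈ range J, ((J + 1).choose (l + 1) : ℝ) * B (l + 1) * B (J - l)|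
      ≤ 2 ^ (J + 1) * T := by
    calc |∑ l ∈ range J, ((J + 1).choose (l + 1) : ℝ) * B (l + 1) * B (J - l)|
        ≤ ∑ l ∈ range J, |((J + 1).choose (l + 1) : ℝ) * B (l + 1) * B (J - l)| :=
          Finset.abs_sum_le_sum_abs _ _
      _ ≤ ∑ l ∈ range J, ((J + 1).choose (l + 1) : ℝ) * T := by
          refine Finset.sum_le_sum fun l hl => ?_
          have hlJ : l < J := Finset.mem_range.mp hl
          rw [abs_mul, abs_mul, Nat.abs_cast, mul_assoc]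
          exact mul_le_mul_of_nonneg_left (hT1 _ _ (by omega) (by omega) (by omega))
            (Nat.cast_nonneg _)
      _ = (∑ l ∈ range J, ((J + 1).choose (l + 1) : ℝ)) * T := by rw [Finset.sum_mul]
      _ ≤ 2 ^ (J + 1) * T := mul_le_mul_of_nonneg_right (sum_choose_succ_le J) hT
  have c3 : ∀ k ≤ J, |(dt^[k]) (fun t x => b t x ^ 2) t x| ≤ 2 ^ k * T := by
    intro k hk
    rw [e3]
    calc |∑ i ∈ range (k + 1), (k.choose i : ℝ) * B i * B (k - i)|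
        ≤ ∑ i ∈ range (k + 1), |(k.choose i : ℝ) * B i * B (k - i)| :=
          Finset.abs_sum_le_sum_abs _ _
      _ ≤ ∑ i ∈ range (k + 1), (k.choose i : ℝ) * T := by
          refine Finset.sum_le_sum fun l hl => ?_
          have hlJ : l < k + 1 := Finset.mem_range.mp hl
          rw [abs_mul, abs_mul, Nat.abs_cast, mul_assoc]
          exact mul_le_mul_of_nonneg_left (hT1 _ _ (by omega) (by omega) (by omega))
            (Nat.cast_nonneg _)
      _ = 2 ^ k * T := by rw [← Finset.sum_mul, sum_choose_real]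
  have c4 : |∑ l ∈ range (J + 1), ((J + 1).choose (l + 1) : ℝ) * G (l + 1) *
        (dt^[J - l]) (fun t x => b t x ^ 2) t x| ≤ 2 ^ (J + 1) * (K * (2 ^ J * T)) := by
    calc |∑ l ∈ range (J + 1), ((J + 1).choose (l + 1) : ℝ) * G (l + 1) *
        (dt^[J - l]) (fun t x => b t x ^ 2) t x|
        ≤ ∑ l ∈ range (J + 1), |((J + 1).choose (l + 1) : ℝ) * G (l + 1) *
        (dt^[J - l]) (fun t x => b t x ^ 2) t x| := Finset.abs_sum_le_sum_abs _ _
      _ ≤ ∑ l ∈ range (J + 1), ((J + 1).choose (l + 1) : ℝ) * (K * (2 ^ J * T)) := by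
          refine Finset.sum_le_sum fun l hl => ?_
          have hlJ : l < J + 1 := Finset.mem_range.mp hl
          rw [abs_mul, abs_mul, Nat.abs_cast, mul_assoc]
          refine mul_le_mul_of_nonneg_left ?_ (Nat.cast_nonneg _)
          refine mul_le_mul (hη _ (by omega)) ?_ (abs_nonneg _) hK
          refine (c3 (J - l) (by omega)).trans ?_
          refine mul_le_mul_of_nonneg_right ?_ hT
          exact pow_le_pow_right₀ (by norm_num) (by omega)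
      _ = (∑ l ∈ range (J + 1), ((J + 1).choose (l + 1) : ℝ)) * (K * (2 ^ J * T)) := by
          rw [Finset.sum_mul]
      _ ≤ 2 ^ (J + 1) * (K * (2 ^ J * T)) :=
          mul_le_mul_of_nonneg_right (sum_choose_succ_le' J) (by positivity)
  -- conclusion
  set S1 := ∑ l ∈ range J, ((J + 1).choose (l + 1) : ℝ) * H (l + 1) * B (J - l)
  set S2 := ∑ l ∈ range J, ((J + 1).choose (l + 1) : ℝ) * B (l + 1) * B (J - l)
  set S3 := ∑ l ∈ range (J + 1), ((J + 1).choose (l + 1) : ℝ) * G (l + 1) *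
        (dt^[J - l]) (fun t x => b t x ^ 2) t x
  have key : H (J + 1) * (1 + B 0) = (2 * G 0 * B 0 - H 0) * B (J + 1) + (S3 + G 0 * S2 - S1) := by
    have := e1.symm.trans (e4.trans e2)
    linear_combination this
  have hG01 : 0 ≤ G 0 ∧ G 0 ≤ 1 := by rw [hG0]; exact ⟨hN.η0 t, hN.η1 t⟩
  have hb' : |B 0| ≤ 1 / 20 := hb
  have hbl : -(1 / 20) ≤ B 0 ∧ B 0 ≤ 1 / 20 := abs_le.mp hb'
  have h1b : 19 / 20 ≤ 1 + B 0 := by linarith [hbl.1]
  have hH0' : H 0 * (1 + B 0) = G 0 * B 0 ^ 2 := by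
    have := hN.eq t ht x hx
    rw [hG0]; exact this
  have hH0b : |H 0| ≤ 1 / 380 := by
    have h5 : |H 0| * (1 + B 0) ≤ 1 / 400 := by
      have : |H 0| * (1 + B 0) = |H 0 * (1 + B 0)| := by
        rw [abs_mul, abs_of_nonneg (by linarith : (0 : ℝ) ≤ 1 + B 0)]
      rw [this, hH0', abs_of_nonneg (mul_nonneg hG01.1 (sq_nonneg _))]
      have h6 : B 0 ^ 2 ≤ 1 / 400 := by
        have := sq_abs (B 0)
        nlinarith [abs_nonneg (B 0)]
      calc G 0 * B 0 ^ 2 ≤ 1 * B 0 ^ 2 := mul_le_mul_of_nonneg_right hG01.2 (sq_nonneg _)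
        _ ≤ 1 / 400 := by linarith
    nlinarith [abs_nonneg (H 0)]
  have hcoef : |2 * G 0 * B 0 - H 0| ≤ 39 / 380 := by
    calc |2 * G 0 * B 0 - H 0| ≤ |2 * G 0 * B 0| + |H 0| := abs_sub _ _
      _ ≤ 1 / 10 + 1 / 380 := by
          refine add_le_add ?_ hH0b
          rw [abs_mul, abs_mul, abs_of_nonneg hG01.1, abs_two]
          nlinarith [abs_nonneg (B 0)]
      _ = 39 / 380 := by norm_num
  have hlow : |S3 + G 0 * S2 - S1| ≤ (2 ^ (J + 1) * (K * (2 ^ J * T)) + 2 * (2 ^ (J + 1) * T)) := by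
    calc |S3 + G 0 * S2 - S1| ≤ |S3 + G 0 * S2| + |S1| := abs_sub _ _
      _ ≤ |S3| + |G 0 * S2| + |S1| := by gcongr; exact abs_add_le _ _
      _ ≤ 2 ^ (J + 1) * (K * (2 ^ J * T)) + 1 * (2 ^ (J + 1) * T) + 2 ^ (J + 1) * T := by
          refine add_le_add (add_le_add c4 ?_) c1
          rw [abs_mul, abs_of_nonneg hG01.1]
          exact mul_le_mul hG01.2 c2 (abs_nonneg _) zero_le_one
      _ = _ := by ring
  have hmain : |H (J + 1)| * (19 / 20) ≤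
      39 / 380 * |B (J + 1)| + (2 ^ (J + 1) * (K * (2 ^ J * T)) + 2 * (2 ^ (J + 1) * T)) := by
    calc |H (J + 1)| * (19 / 20) ≤ |H (J + 1)| * (1 + B 0) :=
          mul_le_mul_of_nonneg_left h1b (abs_nonneg _)
      _ = |H (J + 1) * (1 + B 0)| := by
          rw [abs_mul, abs_of_nonneg (by linarith : (0 : ℝ) ≤ 1 + B 0)]
      _ = |(2 * G 0 * B 0 - H 0) * B (J + 1) + (S3 + G 0 * S2 - S1)| := by rw [key]
      _ ≤ |(2 * G 0 * B 0 - H 0) * B (J + 1)| + |S3 + G 0 * S2 - S1| := abs_add_le _ _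
      _ ≤ _ := by
          refine add_le_add ?_ hlow
          rw [abs_mul]
          exact mul_le_mul_of_nonneg_right hcoef (abs_nonneg _)
  have hp : (2 : ℝ) ^ (J + 1) * (K * (2 ^ J * T)) + 2 * (2 ^ (J + 1) * T) ≤
      2 * ((1 + K) * 4 ^ (J + 1) * T) := by
    have h4 : (4 : ℝ) ^ (J + 1) = 2 ^ (J + 1) * 2 ^ (J + 1) := by
      rw [← mul_pow]; norm_num
    have h2J : (2 : ℝ) ^ (J + 1) = 2 * 2 ^ J := by rw [pow_succ]; ring
    have h21 : (1 : ℝ) ≤ 2 ^ J := one_le_pow₀ (by norm_num)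
    rw [h4, h2J]
    have hKT : 0 ≤ K * T := mul_nonneg hK hT
    have h1 : (2 : ℝ) ^ J * 2 ^ J ≥ 2 ^ J := by nlinarith
    have hR : (2 : ℝ) ^ J * (2 : ℝ) ^ J - 2 ^ J ≥ 0 := by linarith
    have hA1 : 0 ≤ K * T * ((2 : ℝ) ^ J * 2 ^ J) := by positivity
    have hA2 : 0 ≤ T * ((2 : ℝ) ^ J * 2 ^ J - 2 ^ J) := mul_nonneg hT hR
    have hA3 : 0 ≤ T * ((2 : ℝ) ^ J * 2 ^ J) := by positivity
    clear_value S1 S2 S3
    generalize (2 : ℝ) ^ J = y at *
    linarith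
  have hpos : 0 ≤ (1 + K) * 4 ^ (J + 1) * T := by positivity
  have hBn := abs_nonneg (B (J + 1))
  show |H (J + 1)| ≤ 1 / 8 * |B (J + 1)| + 8 * (1 + K) * 4 ^ (J + 1) * T
  have h8 : 8 * (1 + K) * 4 ^ (J + 1) * T = 8 * ((1 + K) * 4 ^ (J + 1) * T) := by ring
  rw [h8]
  generalize (1 + K) * 4 ^ (J + 1) * T = Q at hp hpos ⊢
  generalize |H (J + 1)| = A at hmain ⊢
  generalize |B (J + 1)| = B' at hmain hBn ⊢
  generalize (2 : ℝ) ^ (J + 1) * (K * (2 ^ J * T)) + 2 * (2 ^ (J + 1) * T) = X at hmain hp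
  linarith

end Crest.Agent.R213.C8
end
end

-- ▼ part R213/C/AllJCl
section

/-!
# Row 213, part C8: closure lemmas for `UB`, `UL2`, `USup`
-/

set_option autoImplicit false

open Set MeasureTheory Filter Topology

noncomputable section

namespace Crest.Agent.R213.C8

open Crest.Agent.R213 Crest.Agent.R213.C

variable {L : ℝ} {u v : ℕ → ℝ → ℝ → ℝ}

theorem UB.exists_nonneg {e : ℕ} (h : UB L e u) {a b : ℝ} (ha : 0 < a) (hab : a < b)
    (hb : b < 1 / 2) :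
    ∃ C : ℝ, 0 ≤ C ∧ ∀ i, ∀ τ ∈ Icc a b, ∀ x ∈ Ioo 0 L, |u i τ x| * x ^ e ≤ C := by
  obtain ⟨C, hC⟩ := h a b ha hab hb
  exact ⟨max C 0, le_max_right _ _, fun i τ hτ x hx => (hC i τ hτ x hx).trans (le_max_left _ _)⟩

theorem UB.mono_exp {e e' : ℕ} (he : e ≤ e') (h : UB L e u) : UB L e' u := by
  intro a b ha hab hb
  obtain ⟨C, hC0, hC⟩ := h.exists_nonneg ha hab hb
  refine ⟨C * (max L 0) ^ (e' - e), fun i τ hτ x hx => ?_⟩
  have h1 : x ^ e' = x ^ e * x ^ (e' - e) := by rw [← pow_add, Nat.add_sub_cancel' he]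
  have hx0 : 0 ≤ x := hx.1.le
  rw [h1, ← mul_assoc]
  exact mul_le_mul (hC i τ hτ x hx) (pow_le_pow_left₀ hx0 (hx.2.le.trans (le_max_left _ _)) _)
    (by positivity) hC0

/-- a common constant for finitely many levels -/
theorem UB.common {n : ℕ} {e : ℕ → ℕ} {v : ℕ → ℕ → ℝ → ℝ → ℝ}
    (h : ∀ l < n, UB L (e l) (v l)) {a b : ℝ} (ha : 0 < a) (hab : a < b) (hb : b < 1 / 2) :
    ∃ C : ℝ, 0 ≤ C ∧ ∀ l < n, ∀ i, ∀ τ ∈ Icc a b, ∀ x ∈ Ioo 0 L, |v l i τ x| * x ^ e l ≤ C := by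
  induction n with
  | zero => exact ⟨0, le_rfl, fun l hl => absurd hl (Nat.not_lt_zero l)⟩
  | succ n ih =>
    obtain ⟨C, hC0, hC⟩ := ih fun l hl => h l (Nat.lt_succ_of_lt hl)
    obtain ⟨C', hC0', hC'⟩ := (h n (Nat.lt_succ_self n)).exists_nonneg ha hab hb
    refine ⟨max C C', le_max_of_le_left hC0, fun l hl i τ hτ x hx => ?_⟩
    rcases Nat.lt_succ_iff_lt_or_eq.mp hl with hl | rfl
    · exact (hC l hl i τ hτ x hx).trans (le_max_left _ _)
    · exact (hC' i τ hτ x hx).trans (le_max_right _ _)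

theorem UL2.exists_nonneg (h : UL2 L u) {a b : ℝ} (ha : 0 < a) (hab : a < b)
    (hb : b < 1 / 2) : ∃ C : ℝ, 0 ≤ C ∧ ∀ i, ∫ t in a..b, nsq L (u i) t ≤ C := by
  obtain ⟨C, hC⟩ := h a b ha hab hb
  exact ⟨max C 0, le_max_right _ _, fun i => (hC i).trans (le_max_left _ _)⟩

theorem UL2.common {n : ℕ} {v : ℕ → ℕ → ℝ → ℝ → ℝ}
    (h : ∀ l < n, UL2 L (v l)) {a b : ℝ} (ha : 0 < a) (hab : a < b) (hb : b < 1 / 2) :
    ∃ C : ℝ, 0 ≤ C ∧ ∀ l < n, ∀ i, ∫ t in a..b, nsq L (v l i) t ≤ C := by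
  induction n with
  | zero => exact ⟨0, le_rfl, fun l hl => absurd hl (Nat.not_lt_zero l)⟩
  | succ n ih =>
    obtain ⟨C, hC0, hC⟩ := ih fun l hl => h l (Nat.lt_succ_of_lt hl)
    obtain ⟨C', hC0', hC'⟩ := (h n (Nat.lt_succ_self n)).exists_nonneg ha hab hb
    refine ⟨max C C', le_max_of_le_left hC0, fun l hl i => ?_⟩
    rcases Nat.lt_succ_iff_lt_or_eq.mp hl with hl | rfl
    · exact (hC l hl i).trans (le_max_left _ _)
    · exact (hC' i).trans (le_max_right _ _)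

/-- fixed time comparison of the norms, with a finite sum on the right -/
theorem nsq_le_sum (hL : 0 < L) {ι : Type*} (I : Finset ι) {s : Set ℝ} {f : ℝ → ℝ → ℝ}
    {w : ι → ℝ → ℝ → ℝ} {τ : ℝ} (hτ : τ ∈ s) (hf : Sm s L f) (hw : ∀ k ∈ I, Sm s L (w k)) {A : ℝ}
    (h : ∀ x ∈ Ioo 0 L, |f τ x| ≤ A * ∑ k ∈ I, |w k τ x|) :
    nsq L f τ ≤ A ^ 2 * I.card * ∑ k ∈ I, nsq L (w k) τ := by
  have hfc := hf.continuousOn_right hτ
  have hwc : ∀ k ∈ I, ContinuousOn (w k τ) (Icc 0 L) := fun k hk => (hw k hk).continuousOn_right hτ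
  have hint : ∀ k ∈ I, IntervalIntegrable (fun x => x ^ 9 * w k τ x ^ 2) volume 0 L := by
    intro k hk
    have := hwc k hk
    exact ContinuousOn.intervalIntegrable (by rw [uIcc_of_le hL.le]; fun_prop)
  have e1 : A ^ 2 * I.card * ∑ k ∈ I, nsq L (w k) τ =
      ∫ x in (0 : ℝ)..L, A ^ 2 * I.card * ∑ k ∈ I, x ^ 9 * w k τ x ^ 2 := by
    rw [intervalIntegral.integral_const_mul, intervalIntegral.integral_finset_sum hint]
    rfl
  rw [e1]
  unfold nsq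
  refine intervalIntegral.integral_mono_on_of_le_Ioo hL.le
    (ContinuousOn.intervalIntegrable (by rw [uIcc_of_le hL.le]; fun_prop)) ?_ fun x hx => ?_
  · refine ContinuousOn.intervalIntegrable ?_
    rw [uIcc_of_le hL.le]
    refine continuousOn_const.mul (continuousOn_finset_sum _ fun k hk => ?_)
    have := hwc k hk
    fun_prop
  · have h9 : 0 ≤ x ^ 9 := pow_nonneg hx.1.le 9
    have h1 : f τ x ^ 2 ≤ (A * ∑ k ∈ I, |w k τ x|) ^ 2 := by
      have := h x hx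
      have h0 := abs_nonneg (f τ x)
      rw [← sq_abs (f τ x)]
      exact pow_le_pow_left₀ h0 this 2
    have h2 : (∑ k ∈ I, |w k τ x|) ^ 2 ≤ I.card * ∑ k ∈ I, |w k τ x| ^ 2 :=
      sq_sum_le_card_mul_sum_sq
    have h3 : ∑ k ∈ I, |w k τ x| ^ 2 = ∑ k ∈ I, w k τ x ^ 2 :=
      Finset.sum_congr rfl fun k _ => sq_abs _
    calc x ^ 9 * f τ x ^ 2 ≤ x ^ 9 * (A * ∑ k ∈ I, |w k τ x|) ^ 2 :=
          mul_le_mul_of_nonneg_left h1 h9
      _ = x ^ 9 * (A ^ 2 * (∑ k ∈ I, |w k τ x|) ^ 2) := by ring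
      _ ≤ x ^ 9 * (A ^ 2 * (I.card * ∑ k ∈ I, |w k τ x| ^ 2)) := by gcongr
      _ = A ^ 2 * I.card * ∑ k ∈ I, x ^ 9 * w k τ x ^ 2 := by
          rw [h3, ← Finset.mul_sum]; ring

theorem ii_nsq (hL : 0 < L) {f : ℝ → ℝ → ℝ} (hf : Sm (Ioo 0 (1 / 2)) L f) {a b : ℝ} (ha : 0 < a)
    (hab : a ≤ b) (hb : b < 1 / 2) : IntervalIntegrable (nsq L f) volume a b :=
  ContinuousOn.intervalIntegrable (by
    rw [uIcc_of_le hab]
    exact (continuousOn_nsq isOpen_Ioo hL.le hf).mono fun t ht =>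
      ⟨ha.trans_le ht.1, ht.2.trans_lt hb⟩)

/-- closure of `UL2` under pointwise domination by finite sums -/
theorem UL2.of_le (hL : 0 < L) {ι : Type*} (I : Finset ι) {w : ι → ℕ → ℝ → ℝ → ℝ}
    (hu : ∀ i, Sm (Ioo 0 (1 / 2)) L (u i)) (hw : ∀ k ∈ I, ∀ i, Sm (Ioo 0 (1 / 2)) L (w k i))
    (hw2 : ∀ k ∈ I, UL2 L (w k))
    (h : ∀ a b : ℝ, 0 < a → a < b → b < 1 / 2 → ∃ C : ℝ, ∀ i, ∀ τ ∈ Icc a b, ∀ x ∈ Ioo 0 L,
      |u i τ x| ≤ C * ∑ k ∈ I, |w k i τ x|) : UL2 L u := by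
  classical
  intro a b ha hab hb
  obtain ⟨A, hA⟩ := h a b ha hab hb
  have hcm : ∀ k ∈ I, ∃ C : ℝ, ∀ i, ∫ t in a..b, nsq L (w k i) t ≤ C := fun k hk =>
    hw2 k hk a b ha hab hb
  choose! C hC using hcm
  refine ⟨A ^ 2 * I.card * ∑ k ∈ I, C k, fun i => ?_⟩
  have e1 : ∫ t in a..b, A ^ 2 * I.card * ∑ k ∈ I, nsq L (w k i) t =
      A ^ 2 * I.card * ∑ k ∈ I, ∫ t in a..b, nsq L (w k i) t := by
    rw [intervalIntegral.integral_const_mul, intervalIntegral.integral_finset_sum]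
    exact fun k hk => ii_nsq hL (hw k hk i) ha hab.le hb
  calc ∫ t in a..b, nsq L (u i) t ≤ ∫ t in a..b, A ^ 2 * I.card * ∑ k ∈ I, nsq L (w k i) t := by
        refine intervalIntegral.integral_mono_on hab.le (ii_nsq hL (hu i) ha hab.le hb) ?_ ?_
        · refine IntervalIntegrable.const_mul ?_ _
          have : (fun t => ∑ k ∈ I, nsq L (w k i) t) = ∑ k ∈ I, nsq L (w k i) := by
            ext t; simp
          rw [this]
          exact IntervalIntegrable.sum _ fun k hk => ii_nsq hL (hw k hk i) ha hab.le hb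
        · intro t ht
          have hts : t ∈ Ioo (0 : ℝ) (1 / 2) := ⟨ha.trans_le ht.1, ht.2.trans_lt hb⟩
          exact nsq_le_sum hL I hts (hu i) (fun k hk => hw k hk i) (hA i t ht)
    _ = _ := e1
    _ ≤ _ := by
        refine mul_le_mul_of_nonneg_left (Finset.sum_le_sum fun k hk => hC k hk i) (by positivity)

/-- `USup` from `UL2` of `u` and `∂_τ u`. -/
theorem USup.of_UL2 (hL : 0 < L) (hu : ∀ i, Sm (Ioo 0 (1 / 2)) L (u i)) (h1 : UL2 L u)
    (h2 : UL2 L (fun i => dt (u i))) : USup L u := by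
  intro a b ha hab hb
  obtain ⟨C1, hC1, H1⟩ := h1.exists_nonneg ha hab hb
  obtain ⟨C2, hC2, H2⟩ := h2.exists_nonneg ha hab hb
  refine ⟨2 / (b - a) * C1 + 2 * (b - a) * C2, fun i τ hτ => ?_⟩
  have hba : 0 < b - a := sub_pos.2 hab
  have hsub : Icc a b ⊆ Ioo (0 : ℝ) (1 / 2) := fun t ht => ⟨ha.trans_le ht.1, ht.2.trans_lt hb⟩
  refine (sup_loc isOpen_Ioo hL (hu i) hab hsub hτ).trans (add_le_add ?_ ?_)
  · exact mul_le_mul_of_nonneg_left (H1 i) (by positivity)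
  · exact mul_le_mul_of_nonneg_left (H2 i) (by positivity)

end Crest.Agent.R213.C8
end
end

-- ▼ part R213/C/AllJNl
section

/-!
# Row 213, part C8: classes of `h_l` from the classes of `b_l`
-/

set_option autoImplicit false

open Set MeasureTheory Filter Topology

noncomputable section

namespace Crest.Agent.R213.C8

open Crest.Agent.R213 Crest.Agent.R213.C

variable {L : ℝ} {η : ℝ → ℝ} {b h : ℕ → ℝ → ℝ → ℝ}

/-- bound of the derivatives of the cut-off on a compact interval -/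
theorem eta_bound {η : ℝ → ℝ} (hη : ContDiff ℝ (⊤ : ℕ∞) η) (n : ℕ) (a c : ℝ) :
    ∃ K : ℝ, 0 ≤ K ∧ ∀ l ≤ n, ∀ t ∈ Icc a c, |iteratedDeriv l η t| ≤ K := by
  induction n with
  | zero =>
    obtain ⟨K, hK⟩ := (isCompact_Icc (a := a) (b := c)).exists_bound_of_continuousOn
      ((hη.continuous_iteratedDeriv 0 (by simp)).continuousOn)
    refine ⟨max K 0, le_max_right _ _, fun l hl t ht => ?_⟩
    obtain rfl : l = 0 := Nat.le_zero.mp hl
    exact (hK t ht).trans (le_max_left _ _)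
  | succ n ih =>
    obtain ⟨K, hK0, hK⟩ := ih
    obtain ⟨K', hK'⟩ := (isCompact_Icc (a := a) (b := c)).exists_bound_of_continuousOn
      ((hη.continuous_iteratedDeriv (n + 1) (by exact_mod_cast le_top)).continuousOn)
    refine ⟨max K K', le_max_of_le_left hK0, fun l hl t ht => ?_⟩
    rcases Nat.lt_or_ge l (n + 1) with h | h
    · exact (hK l (Nat.lt_succ_iff.mp h) t ht).trans (le_max_left _ _)
    · obtain rfl : l = n + 1 := le_antisymm hl h
      exact (hK' t ht).trans (le_max_right _ _)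

theorem mem_half {a c τ : ℝ} (ha : 0 < a) (hc : c < 1 / 2) (hτ : τ ∈ Icc a c) :
    τ ∈ Ioo (0 : ℝ) (1 / 2) := ⟨ha.trans_le hτ.1, hτ.2.trans_lt hc⟩

/-- level `0`: `|h| ≤ |b|`. -/
theorem abs_h_le {s : Set ℝ} {η : ℝ → ℝ} {b h : ℝ → ℝ → ℝ} (hN : NL s L η b h) {τ x : ℝ}
    (hτ : τ ∈ s) (hx : x ∈ Icc 0 L) (hb : |b τ x| ≤ 1 / 20) : |h τ x| ≤ 1 / 8 * |b τ x| := by
  have e := hN.eq τ hτ x hx
  have hbl := abs_le.mp hb
  have h1 : |h τ x| * (1 + b τ x) = η τ * |b τ x| * |b τ x| := by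
    have : |h τ x * (1 + b τ x)| = |η τ * b τ x ^ 2| := by rw [e]
    rw [abs_mul, abs_mul, abs_of_nonneg (by linarith : (0 : ℝ) ≤ 1 + b τ x),
      abs_of_nonneg (hN.η0 τ), abs_pow] at this
    rw [this]; ring
  have h2 : |h τ x| * (19 / 20) ≤ |h τ x| * (1 + b τ x) :=
    mul_le_mul_of_nonneg_left (by linarith) (abs_nonneg _)
  have h3 : η τ * |b τ x| * |b τ x| ≤ 1 / 20 * |b τ x| := by
    refine mul_le_mul_of_nonneg_right ?_ (abs_nonneg _)
    calc η τ * |b τ x| ≤ 1 * |b τ x| := mul_le_mul_of_nonneg_right (hN.η1 τ) (abs_nonneg _)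
      _ ≤ 1 / 20 := by rw [one_mul]; exact hb
  have := abs_nonneg (b τ x)
  linarith

/-- superadditive exponents up to `n` -/
structure ExpOK (e : ℕ → ℕ) (n : ℕ) : Prop where
  mono : ∀ p q, p ≤ q → q ≤ n → e p ≤ e q
  add : ∀ p q, p + q ≤ n → e p + e q ≤ e (p + q)

theorem ExpOK.le {e : ℕ → ℕ} {n m : ℕ} (h : ExpOK e n) (hm : m ≤ n) : ExpOK e m :=
  ⟨fun p q h1 h2 => h.mono p q h1 (h2.trans hm), fun p q h1 => h.add p q (h1.trans hm)⟩

/-- products of classes -/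
theorem prod_le {C x y z : ℝ} (hC : 0 ≤ C) {p q r : ℕ} (hx : 0 < x) (hxL : x ≤ L)
    (h1 : |y| * x ^ p ≤ C) (h2 : |z| * x ^ q ≤ C) (hpq : p + q ≤ r) :
    |y| * |z| * x ^ r ≤ C * C * (max L 1) ^ r := by
  have h3 : x ^ r = x ^ p * x ^ q * x ^ (r - (p + q)) := by
    rw [← pow_add, ← pow_add, Nat.add_sub_cancel' hpq]
  have h4 : x ^ (r - (p + q)) ≤ (max L 1) ^ r :=
    (pow_le_pow_left₀ hx.le (hxL.trans (le_max_left _ _)) _).trans
      (pow_le_pow_right₀ (le_max_right _ _) (Nat.sub_le _ _))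
  rw [h3]
  calc |y| * |z| * (x ^ p * x ^ q * x ^ (r - (p + q)))
      = (|y| * x ^ p) * (|z| * x ^ q) * x ^ (r - (p + q)) := by ring
    _ ≤ C * C * (max L 1) ^ r := by
        refine mul_le_mul (mul_le_mul h1 h2 (by positivity) hC) h4 (by positivity) (by positivity)

/-- **one level of `h` from classes of lower levels** -/
theorem h_level {e : ℕ → ℕ} {J : ℕ} (he : ExpOK e (J + 1))
    (hN : ∀ i, NL (Ioo 0 (1 / 2)) L η (b i) (h i))
    (hb : ∀ i, ∀ τ ∈ Ioo (0 : ℝ) (1 / 2), ∀ x ∈ Icc 0 L, |b i τ x| ≤ 1 / 20)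
    (h1 : ∀ l < J + 1, UB L (e l) (fun i => dt^[l] (b i)))
    (h2 : ∀ l < J + 1, UB L (e l) (fun i => dt^[l] (h i))) {a c : ℝ} (ha : 0 < a) (hac : a < c)
    (hc : c < 1 / 2) :
    ∃ C : ℝ, ∀ i, ∀ τ ∈ Icc a c, ∀ x ∈ Ioo 0 L,
      |(dt^[J + 1] (h i)) τ x| * x ^ e (J + 1) ≤
        1 / 8 * (|(dt^[J + 1] (b i)) τ x| * x ^ e (J + 1)) + C := by
  obtain ⟨K, hK0, hK⟩ := eta_bound (hN 0).smη (J + 1) a c
  obtain ⟨C1, hC10, hC1⟩ := UB.common h1 ha hac hc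
  obtain ⟨C2, hC20, hC2⟩ := UB.common h2 ha hac hc
  set C := max C1 C2 with hCdef
  have hC0 : 0 ≤ C := le_max_of_le_left hC10
  refine ⟨8 * (1 + K) * 4 ^ (J + 1) * (C * C * (max L 1) ^ e (J + 1)), fun i τ hτ x hx => ?_⟩
  have hx' : x ∈ Icc 0 L := Ioo_subset_Icc_self hx
  have hτ' := mem_half ha hc hτ
  have hxp : 0 < x ^ e (J + 1) := pow_pos hx.1 _
  have key := alg (hN i) isOpen_Ioo hτ' hx' J (K := K)
    (T := C * C * (max L 1) ^ e (J + 1) / x ^ e (J + 1)) hK0 (fun l hl => hK l hl τ hτ)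
    (hb i τ hτ' x hx') ?_ ?_
  · calc |(dt^[J + 1] (h i)) τ x| * x ^ e (J + 1)
        ≤ (1 / 8 * |(dt^[J + 1] (b i)) τ x| +
          8 * (1 + K) * 4 ^ (J + 1) * (C * C * (max L 1) ^ e (J + 1) / x ^ e (J + 1))) *
          x ^ e (J + 1) := mul_le_mul_of_nonneg_right key hxp.le
      _ = _ := by field_simp
  · intro p q hp hq hpq
    rw [le_div_iff₀ hxp]
    have hee : e p + e q ≤ e (J + 1) :=
      (he.add p q hpq).trans (he.mono _ _ hpq le_rfl)
    exact prod_le hC0 hx.1 hx.2.le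
      ((hC1 p (by omega) i τ hτ x hx).trans (le_max_left _ _))
      ((hC1 q (by omega) i τ hτ x hx).trans (le_max_left _ _)) hee
  · intro p q hp hq hpq
    rw [le_div_iff₀ hxp]
    have hee : e p + e q ≤ e (J + 1) :=
      (he.add p q hpq).trans (he.mono _ _ hpq le_rfl)
    exact prod_le hC0 hx.1 hx.2.le
      ((hC2 p (by omega) i τ hτ x hx).trans (le_max_right _ _))
      ((hC1 q (by omega) i τ hτ x hx).trans (le_max_left _ _)) hee

/-- classes of `h_l` from classes of `b_l` -/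
theorem h_ub {e : ℕ → ℕ} {n : ℕ} (he : ExpOK e n)
    (hN : ∀ i, NL (Ioo 0 (1 / 2)) L η (b i) (h i))
    (hb : ∀ i, ∀ τ ∈ Ioo (0 : ℝ) (1 / 2), ∀ x ∈ Icc 0 L, |b i τ x| ≤ 1 / 20)
    (h1 : ∀ l ≤ n, UB L (e l) (fun i => dt^[l] (b i))) :
    ∀ l ≤ n, UB L (e l) (fun i => dt^[l] (h i)) := by
  intro l
  induction l using Nat.strong_induction_on with
  | _ l ih =>
    intro hl
    rcases l with _ | J
    · intro a c ha hac hc
      obtain ⟨C, hC⟩ := h1 0 hl a c ha hac hc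
      refine ⟨C, fun i τ hτ x hx => ?_⟩
      have h3 := abs_h_le (hN i) (mem_half ha hc hτ) (Ioo_subset_Icc_self hx)
        (hb i τ (mem_half ha hc hτ) x (Ioo_subset_Icc_self hx))
      have h4 : |h i τ x| ≤ |b i τ x| := by have := abs_nonneg (b i τ x); linarith
      exact (mul_le_mul_of_nonneg_right h4 (pow_nonneg hx.1.le _)).trans (hC i τ hτ x hx)
    · intro a c ha hac hc
      obtain ⟨C, hC⟩ := h_level (he.le hl) hN hb (fun l hl' => h1 l (by omega))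
        (fun l hl' => ih l hl' (by omega)) ha hac hc
      obtain ⟨C', hC'⟩ := h1 (J + 1) hl a c ha hac hc
      refine ⟨1 / 8 * C' + C, fun i τ hτ x hx => (hC i τ hτ x hx).trans ?_⟩
      have := hC' i τ hτ x hx
      linarith

/-- `L²` version of `h_level`: the low levels (`2 p ≤ J + 1`) are bounded. -/
theorem h_level_l2 {J : ℕ} (hN : ∀ i, NL (Ioo 0 (1 / 2)) L η (b i) (h i))
    (hb : ∀ i, ∀ τ ∈ Ioo (0 : ℝ) (1 / 2), ∀ x ∈ Icc 0 L, |b i τ x| ≤ 1 / 20)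
    (h1 : ∀ l, 2 * l ≤ J + 1 → UB L 0 (fun i => dt^[l] (b i)))
    (h2 : ∀ l, 2 * l ≤ J + 1 → UB L 0 (fun i => dt^[l] (h i))) {a c : ℝ} (ha : 0 < a)
    (hac : a < c) (hc : c < 1 / 2) :
    ∃ C : ℝ, 0 ≤ C ∧ ∀ i, ∀ τ ∈ Icc a c, ∀ x ∈ Ioo 0 L,
      |(dt^[J + 1] (h i)) τ x| ≤ 1 / 8 * |(dt^[J + 1] (b i)) τ x| +
        C * ∑ q ∈ Finset.range (J + 1), (|(dt^[q] (b i)) τ x| + |(dt^[q] (h i)) τ x|) := by
  obtain ⟨K, hK0, hK⟩ := eta_bound (hN 0).smη (J + 1) a c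
  have h1' : ∀ l < (J + 1) / 2 + 1, UB L ((fun _ => 0) l) (fun i => dt^[l] (b i)) :=
    fun l hl => h1 l (by omega)
  have h2' : ∀ l < (J + 1) / 2 + 1, UB L ((fun _ => 0) l) (fun i => dt^[l] (h i)) :=
    fun l hl => h2 l (by omega)
  obtain ⟨C1, hC10, hC1⟩ := UB.common h1' ha hac hc
  obtain ⟨C2, hC20, hC2⟩ := UB.common h2' ha hac hc
  set C := max C1 C2 with hCdef
  have hC0 : 0 ≤ C := le_max_of_le_left hC10
  refine ⟨8 * (1 + K) * 4 ^ (J + 1) * C, by positivity, fun i τ hτ x hx => ?_⟩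
  have hx' : x ∈ Icc 0 L := Ioo_subset_Icc_self hx
  have hτ' := mem_half ha hc hτ
  set S := ∑ q ∈ Finset.range (J + 1), (|(dt^[q] (b i)) τ x| + |(dt^[q] (h i)) τ x|) with hS
  have hSb : ∀ q ≤ J, |(dt^[q] (b i)) τ x| ≤ S := fun q hq => by
    have h3 : |(dt^[q] (b i)) τ x| + |(dt^[q] (h i)) τ x| ≤ S :=
      Finset.single_le_sum (f := fun q => |(dt^[q] (b i)) τ x| + |(dt^[q] (h i)) τ x|)
        (fun k _ => by positivity) (Finset.mem_range.mpr (by omega))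
    have := abs_nonneg ((dt^[q] (h i)) τ x)
    linarith
  have hSh : ∀ q ≤ J, |(dt^[q] (h i)) τ x| ≤ S := fun q hq => by
    have h3 : |(dt^[q] (b i)) τ x| + |(dt^[q] (h i)) τ x| ≤ S :=
      Finset.single_le_sum (f := fun q => |(dt^[q] (b i)) τ x| + |(dt^[q] (h i)) τ x|)
        (fun k _ => by positivity) (Finset.mem_range.mpr (by omega))
    have := abs_nonneg ((dt^[q] (b i)) τ x)
    linarith
  have lb : ∀ p, 2 * p ≤ J + 1 → |(dt^[p] (b i)) τ x| ≤ C := fun p hp => by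
    have := hC1 p (by omega) i τ hτ x hx
    simp only [pow_zero, mul_one] at this
    exact this.trans (le_max_left _ _)
  have lh : ∀ p, 2 * p ≤ J + 1 → |(dt^[p] (h i)) τ x| ≤ C := fun p hp => by
    have := hC2 p (by omega) i τ hτ x hx
    simp only [pow_zero, mul_one] at this
    exact this.trans (le_max_right _ _)
  have key := alg (hN i) isOpen_Ioo hτ' hx' J (K := K) (T := C * S) hK0
    (fun l hl => hK l hl τ hτ) (hb i τ hτ' x hx') ?_ ?_
  · calc |(dt^[J + 1] (h i)) τ x| ≤ _ := key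
      _ = _ := by ring
  · intro p q hp hq hpq
    rcases Nat.lt_or_ge (J + 1) (2 * p) with h3 | h3
    · have := mul_le_mul (hSb p hp) (lb q (by omega)) (abs_nonneg _)
        ((abs_nonneg _).trans (hSb p hp))
      linarith
    · exact mul_le_mul (lb p h3) (hSb q hq) (abs_nonneg _) hC0
  · intro p q hp hq hpq
    rcases Nat.lt_or_ge (J + 1) (2 * p) with h3 | h3
    · have := mul_le_mul (hSh p hp) (lb q (by omega)) (abs_nonneg _)
        ((abs_nonneg _).trans (hSh p hp))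
      linarith
    · exact mul_le_mul (lh p h3) (hSb q hq) (abs_nonneg _) hC0

/-- `h_l ∈ UL2` for `l < n` from `b_l ∈ UL2` for `l < n` and boundedness of the low levels. -/
theorem h_l2 (hL : 0 < L) {n : ℕ} (hN : ∀ i, NL (Ioo 0 (1 / 2)) L η (b i) (h i))
    (hb : ∀ i, ∀ τ ∈ Ioo (0 : ℝ) (1 / 2), ∀ x ∈ Icc 0 L, |b i τ x| ≤ 1 / 20)
    (h1 : ∀ l, 2 * l < n → UB L 0 (fun i => dt^[l] (b i)))
    (h2 : ∀ l, 2 * l < n → UB L 0 (fun i => dt^[l] (h i)))
    (h3 : ∀ l < n, UL2 L (fun i => dt^[l] (b i))) :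
    ∀ l < n, UL2 L (fun i => dt^[l] (h i)) := by
  have smb : ∀ l i, Sm (Ioo 0 (1 / 2)) L (dt^[l] (b i)) := fun l i =>
    (hN i).smb.dt_iter isOpen_Ioo hL l
  have smh : ∀ l i, Sm (Ioo 0 (1 / 2)) L (dt^[l] (h i)) := fun l i =>
    (hN i).smh.dt_iter isOpen_Ioo hL l
  intro l
  induction l using Nat.strong_induction_on with
  | _ l ih =>
    intro hl
    rcases l with _ | J
    · refine UL2.of_le hL ({0} : Finset ℕ) (w := fun _ i => dt^[0] (b i)) (smh 0)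
        (fun _ _ i => smb 0 i) (fun _ _ => h3 0 hl) fun a c ha hac hc => ⟨1, fun i τ hτ x hx => ?_⟩
      have h4 := abs_h_le (hN i) (mem_half ha hc hτ) (Ioo_subset_Icc_self hx)
        (hb i τ (mem_half ha hc hτ) x (Ioo_subset_Icc_self hx))
      have h5 := abs_nonneg (b i τ x)
      simp only [Finset.sum_singleton, one_mul, Function.iterate_zero, id]
      linarith
    · -- index set: `Sum` of the levels of `b` (≤ J+1) and of `h` (≤ J)
      let w : ℕ ⊕ ℕ → ℕ → ℝ → ℝ → ℝ := fun k i =>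
        match k with
        | Sum.inl q => dt^[q] (b i)
        | Sum.inr q => dt^[q] (h i)
      refine UL2.of_le hL ((Finset.range (J + 2)).disjSum (Finset.range (J + 1))) (w := w)
        (smh (J + 1)) ?_ ?_ ?_
      · rintro (q | q) _ i
        · exact smb q i
        · exact smh q i
      · rintro (q | q) hq
        · exact h3 q (by
            have := Finset.mem_range.mp (Finset.inl_mem_disjSum.mp hq); omega)
        · exact ih q (by
            have := Finset.mem_range.mp (Finset.inr_mem_disjSum.mp hq); omega) (by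
            have := Finset.mem_range.mp (Finset.inr_mem_disjSum.mp hq); omega)
      · intro a c ha hac hc
        obtain ⟨C, hC0, hC⟩ := h_level_l2 (J := J) hN hb (fun l hl' => h1 l (by omega))
          (fun l hl' => h2 l (by omega)) ha hac hc
        refine ⟨1 + C, fun i τ hτ x hx => (hC i τ hτ x hx).trans ?_⟩
        rw [Finset.sum_disjSum]
        simp only [w]
        have e1 : ∑ q ∈ Finset.range (J + 1), (|(dt^[q] (b i)) τ x| + |(dt^[q] (h i)) τ x|) =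
            ∑ q ∈ Finset.range (J + 1), |(dt^[q] (b i)) τ x| +
            ∑ q ∈ Finset.range (J + 1), |(dt^[q] (h i)) τ x| := Finset.sum_add_distrib
        have e2 : ∑ q ∈ Finset.range (J + 2), |(dt^[q] (b i)) τ x| =
            ∑ q ∈ Finset.range (J + 1), |(dt^[q] (b i)) τ x| + |(dt^[J + 1] (b i)) τ x| :=
          Finset.sum_range_succ _ _
        rw [e1, e2]
        have p1 : 0 ≤ ∑ q ∈ Finset.range (J + 1), |(dt^[q] (b i)) τ x| :=
          Finset.sum_nonneg fun _ _ => abs_nonneg _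
        have p2 : 0 ≤ ∑ q ∈ Finset.range (J + 1), |(dt^[q] (h i)) τ x| :=
          Finset.sum_nonneg fun _ _ => abs_nonneg _
        have p3 := abs_nonneg ((dt^[J + 1] (b i)) τ x)
        nlinarith [mul_nonneg hC0 p3]

end Crest.Agent.R213.C8
end
end

-- ▼ part R213/C/AllJEn
section

/-!
# Row 213, part C8: the energy step at level `J` and the iteration in `i` (`L²`)
-/

set_option autoImplicit false

open Set MeasureTheory Filter Topology

noncomputable section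

namespace Crest.Agent.R213.C8

open Crest.Agent.R213 Crest.Agent.R213.C

variable {L : ℝ} {η : ℝ → ℝ} {b h : ℕ → ℝ → ℝ → ℝ}

/-- cut-off functions in time -/
theorem exists_cut {a c : ℝ} (ha : 0 < a) (hac : a < c) (hc : c < 1 / 2) :
    ∃ (ζ : ℝ → ℝ) (a' c' : ℝ), ContDiff ℝ (⊤ : ℕ∞) ζ ∧ 0 < a' ∧ a' < a ∧ c < c' ∧ c' < 1 / 2 ∧
      (∀ τ ∈ Icc a c, ζ τ = 1) ∧ (∀ τ, τ ∉ Icc a' c' → ζ τ = 0) := by
  set r := min a (1 / 2 - c) / 2 with hr
  have hr0 : 0 < r := by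
    have : 0 < min a (1 / 2 - c) := lt_min ha (by linarith)
    positivity
  have hra : r ≤ a / 2 := by
    have := min_le_left a (1 / 2 - c)
    rw [hr]; linarith
  have hrc : r ≤ (1 / 2 - c) / 2 := by
    have := min_le_right a (1 / 2 - c)
    rw [hr]; linarith
  let f : ContDiffBump ((a + c) / 2) := ⟨(c - a) / 2, (c - a) / 2 + r, by linarith, by linarith⟩
  refine ⟨f, a - r, c + r, f.contDiff, by linarith, by linarith, by linarith, by linarith,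
    fun τ hτ => ?_, fun τ hτ => ?_⟩
  · refine f.one_of_mem_closedBall ?_
    rw [Real.closedBall_eq_Icc, mem_Icc]
    show (a + c) / 2 - (c - a) / 2 ≤ τ ∧ τ ≤ (a + c) / 2 + (c - a) / 2
    constructor <;> linarith [hτ.1, hτ.2]
  · have h1 : τ ∉ Function.support f := by
      rw [f.support_eq, Real.ball_eq_Ioo]
      show τ ∉ Ioo ((a + c) / 2 - ((c - a) / 2 + r)) ((a + c) / 2 + ((c - a) / 2 + r))
      intro h
      exact hτ ⟨by linarith [h.1], by linarith [h.2]⟩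
    simpa using h1

/-- `y_{i+1} ≤ y_i / 2 + C` implies boundedness. -/
theorem bdd_of_rec {y : ℕ → ℝ} {C : ℝ} (h : ∀ i, y (i + 1) ≤ 1 / 2 * y i + C) :
    ∀ i, y i ≤ max (y 0) (2 * C) := by
  intro i
  induction i with
  | zero => exact le_max_left _ _
  | succ i ih =>
    have h1 := h i
    have h2 : 2 * C ≤ max (y 0) (2 * C) := le_max_right _ _
    linarith

/-- fixed time: `nsq h ≤ (1/32) nsq b + A' ∑ nsq w` if `|h| ≤ |b|/8 + A ∑ |w|`. -/
theorem nsq_le_add (hL : 0 < L) {ι : Type*} (I : Finset ι) {s : Set ℝ} {f p : ℝ → ℝ → ℝ}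
    {w : ι → ℝ → ℝ → ℝ} {τ : ℝ} (hτ : τ ∈ s) (hf : Sm s L f) (hp : Sm s L p)
    (hw : ∀ k ∈ I, Sm s L (w k)) {A : ℝ}
    (h : ∀ x ∈ Ioo 0 L, |f τ x| ≤ 1 / 8 * |p τ x| + A * ∑ k ∈ I, |w k τ x|) :
    nsq L f τ ≤ 1 / 32 * nsq L p τ + 2 * A ^ 2 * I.card * ∑ k ∈ I, nsq L (w k) τ := by
  have hfc := hf.continuousOn_right hτ
  have hpc := hp.continuousOn_right hτ
  have hwc : ∀ k ∈ I, ContinuousOn (w k τ) (Icc 0 L) := fun k hk => (hw k hk).continuousOn_right hτ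
  have hint : ∀ k ∈ I, IntervalIntegrable (fun x => x ^ 9 * w k τ x ^ 2) volume 0 L := by
    intro k hk
    have := hwc k hk
    exact ContinuousOn.intervalIntegrable (by rw [uIcc_of_le hL.le]; fun_prop)
  have hsum : ContinuousOn (fun x => 2 * A ^ 2 * I.card * ∑ k ∈ I, x ^ 9 * w k τ x ^ 2)
      (Icc 0 L) := by
    refine continuousOn_const.mul (continuousOn_finsetSum _ fun k hk => ?_)
    have := hwc k hk
    fun_prop
  have e1 : 1 / 32 * nsq L p τ + 2 * A ^ 2 * I.card * ∑ k ∈ I, nsq L (w k) τ =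
      ∫ x in (0 : ℝ)..L, (1 / 32 * (x ^ 9 * p τ x ^ 2) +
        2 * A ^ 2 * I.card * ∑ k ∈ I, x ^ 9 * w k τ x ^ 2) := by
    rw [intervalIntegral.integral_add, intervalIntegral.integral_const_mul,
      intervalIntegral.integral_const_mul, intervalIntegral.integral_finsetSum hint]
    · rfl
    · exact ContinuousOn.intervalIntegrable (by rw [uIcc_of_le hL.le]; fun_prop)
    · exact ContinuousOn.intervalIntegrable (by rw [uIcc_of_le hL.le]; exact hsum)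
  rw [e1]
  unfold nsq
  refine intervalIntegral.integral_mono_on_of_le_Ioo hL.le
    (ContinuousOn.intervalIntegrable (by rw [uIcc_of_le hL.le]; fun_prop)) ?_ fun x hx => ?_
  · refine ContinuousOn.intervalIntegrable ?_
    rw [uIcc_of_le hL.le]
    refine ContinuousOn.add ?_ hsum
    fun_prop
  · have h9 : 0 ≤ x ^ 9 := pow_nonneg hx.1.le 9
    set S := ∑ k ∈ I, |w k τ x| with hS
    have h1 : f τ x ^ 2 ≤ 1 / 32 * p τ x ^ 2 + 2 * A ^ 2 * S ^ 2 := by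
      have h2 := h x hx
      have h0 := abs_nonneg (f τ x)
      have h3 : |f τ x| ^ 2 ≤ (1 / 8 * |p τ x| + A * S) ^ 2 := pow_le_pow_left₀ h0 h2 2
      rw [← sq_abs (f τ x), ← sq_abs (p τ x)]
      nlinarith [sq_nonneg (1 / 8 * |p τ x| - A * S)]
    have h2 : S ^ 2 ≤ I.card * ∑ k ∈ I, |w k τ x| ^ 2 := sq_sum_le_card_mul_sum_sq
    have h3 : ∑ k ∈ I, |w k τ x| ^ 2 = ∑ k ∈ I, w k τ x ^ 2 :=
      Finset.sum_congr rfl fun k _ => sq_abs _
    rw [h3] at h2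
    calc x ^ 9 * f τ x ^ 2 ≤ x ^ 9 * (1 / 32 * p τ x ^ 2 + 2 * A ^ 2 * S ^ 2) :=
          mul_le_mul_of_nonneg_left h1 h9
      _ ≤ x ^ 9 * (1 / 32 * p τ x ^ 2 + 2 * A ^ 2 * (I.card * ∑ k ∈ I, w k τ x ^ 2)) := by gcongr
      _ = _ := by rw [← Finset.mul_sum]; ring

/-- **energy step**: level `J+1` of `b` is in `UL2`. The hypothesis `hen` is the local energy
inequality for the pairs `(h i, b (i+1))`. -/
theorem energy_step (hL : 0 < L) {J : ℕ} (hN : ∀ i, NL (Ioo 0 (1 / 2)) L η (b i) (h i))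
    (hb : ∀ i, ∀ τ ∈ Ioo (0 : ℝ) (1 / 2), ∀ x ∈ Icc 0 L, |b i τ x| ≤ 1 / 20)
    (h1 : ∀ l, 2 * l ≤ J + 1 → UB L 0 (fun i => dt^[l] (b i)))
    (h2 : ∀ l, 2 * l ≤ J + 1 → UB L 0 (fun i => dt^[l] (h i)))
    (h3 : ∀ l < J + 1, UL2 L (fun i => dt^[l] (b i)))
    (h4 : ∀ l < J + 1, UL2 L (fun i => dt^[l] (h i)))
    (hen : ∀ ζ : ℝ → ℝ, ContDiff ℝ (⊤ : ℕ∞) ζ → ∀ a c : ℝ, 0 < a → a < c → c < 1 / 2 →
      (∀ τ, τ ∉ Icc a c → ζ τ = 0) → ∃ C : ℝ, ∀ i,
      ∫ τ in a..c, ζ τ ^ 2 * nsq L (dt^[J + 1] (b (i + 1))) τ ≤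
        3 * (∫ τ in a..c, ζ τ ^ 2 * nsq L (dt^[J + 1] (h i)) τ) +
        C * (1 + ∑ l ∈ Finset.range (J + 1), ∫ τ in a..c, (nsq L (dt^[l] (b (i + 1))) τ +
          nsq L (dt^[l] (h i)) τ))) :
    UL2 L (fun i => dt^[J + 1] (b i)) := by
  have smb : ∀ l i, Sm (Ioo 0 (1 / 2)) L (dt^[l] (b i)) := fun l i =>
    (hN i).smb.dt_iter isOpen_Ioo hL l
  have smh : ∀ l i, Sm (Ioo 0 (1 / 2)) L (dt^[l] (h i)) := fun l i =>
    (hN i).smh.dt_iter isOpen_Ioo hL l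
  intro a c ha hac hc
  obtain ⟨ζ, a', c', hζ, ha', haa, hcc, hc', hone, hzero⟩ := exists_cut ha hac hc
  have hac' : a' < c' := by linarith
  obtain ⟨C, hC⟩ := hen ζ hζ a' c' ha' hac' hc' hzero
  obtain ⟨A, hA0, hA⟩ := h_level_l2 (J := J) hN hb h1 h2 ha' hac' hc'
  obtain ⟨B1, hB10, hB1⟩ := UL2.common h3 ha' hac' hc'
  obtain ⟨B2, hB20, hB2⟩ := UL2.common h4 ha' hac' hc'
  obtain ⟨Z, hZ⟩ := (isCompact_Icc (a := a') (b := c')).exists_bound_of_continuousOn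
    (hζ.continuous.continuousOn (s := Icc a' c'))
  have hZ0 : ∀ τ ∈ Icc a' c', ζ τ ^ 2 ≤ Z ^ 2 := fun τ hτ => by
    have := hZ τ hτ
    rw [Real.norm_eq_abs] at this
    rw [← sq_abs (ζ τ)]
    exact pow_le_pow_left₀ (abs_nonneg _) this 2
  have hsub : Icc a' c' ⊆ Ioo (0 : ℝ) (1 / 2) := fun t ht => mem_half ha' hc' ht
  have cn : ∀ {f : ℝ → ℝ → ℝ}, Sm (Ioo 0 (1 / 2)) L f → ContinuousOn (nsq L f) (Icc a' c') :=
    fun hf => (continuousOn_nsq isOpen_Ioo hL.le hf).mono hsub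
  have ii : ∀ {f : ℝ → ℝ}, ContinuousOn f (Icc a' c') → IntervalIntegrable f volume a' c' :=
    fun hf => ContinuousOn.intervalIntegrable (by rwa [uIcc_of_le hac'.le])
  have cζ : ContinuousOn ζ (Icc a' c') := hζ.continuous.continuousOn
  -- index family of lower levels
  let w : ℕ ⊕ ℕ → ℕ → ℝ → ℝ → ℝ := fun k i =>
    match k with
    | Sum.inl q => dt^[q] (b i)
    | Sum.inr q => dt^[q] (h i)
  set I : Finset (ℕ ⊕ ℕ) := (Finset.range (J + 1)).disjSum (Finset.range (J + 1)) with hI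
  have smw : ∀ k i, Sm (Ioo 0 (1 / 2)) L (w k i) := by
    rintro (q | q) i
    · exact smb q i
    · exact smh q i
  have hwb : ∀ k ∈ I, ∀ i, ∫ t in a'..c', nsq L (w k i) t ≤ B1 + B2 := by
    rintro (q | q) hq i
    · have := hB1 q (Finset.mem_range.mp (Finset.inl_mem_disjSum.mp hq)) i
      exact this.trans (by linarith)
    · have := hB2 q (Finset.mem_range.mp (Finset.inr_mem_disjSum.mp hq)) i
      exact this.trans (by linarith)
  -- bound of the `h` term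
  have hterm : ∀ i, ∫ τ in a'..c', ζ τ ^ 2 * nsq L (dt^[J + 1] (h i)) τ ≤
      1 / 32 * (∫ τ in a'..c', ζ τ ^ 2 * nsq L (dt^[J + 1] (b i)) τ) +
        Z ^ 2 * (2 * A ^ 2 * I.card * (I.card * (B1 + B2))) := by
    intro i
    have hpt : ∀ τ ∈ Icc a' c', ζ τ ^ 2 * nsq L (dt^[J + 1] (h i)) τ ≤
        1 / 32 * (ζ τ ^ 2 * nsq L (dt^[J + 1] (b i)) τ) +
          Z ^ 2 * (2 * A ^ 2 * I.card * ∑ k ∈ I, nsq L (w k i) τ) := by
      intro τ hτ
      have hS : ∀ x ∈ Ioo 0 L, |(dt^[J + 1] (h i)) τ x| ≤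
          1 / 8 * |(dt^[J + 1] (b i)) τ x| + A * ∑ k ∈ I, |w k i τ x| := by
        intro x hx
        refine (hA i τ hτ x hx).trans (le_of_eq ?_)
        rw [hI, Finset.sum_disjSum, Finset.sum_add_distrib]
      have key := nsq_le_add hL I (hsub hτ) (smh (J + 1) i) (smb (J + 1) i)
        (fun k _ => smw k i) hS
      have hn : 0 ≤ ∑ k ∈ I, nsq L (w k i) τ :=
        Finset.sum_nonneg fun k _ => nsq_nonneg hL.le _ _
      have hz := hZ0 τ hτ
      calc ζ τ ^ 2 * nsq L (dt^[J + 1] (h i)) τ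
          ≤ ζ τ ^ 2 * (1 / 32 * nsq L (dt^[J + 1] (b i)) τ +
            2 * A ^ 2 * I.card * ∑ k ∈ I, nsq L (w k i) τ) :=
            mul_le_mul_of_nonneg_left key (sq_nonneg _)
        _ = 1 / 32 * (ζ τ ^ 2 * nsq L (dt^[J + 1] (b i)) τ) +
            ζ τ ^ 2 * (2 * A ^ 2 * I.card * ∑ k ∈ I, nsq L (w k i) τ) := by ring
        _ ≤ _ := by gcongr
    have c1 : ContinuousOn (fun τ => 1 / 32 * (ζ τ ^ 2 * nsq L (dt^[J + 1] (b i)) τ))
        (Icc a' c') := continuousOn_const.mul ((cζ.pow 2).mul (cn (smb _ i)))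
    have c3 : ContinuousOn (fun τ => ∑ k ∈ I, nsq L (w k i) τ) (Icc a' c') :=
      continuousOn_finsetSum _ fun k _ => cn (smw k i)
    have c2 : ContinuousOn (fun τ => Z ^ 2 * (2 * A ^ 2 * I.card * ∑ k ∈ I, nsq L (w k i) τ))
        (Icc a' c') := continuousOn_const.mul (continuousOn_const.mul c3)
    have c12 : ContinuousOn (fun τ => 1 / 32 * (ζ τ ^ 2 * nsq L (dt^[J + 1] (b i)) τ) +
        Z ^ 2 * (2 * A ^ 2 * I.card * ∑ k ∈ I, nsq L (w k i) τ)) (Icc a' c') := c1.add c2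
    refine (intervalIntegral.integral_mono_on hac'.le (ii ((cζ.pow 2).mul (cn (smh _ i))))
      (ii c12) hpt).trans ?_
    rw [intervalIntegral.integral_add (ii c1) (ii c2), intervalIntegral.integral_const_mul,
      intervalIntegral.integral_const_mul, intervalIntegral.integral_const_mul,
      intervalIntegral.integral_finsetSum fun k _ => ii (cn (smw k i))]
    have hs : ∑ k ∈ I, ∫ τ in a'..c', nsq L (w k i) τ ≤ I.card * (B1 + B2) := by
      calc ∑ k ∈ I, ∫ τ in a'..c', nsq L (w k i) τ ≤ ∑ _k ∈ I, (B1 + B2) :=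
            Finset.sum_le_sum fun k hk => hwb k hk i
        _ = I.card * (B1 + B2) := by rw [Finset.sum_const, nsmul_eq_mul]
    gcongr
  -- bound of the lower order terms
  have hlow : ∀ i, C * (1 + ∑ l ∈ Finset.range (J + 1),
      ∫ τ in a'..c', (nsq L (dt^[l] (b (i + 1))) τ + nsq L (dt^[l] (h i)) τ)) ≤
      |C| * (1 + (J + 1) * (B1 + B2)) := by
    intro i
    have hs0 : 0 ≤ ∑ l ∈ Finset.range (J + 1),
      ∫ τ in a'..c', (nsq L (dt^[l] (b (i + 1))) τ + nsq L (dt^[l] (h i)) τ) := by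
      refine Finset.sum_nonneg fun l _ => intervalIntegral.integral_nonneg hac'.le fun t _ => ?_
      exact add_nonneg (nsq_nonneg hL.le _ _) (nsq_nonneg hL.le _ _)
    have hs : ∑ l ∈ Finset.range (J + 1),
      ∫ τ in a'..c', (nsq L (dt^[l] (b (i + 1))) τ + nsq L (dt^[l] (h i)) τ) ≤
        (J + 1) * (B1 + B2) := by
      calc _ ≤ ∑ _l ∈ Finset.range (J + 1), (B1 + B2) := by
            refine Finset.sum_le_sum fun l hl => ?_
            rw [intervalIntegral.integral_add (ii (cn (smb l _))) (ii (cn (smh l _)))]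
            exact add_le_add (hB1 l (Finset.mem_range.mp hl) _) (hB2 l (Finset.mem_range.mp hl) _)
        _ = (J + 1) * (B1 + B2) := by
            rw [Finset.sum_const, nsmul_eq_mul, Finset.card_range]; push_cast; ring
    calc _ ≤ |C| * (1 + ∑ l ∈ Finset.range (J + 1),
          ∫ τ in a'..c', (nsq L (dt^[l] (b (i + 1))) τ + nsq L (dt^[l] (h i)) τ)) :=
          mul_le_mul_of_nonneg_right (le_abs_self C) (by linarith)
      _ ≤ _ := by gcongr
  -- recursion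
  set D := 3 * (Z ^ 2 * (2 * A ^ 2 * I.card * (I.card * (B1 + B2)))) +
    |C| * (1 + (J + 1) * (B1 + B2)) with hD
  have hrec : ∀ i, ∫ τ in a'..c', ζ τ ^ 2 * nsq L (dt^[J + 1] (b (i + 1))) τ ≤
      1 / 2 * (∫ τ in a'..c', ζ τ ^ 2 * nsq L (dt^[J + 1] (b i)) τ) + D := by
    intro i
    have e1 := hC i
    have e2 := hterm i
    have e3 := hlow i
    have e4 : 0 ≤ ∫ τ in a'..c', ζ τ ^ 2 * nsq L (dt^[J + 1] (b i)) τ :=
      intervalIntegral.integral_nonneg hac'.le fun t _ =>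
        mul_nonneg (sq_nonneg _) (nsq_nonneg hL.le _ _)
    rw [hD]
    linarith
  have hb' := bdd_of_rec (y := fun i => ∫ τ in a'..c', ζ τ ^ 2 * nsq L (dt^[J + 1] (b i)) τ) hrec
  refine ⟨_, fun i => le_trans ?_ (hb' i)⟩
  -- restriction to `[a,c]`
  have f0 : ∀ t, 0 ≤ ζ t ^ 2 * nsq L (dt^[J + 1] (b i)) t := fun t =>
    mul_nonneg (sq_nonneg _) (nsq_nonneg hL.le _ _)
  have f1 : ∫ t in a..c, nsq L (dt^[J + 1] (b i)) t =
      ∫ t in a..c, ζ t ^ 2 * nsq L (dt^[J + 1] (b i)) t := by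
    refine intervalIntegral.integral_congr fun t ht => ?_
    rw [uIcc_of_le hac.le] at ht
    simp only [hone t ht, one_pow, one_mul]
  rw [f1]
  refine intervalIntegral.integral_mono_interval haa.le hac.le hcc.le
    (Eventually.of_forall f0) (ii ((cζ.pow 2).mul (cn (smb _ i))))

end Crest.Agent.R213.C8
end
end

-- ▼ part R213/C/C8Base

/-!
# Row 213, part C8: base case and generic facts (helper523)
-/

set_option autoImplicit false

open Set MeasureTheory Filter Topology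

noncomputable section

namespace Crest.Agent.R213.C8

open Crest.Agent.R213 Crest.Agent.R213.C

namespace Base

variable {c0 C0 κ L : ℝ} {g : ℝ → ℝ} {φ m E : ℝ → ℝ → ℝ} {η : ℝ → ℝ} {d : ℕ → ℝ → ℝ → ℝ}

theorem phi_sm (hB : Bg c0 C0 g L φ m) : Sm (Ioo 0 1) L φ := by
  have hL : 0 < L := by linarith [hB.L_ge]
  refine Sm.congr (u := fun τ x => x * (1 - x / L) * m τ x) ?_ (fun t ht x hx => hB.phi_eq t ht x hx)
  refine Sm.mul (Sm.mul Sm.snd ?_) hB.sm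
  exact (Sm.const 1).sub (Sm.div Sm.snd (Sm.const L) (fun _ _ _ _ => hL.ne'))

theorem bb_sm (hB : Bg c0 C0 g L φ m) {δ : ℝ → ℝ → ℝ} (hδ : Sm (Ioo 0 1) L δ) :
    Sm (Ioo 0 1) L (bb L φ δ) := by
  have hL : 0 < L := by linarith [hB.L_ge]
  exact (phi_sm hB).mul ((hδ.dx isOpen_Ioo hL).dx isOpen_Ioo hL)

theorem half_sub : Ioo (0 : ℝ) (1 / 2) ⊆ Ioo 0 1 := Ioo_subset_Ioo_right (by norm_num)

/-- gluing of smooth functions along `τ` -/
theorem sm_glue {s1 s2 s : Set ℝ} {u : ℝ → ℝ → ℝ} (h1o : IsOpen s1) (h2o : IsOpen s2)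
    (hs : s ⊆ s1 ∪ s2) (h1 : Sm (s ∩ s1) L u) (h2 : Sm (s ∩ s2) L u) : Sm s L u := by
  rintro ⟨t, x⟩ ⟨ht, hx⟩
  rcases hs ht with h | h
  · refine (h1 (t, x) ⟨⟨ht, h⟩, hx⟩).mono_of_mem_nhdsWithin ?_
    rw [mem_nhdsWithin]
    exact ⟨s1 ×ˢ univ, h1o.prod isOpen_univ, ⟨h, mem_univ _⟩,
      fun p hp => ⟨⟨hp.2.1, hp.1.1⟩, hp.2.2⟩⟩
  · refine (h2 (t, x) ⟨⟨ht, h⟩, hx⟩).mono_of_mem_nhdsWithin ?_
    rw [mem_nhdsWithin]
    exact ⟨s2 ×ˢ univ, h2o.prod isOpen_univ, ⟨h, mem_univ _⟩,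
      fun p hp => ⟨⟨hp.2.1, hp.1.1⟩, hp.2.2⟩⟩

theorem one_add_ne {b : ℝ} (h : |b| ≤ 1 / 20) : (1 + b) ≠ 0 := by
  have := (abs_le.1 h).1
  intro h0
  linarith

end Base

open Base

variable {c0 C0 κ L : ℝ} {g : ℝ → ℝ} {φ m E : ℝ → ℝ → ℝ} {η : ℝ → ℝ} {d : ℕ → ℝ → ℝ → ℝ}

theorem hNL_sm (hB : Bg c0 C0 g L φ m) (hη : EtaOK η) {δ : ℝ → ℝ → ℝ} (hδ : Sm (Ioo 0 1) L δ)
    (hb : ∀ τ ∈ Ioo (0 : ℝ) (1 / 2), ∀ x ∈ Icc 0 L, |bb L φ δ τ x| ≤ 1 / 20) :
    Sm (Ioo 0 1) L (hNL L φ η δ) := by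
  have hL : 0 < L := by linarith [hB.L_ge]
  have hxx : Sm (Ioo 0 1) L (dx L (dx L δ)) := (hδ.dx isOpen_Ioo hL).dx isOpen_Ioo hL
  have hφ := phi_sm hB
  have hηs : Sm (Ioo 0 1) L (fun t _ => η t) := Sm.of_left hη.smooth.contDiffOn
  refine sm_glue (s1 := Ioo 0 (1 / 2)) (s2 := Ioi (3 / 8)) isOpen_Ioo isOpen_Ioi ?_ ?_ ?_
  · intro t ht
    by_cases h : t < 1 / 2
    · left; exact ⟨ht.1, h⟩
    · right
      rw [not_lt] at h
      exact lt_of_lt_of_le (by norm_num) h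
  · have hsub : Ioo (0 : ℝ) 1 ∩ Ioo 0 (1 / 2) ⊆ Ioo 0 1 := inter_subset_left
    refine (hηs.mono hsub).mul (Sm.div ((hφ.mono hsub).mul ((hxx.mono hsub).pow 2))
      ((Sm.const 1).add ((hφ.mono hsub).mul (hxx.mono hsub))) ?_)
    intro t ht x hx
    exact one_add_ne (hb t ht.2 x hx)
  · refine (Sm.const 0).congr ?_
    intro t ht x _
    simp [hNL, hη.eq_zero t (le_of_lt ht.2)]

theorem nl (hB : Bg c0 C0 g L φ m) (hη : EtaOK η) {δ : ℝ → ℝ → ℝ} (hδ : Sm (Ioo 0 1) L δ)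
    (hb : ∀ τ ∈ Ioo (0 : ℝ) (1 / 2), ∀ x ∈ Icc 0 L, |bb L φ δ τ x| ≤ 1 / 20) :
    NL (Ioo 0 (1 / 2)) L η (bb L φ δ) (hh L φ η δ) := by
  refine ⟨hη.smooth, hη.nonneg, hη.le_one, (bb_sm hB hδ).mono half_sub,
    ((phi_sm hB).mul (hNL_sm hB hη hδ hb)).mono half_sub, ?_⟩
  intro τ hτ x hx
  have h := one_add_ne (hb τ hτ x hx)
  simp only [hh, hNL, bb] at h ⊢
  field_simp

/-! ### Uniform pointwise bounds -/

theorem Base.rho_bd {τ x a : ℝ} (hx : x ∈ Icc 0 L) (hτ : τ ∈ Icc a (1 / 2)) (ha : 0 < a) :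
    a ≤ x ^ 2 + τ ∧ x ^ 2 + τ ≤ L ^ 2 + 1 := by
  have h1 : x ^ 2 ≤ L ^ 2 := pow_le_pow_left₀ hx.1 hx.2 2
  have h2 := sq_nonneg x
  constructor <;> linarith [hτ.1, hτ.2]

theorem Base.pt_bd {v τ x a : ℝ} {e j : ℕ} (hL : 0 ≤ L) (hx : x ∈ Icc 0 L) (hτ : τ ∈ Icc a (1 / 2))
    (ha : 0 < a) (h : |v| * xh τ x ^ e * (x ^ 2 + τ) ^ j ≤ 1 * (x ^ 2 + τ) ^ 25) :
    |v| * x ^ e ≤ (L ^ 2 + 1) ^ 25 * (L ^ 2 + 1) ^ e / a ^ j := by
  obtain ⟨h1, h2⟩ := Base.rho_bd hx hτ ha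
  have hr : 0 < x ^ 2 + τ := lt_of_lt_of_le ha h1
  have hsq : 0 < √(x ^ 2 + τ) := Real.sqrt_pos.2 hr
  have hs1 : √(x ^ 2 + τ) ≤ L ^ 2 + 1 := by
    have h3 : (1 : ℝ) ≤ L ^ 2 + 1 := by nlinarith [sq_nonneg L]
    calc √(x ^ 2 + τ) ≤ √(L ^ 2 + 1) := Real.sqrt_le_sqrt h2
      _ ≤ L ^ 2 + 1 := by
        rw [Real.sqrt_le_left (by linarith)]
        nlinarith
  have e1 : x ^ e = xh τ x ^ e * √(x ^ 2 + τ) ^ e := by
    rw [xh, ← mul_pow, div_mul_cancel₀ _ hsq.ne']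
  have hxh : 0 ≤ xh τ x := div_nonneg hx.1 hsq.le
  have haj : 0 < a ^ j := pow_pos ha j
  rw [le_div_iff₀ haj, e1]
  calc |v| * (xh τ x ^ e * √(x ^ 2 + τ) ^ e) * a ^ j
      ≤ |v| * (xh τ x ^ e * √(x ^ 2 + τ) ^ e) * (x ^ 2 + τ) ^ j := by
        gcongr
    _ = (|v| * xh τ x ^ e * (x ^ 2 + τ) ^ j) * √(x ^ 2 + τ) ^ e := by ring
    _ ≤ (1 * (x ^ 2 + τ) ^ 25) * √(x ^ 2 + τ) ^ e := by gcongr
    _ ≤ (L ^ 2 + 1) ^ 25 * (L ^ 2 + 1) ^ e := by
        rw [one_mul]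
        gcongr

theorem base_d (hB : Bg c0 C0 g L φ m) (hI : Iter κ L φ E η d) :
    ∀ j ≤ 4, UB L 0 (dj d j) := by
  intro j hj a b ha hab hb
  have hL : 0 ≤ L := by linarith [hB.L_ge]
  refine ⟨(L ^ 2 + 1) ^ 25 * (L ^ 2 + 1) ^ 0 / a ^ j, fun i τ hτ x hx => ?_⟩
  have hτ' : τ ∈ Ioo (0 : ℝ) (1 / 2) := ⟨lt_of_lt_of_le ha hτ.1, lt_of_le_of_lt hτ.2 hb⟩
  have h := hI.db i j hj τ hτ' x (Ioo_subset_Icc_self hx)
  refine Base.pt_bd (τ := τ) (e := 0) hL (Ioo_subset_Icc_self hx) ⟨hτ.1, hτ.2.trans hb.le⟩ ha ?_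
  simpa [dj] using h

/-! ### `L²` bounds -/

theorem Base.ul2 {c R K : ℝ} {a b : ℝ} (hL : 0 < L) (ha : 0 < a) (hab : a < b) (hb : b < 1 / 2)
    {V u : ℝ → ℝ → ℝ} (hu : Sm (Ioo 0 (1 / 2)) L u) (hc : 0 < c)
    (hV : ∀ τ ∈ Icc a b, ∀ x ∈ Icc 0 L, c ≤ V τ x)
    (h : N2T (1 / 2) L V u ≤ ENNReal.ofReal R) (hR : 0 ≤ R) (hK : K = R / c) :
    ∫ t in a..b, nsq L u t ≤ K := by
  have hcont : ContinuousOn (fun p : ℝ × ℝ => p.2 ^ 9 * u p.1 p.2 ^ 2) (Icc a b ×ˢ Icc 0 L) := by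
    have h1 : ContinuousOn (fun p : ℝ × ℝ => u p.1 p.2) (Icc a b ×ˢ Icc 0 L) :=
      hu.continuousOn.mono (prod_mono_left fun r hr =>
        ⟨lt_of_lt_of_le ha hr.1, lt_of_le_of_lt hr.2 hb⟩)
    exact (continuous_snd.pow 9).continuousOn.mul (h1.pow 2)
  have hint : IntegrableOn (fun p : ℝ × ℝ => p.2 ^ 9 * u p.1 p.2 ^ 2) (Ioo a b ×ˢ Ioo 0 L) :=
    (hcont.integrableOn_compact (isCompact_Icc.prod isCompact_Icc)).mono_set
      (prod_mono Ioo_subset_Icc_self Ioo_subset_Icc_self)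
  have e1 : ∫ t in a..b, nsq L u t = ∫ p in Ioo a b ×ˢ Ioo 0 L, p.2 ^ 9 * u p.1 p.2 ^ 2 := by
    rw [Measure.volume_eq_prod] at hint ⊢
    rw [setIntegral_prod _ hint, intervalIntegral.integral_of_le hab.le,
      integral_Ioc_eq_integral_Ioo]
    refine setIntegral_congr_fun measurableSet_Ioo fun t _ => ?_
    simp only [nsq]
    rw [intervalIntegral.integral_of_le hL.le, integral_Ioc_eq_integral_Ioo]
  have hmeas : MeasurableSet (Ioo a b ×ˢ Ioo (0 : ℝ) L) := measurableSet_Ioo.prod measurableSet_Ioo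
  have hnn : ∀ᵐ p ∂(volume.restrict (Ioo a b ×ˢ Ioo (0 : ℝ) L)), 0 ≤ p.2 ^ 9 * u p.1 p.2 ^ 2 := by
    rw [ae_restrict_iff' hmeas]
    refine Eventually.of_forall fun p hp => ?_
    have := hp.2.1
    positivity
  rw [e1, integral_eq_lintegral_of_nonneg_ae hnn hint.aestronglyMeasurable]
  have h2 : ∫⁻ p in Ioo a b ×ˢ Ioo (0 : ℝ) L, ENNReal.ofReal (p.2 ^ 9 * u p.1 p.2 ^ 2)
      ≤ ENNReal.ofReal (1 / c) * ENNReal.ofReal R := by
    calc ∫⁻ p in Ioo a b ×ˢ Ioo (0 : ℝ) L, ENNReal.ofReal (p.2 ^ 9 * u p.1 p.2 ^ 2)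
        ≤ ∫⁻ p in Ioo a b ×ˢ Ioo (0 : ℝ) L, ENNReal.ofReal (1 / c) *
            ENNReal.ofReal (V p.1 p.2 * p.2 ^ 9 * u p.1 p.2 ^ 2) := by
          refine setLIntegral_mono_ae' hmeas (Eventually.of_forall fun p hp => ?_)
          rw [← ENNReal.ofReal_mul (by positivity)]
          apply ENNReal.ofReal_le_ofReal
          have hv := hV p.1 (Ioo_subset_Icc_self hp.1) p.2 (Ioo_subset_Icc_self hp.2)
          have hx := hp.2.1
          have : 1 / c * (V p.1 p.2 * p.2 ^ 9 * u p.1 p.2 ^ 2)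
              = (V p.1 p.2 / c) * (p.2 ^ 9 * u p.1 p.2 ^ 2) := by ring
          rw [this]
          have h1 : 1 ≤ V p.1 p.2 / c := by rwa [le_div_iff₀ hc, one_mul]
          have h0 : 0 ≤ p.2 ^ 9 * u p.1 p.2 ^ 2 := by positivity
          nlinarith
      _ = ENNReal.ofReal (1 / c) * ∫⁻ p in Ioo a b ×ˢ Ioo (0 : ℝ) L,
            ENNReal.ofReal (V p.1 p.2 * p.2 ^ 9 * u p.1 p.2 ^ 2) :=
          lintegral_const_mul' _ _ ENNReal.ofReal_ne_top
      _ ≤ ENNReal.ofReal (1 / c) * N2T (1 / 2) L V u := by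
          gcongr
          apply lintegral_mono_set
          exact prod_mono_left (Ioo_subset_Ioo ha.le hb.le)
      _ ≤ _ := by gcongr
  rw [← ENNReal.ofReal_mul (by positivity)] at h2
  have h3 := ENNReal.toReal_mono ENNReal.ofReal_ne_top h2
  rw [ENNReal.toReal_ofReal (by positivity)] at h3
  refine h3.trans (le_of_eq ?_)
  rw [hK]; ring

/-- `Hyp 9` from `Iter.pb`, `Iter.qb`. -/
theorem base (hB : Bg c0 C0 g L φ m) (hκ : κ ∈ Ioo (1 / 8 : ℝ) (1 / 4))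
    (hI : Iter κ L φ E η d) : Hyp L φ d 9 := by
  have hL : 0 < L := by linarith [hB.L_ge]
  have hub : ∀ j ≤ 6, UB L (aa j) (bj L φ d j) := by
    intro j hj a b ha hab hb
    refine ⟨(L ^ 2 + 1) ^ 25 * (L ^ 2 + 1) ^ aa j / a ^ j, fun i τ hτ x hx => ?_⟩
    have hτ' : τ ∈ Ioo (0 : ℝ) (1 / 2) := ⟨lt_of_lt_of_le ha hτ.1, lt_of_le_of_lt hτ.2 hb⟩
    have h := hI.pb i j hj τ hτ' x (Ioo_subset_Icc_self hx)
    exact Base.pt_bd (τ := τ) hL.le (Ioo_subset_Icc_self hx) ⟨hτ.1, hτ.2.trans hb.le⟩ ha h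
  refine ⟨?_, ?_, ?_, ?_⟩
  · intro l hl a b ha hab hb
    have hκ0 : 0 < κ := lt_trans (by norm_num) hκ.1
    set c : ℝ := a ^ (2 * κ) / (L ^ 2 + 1) ^ (60 - 2 * l) with hc
    have hcp : 0 < c := div_pos (Real.rpow_pos_of_pos ha _) (by positivity)
    refine ⟨1 / c, fun i => ?_⟩
    refine Base.ul2 (V := WJ κ l) (R := 1 ^ 2) hL ha hab hb ?_ hcp ?_ (hI.qb i l (by omega))
      (by norm_num) (by norm_num)
    · exact (((bb_sm hB (hI.sm i)).dt_iter isOpen_Ioo hL l)).mono half_sub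
    · intro τ hτ x hx
      obtain ⟨h1, h2⟩ := Base.rho_bd hx (⟨hτ.1, hτ.2.trans hb.le⟩ : τ ∈ Icc a (1 / 2)) ha
      have hr : 0 < x ^ 2 + τ := lt_of_lt_of_le ha h1
      rw [hc, WJ]
      apply div_le_div₀
      · exact Real.rpow_nonneg (ha.le.trans hτ.1) _
      · exact Real.rpow_le_rpow ha.le hτ.1 (by linarith)
      · exact pow_pos hr _
      · exact pow_le_pow_left₀ hr.le h2 _
  · intro l hl
    have h := hub l (by omega)
    have e : aa l = 0 := by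
      unfold aa
      rw [if_neg (by omega), if_neg (by omega)]
    rwa [e] at h
  · intro l hl
    have e0 : l = 5 := by omega
    subst e0
    have h := hub 5 (by omega)
    have e : aa 5 = 2 := by decide
    rwa [e] at h
  · intro l hl
    have e0 : l = 6 := by omega
    subst e0
    have h := hub 6 (by omega)
    have e : aa 6 = 4 := by decide
    rwa [e] at h

/-- iteration in `i` for sup norms. -/
theorem it_ub (hL : 0 < L) {u : ℕ → ℝ → ℝ → ℝ} (hu : ∀ i, Sm (Ioo 0 (1 / 2)) L (u i)) {e : ℕ}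
    (h : ∀ a b : ℝ, 0 < a → a < b → b < 1 / 2 → ∃ C : ℝ, ∀ i, ∀ τ ∈ Icc a b, ∀ x ∈ Ioo 0 L,
      |u (i + 1) τ x| * x ^ e ≤ 1 / 2 * (|u i τ x| * x ^ e) + C) :
    UB L e u := by
  intro a b ha hab hb
  obtain ⟨C, hC⟩ := h a b ha hab hb
  have hcont : ContinuousOn (fun p : ℝ × ℝ => |u 0 p.1 p.2| * p.2 ^ e) (Icc a b ×ˢ Icc 0 L) := by
    have h1 : ContinuousOn (fun p : ℝ × ℝ => u 0 p.1 p.2) (Icc a b ×ˢ Icc 0 L) :=
      (hu 0).continuousOn.mono (prod_mono_left fun r hr =>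
        ⟨lt_of_lt_of_le ha hr.1, lt_of_le_of_lt hr.2 hb⟩)
    exact h1.abs.mul (continuous_snd.pow e).continuousOn
  obtain ⟨C', hC'⟩ := (isCompact_Icc.prod isCompact_Icc).exists_bound_of_continuousOn hcont
  refine ⟨max C' (2 * C), fun i => ?_⟩
  induction i with
  | zero =>
    intro τ hτ x hx
    exact ((le_abs_self _).trans (hC' (τ, x) ⟨hτ, Ioo_subset_Icc_self hx⟩)).trans
      (le_max_left _ _)
  | succ i ih =>
    intro τ hτ x hx
    have h1 := hC i τ hτ x hx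
    have h2 := ih τ hτ x hx
    have h3 : 2 * C ≤ max C' (2 * C) := le_max_right _ _
    linarith

end Crest.Agent.R213.C8
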