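import Crest.Agent.R213.C.ChainDefs
import Crest.Agent.R213.C.Interp478

/-!
# Row 213, part C4: the static pointwise chain at one fixed time (helper478)

Passes `k = 2, 1, 0`:
`Zb k`  : `|Z_i| / φ² · x^(2k+1) (1-x/L) ≤ A ρ^(25+k-i)`, `i ≤ 4+k`
`D2b k` : `|δ_i''| · x^(2k+1) (1-x/L) ≤ A ρ^(25+k-i)`, `i ≤ 4+k`
`Db k`  : `|δ_i| · x^(2k-1) ≤ A ρ^(25+k-i)`, `i ≤ 4+k`  (`k = 0`: `|δ_i| ≤ A ρ^(25-i)`).
-/

set_option autoImplicit false
set_option maxRecDepth 4000

open Set MeasureTheory Filter Topology Finset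

noncomputable section

namespace Crest.Agent.R213.C

namespace Chain

variable {L τ c C M H A : ℝ} {φ : ℝ → ℝ} {D D1 D2 Z h b E : ℕ → ℝ → ℝ} {x : ℝ} {k i : ℕ}

def Zb (L τ : ℝ) (φ : ℝ → ℝ) (Z : ℕ → ℝ → ℝ) (k : ℕ) (A : ℝ) : Prop :=
  ∀ i ≤ 4 + k, ∀ x ∈ Ioo 0 L,
    |Z i x| / φ x ^ 2 * (x ^ (2 * k + 1) * (1 - x / L)) ≤ A * (x ^ 2 + τ) ^ (25 + k - i)

def D2b (L τ : ℝ) (D2 : ℕ → ℝ → ℝ) (k : ℕ) (A : ℝ) : Prop :=
  ∀ i ≤ 4 + k, ∀ x ∈ Ioo 0 L,
    |D2 i x| * (x ^ (2 * k + 1) * (1 - x / L)) ≤ A * (x ^ 2 + τ) ^ (25 + k - i)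

def Db (L τ : ℝ) (D : ℕ → ℝ → ℝ) (k : ℕ) (A : ℝ) : Prop :=
  ∀ i ≤ 4 + k, ∀ x ∈ Ioo 0 L,
    |D i x| * x ^ (2 * k - 1) ≤ A * (x ^ 2 + τ) ^ (25 + k - i)

/-! ### elementary facts -/

theorem one_sub_pos (hx : x ∈ Ioo 0 L) : 0 < 1 - x / L := by
  have hL : 0 < L := hx.1.trans hx.2
  rw [sub_pos, div_lt_one hL]; exact hx.2


theorem rho_pos' (hτ : 0 < τ) (x : ℝ) : 0 < x ^ 2 + τ := by positivity

theorem rho_le' (hL : 8 ≤ L) (hτ : τ ∈ Ioo (0 : ℝ) 1) (hx : x ∈ Icc 0 L) : x ^ 2 + τ ≤ 2 * L ^ 2 := by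
  nlinarith [hx.1, hx.2, hτ.1, hτ.2]

theorem le_of_sq_le {a b : ℝ} (h : a ^ 2 ≤ b ^ 2) (hb : 0 ≤ b) : a ≤ b :=
  (le_abs_self a).trans (abs_le_of_sq_le_sq h hb)

theorem sum_bd {r A : ℝ} (hr : 0 < r) {i e : ℕ} (hie : i ≤ e) {f : ℕ → ℝ}
    (hf : ∀ l ≤ i, f l ≤ A * r ^ (e - l)) :
    ∑ l ∈ Finset.range (i + 1), f l / r ^ (i - l) ≤ (i + 1) * A * r ^ (e - i) := by
  have h1 : ∀ l ∈ Finset.range (i + 1), f l / r ^ (i - l) ≤ A * r ^ (e - i) := by
    intro l hl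
    have hl' : l ≤ i := Nat.lt_succ_iff.1 (Finset.mem_range.1 hl)
    rw [div_le_iff₀ (pow_pos hr _)]
    refine (hf l hl').trans (le_of_eq ?_)
    rw [mul_assoc, ← pow_add]
    congr 2
    omega
  refine (Finset.sum_le_sum h1).trans (le_of_eq ?_)
  simp
  ring

/-- AM-GM form of Cauchy–Schwarz. -/
theorem le_mul_of_amgm {a m q : ℝ} (hm : 0 ≤ m) (hq : 0 ≤ q)
    (h : ∀ l : ℝ, 0 < l → a ≤ (l * m ^ 2 + q ^ 2 / l) / 2) : a ≤ m * q := by
  rcases hm.eq_or_lt with h0 | h0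
  · subst h0
    rw [zero_mul]
    by_contra hcon
    push Not at hcon
    have h2 := h ((q ^ 2 + 1) / a) (by positivity)
    have h3 : q ^ 2 / ((q ^ 2 + 1) / a) = q ^ 2 * a / (q ^ 2 + 1) := by
      rw [div_div_eq_mul_div]
    rw [h3] at h2
    have h4 : q ^ 2 * a / (q ^ 2 + 1) ≤ a := by
      rw [div_le_iff₀ (by positivity)]
      nlinarith
    nlinarith
  rcases hq.eq_or_lt with h1 | h1
  · subst h1
    rw [mul_zero]
    by_contra hcon
    push Not at hcon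
    have h2 := h (a / m ^ 2) (by positivity)
    have h3 : a / m ^ 2 * m ^ 2 = a := by field_simp
    rw [h3] at h2
    norm_num at h2
    linarith
  · have h2 := h (q / m) (by positivity)
    have h3 : (q / m * m ^ 2 + q ^ 2 / (q / m)) / 2 = m * q := by field_simp; ring
    rwa [h3] at h2

/-- weighted Cauchy–Schwarz: `∫ w |f| ≤ M Q` if `∫ w f²/ r² ≤ M²`, `∫ w r² ≤ Q²`. -/
theorem wcs {a b M Q : ℝ} (hab : a ≤ b) {w f r : ℝ → ℝ} (hw : ContinuousOn w (Icc a b))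
    (hf : ContinuousOn f (Icc a b)) (hr : ContinuousOn r (Icc a b))
    (hw0 : ∀ s ∈ Icc a b, 0 ≤ w s) (hr0 : ∀ s ∈ Icc a b, 0 < r s) (hM : 0 ≤ M) (hQ : 0 ≤ Q)
    (h1 : ∫ s in a..b, w s * f s ^ 2 / r s ^ 2 ≤ M ^ 2) (h2 : ∫ s in a..b, w s * r s ^ 2 ≤ Q ^ 2) :
    ∫ s in a..b, w s * |f s| ≤ M * Q := by
  apply le_mul_of_amgm hM hQ
  intro l hl
  have c1 : ContinuousOn (fun s => w s * f s ^ 2 / r s ^ 2) (Icc a b) :=
    (hw.mul (hf.pow 2)).div (hr.pow 2) (fun s hs => (pow_pos (hr0 s hs) 2).ne')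
  have c2 : ContinuousOn (fun s => w s * r s ^ 2) (Icc a b) := hw.mul (hr.pow 2)
  have i1 : IntervalIntegrable (fun s => w s * f s ^ 2 / r s ^ 2) volume a b :=
    ContinuousOn.intervalIntegrable (by rwa [uIcc_of_le hab])
  have i2 : IntervalIntegrable (fun s => w s * r s ^ 2) volume a b :=
    ContinuousOn.intervalIntegrable (by rwa [uIcc_of_le hab])
  have i3 : IntervalIntegrable (fun s => w s * |f s|) volume a b :=
    ContinuousOn.intervalIntegrable (by rw [uIcc_of_le hab]; exact hw.mul hf.abs)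
  have h3 : ∫ s in a..b, w s * |f s| ≤ ∫ s in a..b, (l / 2 * (w s * f s ^ 2 / r s ^ 2)
      + 1 / (2 * l) * (w s * r s ^ 2)) := by
    apply intervalIntegral.integral_mono_on hab i3 ((i1.const_mul _).add (i2.const_mul _))
    intro s hs
    have hr' := hr0 s hs
    have key : |f s| ≤ l / 2 * (f s ^ 2 / r s ^ 2) + 1 / (2 * l) * r s ^ 2 := by
      have e1 : l / 2 * (f s ^ 2 / r s ^ 2) + 1 / (2 * l) * r s ^ 2 - |f s|
          = 1 / (2 * l) * (l * |f s| / r s - r s) ^ 2 := by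
        rw [← sq_abs (f s)]
        field_simp
        ring
      have : 0 ≤ 1 / (2 * l) * (l * |f s| / r s - r s) ^ 2 := by positivity
      linarith
    calc w s * |f s| ≤ w s * (l / 2 * (f s ^ 2 / r s ^ 2) + 1 / (2 * l) * r s ^ 2) :=
          mul_le_mul_of_nonneg_left key (hw0 s hs)
      _ = _ := by ring
  rw [intervalIntegral.integral_add (i1.const_mul _) (i2.const_mul _),
    intervalIntegral.integral_const_mul, intervalIntegral.integral_const_mul] at h3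
  have h4 : l / 2 * (∫ s in a..b, w s * f s ^ 2 / r s ^ 2) ≤ l / 2 * M ^ 2 :=
    mul_le_mul_of_nonneg_left h1 (by positivity)
  have h5 : 1 / (2 * l) * (∫ s in a..b, w s * r s ^ 2) ≤ 1 / (2 * l) * Q ^ 2 :=
    mul_le_mul_of_nonneg_left h2 (by positivity)
  calc ∫ s in a..b, w s * |f s| ≤ l / 2 * M ^ 2 + 1 / (2 * l) * Q ^ 2 := by linarith
    _ = _ := by field_simp

theorem phi_pos (hy : ChainHyp L τ c C M H φ D D1 D2 Z h b E) (hx : x ∈ Ioo 0 L) : 0 < φ x :=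
  lt_of_lt_of_le (mul_pos hy.c_pos (mul_pos hx.1 (one_sub_pos hx)))
    (hy.phi_lower x ⟨hx.1.le, hx.2.le⟩)

theorem cD (hy : ChainHyp L τ c C M H φ D D1 D2 Z h b E) (hi : i ≤ 7) :
    ContinuousOn (D i) (Icc 0 L) := fun x hx => (hy.hD1 i hi x hx).continuousWithinAt

theorem hD1' (hy : ChainHyp L τ c C M H φ D D1 D2 Z h b E) (hi : i ≤ 7) (hx : x ∈ Ioo 0 L) :
    HasDerivAt (D i) (D1 i x) x :=
  (hy.hD1 i hi x ⟨hx.1.le, hx.2.le⟩).hasDerivAt (Icc_mem_nhds hx.1 hx.2)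

theorem hD2' (hy : ChainHyp L τ c C M H φ D D1 D2 Z h b E) (hi : i ≤ 7) (hx : x ∈ Ioo 0 L) :
    HasDerivAt (D1 i) (D2 i x) x :=
  (hy.hD2 i hi x ⟨hx.1.le, hx.2.le⟩).hasDerivAt (Icc_mem_nhds hx.1 hx.2)

/-! ### the mass bound -/

/-- `∫_a^b s⁹ D_i² / ρ^(58-2i) ≤ M²` on every subinterval. -/
theorem mass_sub (hy : ChainHyp L τ c C M H φ D D1 D2 Z h b E) (hi : i ≤ 7) {a b' : ℝ}
    (ha : 0 ≤ a) (hab : a ≤ b') (hb : b' ≤ L) :
    ∫ s in a..b', s ^ 9 * D i s ^ 2 / (s ^ 2 + τ) ^ (58 - 2 * i) ≤ M ^ 2 := by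
  refine le_trans ?_ (hy.mass i hi)
  have hτ := hy.tau.1
  have hL : 0 ≤ L := by linarith [hy.L_ge]
  apply intervalIntegral.integral_mono_interval ha hab hb
  · refine (ae_restrict_iff' measurableSet_Ioc).2 (Eventually.of_forall fun t ht => ?_)
    have ht0 : 0 < t := ht.1
    positivity
  · apply ContinuousOn.intervalIntegrable
    rw [uIcc_of_le hL]
    refine ((continuousOn_id.pow 9).mul ((cD hy hi).pow 2)).div (by fun_prop) ?_
    intro s _
    have : 0 < s ^ 2 + τ := by positivity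
    positivity

theorem int_D_le (hy : ChainHyp L τ c C M H φ D D1 D2 Z h b E) (hi : i ≤ 7) (hx : x ∈ Icc 0 L) :
    ∫ s in (0 : ℝ)..x, s ^ 9 * |D i s| ≤ M * (x ^ 5 * (x ^ 2 + τ) ^ (29 - i)) := by
  have hτ := hy.tau.1
  have hx0 := hx.1
  apply wcs (r := fun s => (s ^ 2 + τ) ^ (29 - i)) hx.1 (by fun_prop)
    ((cD hy hi).mono (Icc_subset_Icc_right hx.2)) (by fun_prop)
  · intro s hs; have := hs.1; positivity
  · intro s hs; positivity
  · exact hy.M_nn
  · positivity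
  · have := mass_sub hy hi le_rfl hx.1 hx.2
    have e : 58 - 2 * i = (29 - i) * 2 := by omega
    rw [e] at this
    simpa only [pow_mul] using this
  · have h1 : ∀ s ∈ Icc 0 x, s ^ 9 * ((s ^ 2 + τ) ^ (29 - i)) ^ 2 ≤ x ^ 9 * ((x ^ 2 + τ) ^ (29 - i)) ^ 2 := by
      intro s hs
      have hs0 := hs.1
      have hsx := hs.2
      gcongr
    have h2 : ∫ s in (0 : ℝ)..x, s ^ 9 * ((s ^ 2 + τ) ^ (29 - i)) ^ 2
        ≤ ∫ _ in (0 : ℝ)..x, x ^ 9 * ((x ^ 2 + τ) ^ (29 - i)) ^ 2 := by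
      apply intervalIntegral.integral_mono_on hx.1
      · apply Continuous.intervalIntegrable; fun_prop
      · simp
      · exact h1
    refine h2.trans (le_of_eq ?_)
    simp
    ring

theorem int_E_le (hy : ChainHyp L τ c C M H φ D D1 D2 Z h b E) (hi : i ≤ 6) (hx : x ∈ Icc 0 L) :
    ∫ s in (0 : ℝ)..x, s ^ 9 * |E i s| ≤ L ^ 5 * M * (x ^ 5 * (x ^ 2 + τ) ^ (28 - i)) := by
  have hτ := hy.tau.1
  have hx0 := hx.1
  have hM := hy.M_nn
  have hL : 0 ≤ L := by linarith [hy.L_ge]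
  rcases le_total x 1 with h1 | h1
  · have h0 : ∫ s in (0 : ℝ)..x, s ^ 9 * |E i s| = ∫ s in (0 : ℝ)..x, (0 : ℝ) := by
      apply intervalIntegral.integral_congr
      intro s hs
      rw [uIcc_of_le hx0] at hs
      simp only
      rw [hy.E_zero i hi s ⟨hs.1, hs.2.trans h1⟩]
      simp
    rw [h0, intervalIntegral.integral_zero]
    positivity
  · have h2 : ∫ s in (0 : ℝ)..x, s ^ 9 * |E i s| ≤ ∫ _ in (0 : ℝ)..x, x ^ 9 * M := by
      apply intervalIntegral.integral_mono_on hx0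
      · apply ContinuousOn.intervalIntegrable
        rw [uIcc_of_le hx0]
        exact (continuousOn_id.pow 9).mul ((hy.cE i hi).mono (Icc_subset_Icc_right hx.2)).abs
      · simp
      · intro s hs
        have hs0 := hs.1
        have hsx := hs.2
        have := hy.E_bd i hi s ⟨hs.1, hs.2.trans hx.2⟩
        gcongr
    refine h2.trans ?_
    have h3 : 1 ≤ (x ^ 2 + τ) ^ (28 - i) := one_le_pow₀ (by nlinarith)
    have h4 : x ^ 5 ≤ L ^ 5 := pow_le_pow_left₀ hx0 hx.2 5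
    have h5 : ∫ _ in (0 : ℝ)..x, x ^ 9 * M = x ^ 5 * M * x ^ 5 := by simp; ring
    rw [h5]
    calc x ^ 5 * M * x ^ 5 = x ^ 5 * M * (x ^ 5 * 1) := by ring
      _ ≤ L ^ 5 * M * (x ^ 5 * (x ^ 2 + τ) ^ (28 - i)) := by gcongr

/-- `∫_0^x s⁹ |F_i| ≤ 2 L⁵ M x⁵ ρ^(28-i)`. -/
theorem int_F_le (hy : ChainHyp L τ c C M H φ D D1 D2 Z h b E) (hi : i ≤ 6) (hx : x ∈ Icc 0 L) :
    ∫ s in (0 : ℝ)..x, s ^ 9 * |E i s + D (i + 1) s|
      ≤ 2 * L ^ 5 * M * (x ^ 5 * (x ^ 2 + τ) ^ (28 - i)) := by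
  have hτ := hy.tau.1
  have hx0 := hx.1
  have hM := hy.M_nn
  have hL8 := hy.L_ge
  have hL : 0 ≤ L := by linarith
  have cE : ContinuousOn (E i) (Icc 0 x) := (hy.cE i hi).mono (Icc_subset_Icc_right hx.2)
  have cDi : ContinuousOn (D (i + 1)) (Icc 0 x) :=
    (cD hy (by omega)).mono (Icc_subset_Icc_right hx.2)
  have h1 : ∫ s in (0 : ℝ)..x, s ^ 9 * |E i s + D (i + 1) s|
      ≤ ∫ s in (0 : ℝ)..x, (s ^ 9 * |E i s| + s ^ 9 * |D (i + 1) s|) := by
    apply intervalIntegral.integral_mono_on hx0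
    · apply ContinuousOn.intervalIntegrable
      rw [uIcc_of_le hx0]
      exact (continuousOn_id.pow 9).mul (cE.add cDi).abs
    · apply ContinuousOn.intervalIntegrable
      rw [uIcc_of_le hx0]
      exact ((continuousOn_id.pow 9).mul cE.abs).add ((continuousOn_id.pow 9).mul cDi.abs)
    · intro s hs
      have hs0 := hs.1
      rw [← mul_add]
      exact mul_le_mul_of_nonneg_left (abs_add_le _ _) (by positivity)
  rw [intervalIntegral.integral_add] at h1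
  · have h2 := int_E_le hy hi hx
    have h3 := int_D_le hy (i := i + 1) (by omega) hx
    have e : 29 - (i + 1) = 28 - i := by omega
    rw [e] at h3
    have h4 : (1 : ℝ) ≤ L ^ 5 := one_le_pow₀ (by linarith)
    have h5 : M * (x ^ 5 * (x ^ 2 + τ) ^ (28 - i)) ≤ L ^ 5 * M * (x ^ 5 * (x ^ 2 + τ) ^ (28 - i)) := by
      have : 0 ≤ M * (x ^ 5 * (x ^ 2 + τ) ^ (28 - i)) := by positivity
      nlinarith
    linarith
  · apply ContinuousOn.intervalIntegrable
    rw [uIcc_of_le hx0]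
    exact (continuousOn_id.pow 9).mul cE.abs
  · apply ContinuousOn.intervalIntegrable
    rw [uIcc_of_le hx0]
    exact (continuousOn_id.pow 9).mul cDi.abs

theorem cF (hy : ChainHyp L τ c C M H φ D D1 D2 Z h b E) (hi : i ≤ 6) :
    ContinuousOn (fun s => E i s + D (i + 1) s) (Icc 0 L) :=
  (hy.cE i hi).add (cD hy (by omega))

/-! ### bounds of `Kint` -/

theorem Kint_le_int {F : ℝ → ℝ} (hx : x ∈ Icc 0 L) (hF : ContinuousOn F (Icc 0 L)) :
    |Kint F x| ≤ x * ∫ s in (0 : ℝ)..x, s ^ 9 * |F s| := by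
  unfold Kint
  have hF' : ContinuousOn F (Icc 0 x) := hF.mono (Icc_subset_Icc_right hx.2)
  refine (intervalIntegral.abs_integral_le_integral_abs hx.1).trans ?_
  rw [← intervalIntegral.integral_const_mul]
  apply intervalIntegral.integral_mono_on hx.1
  · apply ContinuousOn.intervalIntegrable
    rw [uIcc_of_le hx.1]
    exact (((continuousOn_const.sub continuousOn_id).mul (continuousOn_id.pow 9)).mul hF').abs
  · apply ContinuousOn.intervalIntegrable
    rw [uIcc_of_le hx.1]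
    exact continuousOn_const.mul ((continuousOn_id.pow 9).mul hF'.abs)
  · intro s hs
    have hs0 := hs.1
    have h1 : |x - s| ≤ x := by rw [abs_of_nonneg (by linarith [hs.2])]; linarith
    rw [abs_mul, abs_mul, abs_of_nonneg (pow_nonneg hs0 9)]
    calc |x - s| * s ^ 9 * |F s| ≤ x * s ^ 9 * |F s| := by gcongr
      _ = _ := by ring

/-- near `L`, using the two moment conditions. -/
theorem Kint_le_right {F : ℝ → ℝ} (hx : x ∈ Icc 0 L) (hF : ContinuousOn F (Icc 0 L))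
    (h9 : ∫ s in (0 : ℝ)..L, s ^ 9 * F s = 0) (h10 : ∫ s in (0 : ℝ)..L, s ^ 10 * F s = 0) :
    |Kint F x| ≤ (L - x) * ∫ s in (0 : ℝ)..L, s ^ 9 * |F s| := by
  have hL : 0 ≤ L := hx.1.trans hx.2
  have c0 : ContinuousOn (fun s : ℝ => (x - s) * s ^ 9 * F s) (Icc 0 L) :=
    ((continuousOn_const.sub continuousOn_id).mul (continuousOn_id.pow 9)).mul hF
  have h1 : ∫ s in (0 : ℝ)..L, (x - s) * s ^ 9 * F s = 0 := by
    have e : ∀ s, (x - s) * s ^ 9 * F s = x * (s ^ 9 * F s) - s ^ 10 * F s := by intro s; ring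
    simp_rw [e]
    rw [intervalIntegral.integral_sub, intervalIntegral.integral_const_mul, h9, h10]
    · simp
    · apply ContinuousOn.intervalIntegrable
      rw [uIcc_of_le hL]
      exact continuousOn_const.mul ((continuousOn_id.pow 9).mul hF)
    · apply ContinuousOn.intervalIntegrable
      rw [uIcc_of_le hL]
      exact (continuousOn_id.pow 10).mul hF
  have i1 : IntervalIntegrable (fun s : ℝ => (x - s) * s ^ 9 * F s) volume 0 x := by
    apply ContinuousOn.intervalIntegrable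
    rw [uIcc_of_le hx.1]
    exact c0.mono (Icc_subset_Icc_right hx.2)
  have i2 : IntervalIntegrable (fun s : ℝ => (x - s) * s ^ 9 * F s) volume x L := by
    apply ContinuousOn.intervalIntegrable
    rw [uIcc_of_le hx.2]
    exact c0.mono (Icc_subset_Icc_left hx.1)
  have h2 : Kint F x = - ∫ s in x..L, (x - s) * s ^ 9 * F s := by
    unfold Kint
    have := intervalIntegral.integral_add_adjacent_intervals i1 i2
    linarith
  rw [h2, abs_neg]
  have cabs : ContinuousOn (fun s : ℝ => s ^ 9 * |F s|) (Icc 0 L) := (continuousOn_id.pow 9).mul hF.abs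
  have h3 : ∫ s in x..L, |(x - s) * s ^ 9 * F s| ≤ ∫ s in x..L, (L - x) * (s ^ 9 * |F s|) := by
    apply intervalIntegral.integral_mono_on hx.2
    · exact i2.abs
    · apply ContinuousOn.intervalIntegrable
      rw [uIcc_of_le hx.2]
      exact continuousOn_const.mul (cabs.mono (Icc_subset_Icc_left hx.1))
    · intro s hs
      have hs0 : 0 ≤ s := hx.1.trans hs.1
      have h1 : |x - s| ≤ L - x := by rw [abs_of_nonpos (by linarith [hs.1])]; linarith [hs.2]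
      rw [abs_mul, abs_mul, abs_of_nonneg (pow_nonneg hs0 9)]
      calc |x - s| * s ^ 9 * |F s| ≤ (L - x) * s ^ 9 * |F s| := by gcongr
        _ = _ := by ring
  refine (intervalIntegral.abs_integral_le_integral_abs hx.2).trans (h3.trans ?_)
  rw [intervalIntegral.integral_const_mul]
  apply mul_le_mul_of_nonneg_left _ (sub_nonneg.2 hx.2)
  apply intervalIntegral.integral_mono_interval hx.1 hx.2 le_rfl
  · refine (ae_restrict_iff' measurableSet_Ioc).2 (Eventually.of_forall fun t ht => ?_)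
    have ht0 : 0 < t := ht.1
    positivity
  · apply ContinuousOn.intervalIntegrable
    rw [uIcc_of_le hL]
    exact cabs


/-! ### the `Z` bounds -/

/-- near `L` (all passes). -/
theorem Z_right (hy : ChainHyp L τ c C M H φ D D1 D2 Z h b E) (hi : i ≤ 6) (hk : k ≤ 2)
    (hx : x ∈ Ioo 0 L) (hx2 : L / 2 ≤ x) :
    |Z i x| / φ x ^ 2 * (x ^ (2 * k + 1) * (1 - x / L))
      ≤ (2 ^ 29 / c ^ 2 * L ^ 67 * M) * (x ^ 2 + τ) ^ (25 + k - i) := by
  have hτ := hy.tau.1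
  have hM := hy.M_nn
  have hL8 := hy.L_ge
  have hc := hy.c_pos
  have hL : 0 < L := by linarith
  have hx0 := hx.1
  have hxI : x ∈ Icc 0 L := ⟨hx.1.le, hx.2.le⟩
  have hw := one_sub_pos hx
  have hφ := phi_pos hy hx
  have hlow := hy.phi_lower x hxI
  have h1 := Kint_le_right hxI (cF hy hi) (hy.mom9 i hi) (hy.mom10 i hi)
  rw [← hy.Z_eq i hi x hxI, abs_mul, abs_of_pos (pow_pos hx0 9)] at h1
  have h2 := int_F_le hy hi (x := L) ⟨hL.le, le_rfl⟩
  have h3 : (L ^ 2 + τ) ^ (28 - i) ≤ (2 * L ^ 2) ^ 28 := by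
    have h4 := rho_le' hL8 hy.tau (x := L) ⟨hL.le, le_rfl⟩
    calc (L ^ 2 + τ) ^ (28 - i) ≤ (2 * L ^ 2) ^ (28 - i) := pow_le_pow_left₀ (by positivity) h4 _
      _ ≤ (2 * L ^ 2) ^ 28 := pow_le_pow_right₀ (by nlinarith) (by omega)
  have h5 : ∫ s in (0 : ℝ)..L, s ^ 9 * |E i s + D (i + 1) s| ≤ 2 ^ 29 * L ^ 66 * M := by
    refine h2.trans ?_
    calc 2 * L ^ 5 * M * (L ^ 5 * (L ^ 2 + τ) ^ (28 - i)) ≤ 2 * L ^ 5 * M * (L ^ 5 * (2 * L ^ 2) ^ 28) := by
          gcongr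
      _ = _ := by ring
  have h6 : x ^ 9 * |Z i x| ≤ (L - x) * (2 ^ 29 * L ^ 66 * M) :=
    h1.trans (mul_le_mul_of_nonneg_left h5 (by linarith [hx.2]))
  have h7 : L - x = L * (1 - x / L) := by field_simp
  rw [h7] at h6
  have hx1 : 1 ≤ x := by linarith
  have hρ : 1 ≤ (x ^ 2 + τ) ^ (25 + k - i) := one_le_pow₀ (by nlinarith)
  -- combine
  have h8 : |Z i x| / φ x ^ 2 ≤ |Z i x| / (c * (x * (1 - x / L))) ^ 2 := by
    apply div_le_div_of_nonneg_left (abs_nonneg _) (by positivity)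
    exact pow_le_pow_left₀ (by positivity) hlow 2
  have h9 : |Z i x| / φ x ^ 2 * (x ^ (2 * k + 1) * (1 - x / L))
      ≤ |Z i x| / (c * (x * (1 - x / L))) ^ 2 * (x ^ 9 * (1 - x / L)) := by
    have : x ^ (2 * k + 1) ≤ x ^ 9 := pow_le_pow_right₀ hx1 (by omega)
    gcongr
  refine h9.trans ?_
  have h10 : |Z i x| / (c * (x * (1 - x / L))) ^ 2 * (x ^ 9 * (1 - x / L))
      = (x ^ 9 * |Z i x|) / (c ^ 2 * x ^ 2 * (1 - x / L)) := by
    field_simp
  rw [h10, div_le_iff₀ (by positivity)]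
  refine h6.trans ?_
  have h11 : 2 ^ 29 / c ^ 2 * L ^ 67 * M * (x ^ 2 + τ) ^ (25 + k - i) * (c ^ 2 * x ^ 2 * (1 - x / L))
      = (L * (1 - x / L) * (2 ^ 29 * L ^ 66 * M)) * ((x ^ 2 + τ) ^ (25 + k - i) * x ^ 2) := by
    field_simp
  rw [h11]
  have h12 : 1 ≤ (x ^ 2 + τ) ^ (25 + k - i) * x ^ 2 := one_le_mul_of_one_le_of_one_le hρ (one_le_pow₀ hx1)
  exact le_mul_of_one_le_right (by positivity) h12

/-- left part, from a bound of `x⁹ Z`. -/
theorem Z_left (hy : ChainHyp L τ c C M H φ D D1 D2 Z h b E) {B : ℝ} (hx : x ∈ Ioo 0 L) (hx2 : x ≤ L / 2)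
    (hZ : x ^ 9 * |Z i x| * x ^ (2 * k) ≤ B * (x ^ 10 * (x ^ 2 + τ) ^ (25 + k - i))) :
    |Z i x| / φ x ^ 2 * (x ^ (2 * k + 1) * (1 - x / L))
      ≤ (2 / c ^ 2 * B) * (x ^ 2 + τ) ^ (25 + k - i) := by
  have hτ := hy.tau.1
  have hL8 := hy.L_ge
  have hc := hy.c_pos
  have hL : 0 < L := by linarith
  have hx0 := hx.1
  have hxI : x ∈ Icc 0 L := ⟨hx.1.le, hx.2.le⟩
  have hw := one_sub_pos hx
  have hφ := phi_pos hy hx
  have hlow := hy.phi_lower x hxI
  have hhalf : 1 / 2 ≤ 1 - x / L := by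
    have : x / L ≤ 1 / 2 := by rw [div_le_iff₀ hL]; linarith
    linarith
  have h8 : |Z i x| / φ x ^ 2 ≤ |Z i x| / (c * (x * (1 - x / L))) ^ 2 := by
    apply div_le_div_of_nonneg_left (abs_nonneg _) (by positivity)
    exact pow_le_pow_left₀ (by positivity) hlow 2
  have h9 : |Z i x| / φ x ^ 2 * (x ^ (2 * k + 1) * (1 - x / L))
      ≤ |Z i x| / (c * (x * (1 - x / L))) ^ 2 * (x ^ (2 * k + 1) * (1 - x / L)) := by
    gcongr
  refine h9.trans ?_
  have h10 : |Z i x| / (c * (x * (1 - x / L))) ^ 2 * (x ^ (2 * k + 1) * (1 - x / L))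
      = (x ^ 9 * |Z i x| * x ^ (2 * k)) / (c ^ 2 * x ^ 10 * (1 - x / L)) := by
    field_simp
    ring
  rw [h10, div_le_iff₀ (by positivity)]
  refine hZ.trans ?_
  have hB : 0 ≤ B * (x ^ 10 * (x ^ 2 + τ) ^ (25 + k - i)) := le_trans (by positivity) hZ
  have h11 : 2 / c ^ 2 * B * (x ^ 2 + τ) ^ (25 + k - i) * (c ^ 2 * x ^ 10 * (1 - x / L))
      = (B * (x ^ 10 * (x ^ 2 + τ) ^ (25 + k - i))) * (2 * (1 - x / L)) := by
    field_simp
  rw [h11]
  exact le_mul_of_one_le_right hB (by linarith)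

/-- step 1: the mass bound gives `Zb 2`. -/
theorem step1 (hy : ChainHyp L τ c C M H φ D D1 D2 Z h b E) (hA : M ≤ A) :
    Zb L τ φ Z 2 ((2 ^ 29 / c ^ 2) * L ^ 67 * A) := by
  intro i hi x hx
  have hi6 : i ≤ 6 := hi
  have hτ := hy.tau.1
  have hM := hy.M_nn
  have hL8 := hy.L_ge
  have hc := hy.c_pos
  have hL : 0 < L := by linarith
  have hx0 := hx.1
  have hxI : x ∈ Icc 0 L := ⟨hx.1.le, hx.2.le⟩
  have mono : (2 ^ 29 / c ^ 2 * L ^ 67 * M) * (x ^ 2 + τ) ^ (25 + 2 - i)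
      ≤ (2 ^ 29 / c ^ 2) * L ^ 67 * A * (x ^ 2 + τ) ^ (25 + 2 - i) := by
    gcongr
  rcases le_total (L / 2) x with h2 | h2
  · exact (Z_right hy hi6 le_rfl hx h2).trans mono
  · refine (Z_left hy (B := 4 * L ^ 7 * M) hx h2 ?_).trans (le_trans ?_ mono)
    · have h1 := Kint_le_int hxI (cF hy hi6)
      rw [← hy.Z_eq i hi6 x hxI, abs_mul, abs_of_pos (pow_pos hx0 9)] at h1
      have h3 := h1.trans (mul_le_mul_of_nonneg_left (int_F_le hy hi6 hxI) hx0.le)
      have h4 := rho_le' hL8 hy.tau hxI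
      have e : 28 - i = (25 + 2 - i) + 1 := by omega
      rw [e, pow_succ (x ^ 2 + τ)] at h3
      calc x ^ 9 * |Z i x| * x ^ (2 * 2)
          ≤ (x * (2 * L ^ 5 * M * (x ^ 5 * ((x ^ 2 + τ) ^ (25 + 2 - i) * (x ^ 2 + τ))))) * x ^ (2 * 2) := by
            gcongr
        _ = 2 * L ^ 5 * M * (x ^ 2 + τ) * (x ^ 10 * (x ^ 2 + τ) ^ (25 + 2 - i)) := by ring
        _ ≤ 2 * L ^ 5 * M * (2 * L ^ 2) * (x ^ 10 * (x ^ 2 + τ) ^ (25 + 2 - i)) := by gcongr
        _ = _ := by ring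
    · have h5 : L ^ 7 ≤ L ^ 67 := pow_le_pow_right₀ (by linarith) (by norm_num)
      have h6 : 2 / c ^ 2 * (4 * L ^ 7 * M) ≤ 2 ^ 29 / c ^ 2 * L ^ 67 * M := by
        have : 2 / c ^ 2 * (4 * L ^ 7 * M) = 8 / c ^ 2 * L ^ 7 * M := by ring
        rw [this]
        gcongr
        norm_num
      exact mul_le_mul_of_nonneg_right h6 (by positivity)

/-- step 4: `Db (k+1)` gives `Zb k`, `k = 0, 1`. -/
theorem step4 (hy : ChainHyp L τ c C M H φ D D1 D2 Z h b E) (hA : M ≤ A) (hk : k ≤ 1)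
    (hD : Db L τ D (k + 1) A) :
    Zb L τ φ Z k ((2 ^ 29 / c ^ 2) * L ^ 67 * A) := by
  intro i hi x hx
  have hi6 : i ≤ 6 := by omega
  have hτ := hy.tau.1
  have hM := hy.M_nn
  have hA0 : 0 ≤ A := hM.trans hA
  have hL8 := hy.L_ge
  have hc := hy.c_pos
  have hL : 0 < L := by linarith
  have hx0 := hx.1
  have hxI : x ∈ Icc 0 L := ⟨hx.1.le, hx.2.le⟩
  rcases le_total (L / 2) x with h2 | h2
  · refine (Z_right hy hi6 (by omega) hx h2).trans ?_
    gcongr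
  · have hL1 : (1 : ℝ) ≤ L := by linarith
    refine (Z_left hy (B := 2 * L ^ 3 * A) hx h2 ?_).trans ?_
    · -- pointwise bound of `F`
      have hF : ∀ s ∈ Icc 0 x, s ^ 9 * |E i s + D (i + 1) s| * x ^ (2 * k)
          ≤ 2 * L ^ 3 * A * (x ^ 8 * (x ^ 2 + τ) ^ (25 + k - i)) := by
        intro s hs
        rcases hs.1.eq_or_lt with h0 | hs0
        · rw [← h0]; simp; positivity
        have hsL : s < L := lt_of_le_of_lt hs.2 hx.2
        have hsI : s ∈ Icc 0 L := ⟨hs0.le, hsL.le⟩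
        have hρ : s ^ 2 + τ ≤ x ^ 2 + τ := by nlinarith [hs.2]
        have d1 := hD (i + 1) (by omega) s ⟨hs0, hsL⟩
        have e1 : 2 * (k + 1) - 1 = 2 * k + 1 := by omega
        have e2 : 25 + (k + 1) - (i + 1) = 25 + k - i := by omega
        rw [e1, e2] at d1
        -- `|E i s| s^(2k+1) ≤ L^3 A ρ^..`
        have d2 : |E i s| * s ^ (2 * k + 1) ≤ L ^ 3 * A * (s ^ 2 + τ) ^ (25 + k - i) := by
          rcases le_total s 1 with h1 | h1
          · rw [hy.E_zero i hi6 s ⟨hs0.le, h1⟩]; simp; positivity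
          · have h3 : 1 ≤ (s ^ 2 + τ) ^ (25 + k - i) := one_le_pow₀ (by nlinarith)
            have h4 : s ^ (2 * k + 1) ≤ L ^ 3 :=
              (pow_le_pow_left₀ hs0.le hsL.le _).trans (pow_le_pow_right₀ hL1 (by omega))
            calc |E i s| * s ^ (2 * k + 1) ≤ A * L ^ 3 := by
                  have := (hy.E_bd i hi6 s hsI).trans hA
                  gcongr
              _ = L ^ 3 * A * 1 := by ring
              _ ≤ _ := by gcongr
        have hL3 : (1 : ℝ) ≤ L ^ 3 := one_le_pow₀ hL1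
        have d3 : |E i s + D (i + 1) s| * s ^ (2 * k + 1) ≤ 2 * L ^ 3 * A * (s ^ 2 + τ) ^ (25 + k - i) := by
          have h5 : |E i s + D (i + 1) s| ≤ |E i s| + |D (i + 1) s| := abs_add_le _ _
          have h6 : A * (s ^ 2 + τ) ^ (25 + k - i) ≤ L ^ 3 * (A * (s ^ 2 + τ) ^ (25 + k - i)) :=
            le_mul_of_one_le_left (by positivity) hL3
          calc |E i s + D (i + 1) s| * s ^ (2 * k + 1)
              ≤ (|E i s| + |D (i + 1) s|) * s ^ (2 * k + 1) := by gcongr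
            _ ≤ L ^ 3 * A * (s ^ 2 + τ) ^ (25 + k - i) + A * (s ^ 2 + τ) ^ (25 + k - i) := by
                rw [add_mul]; exact add_le_add d2 d1
            _ ≤ _ := by linarith
        have e3 : 9 = (2 * k + 1) + (8 - 2 * k) := by omega
        calc s ^ 9 * |E i s + D (i + 1) s| * x ^ (2 * k)
            = (|E i s + D (i + 1) s| * s ^ (2 * k + 1)) * (s ^ (8 - 2 * k) * x ^ (2 * k)) := by
              rw [show s ^ 9 = s ^ (2 * k + 1) * s ^ (8 - 2 * k) by rw [← pow_add, ← e3]]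
              ring
          _ ≤ (2 * L ^ 3 * A * (s ^ 2 + τ) ^ (25 + k - i)) * (x ^ (8 - 2 * k) * x ^ (2 * k)) := by
              have := hs.2
              gcongr
          _ ≤ (2 * L ^ 3 * A * (x ^ 2 + τ) ^ (25 + k - i)) * (x ^ (8 - 2 * k) * x ^ (2 * k)) := by
              gcongr
          _ = _ := by
              rw [← pow_add, show 8 - 2 * k + 2 * k = 8 by omega]
              ring
      have h1 := Kint_le_int hxI (cF hy hi6)
      rw [← hy.Z_eq i hi6 x hxI, abs_mul, abs_of_pos (pow_pos hx0 9)] at h1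
      have h7 : (∫ s in (0 : ℝ)..x, s ^ 9 * |E i s + D (i + 1) s|) * x ^ (2 * k)
          ≤ x * (2 * L ^ 3 * A * (x ^ 8 * (x ^ 2 + τ) ^ (25 + k - i))) := by
        rw [← intervalIntegral.integral_mul_const]
        have h8 : ∫ s in (0 : ℝ)..x, s ^ 9 * |E i s + D (i + 1) s| * x ^ (2 * k)
            ≤ ∫ _ in (0 : ℝ)..x, 2 * L ^ 3 * A * (x ^ 8 * (x ^ 2 + τ) ^ (25 + k - i)) := by
          apply intervalIntegral.integral_mono_on hx0.le
          · apply ContinuousOn.intervalIntegrable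
            rw [uIcc_of_le hx0.le]
            exact ((continuousOn_id.pow 9).mul
              ((cF hy hi6).mono (Icc_subset_Icc_right hx.2.le)).abs).mul continuousOn_const
          · simp
          · exact hF
        refine h8.trans (le_of_eq ?_)
        simp
        ring
      calc x ^ 9 * |Z i x| * x ^ (2 * k)
          ≤ (x * ∫ s in (0 : ℝ)..x, s ^ 9 * |E i s + D (i + 1) s|) * x ^ (2 * k) := by gcongr
        _ = x * ((∫ s in (0 : ℝ)..x, s ^ 9 * |E i s + D (i + 1) s|) * x ^ (2 * k)) := by ring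
        _ ≤ x * (x * (2 * L ^ 3 * A * (x ^ 8 * (x ^ 2 + τ) ^ (25 + k - i)))) := by gcongr
        _ = _ := by ring
    · have h5 : L ^ 3 ≤ L ^ 67 := pow_le_pow_right₀ hL1 (by norm_num)
      have h6 : 2 / c ^ 2 * (2 * L ^ 3 * A) ≤ 2 ^ 29 / c ^ 2 * L ^ 67 * A := by
        have : 2 / c ^ 2 * (2 * L ^ 3 * A) = 4 / c ^ 2 * L ^ 3 * A := by ring
        rw [this]
        gcongr
        norm_num
      exact mul_le_mul_of_nonneg_right h6 (by positivity)

/-- step 2: `Zb k` gives `D2b k`. -/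
theorem step2 (hy : ChainHyp L τ c C M H φ D D1 D2 Z h b E) (hA : H ≤ A) (hk : k ≤ 2)
    (hZ : Zb L τ φ Z k A) :
    D2b L τ D2 k (7 * C * (1 + 1 / c) * A) := by
  intro i hi x hx
  have hi6 : i ≤ 6 := by omega
  have hτ := hy.tau.1
  have hH := hy.H_nn
  have hA0 : 0 ≤ A := hH.trans hA
  have hL8 := hy.L_ge
  have hc := hy.c_pos
  have hC := hy.C_ge
  have hL : 0 < L := by linarith
  have hx0 := hx.1
  have hxI : x ∈ Icc 0 L := ⟨hx.1.le, hx.2.le⟩
  have hw := one_sub_pos hx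
  have hφ := phi_pos hy hx
  have hlow := hy.phi_lower x hxI
  have hρ := rho_pos' hτ x
  have key : ∀ l ≤ i, (|Z l x| / φ x ^ 2 + |h l x| / φ x) * (x ^ (2 * k + 1) * (1 - x / L))
      ≤ ((1 + 1 / c) * A) * (x ^ 2 + τ) ^ (25 + k - l) := by
    intro l hl
    have h1 := hZ l (by omega) x hx
    have h2 := hy.h_bd l (by omega) x hx
    have h3 : |h l x| / φ x * (x ^ (2 * k + 1) * (1 - x / L)) ≤ |h l x| * x ^ (2 * k) / c := by
      have h4 : |h l x| / φ x ≤ |h l x| / (c * (x * (1 - x / L))) :=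
        div_le_div_of_nonneg_left (abs_nonneg _) (by positivity) hlow
      calc |h l x| / φ x * (x ^ (2 * k + 1) * (1 - x / L))
          ≤ |h l x| / (c * (x * (1 - x / L))) * (x ^ (2 * k + 1) * (1 - x / L)) := by gcongr
        _ = _ := by
            have hne : L - x ≠ 0 := sub_ne_zero.2 hx.2.ne'
            rw [pow_succ]; field_simp
    have h5 : |h l x| * x ^ (2 * k) ≤ A * (x ^ 2 + τ) ^ (25 + k - l) := by
      have e1 : 2 * k = 2 * (l - 4) + 2 * (k - (l - 4)) := by omega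
      have e2 : 25 + k - l = (25 + (l - 4) - l) + (k - (l - 4)) := by omega
      rw [e1, e2, pow_add, pow_add, ← mul_assoc, ← mul_assoc]
      have h6 : x ^ (2 * (k - (l - 4))) ≤ (x ^ 2 + τ) ^ (k - (l - 4)) := by
        rw [pow_mul]
        exact pow_le_pow_left₀ (by positivity) (by linarith) _
      calc |h l x| * x ^ (2 * (l - 4)) * x ^ (2 * (k - (l - 4)))
          ≤ (H * (x ^ 2 + τ) ^ (25 + (l - 4) - l)) * (x ^ 2 + τ) ^ (k - (l - 4)) := by gcongr
        _ ≤ _ := by gcongr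
    rw [add_mul]
    have h7 : |h l x| * x ^ (2 * k) / c ≤ 1 / c * (A * (x ^ 2 + τ) ^ (25 + k - l)) := by
      rw [div_mul_eq_mul_div, one_mul]; gcongr
    calc _ ≤ A * (x ^ 2 + τ) ^ (25 + k - l) + 1 / c * (A * (x ^ 2 + τ) ^ (25 + k - l)) :=
          add_le_add h1 (h3.trans h7)
      _ = _ := by ring
  have hsum := sum_bd hρ (e := 25 + k) (by omega) key
  have hb := hy.D2_bd i hi6 x hx
  calc |D2 i x| * (x ^ (2 * k + 1) * (1 - x / L))
      ≤ (C * ∑ l ∈ Finset.range (i + 1), (|Z l x| / φ x ^ 2 + |h l x| / φ x) / (x ^ 2 + τ) ^ (i - l))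
        * (x ^ (2 * k + 1) * (1 - x / L)) := by gcongr
    _ = C * ∑ l ∈ Finset.range (i + 1), (|Z l x| / φ x ^ 2 + |h l x| / φ x)
          * (x ^ (2 * k + 1) * (1 - x / L)) / (x ^ 2 + τ) ^ (i - l) := by
        rw [mul_assoc, Finset.sum_mul]
        congr 1
        apply Finset.sum_congr rfl
        intro l _
        ring
    _ ≤ C * (((i : ℝ) + 1) * ((1 + 1 / c) * A) * (x ^ 2 + τ) ^ (25 + k - i)) := by gcongr
    _ ≤ C * (7 * ((1 + 1 / c) * A) * (x ^ 2 + τ) ^ (25 + k - i)) := by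
        have : (i : ℝ) ≤ 6 := by exact_mod_cast hi6
        gcongr
        linarith
    _ = _ := by ring

/-- step 6: the bound of `b`. -/
theorem step6 (hy : ChainHyp L τ c C M H φ D D1 D2 Z h b E) (hA0 : 0 ≤ A) (hk : k ≤ 2)
    (hD : D2b L τ D2 k A) (hi : i ≤ 4 + k) (hx : x ∈ Ioo 0 L) :
    |b i x| * x ^ (2 * k) ≤ (7 * C ^ 2 * A) * (x ^ 2 + τ) ^ (25 + k - i) := by
  have hi6 : i ≤ 6 := by omega
  have hτ := hy.tau.1
  have hL8 := hy.L_ge
  have hc := hy.c_pos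
  have hC := hy.C_ge
  have hL : 0 < L := by linarith
  have hx0 := hx.1
  have hxI : x ∈ Icc 0 L := ⟨hx.1.le, hx.2.le⟩
  have hw := one_sub_pos hx
  have hφ := phi_pos hy hx
  have hup := hy.phi_upper x hxI
  have hρ := rho_pos' hτ x
  have key : ∀ l ≤ i, |D2 l x| * (x ^ (2 * k + 1) * (1 - x / L)) ≤ A * (x ^ 2 + τ) ^ (25 + k - l) :=
    fun l hl => hD l (by omega) x hx
  have hsum := sum_bd hρ (e := 25 + k) (by omega) key
  have hb := hy.b_bd i hi6 x hx
  have hS : 0 ≤ ∑ l ∈ Finset.range (i + 1), |D2 l x| / (x ^ 2 + τ) ^ (i - l) :=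
    Finset.sum_nonneg fun l _ => by positivity
  calc |b i x| * x ^ (2 * k)
      ≤ (C * φ x * ∑ l ∈ Finset.range (i + 1), |D2 l x| / (x ^ 2 + τ) ^ (i - l)) * x ^ (2 * k) := by
        gcongr
    _ ≤ (C * (C * (x * (1 - x / L))) * ∑ l ∈ Finset.range (i + 1), |D2 l x| / (x ^ 2 + τ) ^ (i - l))
          * x ^ (2 * k) := by gcongr
    _ = C ^ 2 * ((∑ l ∈ Finset.range (i + 1), |D2 l x| / (x ^ 2 + τ) ^ (i - l))
          * (x ^ (2 * k + 1) * (1 - x / L))) := by rw [pow_succ x (2 * k)]; ring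
    _ = C ^ 2 * ∑ l ∈ Finset.range (i + 1), |D2 l x| * (x ^ (2 * k + 1) * (1 - x / L))
          / (x ^ 2 + τ) ^ (i - l) := by
        rw [Finset.sum_mul]
        congr 1
        apply Finset.sum_congr rfl
        intro l _
        ring
    _ ≤ C ^ 2 * (((i : ℝ) + 1) * A * (x ^ 2 + τ) ^ (25 + k - i)) := by gcongr
    _ ≤ C ^ 2 * (7 * A * (x ^ 2 + τ) ^ (25 + k - i)) := by
        have : (i : ℝ) ≤ 6 := by exact_mod_cast hi6
        gcongr
        linarith
    _ = _ := by ring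

/-! ### from `δ''` to `δ` -/


/-- average part near `0`. -/
theorem avg_left (hy : ChainHyp L τ c C M H φ D D1 D2 Z h b E) (hi : i ≤ 6) (hx : 0 < x)
    (hx8 : x ≤ L / 8) {r : ℝ} (hr : r = √(x ^ 2 + τ)) :
    18 / r * (∫ t in r..(2 * r), |D i t|) ≤ 576 * 5 ^ 29 * L * M * (x ^ 2 + τ) ^ (26 - i) := by
  have hτ := hy.tau.1
  have hτ1 := hy.tau.2
  have hM := hy.M_nn
  have hL8 := hy.L_ge
  have hL : 0 < L := by linarith
  have hr2 : r ^ 2 = x ^ 2 + τ := by rw [hr]; exact Real.sq_sqrt (by positivity)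
  have hr0 : 0 < r := by rw [hr]; exact Real.sqrt_pos.2 (by positivity)
  have hrL : r ≤ L / 4 := by
    apply le_of_sq_le _ (by linarith)
    rw [hr2]
    nlinarith
  have h2r : 2 * r ≤ L := by linarith
  have hab : r ≤ 2 * r := by linarith
  have cDi : ContinuousOn (D i) (Icc r (2 * r)) :=
    (cD hy (by omega)).mono (Icc_subset_Icc hr0.le h2r)
  have h1 : ∫ t in r..(2 * r), t ^ 9 * |D i t| ≤ M * (32 * r ^ 5 * (5 * (x ^ 2 + τ)) ^ (29 - i)) := by
    apply wcs (r := fun s => (s ^ 2 + τ) ^ (29 - i)) hab (by fun_prop) cDi (by fun_prop)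
    · intro s hs; have := hr0.le.trans hs.1; positivity
    · intro s hs; positivity
    · exact hM
    · positivity
    · have := mass_sub hy (i := i) (by omega) hr0.le hab h2r
      have e : 58 - 2 * i = (29 - i) * 2 := by omega
      rw [e] at this
      simpa only [pow_mul] using this
    · have h1 : ∀ s ∈ Icc r (2 * r), s ^ 9 * ((s ^ 2 + τ) ^ (29 - i)) ^ 2
          ≤ (2 * r) ^ 9 * ((5 * (x ^ 2 + τ)) ^ (29 - i)) ^ 2 := by
        intro s hs
        have hs0 : 0 ≤ s := hr0.le.trans hs.1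
        have hs2 := hs.2
        have : s ^ 2 + τ ≤ 5 * (x ^ 2 + τ) := by nlinarith
        gcongr
      have h2 : ∫ s in r..(2 * r), s ^ 9 * ((s ^ 2 + τ) ^ (29 - i)) ^ 2
          ≤ ∫ _ in r..(2 * r), (2 * r) ^ 9 * ((5 * (x ^ 2 + τ)) ^ (29 - i)) ^ 2 := by
        apply intervalIntegral.integral_mono_on hab
        · apply Continuous.intervalIntegrable; fun_prop
        · simp
        · exact h1
      refine h2.trans ?_
      have h3 : ∫ _ in r..(2 * r), (2 * r) ^ 9 * ((5 * (x ^ 2 + τ)) ^ (29 - i)) ^ 2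
          = 512 * r ^ 10 * ((5 * (x ^ 2 + τ)) ^ (29 - i)) ^ 2 := by
        simp; ring
      rw [h3]
      generalize (5 * (x ^ 2 + τ)) ^ (29 - i) = X
      have h4 : (32 * r ^ 5 * X) ^ 2 = 1024 * (r ^ 10 * X ^ 2) := by ring
      have h5 : 0 ≤ r ^ 10 * X ^ 2 := by positivity
      rw [h4]
      linarith
  have h2 : r ^ 9 * ∫ t in r..(2 * r), |D i t| ≤ ∫ t in r..(2 * r), t ^ 9 * |D i t| := by
    rw [← intervalIntegral.integral_const_mul]
    apply intervalIntegral.integral_mono_on hab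
    · apply ContinuousOn.intervalIntegrable
      rw [uIcc_of_le hab]
      exact continuousOn_const.mul cDi.abs
    · apply ContinuousOn.intervalIntegrable
      rw [uIcc_of_le hab]
      exact (continuousOn_id.pow 9).mul cDi.abs
    · intro s hs
      have := hs.1
      gcongr
  have h3 : (∫ t in r..(2 * r), |D i t|) ≤ M * (32 * r ^ 5 * (5 * (x ^ 2 + τ)) ^ (29 - i)) / r ^ 9 := by
    rw [le_div_iff₀ (by positivity), mul_comm]
    exact h2.trans h1
  have e : 29 - i = (26 - i) + 3 := by omega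
  calc 18 / r * (∫ t in r..(2 * r), |D i t|)
      ≤ 18 / r * (M * (32 * r ^ 5 * (5 * (x ^ 2 + τ)) ^ (29 - i)) / r ^ 9) := by gcongr
    _ = 576 * M * 5 ^ (29 - i) * ((x ^ 2 + τ) ^ (26 - i)) * ((x ^ 2 + τ) ^ 3 / r ^ 5) := by
        rw [mul_pow, show (x ^ 2 + τ) ^ (29 - i) = (x ^ 2 + τ) ^ (26 - i) * (x ^ 2 + τ) ^ 3 by
          rw [← pow_add, ← e]]
        field_simp
        ring
    _ = 576 * M * 5 ^ (29 - i) * ((x ^ 2 + τ) ^ (26 - i)) * r := by
        rw [← hr2]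
        field_simp
    _ ≤ 576 * M * 5 ^ 29 * ((x ^ 2 + τ) ^ (26 - i)) * L := by
        have h5 : (5 : ℝ) ^ (29 - i) ≤ 5 ^ 29 := pow_le_pow_right₀ (by norm_num) (by omega)
        have h6 : r ≤ L := by linarith
        gcongr
    _ = _ := by ring

/-- integral part near `0`. -/
theorem int_left (hy : ChainHyp L τ c C M H φ D D1 D2 Z h b E) (hA0 : 0 ≤ A) (hk : k ≤ 2)
    (hD : D2b L τ D2 k A) (hi : i ≤ 4 + k) (hx : 0 < x)
    (hx8 : x ≤ L / 8) {r : ℝ} (hr : r = √(x ^ 2 + τ)) :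
    (∫ t in x..(2 * r), t * |D2 i t|) * x ^ (2 * k - 1)
      ≤ 2 * 5 ^ 27 * L * A * (x ^ 2 + τ) ^ (25 + k - i) := by
  have hτ := hy.tau.1
  have hτ1 := hy.tau.2
  have hL8 := hy.L_ge
  have hL : 0 < L := by linarith
  have hL1 : 1 ≤ L := by linarith
  have hr2 : r ^ 2 = x ^ 2 + τ := by rw [hr]; exact Real.sq_sqrt (by positivity)
  have hr0 : 0 < r := by rw [hr]; exact Real.sqrt_pos.2 (by positivity)
  have hxr : x ≤ r := by
    apply le_of_sq_le _ hr0.le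
    rw [hr2]; linarith
  have hrL : r ≤ L / 4 := by
    apply le_of_sq_le _ (by linarith)
    rw [hr2]
    nlinarith
  have h2r : 2 * r ≤ L / 2 := by linarith
  have hab : x ≤ 2 * r := by linarith
  set e := 25 + k - i with he
  have hρ := rho_pos' hτ x
  -- pointwise
  have hpt : ∀ t ∈ Icc x (2 * r), t ^ (2 * k + 1) * |D2 i t| ≤ 2 * A * (5 * (x ^ 2 + τ)) ^ e := by
    intro t ht
    have ht0 : 0 < t := hx.trans_le ht.1
    have htL : t < L := by linarith [ht.2]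
    have h1 := hD i hi t ⟨ht0, htL⟩
    have hhalf : 1 / 2 ≤ 1 - t / L := by
      have : t / L ≤ 1 / 2 := by rw [div_le_iff₀ hL]; linarith [ht.2]
      linarith
    have h5 : t ^ 2 + τ ≤ 5 * (x ^ 2 + τ) := by nlinarith [ht.2]
    have h6 : A * (t ^ 2 + τ) ^ e ≤ A * (5 * (x ^ 2 + τ)) ^ e := by gcongr
    have h7 : |D2 i t| * (t ^ (2 * k + 1) * (1 / 2)) ≤ |D2 i t| * (t ^ (2 * k + 1) * (1 - t / L)) := by
      gcongr
    calc t ^ (2 * k + 1) * |D2 i t| = 2 * (|D2 i t| * (t ^ (2 * k + 1) * (1 / 2))) := by ring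
      _ ≤ 2 * (A * (5 * (x ^ 2 + τ)) ^ e) :=
          mul_le_mul_of_nonneg_left (h7.trans (h1.trans h6)) (by norm_num)
      _ = _ := by ring
  have hcD : ContinuousOn (fun t => t * |D2 i t|) (Icc x (2 * r)) :=
    continuousOn_id.mul ((hy.cD2 i (by omega)).mono (Icc_subset_Icc hx.le (by linarith))).abs
  have hconst : 2 * A * (5 * (x ^ 2 + τ)) ^ e ≤ 2 * 5 ^ 27 * A * (x ^ 2 + τ) ^ e := by
    rw [mul_pow]
    have : (5 : ℝ) ^ e ≤ 5 ^ 27 := pow_le_pow_right₀ (by norm_num) (by omega)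
    calc 2 * A * (5 ^ e * (x ^ 2 + τ) ^ e) ≤ 2 * A * (5 ^ 27 * (x ^ 2 + τ) ^ e) := by gcongr
      _ = _ := by ring
  rcases Nat.eq_zero_or_pos k with hk0 | hk0
  · subst hk0
    have h1 : ∫ t in x..(2 * r), t * |D2 i t| ≤ ∫ _ in x..(2 * r), 2 * A * (5 * (x ^ 2 + τ)) ^ e := by
      apply intervalIntegral.integral_mono_on hab
      · apply ContinuousOn.intervalIntegrable; rwa [uIcc_of_le hab]
      · simp
      · intro t ht
        have := hpt t ht
        simpa using this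
    have h2 : ∫ _ in x..(2 * r), 2 * A * (5 * (x ^ 2 + τ)) ^ e = (2 * r - x) * (2 * A * (5 * (x ^ 2 + τ)) ^ e) := by
      rw [intervalIntegral.integral_const, smul_eq_mul]
    rw [h2] at h1
    have h3 : 2 * r - x ≤ L := by linarith
    simp only [mul_zero, Nat.zero_sub, pow_zero, mul_one]
    calc ∫ t in x..(2 * r), t * |D2 i t| ≤ (2 * r - x) * (2 * A * (5 * (x ^ 2 + τ)) ^ e) := h1
      _ ≤ L * (2 * 5 ^ 27 * A * (x ^ 2 + τ) ^ e) := by
          apply mul_le_mul h3 hconst (by positivity) hL.le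
      _ = _ := by ring
  · -- `k ≥ 1`
    have hpt2 : ∀ t ∈ Icc x (2 * r), t * |D2 i t| * x ^ (2 * k - 1)
        ≤ (2 * A * (5 * (x ^ 2 + τ)) ^ e) * (x / t ^ 2) := by
      intro t ht
      have ht0 : 0 < t := hx.trans_le ht.1
      have h1 := hpt t ht
      have h2 : x ^ (2 * k - 1) ≤ t ^ (2 * k) * (x / t ^ 2) := by
        have e1 : 2 * k - 1 = (2 * k - 2) + 1 := by omega
        have e2 : 2 * k = (2 * k - 2) + 2 := by omega
        rw [e1]
        conv_rhs => rw [e2]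
        rw [pow_succ, pow_add]
        have h3 : t ^ (2 * k - 2) * t ^ 2 * (x / t ^ 2) = t ^ (2 * k - 2) * x := by
          field_simp
        rw [h3]
        have := ht.1
        gcongr
      calc t * |D2 i t| * x ^ (2 * k - 1) ≤ t * |D2 i t| * (t ^ (2 * k) * (x / t ^ 2)) := by gcongr
        _ = (t ^ (2 * k + 1) * |D2 i t|) * (x / t ^ 2) := by ring
        _ ≤ _ := by gcongr
    have hint : ∫ t in x..(2 * r), x / t ^ 2 ≤ 1 := by
      have hder : ∀ t ∈ uIcc x (2 * r), HasDerivAt (fun t => -(x / t)) (x / t ^ 2) t := by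
        intro t ht
        rw [uIcc_of_le hab] at ht
        have ht0 : t ≠ 0 := (hx.trans_le ht.1).ne'
        have h1 := ((hasDerivAt_const t x).div (hasDerivAt_id t) ht0).neg
        refine h1.congr_deriv ?_
        simp
        ring
      have hci : IntervalIntegrable (fun t : ℝ => x / t ^ 2) volume x (2 * r) := by
        apply ContinuousOn.intervalIntegrable
        rw [uIcc_of_le hab]
        refine continuousOn_const.div (continuousOn_id.pow 2) ?_
        intro t ht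
        exact pow_ne_zero 2 (hx.trans_le ht.1).ne'
      rw [intervalIntegral.integral_eq_sub_of_hasDerivAt hder hci]
      have h2 : x / x = 1 := div_self hx.ne'
      have h3 : 0 ≤ x / (2 * r) := by positivity
      linarith
    rw [← intervalIntegral.integral_mul_const]
    have h1 : ∫ t in x..(2 * r), t * |D2 i t| * x ^ (2 * k - 1)
        ≤ ∫ t in x..(2 * r), (2 * A * (5 * (x ^ 2 + τ)) ^ e) * (x / t ^ 2) := by
      apply intervalIntegral.integral_mono_on hab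
      · apply ContinuousOn.intervalIntegrable
        rw [uIcc_of_le hab]
        exact hcD.mul continuousOn_const
      · apply ContinuousOn.intervalIntegrable
        rw [uIcc_of_le hab]
        refine continuousOn_const.mul (continuousOn_const.div (continuousOn_id.pow 2) ?_)
        intro t ht
        exact pow_ne_zero 2 (hx.trans_le ht.1).ne'
      · exact hpt2
    rw [intervalIntegral.integral_const_mul] at h1
    calc ∫ t in x..(2 * r), t * |D2 i t| * x ^ (2 * k - 1)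
        ≤ (2 * A * (5 * (x ^ 2 + τ)) ^ e) * ∫ t in x..(2 * r), x / t ^ 2 := h1
      _ ≤ (2 * 5 ^ 27 * A * (x ^ 2 + τ) ^ e) * L := by
          apply mul_le_mul hconst (hint.trans hL1) _ (by positivity)
          apply intervalIntegral.integral_nonneg hab
          intro t ht
          have ht0 : 0 < t := hx.trans_le ht.1
          positivity
      _ = _ := by ring

/-- the estimate on `[L/8, L)`. -/
theorem D_right (hy : ChainHyp L τ c C M H φ D D1 D2 Z h b E) (hA : M ≤ A) (hk : k ≤ 2)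
    (hD : D2b L τ D2 k A) (hi : i ≤ 4 + k) (hx : x ∈ Ioo 0 L) (hx8 : L / 8 ≤ x) :
    |D i x| ≤ 2 ^ 77 * L ^ 56 * A := by
  have hτ := hy.tau.1
  have hτ1 := hy.tau.2
  have hM := hy.M_nn
  have hA0 : 0 ≤ A := hM.trans hA
  have hL8 := hy.L_ge
  have hL : 0 < L := by linarith
  have hL1 : 1 ≤ L := by linarith
  have hxL := hx.2
  have hLI : L ∈ Icc 0 L := ⟨hL.le, le_rfl⟩
  obtain ⟨a, ha⟩ : ∃ a, a = L / 16 := ⟨_, rfl⟩
  have ha0 : 0 < a := by rw [ha]; positivity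
  have h2a : 2 * a ≤ x := by rw [ha]; linarith
  have hax : a ≤ x := by linarith
  have hsub : ∀ t ∈ Icc a x, t ∈ Ioo 0 L := fun t ht => ⟨ha0.trans_le ht.1, ht.2.trans_lt hxL⟩
  have T := interp_left (v := D i) (v1 := D1 i) (v2 := D2 i) ha0 h2a
    (fun t ht => hD1' hy (by omega) (hsub t ht)) (fun t ht => hD2' hy (by omega) (hsub t ht))
    ((hy.cD2 i (by omega)).mono (fun t ht => ⟨(hsub t ht).1.le, (hsub t ht).2.le⟩))
  -- first part
  have h1 := int_D_le hy (i := i) (by omega) hLI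
  have hab : a ≤ 2 * a := by linarith
  have h2aL : 2 * a ≤ L := by linarith
  have cDi : ContinuousOn (D i) (Icc 0 L) := cD hy (by omega)
  have h2 : a ^ 9 * ∫ t in a..(2 * a), |D i t| ≤ ∫ t in (0 : ℝ)..L, t ^ 9 * |D i t| := by
    rw [← intervalIntegral.integral_const_mul]
    have h3 : ∫ t in a..(2 * a), a ^ 9 * |D i t| ≤ ∫ t in a..(2 * a), t ^ 9 * |D i t| := by
      apply intervalIntegral.integral_mono_on hab
      · apply ContinuousOn.intervalIntegrable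
        rw [uIcc_of_le hab]
        exact continuousOn_const.mul (cDi.mono (Icc_subset_Icc ha0.le h2aL)).abs
      · apply ContinuousOn.intervalIntegrable
        rw [uIcc_of_le hab]
        exact (continuousOn_id.pow 9).mul (cDi.mono (Icc_subset_Icc ha0.le h2aL)).abs
      · intro s hs
        have := hs.1
        gcongr
    refine h3.trans ?_
    apply intervalIntegral.integral_mono_interval ha0.le hab h2aL
    · refine (ae_restrict_iff' measurableSet_Ioc).2 (Eventually.of_forall fun t ht => ?_)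
      have ht0 : 0 < t := ht.1
      positivity
    · apply ContinuousOn.intervalIntegrable
      rw [uIcc_of_le hL.le]
      exact (continuousOn_id.pow 9).mul cDi.abs
  have h3 : (L ^ 2 + τ) ^ (29 - i) ≤ (2 * L ^ 2) ^ 29 := by
    have h4 := rho_le' hL8 hy.tau hLI
    calc (L ^ 2 + τ) ^ (29 - i) ≤ (2 * L ^ 2) ^ (29 - i) := pow_le_pow_left₀ (by positivity) h4 _
      _ ≤ (2 * L ^ 2) ^ 29 := pow_le_pow_right₀ (by nlinarith) (by omega)
  have h4 : ∫ t in a..(2 * a), |D i t| ≤ M * (L ^ 5 * (2 * L ^ 2) ^ 29) / a ^ 9 := by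
    rw [le_div_iff₀ (by positivity), mul_comm]
    refine h2.trans (h1.trans ?_)
    gcongr
  have h5 : 9 * x / a ^ 2 * (∫ t in a..(2 * a), |D i t|) ≤ 9 * 2 ^ 73 * L ^ 53 * M := by
    calc 9 * x / a ^ 2 * (∫ t in a..(2 * a), |D i t|)
        ≤ 9 * L / a ^ 2 * (M * (L ^ 5 * (2 * L ^ 2) ^ 29) / a ^ 9) := by
          gcongr
          exact intervalIntegral.integral_nonneg hab (fun _ _ => abs_nonneg _)
      _ = 9 * 2 ^ 73 * L ^ 53 * M := by
          rw [ha]; field_simp; ring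
  -- second part
  have h6 : ∀ t ∈ Icc a x, (x - t) * |D2 i t| ≤ 2 ^ 32 * L ^ 55 * A := by
    intro t ht
    obtain ⟨ht0, htL⟩ := hsub t ht
    have hw := one_sub_pos (L := L) ⟨ht0, htL⟩
    have hb := hD i hi t ⟨ht0, htL⟩
    have hth : 1 / 2 ≤ t := by
      have := ht.1
      rw [ha] at this
      linarith
    have hρt := rho_le' hL8 hy.tau (x := t) ⟨ht0.le, htL.le⟩
    have h7 : (t ^ 2 + τ) ^ (25 + k - i) ≤ (2 * L ^ 2) ^ 27 :=
      calc (t ^ 2 + τ) ^ (25 + k - i) ≤ (2 * L ^ 2) ^ (25 + k - i) := pow_le_pow_left₀ (by positivity) hρt _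
        _ ≤ (2 * L ^ 2) ^ 27 := pow_le_pow_right₀ (by nlinarith) (by omega)
    have h8 : (1 / 2 : ℝ) ^ 5 ≤ t ^ (2 * k + 1) :=
      calc (1 / 2 : ℝ) ^ 5 ≤ (1 / 2) ^ (2 * k + 1) := pow_le_pow_of_le_one (by norm_num) (by norm_num) (by omega)
        _ ≤ _ := pow_le_pow_left₀ (by norm_num) hth _
    have h9 : |D2 i t| * ((1 / 2) ^ 5 * (1 - t / L)) ≤ A * (2 * L ^ 2) ^ 27 := by
      calc |D2 i t| * ((1 / 2) ^ 5 * (1 - t / L)) ≤ |D2 i t| * (t ^ (2 * k + 1) * (1 - t / L)) := by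
            gcongr
        _ ≤ A * (t ^ 2 + τ) ^ (25 + k - i) := hb
        _ ≤ _ := by gcongr
    have h10 : x - t ≤ L * (1 - t / L) := by
      have : L * (1 - t / L) = L - t := by field_simp
      rw [this]; linarith
    calc (x - t) * |D2 i t| ≤ (L * (1 - t / L)) * |D2 i t| := by gcongr
      _ = 2 ^ 5 * L * (|D2 i t| * ((1 / 2) ^ 5 * (1 - t / L))) := by ring
      _ ≤ 2 ^ 5 * L * (A * (2 * L ^ 2) ^ 27) := by gcongr
      _ = _ := by ring
  have h11 : ∫ t in a..x, (x - t) * |D2 i t| ≤ 2 ^ 32 * L ^ 56 * A := by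
    have h12 : ∫ t in a..x, (x - t) * |D2 i t| ≤ ∫ _ in a..x, 2 ^ 32 * L ^ 55 * A := by
      apply intervalIntegral.integral_mono_on hax
      · apply ContinuousOn.intervalIntegrable
        rw [uIcc_of_le hax]
        exact (continuousOn_const.sub continuousOn_id).mul
          ((hy.cD2 i (by omega)).mono (fun t ht => ⟨(hsub t ht).1.le, (hsub t ht).2.le⟩)).abs
      · simp
      · exact h6
    refine h12.trans ?_
    have : ∫ _ in a..x, 2 ^ 32 * L ^ 55 * A = (x - a) * (2 ^ 32 * L ^ 55 * A) := by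
      rw [intervalIntegral.integral_const, smul_eq_mul]
    rw [this]
    calc (x - a) * (2 ^ 32 * L ^ 55 * A) ≤ L * (2 ^ 32 * L ^ 55 * A) := by
          have : x - a ≤ L := by linarith
          gcongr
      _ = _ := by ring
  have h13 : L ^ 53 ≤ L ^ 56 := pow_le_pow_right₀ hL1 (by norm_num)
  have h14 : 9 * 2 ^ 73 * L ^ 53 * M ≤ 9 * 2 ^ 73 * L ^ 56 * A := by gcongr
  have h15 : 0 ≤ L ^ 56 * A := by positivity
  nlinarith [T, h5, h11, h14, h15]

/-- steps 3 and 5. -/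
theorem step3 (hy : ChainHyp L τ c C M H φ D D1 D2 Z h b E) (hA : M ≤ A) (hk : k ≤ 2)
    (hD : D2b L τ D2 k A) :
    Db L τ D k (2 ^ 80 * L ^ 59 * A) := by
  intro i hi x hx
  have hτ := hy.tau.1
  have hτ1 := hy.tau.2
  have hM := hy.M_nn
  have hA0 : 0 ≤ A := hM.trans hA
  have hL8 := hy.L_ge
  have hL : 0 < L := by linarith
  have hL1 : 1 ≤ L := by linarith
  have hx0 := hx.1
  have hxI : x ∈ Icc 0 L := ⟨hx.1.le, hx.2.le⟩
  have hρ := rho_pos' hτ x
  have hρL := rho_le' hL8 hy.tau hxI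
  rcases le_total (L / 8) x with h8 | h8
  · have h1 := D_right hy hA hk hD hi hx h8
    have h2 : x ^ (2 * k - 1) ≤ L ^ 3 :=
      (pow_le_pow_left₀ hx0.le hx.2.le _).trans (pow_le_pow_right₀ hL1 (by omega))
    have h3 : 1 ≤ (x ^ 2 + τ) ^ (25 + k - i) := one_le_pow₀ (by nlinarith)
    calc |D i x| * x ^ (2 * k - 1) ≤ (2 ^ 77 * L ^ 56 * A) * L ^ 3 := by gcongr
      _ = 2 ^ 77 * L ^ 59 * A * 1 := by ring
      _ ≤ 2 ^ 80 * L ^ 59 * A * (x ^ 2 + τ) ^ (25 + k - i) := by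
          have h5 : (2 : ℝ) ^ 77 ≤ 2 ^ 80 := by norm_num
          have h6 : 0 ≤ L ^ 59 * A * 1 := by positivity
          have h7 : 2 ^ 77 * L ^ 59 * A * 1 ≤ 2 ^ 80 * L ^ 59 * A * 1 := by nlinarith
          refine h7.trans ?_
          gcongr
  · obtain ⟨r, hr⟩ : ∃ r, r = √(x ^ 2 + τ) := ⟨_, rfl⟩
    have hr2 : r ^ 2 = x ^ 2 + τ := by rw [hr]; exact Real.sq_sqrt (by positivity)
    have hr0 : 0 < r := by rw [hr]; exact Real.sqrt_pos.2 (by positivity)
    have hxr : x ≤ r := by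
      apply le_of_sq_le _ hr0.le
      rw [hr2]; linarith
    have hrL : r ≤ L / 4 := by
      apply le_of_sq_le _ (by linarith)
      rw [hr2]
      nlinarith
    have hsub : ∀ t ∈ Icc x (2 * r), t ∈ Ioo 0 L :=
      fun t ht => ⟨hx0.trans_le ht.1, ht.2.trans_lt (by linarith)⟩
    have T := interp_right (v := D i) (v1 := D1 i) (v2 := D2 i) hx0.le hxr hr0
      (fun t ht => hD1' hy (by omega) (hsub t ht)) (fun t ht => hD2' hy (by omega) (hsub t ht))
      ((hy.cD2 i (by omega)).mono (fun t ht => ⟨(hsub t ht).1.le, (hsub t ht).2.le⟩))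
    have h1 := avg_left hy (i := i) (by omega) hx0 h8 hr
    have h2 := int_left hy hA0 hk hD hi hx0 h8 hr
    have h3 : x ^ (2 * k - 1) * (x ^ 2 + τ) ^ (26 - i) ≤ 2 * L ^ 2 * (x ^ 2 + τ) ^ (25 + k - i) := by
      rcases Nat.eq_zero_or_pos k with hk0 | hk0
      · subst hk0
        have e : 26 - i = (25 + 0 - i) + 1 := by omega
        rw [e, pow_succ]
        simp only [mul_zero, Nat.zero_sub, pow_zero, one_mul]
        calc (x ^ 2 + τ) ^ (25 + 0 - i) * (x ^ 2 + τ) ≤ (x ^ 2 + τ) ^ (25 + 0 - i) * (2 * L ^ 2) := by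
              gcongr
          _ = _ := by ring
      · have e1 : 2 * k - 1 = 2 * (k - 1) + 1 := by omega
        have e2 : 25 + k - i = (k - 1) + (26 - i) := by omega
        rw [e1, e2, pow_succ, pow_mul, pow_add]
        have h4 : (x ^ 2) ^ (k - 1) ≤ (x ^ 2 + τ) ^ (k - 1) :=
          pow_le_pow_left₀ (by positivity) (by linarith) _
        have h5 : x ≤ 2 * L ^ 2 := by nlinarith [hx.2]
        calc (x ^ 2) ^ (k - 1) * x * (x ^ 2 + τ) ^ (26 - i)
            ≤ (x ^ 2 + τ) ^ (k - 1) * (2 * L ^ 2) * (x ^ 2 + τ) ^ (26 - i) := by gcongr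
          _ = _ := by ring
    have h6 : |D i x| * x ^ (2 * k - 1) ≤ (18 / r * (∫ t in r..(2 * r), |D i t|)) * x ^ (2 * k - 1)
        + (∫ t in x..(2 * r), t * |D2 i t|) * x ^ (2 * k - 1) := by
      rw [← add_mul]
      gcongr
    have h7 : (18 / r * (∫ t in r..(2 * r), |D i t|)) * x ^ (2 * k - 1)
        ≤ 576 * 5 ^ 29 * L * A * (2 * L ^ 2 * (x ^ 2 + τ) ^ (25 + k - i)) := by
      calc (18 / r * (∫ t in r..(2 * r), |D i t|)) * x ^ (2 * k - 1)
          ≤ (576 * 5 ^ 29 * L * M * (x ^ 2 + τ) ^ (26 - i)) * x ^ (2 * k - 1) := by gcongr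
        _ = 576 * 5 ^ 29 * L * M * (x ^ (2 * k - 1) * (x ^ 2 + τ) ^ (26 - i)) := by ring
        _ ≤ _ := by gcongr
    have h8' : L ^ 3 ≤ L ^ 59 := pow_le_pow_right₀ hL1 (by norm_num)
    have h9 : L ≤ L ^ 59 := by
      calc L = L ^ 1 := (pow_one L).symm
        _ ≤ L ^ 59 := pow_le_pow_right₀ hL1 (by norm_num)
    have h10 : 576 * 5 ^ 29 * L * A * (2 * L ^ 2 * (x ^ 2 + τ) ^ (25 + k - i))
        ≤ (576 * 5 ^ 29 * 2) * (L ^ 59 * A * (x ^ 2 + τ) ^ (25 + k - i)) := by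
      calc _ = (576 * 5 ^ 29 * 2) * (L ^ 3 * A * (x ^ 2 + τ) ^ (25 + k - i)) := by ring
        _ ≤ _ := by gcongr
    have h11 : 2 * 5 ^ 27 * L * A * (x ^ 2 + τ) ^ (25 + k - i)
        ≤ (2 * 5 ^ 27) * (L ^ 59 * A * (x ^ 2 + τ) ^ (25 + k - i)) := by
      calc _ = (2 * 5 ^ 27) * (L * A * (x ^ 2 + τ) ^ (25 + k - i)) := by ring
        _ ≤ _ := by gcongr
    have h12 : 0 ≤ L ^ 59 * A * (x ^ 2 + τ) ^ (25 + k - i) := by positivity
    have h13 : (576 * 5 ^ 29 * 2 + 2 * 5 ^ 27 : ℝ) ≤ 2 ^ 80 := by norm_num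
    calc |D i x| * x ^ (2 * k - 1)
        ≤ (576 * 5 ^ 29 * 2 + 2 * 5 ^ 27) * (L ^ 59 * A * (x ^ 2 + τ) ^ (25 + k - i)) := by linarith
      _ ≤ 2 ^ 80 * (L ^ 59 * A * (x ^ 2 + τ) ^ (25 + k - i)) := mul_le_mul_of_nonneg_right h13 h12
      _ = _ := by ring

theorem Zb.mono {B : ℝ} (hτ : 0 < τ) (hAB : A ≤ B) (h : Zb L τ φ Z k A) : Zb L τ φ Z k B := by
  intro i hi x hx
  refine (h i hi x hx).trans ?_
  gcongr

end Chain

open Chain in
/-- the static chain -/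
theorem chainThm : ChainThm := by
  intro c C hc
  by_cases hC : 1 ≤ C
  swap
  · exact ⟨1, le_rfl, 0, fun L τ M H φ D D1 D2 Z h b E hy => absurd hy.C_ge hC⟩
  obtain ⟨K1, hK1⟩ : ∃ K1, K1 = 1 + 2 ^ 29 / c ^ 2 := ⟨_, rfl⟩
  obtain ⟨K2, hK2⟩ : ∃ K2, K2 = 7 * C * (1 + 1 / c) := ⟨_, rfl⟩
  obtain ⟨K3, hK3⟩ : ∃ K3 : ℝ, K3 = 2 ^ 80 := ⟨_, rfl⟩
  have hK1' : 1 ≤ K1 := by rw [hK1]; have : 0 < 2 ^ 29 / c ^ 2 := by positivity
                           linarith
  have hK2' : 1 ≤ K2 := by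
    rw [hK2]
    have h1 : 0 < 1 / c := by positivity
    nlinarith
  have hK3' : 1 ≤ K3 := by rw [hK3]; norm_num
  refine ⟨7 * C ^ 2 * (K1 * K2 * K3) ^ 3, ?_, 378, ?_⟩
  · have h1 : 1 ≤ K1 * K2 * K3 :=
      one_le_mul_of_one_le_of_one_le (one_le_mul_of_one_le_of_one_le hK1' hK2') hK3'
    have h2 : 1 ≤ (K1 * K2 * K3) ^ 3 := one_le_pow₀ h1
    nlinarith
  intro L τ M H φ D D1 D2 Z h b E hy
  have hτ := hy.tau.1
  have hM := hy.M_nn
  have hH := hy.H_nn
  have hL8 := hy.L_ge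
  have hL1 : 1 ≤ L := by linarith
  -- the three factors
  obtain ⟨P, hP⟩ : ∃ P, P = K1 * L ^ 67 := ⟨_, rfl⟩
  obtain ⟨R, hR⟩ : ∃ R, R = K3 * L ^ 59 := ⟨_, rfl⟩
  have hP1 : 1 ≤ P := by rw [hP]; exact one_le_mul_of_one_le_of_one_le hK1' (one_le_pow₀ hL1)
  have hR1 : 1 ≤ R := by rw [hR]; exact one_le_mul_of_one_le_of_one_le hK3' (one_le_pow₀ hL1)
  have stepZ0 : ∀ A, M + H ≤ A → Zb L τ φ Z 2 (P * A) := by
    intro A hA
    refine (step1 hy (A := A) (by linarith)).mono hτ ?_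
    have hA0 : 0 ≤ A := by linarith
    rw [hP, hK1]
    have : 0 ≤ L ^ 67 * A := by positivity
    nlinarith
  have stepZ : ∀ k ≤ 1, ∀ A, M + H ≤ A → Db L τ D (k + 1) A → Zb L τ φ Z k (P * A) := by
    intro k hk A hA hD
    refine (step4 hy (A := A) (by linarith) hk hD).mono hτ ?_
    have hA0 : 0 ≤ A := by linarith
    rw [hP, hK1]
    have : 0 ≤ L ^ 67 * A := by positivity
    nlinarith
  have stepD2 : ∀ k ≤ 2, ∀ A, M + H ≤ A → Zb L τ φ Z k A → D2b L τ D2 k (K2 * A) := by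
    intro k hk A hA hZ
    rw [hK2]
    exact step2 hy (by linarith) hk hZ
  have stepD : ∀ k ≤ 2, ∀ A, M + H ≤ A → D2b L τ D2 k A → Db L τ D k (R * A) := by
    intro k hk A hA hD
    rw [hR, hK3]
    exact step3 hy (by linarith) hk hD
  have up : ∀ {X A : ℝ}, 1 ≤ X → M + H ≤ A → M + H ≤ X * A := by
    intro X A hX hA
    have hA0 : 0 ≤ A := by linarith
    nlinarith
  have z2 := stepZ0 (M + H) le_rfl
  have a1 : M + H ≤ P * (M + H) := up hP1 le_rfl
  have d2 := stepD2 2 le_rfl _ a1 z2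
  have a2 := up hK2' a1
  have e2 := stepD 2 le_rfl _ a2 d2
  have a3 := up hR1 a2
  have z1 := stepZ 1 le_rfl _ a3 e2
  have a4 := up hP1 a3
  have d1 := stepD2 1 (by norm_num) _ a4 z1
  have a5 := up hK2' a4
  have e1 := stepD 1 (by norm_num) _ a5 d1
  have a6 := up hR1 a5
  have z0 := stepZ 0 (by norm_num) _ a6 e1
  have a7 := up hP1 a6
  have d0 := stepD2 0 (by norm_num) _ a7 z0
  have a8 := up hK2' a7
  have e0 := stepD 0 (by norm_num) _ a8 d0
  have a9 := up hR1 a8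
  obtain ⟨A2, hA2⟩ : ∃ A2, A2 = K2 * (P * (M + H)) := ⟨_, rfl⟩
  obtain ⟨A5, hA5⟩ : ∃ A5, A5 = K2 * (P * (R * A2)) := ⟨_, rfl⟩
  obtain ⟨A8, hA8⟩ : ∃ A8, A8 = K2 * (P * (R * A5)) := ⟨_, rfl⟩
  rw [← hA2] at d2 a2 a5 d1 a8 d0 a9 e0
  rw [← hA5] at a5 d1 a8 d0 a9 e0
  rw [← hA8] at a8 d0 a9 e0
  have n2 : 0 ≤ A2 := by linarith
  have n5 : 0 ≤ A5 := by linarith
  have n8 : 0 ≤ A8 := by linarith
  have m25 : A2 ≤ A5 := by
    rw [hA5]
    have h1 : A2 ≤ R * A2 := le_mul_of_one_le_left n2 hR1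
    have h2 : R * A2 ≤ P * (R * A2) := le_mul_of_one_le_left (by linarith) hP1
    have h3 : P * (R * A2) ≤ K2 * (P * (R * A2)) := le_mul_of_one_le_left (by linarith) hK2'
    linarith
  have m58 : A5 ≤ A8 := by
    rw [hA8]
    have h1 : A5 ≤ R * A5 := le_mul_of_one_le_left n5 hR1
    have h2 : R * A5 ≤ P * (R * A5) := le_mul_of_one_le_left (by linarith) hP1
    have h3 : P * (R * A5) ≤ K2 * (P * (R * A5)) := le_mul_of_one_le_left (by linarith) hK2'
    linarith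
  have m89 : A8 ≤ R * A8 := le_mul_of_one_le_left n8 hR1
  have hfin : 7 * C ^ 2 * (K1 * K2 * K3) ^ 3 * L ^ 378 * (M + H) = 7 * C ^ 2 * (R * A8) := by
    rw [hA8, hA5, hA2, hP, hR]; ring
  have hC2 : 1 ≤ 7 * C ^ 2 := by nlinarith
  rw [hfin]
  constructor
  · intro i hi x hx
    have hρ := rho_pos' hτ x
    have hk : i - 4 ≤ 2 := by omega
    have hA' : D2b L τ D2 (i - 4) A8 := by
      have mono : ∀ {k : ℕ} {A B : ℝ}, A ≤ B → D2b L τ D2 k A → D2b L τ D2 k B := by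
        intro k A B hAB hD j hj y hy'
        refine (hD j hj y hy').trans ?_
        gcongr
      interval_cases hk' : (i - 4)
      · exact d0
      · exact mono m58 d1
      · exact mono (m25.trans m58) d2
    refine (step6 hy n8 hk hA' (by omega) hx).trans ?_
    gcongr
  · intro i hi x hx
    have hρ := rho_pos' hτ x
    have h1 := e0 i (by omega) x hx
    simp only [mul_zero, Nat.zero_sub, pow_zero, mul_one, add_zero] at h1
    refine h1.trans ?_
    have n9 : 0 ≤ R * A8 := by linarith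
    have h2 : R * A8 ≤ 7 * C ^ 2 * (R * A8) := le_mul_of_one_le_left n9 hC2
    gcongr

end Crest.Agent.R213.C

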