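import Crest.Agent.R213.J0
import Crest.Agent.R213.J0bK
import Crest.Agent.R213.C.CDefs
import Crest.Agent.R213.C.ChainDefs

/-!
# Row 213, part C4: from the static chain to `pointwise_chain` (helper198)
-/

set_option autoImplicit false
set_option linter.unusedVariables false

open Set MeasureTheory Filter Topology Finset

noncomputable section

namespace Crest.Agent.R213.C.App

open Crest.Agent.R213 Crest.Agent.R213.C

variable {s : Set ℝ} {L t x : ℝ} {u v w : ℝ → ℝ → ℝ}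

/-! ### iterated `dt` -/

theorem dtIter_eq (u : ℝ → ℝ → ℝ) (j : ℕ) (t x : ℝ) :
    (dt^[j] u) t x = iteratedDeriv j (fun r => u r x) t := by
  induction j generalizing u with
  | zero => simp
  | succ j ih =>
    rw [Function.iterate_succ_apply, ih, iteratedDeriv_succ']
    rfl

theorem contDiffAt_left (hs : IsOpen s) (hu : Sm s L u) (ht : t ∈ s)
    (hx : x ∈ Icc 0 L) (n : ℕ) : ContDiffAt ℝ n (fun r => u r x) t :=
  ((hu.contDiffOn_left hx).contDiffAt (hs.mem_nhds ht)).of_le (by exact_mod_cast le_top)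

theorem dtIter_mul (hs : IsOpen s) (hu : Sm s L u) (hv : Sm s L v) (ht : t ∈ s)
    (hx : x ∈ Icc 0 L) (j : ℕ) :
    (dt^[j] (fun t x => u t x * v t x)) t x =
      ∑ i ∈ Finset.range (j + 1), (j.choose i : ℝ) * (dt^[i] u) t x * (dt^[j - i] v) t x := by
  simp only [dtIter_eq]
  have h := iteratedDerivWithin_mul (𝕜 := ℝ) (n := j) (s := univ) (x := t) (mem_univ t)
    uniqueDiffOn_univ (f := fun r => u r x) (g := fun r => v r x)
    (contDiffAt_left hs hu ht hx j).contDiffWithinAt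
    (contDiffAt_left hs hv ht hx j).contDiffWithinAt
  simp only [iteratedDerivWithin_univ] at h
  exact h

/-- Leibniz, other order -/
theorem dtIter_mul' (hs : IsOpen s) (hu : Sm s L u) (hv : Sm s L v) (ht : t ∈ s)
    (hx : x ∈ Icc 0 L) (j : ℕ) :
    (dt^[j] (fun t x => u t x * v t x)) t x =
      ∑ l ∈ Finset.range (j + 1), (j.choose l : ℝ) * (dt^[j - l] u) t x * (dt^[l] v) t x := by
  rw [dtIter_mul hs hu hv ht hx, ← Finset.sum_range_reflect]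
  refine Finset.sum_congr rfl (fun l hl => ?_)
  have hl' : l ≤ j := Nat.lt_succ_iff.1 (Finset.mem_range.1 hl)
  have h1 : j + 1 - 1 - l = j - l := by omega
  rw [h1, Nat.choose_symm hl', Nat.sub_sub_self hl']

theorem dtIter_add (hs : IsOpen s) (hu : Sm s L u) (hv : Sm s L v) (ht : t ∈ s)
    (hx : x ∈ Icc 0 L) (j : ℕ) :
    (dt^[j] (fun t x => u t x + v t x)) t x = (dt^[j] u) t x + (dt^[j] v) t x := by
  simp only [dtIter_eq]
  exact iteratedDeriv_fun_add (contDiffAt_left hs hu ht hx j) (contDiffAt_left hs hv ht hx j)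

theorem dtIter_left_mul (a : ℝ → ℝ) (u : ℝ → ℝ → ℝ) (j : ℕ) (t x : ℝ) :
    (dt^[j] (fun t x => a x * u t x)) t x = a x * (dt^[j] u) t x := by
  simp only [dtIter_eq]
  exact iteratedDeriv_const_mul_field _ _


/-- pointwise in `x` congruence -/
theorem dtIter_congr_at (hs : IsOpen s) (h : ∀ r ∈ s, v r x = u r x) (ht : t ∈ s) (j : ℕ) :
    (dt^[j] v) t x = (dt^[j] u) t x :=
  dt_iter_congr hs h ht j

theorem dtIter_dx (hs : IsOpen s) (hL : 0 < L) (hu : Sm s L u) (j : ℕ) :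
    ∀ t ∈ s, ∀ x ∈ Icc 0 L, (dt^[j] (dx L u)) t x = dx L (dt^[j] u) t x := by
  induction j generalizing u with
  | zero => intro t _ x _; rfl
  | succ j ih =>
    intro t ht x hx
    rw [Function.iterate_succ_apply, Function.iterate_succ_apply]
    rw [dtIter_congr_at hs (u := dx L (dt u)) (fun r hr => hu.dt_dx hs hL hr hx) ht j]
    exact ih (hu.dt hs hL) t ht x hx

theorem dtIter_dxdx (hs : IsOpen s) (hL : 0 < L) (hu : Sm s L u) (j : ℕ) :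
    ∀ t ∈ s, ∀ x ∈ Icc 0 L, (dt^[j] (dx L (dx L u))) t x = dx L (dx L (dt^[j] u)) t x := by
  intro t ht x hx
  rw [dtIter_dx hs hL (hu.dx hs hL) j t ht x hx]
  exact dx_congr (fun y hy => dtIter_dx hs hL hu j t ht y hy) hx

theorem dtIter_Kint (hs : IsOpen s) (hL : 0 < L) (hu : Sm s L u) (j : ℕ) :
    ∀ t ∈ s, ∀ x ∈ Icc 0 L, (dt^[j] (fun t x => Kint (u t) x)) t x = Kint ((dt^[j] u) t) x := by
  induction j generalizing u with
  | zero => intro t _ x _; rfl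
  | succ j ih =>
    intro t ht x hx
    rw [Function.iterate_succ_apply, Function.iterate_succ_apply]
    rw [dtIter_congr_at hs (u := fun t x => Kint (dt u t) x)
      (fun r hr => dt_Kint hs hL hu hr hx) ht j]
    exact ih (hu.dt hs hL) t ht x hx

/-! ### bounds -/

theorem sum_choose_real (j : ℕ) : ∑ i ∈ Finset.range (j + 1), (j.choose i : ℝ) = 2 ^ j := by
  exact_mod_cast Nat.sum_range_choose j

theorem choose_le_two_pow (j l : ℕ) (hl : l ≤ j) : (j.choose l : ℝ) ≤ 2 ^ j := by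
  rw [← sum_choose_real]
  exact Finset.single_le_sum (f := fun i => (j.choose i : ℝ)) (fun _ _ => by positivity)
    (Finset.mem_range.2 (Nat.lt_succ_iff.2 hl))

/-- product bound: `|u_k| ρ^k ≤ A` for `k ≤ j` gives the sum form -/
theorem mul_bd {ρ A : ℝ} (hρ : 0 < ρ) (hs : IsOpen s) (hu : Sm s L u) (hv : Sm s L v) (ht : t ∈ s)
    (hx : x ∈ Icc 0 L) (j : ℕ) (hA : ∀ k ≤ j, ρ ^ k * |(dt^[k] u) t x| ≤ A) :
    |(dt^[j] (fun t x => u t x * v t x)) t x| ≤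
      2 ^ j * A * ∑ l ∈ Finset.range (j + 1), |(dt^[l] v) t x| / ρ ^ (j - l) := by
  rw [dtIter_mul' hs hu hv ht hx]
  refine (Finset.abs_sum_le_sum_abs _ _).trans ?_
  rw [Finset.mul_sum]
  refine Finset.sum_le_sum (fun l hl => ?_)
  have hl' : l ≤ j := Nat.lt_succ_iff.1 (Finset.mem_range.1 hl)
  have h1 := hA (j - l) (Nat.sub_le _ _)
  have h2 : |(dt^[j - l] u) t x| ≤ A / ρ ^ (j - l) := by
    rw [le_div_iff₀ (pow_pos hρ _)]; linarith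
  rw [abs_mul, abs_mul, abs_of_nonneg (by positivity : (0:ℝ) ≤ (j.choose l : ℝ))]
  have hA0 : 0 ≤ A / ρ ^ (j - l) := (abs_nonneg _).trans h2
  calc (j.choose l : ℝ) * |(dt^[j - l] u) t x| * |(dt^[l] v) t x|
      ≤ 2 ^ j * (A / ρ ^ (j - l)) * |(dt^[l] v) t x| := by
        gcongr
        exact choose_le_two_pow j l hl'
    _ = 2 ^ j * A * (|(dt^[l] v) t x| / ρ ^ (j - l)) := by ring

/-- inverse: `u v = 1` -/
theorem inv_bd (A B : ℝ) (hA : 0 ≤ A) (hB : 0 ≤ B) (n : ℕ) : ∃ K : ℝ, 0 ≤ K ∧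
    ∀ (s : Set ℝ) (L : ℝ) (u v : ℝ → ℝ → ℝ) (ρ t x : ℝ), 0 < ρ → IsOpen s → Sm s L u → Sm s L v →
      t ∈ s → x ∈ Icc 0 L → (∀ r ∈ s, u r x * v r x = 1) →
      (∀ k ≤ n, ρ ^ k * |(dt^[k] u) t x| ≤ A) → |v t x| ≤ B →
      ∀ k ≤ n, ρ ^ k * |(dt^[k] v) t x| ≤ K := by
  induction n with
  | zero =>
    refine ⟨B, hB, ?_⟩
    intro s L u v ρ t x hρ hs hu hv ht hx huv hbd hv0 k hk
    obtain rfl : k = 0 := by omega
    simpa using hv0
  | succ n ih =>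
    obtain ⟨K, hK, h⟩ := ih
    refine ⟨max K (B * (2 ^ (n + 1) * ((n + 1 : ℕ) * (A * K)))), le_max_of_le_left hK, ?_⟩
    intro s L u v ρ t x hρ hs hu hv ht hx huv hbd hv0 k hk
    have hlow := h s L u v ρ t x hρ hs hu hv ht hx huv (fun k hk => hbd k (by omega)) hv0
    rcases Nat.lt_or_ge k (n + 1) with hk1 | hk1
    · exact (hlow k (by omega)).trans (le_max_left _ _)
    obtain rfl : k = n + 1 := by omega
    refine le_trans ?_ (le_max_right _ _)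
    -- Leibniz of `u v = 1`
    have h0 : (dt^[n + 1] (fun t x => u t x * v t x)) t x = 0 := by
      rw [dtIter_congr_at hs (u := fun _ _ => (1 : ℝ)) huv ht (n + 1)]
      rw [dtIter_eq]
      simp [iteratedDeriv_const]
    rw [dtIter_mul hs hu hv ht hx, Finset.sum_range_succ'] at h0
    simp only [Nat.choose_zero_right, Nat.cast_one, one_mul, Function.iterate_zero, id_eq,
      Nat.sub_zero] at h0
    have h1 : (dt^[n + 1] v) t x = - (v t x * ∑ k ∈ Finset.range (n + 1),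
        ((n + 1).choose (k + 1) : ℝ) * (dt^[k + 1] u) t x * (dt^[n + 1 - (k + 1)] v) t x) := by
      have h2 := huv t ht
      have h3 : v t x * (u t x * (dt^[n + 1] v) t x) = (dt^[n + 1] v) t x := by
        rw [← mul_assoc, mul_comm (v t x), h2, one_mul]
      rw [← h3]
      have h4 : u t x * (dt^[n + 1] v) t x = - ∑ k ∈ Finset.range (n + 1),
        ((n + 1).choose (k + 1) : ℝ) * (dt^[k + 1] u) t x * (dt^[n + 1 - (k + 1)] v) t x := by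
        linarith
      rw [h4]; ring
    have h5 : ρ ^ (n + 1) * |∑ k ∈ Finset.range (n + 1),
        ((n + 1).choose (k + 1) : ℝ) * (dt^[k + 1] u) t x * (dt^[n + 1 - (k + 1)] v) t x| ≤
        2 ^ (n + 1) * ((n + 1 : ℕ) * (A * K)) := by
      calc _ ≤ ρ ^ (n + 1) * ∑ k ∈ Finset.range (n + 1),
            |((n + 1).choose (k + 1) : ℝ) * (dt^[k + 1] u) t x * (dt^[n + 1 - (k + 1)] v) t x| := by
              gcongr
              exact Finset.abs_sum_le_sum_abs _ _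
        _ = ∑ k ∈ Finset.range (n + 1), ρ ^ (n + 1) *
            |((n + 1).choose (k + 1) : ℝ) * (dt^[k + 1] u) t x * (dt^[n + 1 - (k + 1)] v) t x| := by
              rw [Finset.mul_sum]
        _ ≤ ∑ k ∈ Finset.range (n + 1), 2 ^ (n + 1) * (A * K) := by
              refine Finset.sum_le_sum (fun k hk => ?_)
              have hk' : k < n + 1 := Finset.mem_range.1 hk
              have e1 := hbd (k + 1) (by omega)
              have e2 := hlow (n + 1 - (k + 1)) (by omega)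
              have e3 : ρ ^ (n + 1) = ρ ^ (k + 1) * ρ ^ (n + 1 - (k + 1)) := by
                rw [← pow_add]; congr 1; omega
              rw [abs_mul, abs_mul,
                abs_of_nonneg (by positivity : (0:ℝ) ≤ ((n + 1).choose (k + 1) : ℝ)), e3]
              calc ρ ^ (k + 1) * ρ ^ (n + 1 - (k + 1)) *
                    (((n + 1).choose (k + 1) : ℝ) * |(dt^[k + 1] u) t x| *
                      |(dt^[n + 1 - (k + 1)] v) t x|)
                  = ((n + 1).choose (k + 1) : ℝ) * ((ρ ^ (k + 1) * |(dt^[k + 1] u) t x|) *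
                      (ρ ^ (n + 1 - (k + 1)) * |(dt^[n + 1 - (k + 1)] v) t x|)) := by ring
                _ ≤ 2 ^ (n + 1) * (A * K) := by
                  apply mul_le_mul (choose_le_two_pow _ _ (by omega))
                    (mul_le_mul e1 e2 (by positivity) hA) (by positivity) (by positivity)
        _ = 2 ^ (n + 1) * ((n + 1 : ℕ) * (A * K)) := by
              rw [Finset.sum_const, Finset.card_range, nsmul_eq_mul]; ring
    calc ρ ^ (n + 1) * |(dt^[n + 1] v) t x|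
        = |v t x| * (ρ ^ (n + 1) * |∑ k ∈ Finset.range (n + 1),
        ((n + 1).choose (k + 1) : ℝ) * (dt^[k + 1] u) t x * (dt^[n + 1 - (k + 1)] v) t x|) := by
          rw [h1, abs_neg, abs_mul]; ring
      _ ≤ B * (2 ^ (n + 1) * ((n + 1 : ℕ) * (A * K))) :=
          mul_le_mul hv0 h5 (by positivity) hB

/-- product of two scaled-bounded functions -/
theorem mul_bd' {ρ A B : ℝ} (hρ : 0 < ρ) (hs : IsOpen s) (hu : Sm s L u) (hv : Sm s L v)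
    (ht : t ∈ s) (hx : x ∈ Icc 0 L) (n : ℕ) (hA : ∀ k ≤ n, ρ ^ k * |(dt^[k] u) t x| ≤ A)
    (hB : ∀ k ≤ n, ρ ^ k * |(dt^[k] v) t x| ≤ B) :
    ∀ k ≤ n, ρ ^ k * |(dt^[k] (fun t x => u t x * v t x)) t x| ≤ 2 ^ n * A * ((n + 1 : ℕ) * B) := by
  have hA0 : 0 ≤ A := le_trans (by positivity) (hA 0 (Nat.zero_le _))
  have hB0 : 0 ≤ B := le_trans (by positivity) (hB 0 (Nat.zero_le _))
  intro k hk
  have h1 := mul_bd hρ hs hu hv ht hx k (fun l hl => hA l (hl.trans hk))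
  have h2 : ρ ^ k * ∑ l ∈ Finset.range (k + 1), |(dt^[l] v) t x| / ρ ^ (k - l) ≤
      (n + 1 : ℕ) * B := by
    rw [Finset.mul_sum]
    calc ∑ l ∈ Finset.range (k + 1), ρ ^ k * (|(dt^[l] v) t x| / ρ ^ (k - l))
        ≤ ∑ l ∈ Finset.range (k + 1), B := by
          refine Finset.sum_le_sum (fun l hl => ?_)
          have hl' : l ≤ k := Nat.lt_succ_iff.1 (Finset.mem_range.1 hl)
          have e : ρ ^ k = ρ ^ l * ρ ^ (k - l) := by rw [← pow_add]; congr 1; omega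
          have e2 : ρ ^ k * (|(dt^[l] v) t x| / ρ ^ (k - l)) = ρ ^ l * |(dt^[l] v) t x| := by
            rw [e]; field_simp
          rw [e2]; exact hB l (hl'.trans hk)
      _ = (k + 1 : ℕ) * B := by rw [Finset.sum_const, Finset.card_range, nsmul_eq_mul]
      _ ≤ (n + 1 : ℕ) * B := by gcongr
  calc ρ ^ k * |(dt^[k] (fun t x => u t x * v t x)) t x|
      ≤ ρ ^ k * (2 ^ k * A * ∑ l ∈ Finset.range (k + 1), |(dt^[l] v) t x| / ρ ^ (k - l)) := by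
        gcongr
    _ = 2 ^ k * A * (ρ ^ k * ∑ l ∈ Finset.range (k + 1), |(dt^[l] v) t x| / ρ ^ (k - l)) := by
        ring
    _ ≤ 2 ^ n * A * ((n + 1 : ℕ) * B) := by
        gcongr
        norm_num

/-! ### the relations -/

section rel

variable {c0 C0 : ℝ} {g : ℝ → ℝ} {φ m E h δ : ℝ → ℝ → ℝ}

/-- the fixed spatial factor -/
def qf (L x : ℝ) : ℝ := x * (1 - x / L)

theorem qf_pos (hL : 0 < L) (hx : x ∈ Ioo 0 L) : 0 < qf L x := by
  unfold qf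
  have : x / L < 1 := (div_lt_one hL).2 hx.2
  exact mul_pos hx.1 (by linarith)

theorem qf_nonneg (hL : 0 < L) (hx : x ∈ Icc 0 L) : 0 ≤ qf L x := by
  unfold qf
  have : x / L ≤ 1 := (div_le_one hL).2 hx.2
  exact mul_nonneg hx.1 (by linarith)

theorem sm_qf : Sm s L (fun _ x => qf L x) :=
  Sm.of_right (by unfold qf; fun_prop)

theorem Bg.Lpos (hB : Bg c0 C0 g L φ m) : 0 < L := by have := hB.L_ge; linarith

theorem Bg.m_pos (hc0 : 0 < c0) (hB : Bg c0 C0 g L φ m) {τ : ℝ} (hτ : τ ∈ Ioo (0 : ℝ) 1)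
    (hx : x ∈ Icc 0 L) : 0 < m τ x := hc0.trans_le (hB.lower τ hτ x hx)

theorem Bg.sm_phi (hB : Bg c0 C0 g L φ m) : Sm (Ioo 0 1) L φ :=
  (sm_qf.mul hB.sm).congr (fun t ht x hx => by rw [hB.phi_eq t ht x hx]; rfl)

theorem Bg.phi_eq' (hB : Bg c0 C0 g L φ m) {τ : ℝ} (hτ : τ ∈ Ioo (0 : ℝ) 1)
    (hx : x ∈ Icc 0 L) : φ τ x = qf L x * m τ x := hB.phi_eq τ hτ x hx

/-- the function `Z = φ²(δ_xx - ht)` -/
def Zf (L : ℝ) (φ h δ : ℝ → ℝ → ℝ) : ℝ → ℝ → ℝ :=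
  fun τ x => φ τ x ^ 2 * dx L (dx L δ) τ x - φ τ x ^ 2 * h τ x

/-- `Z / q²` -/
def Qf (L : ℝ) (m h δ : ℝ → ℝ → ℝ) : ℝ → ℝ → ℝ :=
  fun τ x => m τ x ^ 2 * (dx L (dx L δ) τ x - h τ x)

theorem sm_Qf (hB : Bg c0 C0 g L φ m) (hh : Sm (Ioo 0 1) L h) (hδ : Sm (Ioo 0 1) L δ) :
    Sm (Ioo 0 1) L (Qf L m h δ) :=
  (hB.sm.pow 2).mul (((hδ.dx isOpen_Ioo (Bg.Lpos hB)).dx isOpen_Ioo (Bg.Lpos hB)).sub hh)

theorem Zf_eq (hB : Bg c0 C0 g L φ m) : ∀ τ ∈ Ioo (0 : ℝ) 1, ∀ x ∈ Icc 0 L,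
    Zf L φ h δ τ x = qf L x ^ 2 * Qf L m h δ τ x := by
  intro τ hτ x hx
  simp only [Zf, Qf, Bg.phi_eq' hB hτ hx]
  ring

theorem sm_Zf (hB : Bg c0 C0 g L φ m) (hh : Sm (Ioo 0 1) L h) (hδ : Sm (Ioo 0 1) L δ) :
    Sm (Ioo 0 1) L (Zf L φ h δ) :=
  ((sm_qf.pow 2).mul (sm_Qf hB hh hδ)).congr (Zf_eq hB)

/-- `Z_i = q² Q_i` -/
theorem Zi_eq (hB : Bg c0 C0 g L φ m) (i : ℕ) : ∀ τ ∈ Ioo (0 : ℝ) 1, ∀ x ∈ Icc 0 L,
    (dt^[i] (Zf L φ h δ)) τ x = qf L x ^ 2 * (dt^[i] (Qf L m h δ)) τ x := by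
  intro τ hτ x hx
  rw [← dtIter_left_mul (fun x => qf L x ^ 2)]
  exact dtIter_congr_at isOpen_Ioo (fun r hr => Zf_eq hB r hr x hx) hτ i

/-- the differentiated equation -/
theorem Z_rel (hB : Bg c0 C0 g L φ m) (hE : Sm (Ioo 0 1) L E) (hh : Sm (Ioo 0 1) L h)
    (hδ : Sm (Ioo 0 1) L δ) (heq : LinEq L φ E h δ) (i : ℕ) :
    ∀ τ ∈ Ioo (0 : ℝ) 1, ∀ x ∈ Icc 0 L, x ^ 9 * (dt^[i] (Zf L φ h δ)) τ x =
      Kint (fun ξ => (dt^[i] E) τ ξ + (dt^[i + 1] δ) τ ξ) x := by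
  intro τ hτ x hx
  have hL := Bg.Lpos hB
  rw [← dtIter_left_mul (fun x => x ^ 9)]
  rw [dtIter_congr_at isOpen_Ioo (u := fun t x => Kint ((fun t x => E t x + dt δ t x) t) x)
    (fun r hr => heq r hr x hx) hτ i]
  rw [dtIter_Kint isOpen_Ioo hL (hE.add (hδ.dt isOpen_Ioo hL)) i τ hτ x hx]
  refine Kint_congr hx (fun y hy => ?_)
  rw [dtIter_add isOpen_Ioo hE (hδ.dt isOpen_Ioo hL) hτ hy, Function.iterate_succ_apply]

theorem contF (hB : Bg c0 C0 g L φ m) (hE : Sm (Ioo 0 1) L E) (hδ : Sm (Ioo 0 1) L δ) (i : ℕ)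
    {τ : ℝ} (hτ : τ ∈ Ioo (0 : ℝ) 1) :
    ContinuousOn (fun ξ => (dt^[i] E) τ ξ + (dt^[i + 1] δ) τ ξ) (Icc 0 L) :=
  ((hE.dt_iter isOpen_Ioo (Bg.Lpos hB) i).continuousOn_right hτ).add
    ((hδ.dt_iter isOpen_Ioo (Bg.Lpos hB) (i + 1)).continuousOn_right hτ)

/-- first moment identity -/
theorem K1_zero (hB : Bg c0 C0 g L φ m) (hE : Sm (Ioo 0 1) L E) (hh : Sm (Ioo 0 1) L h)
    (hδ : Sm (Ioo 0 1) L δ) (heq : LinEq L φ E h δ) (i : ℕ) {τ : ℝ} (hτ : τ ∈ Ioo (0 : ℝ) 1) :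
    K1 (fun ξ => (dt^[i] E) τ ξ + (dt^[i + 1] δ) τ ξ) L = 0 ∧
    Kint (fun ξ => (dt^[i] E) τ ξ + (dt^[i + 1] δ) τ ξ) L = 0 := by
  have hL := Bg.Lpos hB
  have hLm : L ∈ Icc 0 L := ⟨hL.le, le_rfl⟩
  have hq0 : qf L L = 0 := by unfold qf; rw [div_self hL.ne']; ring
  have e : ∀ y ∈ Icc 0 L, Kint (fun ξ => (dt^[i] E) τ ξ + (dt^[i + 1] δ) τ ξ) y =
      (y ^ 9 * qf L y ^ 2) * (dt^[i] (Qf L m h δ)) τ y := by
    intro y hy
    rw [← Z_rel hB hE hh hδ heq i τ hτ y hy, Zi_eq hB i τ hτ y hy]; ring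
  refine ⟨?_, by rw [e L hLm, hq0]; ring⟩
  have h1 := Kint_hasDeriv (contF hB hE hδ i hτ) hLm
  have hQ := ((sm_Qf hB hh hδ).dt_iter isOpen_Ioo hL i).hasDx hL hτ hLm
  have hq : HasDerivWithinAt (fun y => y ^ 9 * qf L y ^ 2) 0 (Icc 0 L) L := by
    have hq1 : HasDerivAt (fun y => qf L y) (1 * (1 - L / L) + L * (0 - 1 / L)) L := by
      unfold qf
      exact (hasDerivAt_id L).mul ((hasDerivAt_const L (1:ℝ)).sub ((hasDerivAt_id L).div_const L))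
    have h2 := ((hasDerivAt_pow 9 L).mul (hq1.pow 2)).hasDerivWithinAt (s := Icc 0 L)
    refine h2.congr_deriv ?_
    simp [hq0]
  have h3 : HasDerivWithinAt (fun y => (y ^ 9 * qf L y ^ 2) * (dt^[i] (Qf L m h δ)) τ y) 0
      (Icc 0 L) L := by
    refine (hq.mul hQ).congr_deriv ?_
    simp only [hq0]
    ring
  have h4 : HasDerivWithinAt (Kint (fun ξ => (dt^[i] E) τ ξ + (dt^[i + 1] δ) τ ξ)) 0
      (Icc 0 L) L := h3.congr e (e L hLm)
  exact (uniqueDiffOn_Icc hL L hLm).eq_deriv _ h1 h4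

theorem moments (hB : Bg c0 C0 g L φ m) (hE : Sm (Ioo 0 1) L E) (hh : Sm (Ioo 0 1) L h)
    (hδ : Sm (Ioo 0 1) L δ) (heq : LinEq L φ E h δ) (i : ℕ) {τ : ℝ} (hτ : τ ∈ Ioo (0 : ℝ) 1) :
    (∫ s in (0 : ℝ)..L, s ^ 9 * ((dt^[i] E) τ s + (dt^[i + 1] δ) τ s)) = 0 ∧
    (∫ s in (0 : ℝ)..L, s ^ 10 * ((dt^[i] E) τ s + (dt^[i + 1] δ) τ s)) = 0 := by
  have hL := Bg.Lpos hB
  have hLm : L ∈ Icc 0 L := ⟨hL.le, le_rfl⟩
  obtain ⟨h1, h2⟩ := K1_zero hB hE hh hδ heq i hτ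
  refine ⟨h1, ?_⟩
  have h3 := Kint_split (contF hB hE hδ i hτ) hLm
  rw [h2, h1] at h3
  linarith

/-- Leibniz for `b = φ δ_xx` -/
theorem b_rel (hc0 : 0 < c0) (hC0 : 0 ≤ C0) (hB : Bg c0 C0 g L φ m) (hδ : Sm (Ioo 0 1) L δ)
    (i : ℕ) (hi : i ≤ 6) {τ : ℝ} (hτ : τ ∈ Ioo (0 : ℝ) 1) (hx : x ∈ Icc 0 L) :
    |(dt^[i] (bb L φ δ)) τ x| ≤ (2 ^ 6 * C0 / c0) * φ τ x *
      ∑ l ∈ Finset.range (i + 1), |dx L (dx L (dt^[l] δ)) τ x| / (x ^ 2 + τ) ^ (i - l) := by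
  have hL := Bg.Lpos hB
  have hρ : 0 < x ^ 2 + τ := by have := hτ.1; positivity
  have hxx := (hδ.dx isOpen_Ioo hL).dx isOpen_Ioo hL
  have e1 : (dt^[i] (bb L φ δ)) τ x =
      qf L x * (dt^[i] (fun t x => m t x * dx L (dx L δ) t x)) τ x := by
    rw [← dtIter_left_mul (fun x => qf L x)]
    refine dtIter_congr_at isOpen_Ioo (fun r hr => ?_) hτ i
    simp only [bb, Bg.phi_eq' hB hr hx]; ring
  have h1 := mul_bd hρ isOpen_Ioo hB.sm hxx hτ hx i (A := C0)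
    (fun k hk => hB.dtm k (by omega) τ hτ x hx)
  have h2 : qf L x ≤ φ τ x / c0 := by
    rw [le_div_iff₀ hc0, Bg.phi_eq' hB hτ hx]
    exact mul_le_mul_of_nonneg_left (hB.lower τ hτ x hx) (qf_nonneg hL hx)
  have h3 : ∑ l ∈ Finset.range (i + 1), |(dt^[l] (dx L (dx L δ))) τ x| / (x ^ 2 + τ) ^ (i - l) =
      ∑ l ∈ Finset.range (i + 1), |dx L (dx L (dt^[l] δ)) τ x| / (x ^ 2 + τ) ^ (i - l) :=
    Finset.sum_congr rfl (fun l _ => by rw [dtIter_dxdx isOpen_Ioo hL hδ l τ hτ x hx])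
  rw [h3] at h1
  set S := ∑ l ∈ Finset.range (i + 1), |dx L (dx L (dt^[l] δ)) τ x| / (x ^ 2 + τ) ^ (i - l) with hS
  have hS0 : 0 ≤ S := Finset.sum_nonneg (fun l _ => by positivity)
  have hφ0 : 0 ≤ φ τ x / c0 := (qf_nonneg hL hx).trans h2
  rw [e1, abs_mul, abs_of_nonneg (qf_nonneg hL hx)]
  calc qf L x * |(dt^[i] (fun t x => m t x * dx L (dx L δ) t x)) τ x|
      ≤ (φ τ x / c0) * (2 ^ 6 * C0 * S) := by
        apply mul_le_mul h2 _ (abs_nonneg _) hφ0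
        refine h1.trans ?_
        gcongr
        norm_num
    _ = (2 ^ 6 * C0 / c0) * φ τ x * S := by field_simp

/-- Leibniz for `δ_xx = ht + Z/φ²` -/
theorem D2_rel (c0 C0 : ℝ) (hc0 : 0 < c0) (hC0 : 0 ≤ C0) : ∃ K : ℝ, 1 ≤ K ∧
    ∀ (g : ℝ → ℝ) (L : ℝ) (φ m h δ : ℝ → ℝ → ℝ), Bg c0 C0 g L φ m → Sm (Ioo 0 1) L h →
      Sm (Ioo 0 1) L δ → ∀ i ≤ 6, ∀ τ ∈ Ioo (0 : ℝ) 1, ∀ x ∈ Ioo 0 L,
    |dx L (dx L (dt^[i] δ)) τ x| ≤ K * ∑ l ∈ Finset.range (i + 1),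
      (|(dt^[l] (Zf L φ h δ)) τ x| / φ τ x ^ 2 +
        |(dt^[l] (fun t x => φ t x * h t x)) τ x| / φ τ x) / (x ^ 2 + τ) ^ (i - l) := by
  obtain ⟨K1, hK1, hinv⟩ := inv_bd C0 (1 / c0) hC0 (by positivity) 6
  set K2 := 2 ^ 6 * K1 * ((6 + 1 : ℕ) * K1) with hK2
  have hK2' : 0 ≤ K2 := by positivity
  refine ⟨1 + 2 ^ 6 * (K1 * C0) + 2 ^ 6 * (K2 * C0 ^ 2), by
    have : 0 ≤ 2 ^ 6 * (K1 * C0) := by positivity
    have : 0 ≤ 2 ^ 6 * (K2 * C0 ^ 2) := by positivity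
    linarith, ?_⟩
  intro g L φ m h δ hB hh hδ i hi τ hτ x hx
  have hL := Bg.Lpos hB
  have hxI : x ∈ Icc 0 L := Ioo_subset_Icc_self hx
  have hρ : 0 < x ^ 2 + τ := by have := hτ.1; positivity
  have hq := qf_pos hL hx
  have hsφ := Bg.sm_phi hB
  have hH : Sm (Ioo 0 1) L (fun t x => φ t x * h t x) := hsφ.mul hh
  have hZ := sm_Zf hB hh hδ
  have hmi : Sm (Ioo 0 1) L (fun t x => (m t x)⁻¹) :=
    hB.sm.inv (fun t ht x hx => (Bg.m_pos hc0 hB ht hx).ne')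
  have hmi2 : Sm (Ioo 0 1) L (fun t x => (m t x)⁻¹ * (m t x)⁻¹) := hmi.mul hmi
  -- bounds of the inverse
  have b1 : ∀ k ≤ 6, (x ^ 2 + τ) ^ k * |(dt^[k] (fun t x => (m t x)⁻¹)) τ x| ≤ K1 := by
    refine hinv (Ioo 0 1) L m _ (x ^ 2 + τ) τ x hρ isOpen_Ioo hB.sm hmi hτ hxI ?_ ?_ ?_
    · intro r hr
      exact mul_inv_cancel₀ (Bg.m_pos hc0 hB hr hxI).ne'
    · intro k hk; exact hB.dtm k (by omega) τ hτ x hxI
    · rw [abs_inv, abs_of_pos (Bg.m_pos hc0 hB hτ hxI), ← one_div]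
      exact one_div_le_one_div_of_le hc0 (hB.lower τ hτ x hxI)
  have b2 : ∀ k ≤ 6, (x ^ 2 + τ) ^ k * |(dt^[k] (fun t x => (m t x)⁻¹ * (m t x)⁻¹)) τ x| ≤ K2 :=
    mul_bd' hρ isOpen_Ioo hmi hmi hτ hxI 6 b1 b1
  set a := (qf L x)⁻¹ with ha
  have ha0 : 0 < a := inv_pos.2 hq
  set U1 : ℝ → ℝ → ℝ := fun t y => (m t y)⁻¹ * (fun t x => φ t x * h t x) t y with hU1
  set U2 : ℝ → ℝ → ℝ := fun t y => ((m t y)⁻¹ * (m t y)⁻¹) * Zf L φ h δ t y with hU2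
  have sU1 : Sm (Ioo 0 1) L U1 := hmi.mul hH
  have sU2 : Sm (Ioo 0 1) L U2 := hmi2.mul hZ
  have e0 : ∀ r ∈ Ioo (0 : ℝ) 1, dx L (dx L δ) r x =
      (fun t y => (fun _ => a) y * U1 t y + (fun _ => a ^ 2) y * U2 t y) r x := by
    intro r hr
    have hm := (Bg.m_pos hc0 hB hr hxI).ne'
    simp only [hU1, hU2, Zf, Bg.phi_eq' hB hr hxI, ha]
    field_simp
    ring
  have e1 : dx L (dx L (dt^[i] δ)) τ x = a * (dt^[i] U1) τ x + a ^ 2 * (dt^[i] U2) τ x := by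
    rw [← dtIter_dxdx isOpen_Ioo hL hδ i τ hτ x hxI, dtIter_congr_at isOpen_Ioo
      (u := fun t y => (fun _ => a) y * U1 t y + (fun _ => a ^ 2) y * U2 t y) e0 hτ i,
      dtIter_add isOpen_Ioo ((Sm.const a).mul sU1) ((Sm.const (a ^ 2)).mul sU2) hτ hxI,
      dtIter_left_mul (fun _ => a) U1, dtIter_left_mul (fun _ => a ^ 2) U2]
  have f1 : |(dt^[i] U1) τ x| ≤ 2 ^ 6 * K1 * ∑ l ∈ Finset.range (i + 1),
      |(dt^[l] (fun t x => φ t x * h t x)) τ x| / (x ^ 2 + τ) ^ (i - l) := by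
    refine (mul_bd hρ isOpen_Ioo hmi hH hτ hxI i (fun k hk => b1 k (by omega))).trans ?_
    have hS0 : 0 ≤ ∑ l ∈ Finset.range (i + 1),
      |(dt^[l] (fun t x => φ t x * h t x)) τ x| / (x ^ 2 + τ) ^ (i - l) :=
      Finset.sum_nonneg (fun l _ => by positivity)
    gcongr
    norm_num
  have f2 : |(dt^[i] U2) τ x| ≤ 2 ^ 6 * K2 * ∑ l ∈ Finset.range (i + 1),
      |(dt^[l] (Zf L φ h δ)) τ x| / (x ^ 2 + τ) ^ (i - l) := by
    refine (mul_bd hρ isOpen_Ioo hmi2 hZ hτ hxI i (fun k hk => b2 k (by omega))).trans ?_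
    have hS0 : 0 ≤ ∑ l ∈ Finset.range (i + 1),
      |(dt^[l] (Zf L φ h δ)) τ x| / (x ^ 2 + τ) ^ (i - l) :=
      Finset.sum_nonneg (fun l _ => by positivity)
    gcongr
    norm_num
  -- `a ≤ C0 / φ`
  have hφ : 0 < φ τ x := by
    rw [Bg.phi_eq' hB hτ hxI]; exact mul_pos hq (Bg.m_pos hc0 hB hτ hxI)
  have ha1 : a ≤ C0 / φ τ x := by
    rw [le_div_iff₀ hφ, Bg.phi_eq' hB hτ hxI, ha, ← mul_assoc, inv_mul_cancel₀ hq.ne', one_mul]
    exact hB.upper τ hτ x hxI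
  set S1 := ∑ l ∈ Finset.range (i + 1),
      |(dt^[l] (fun t x => φ t x * h t x)) τ x| / (x ^ 2 + τ) ^ (i - l) with hS1
  set S2 := ∑ l ∈ Finset.range (i + 1),
      |(dt^[l] (Zf L φ h δ)) τ x| / (x ^ 2 + τ) ^ (i - l) with hS2
  have hS1' : 0 ≤ S1 := Finset.sum_nonneg (fun l _ => by positivity)
  have hS2' : 0 ≤ S2 := Finset.sum_nonneg (fun l _ => by positivity)
  have hsum : ∑ l ∈ Finset.range (i + 1),
      (|(dt^[l] (Zf L φ h δ)) τ x| / φ τ x ^ 2 +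
        |(dt^[l] (fun t x => φ t x * h t x)) τ x| / φ τ x) / (x ^ 2 + τ) ^ (i - l) =
      S2 / φ τ x ^ 2 + S1 / φ τ x := by
    rw [hS1, hS2, Finset.sum_div, Finset.sum_div, ← Finset.sum_add_distrib]
    refine Finset.sum_congr rfl (fun l _ => ?_)
    field_simp
  rw [hsum, e1]
  have hC0a : 0 ≤ C0 / φ τ x := ha0.le.trans ha1
  calc |a * (dt^[i] U1) τ x + a ^ 2 * (dt^[i] U2) τ x|
      ≤ a * |(dt^[i] U1) τ x| + a ^ 2 * |(dt^[i] U2) τ x| := by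
        refine (abs_add_le _ _).trans ?_
        rw [abs_mul, abs_mul, abs_of_pos ha0, abs_of_pos (pow_pos ha0 2)]
    _ ≤ (C0 / φ τ x) * (2 ^ 6 * K1 * S1) + (C0 / φ τ x) ^ 2 * (2 ^ 6 * K2 * S2) := by
        gcongr
    _ = (2 ^ 6 * (K1 * C0)) * (S1 / φ τ x) + (2 ^ 6 * (K2 * C0 ^ 2)) * (S2 / φ τ x ^ 2) := by
        field_simp
    _ ≤ (1 + 2 ^ 6 * (K1 * C0) + 2 ^ 6 * (K2 * C0 ^ 2)) * (S2 / φ τ x ^ 2 + S1 / φ τ x) := by
        have p1 : 0 ≤ S1 / φ τ x := by positivity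
        have p2 : 0 ≤ S2 / φ τ x ^ 2 := by positivity
        have p3 : 0 ≤ 2 ^ 6 * (K1 * C0) := by positivity
        have p4 : 0 ≤ 2 ^ 6 * (K2 * C0 ^ 2) := by positivity
        nlinarith [mul_nonneg p3 p2, mul_nonneg p4 p1]

/-- from the lower integral to the real integral -/
theorem mass_of_MM (hL : 0 < L) (hδ : Sm (Ioo 0 1) L δ) {M : ℝ} (i : ℕ) {τ : ℝ}
    (hτ : τ ∈ Ioo (0 : ℝ) 1) (hM : MM L i τ δ ≤ ENNReal.ofReal (M ^ 2)) :
    ∫ x in (0 : ℝ)..L, x ^ 9 * ((dt^[i] δ) τ x) ^ 2 / (x ^ 2 + τ) ^ (58 - 2 * i) ≤ M ^ 2 := by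
  have hc : ContinuousOn (fun x => x ^ 9 * ((dt^[i] δ) τ x) ^ 2 / (x ^ 2 + τ) ^ (58 - 2 * i))
      (Icc 0 L) := by
    have h1 := (hδ.dt_iter isOpen_Ioo hL i).continuousOn_right hτ
    refine ContinuousOn.div ((by fun_prop : Continuous fun x : ℝ => x ^ 9).continuousOn.mul
      (h1.pow 2)) (by fun_prop) (fun x hx => ?_)
    have : 0 < x ^ 2 + τ := by have := hτ.1; positivity
    positivity
  have hint : IntegrableOn (fun x => x ^ 9 * ((dt^[i] δ) τ x) ^ 2 / (x ^ 2 + τ) ^ (58 - 2 * i))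
      (Ioo 0 L) := (hc.integrableOn_Icc).mono_set Ioo_subset_Icc_self
  have hnn : 0 ≤ᵐ[volume.restrict (Ioo 0 L)]
      (fun x => x ^ 9 * ((dt^[i] δ) τ x) ^ 2 / (x ^ 2 + τ) ^ (58 - 2 * i)) := by
    rw [Filter.EventuallyLE, ae_restrict_iff' measurableSet_Ioo]
    refine Filter.Eventually.of_forall (fun x hx => ?_)
    have : 0 < x ^ 2 + τ := by have := hτ.1; positivity
    have := hx.1
    simp only [Pi.zero_apply]
    positivity
  have h2 := ofReal_integral_eq_lintegral_ofReal hint hnn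
  rw [intervalIntegral.integral_of_le hL.le, integral_Ioc_eq_integral_Ioo]
  rw [← ENNReal.ofReal_le_ofReal_iff (sq_nonneg M), h2]
  exact hM

/-- `PB` in the static form -/
theorem h_of_PB {H : ℝ} {w : ℝ → ℝ → ℝ} (hPB : PB L H w) {τ : ℝ} (hτ : τ ∈ Ioo (0 : ℝ) (1 / 2))
    (hx : x ∈ Icc 0 L) (i : ℕ) (hi : i ≤ 6) :
    |(dt^[i] w) τ x| * x ^ (2 * (i - 4)) ≤ H * (x ^ 2 + τ) ^ (25 + (i - 4) - i) := by
  have hρ : 0 < x ^ 2 + τ := by have := hτ.1; positivity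
  have h1 := hPB i hi τ hτ x hx
  have hsq : √(x ^ 2 + τ) ^ 2 = x ^ 2 + τ := Real.sq_sqrt hρ.le
  have hs0 : 0 < √(x ^ 2 + τ) := Real.sqrt_pos.2 hρ
  have key : ∀ e k : ℕ, aa i = 2 * e → e ≤ i → 25 + e - i + (i - e) = 25 → (k = 25 + e - i) →
      |(dt^[i] w) τ x| * x ^ (2 * e) ≤ H * (x ^ 2 + τ) ^ k := by
    intro e k he hei hs hk
    have h2 : xh τ x ^ aa i * rho τ x ^ i = x ^ (2 * e) * (x ^ 2 + τ) ^ (i - e) := by
      unfold xh rho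
      rw [he, div_pow, pow_mul (√(x ^ 2 + τ)), hsq]
      have : (x ^ 2 + τ) ^ i = (x ^ 2 + τ) ^ e * (x ^ 2 + τ) ^ (i - e) := by
        rw [← pow_add]; congr 1; omega
      rw [this]; field_simp
    have h3 : |(dt^[i] w) τ x| * x ^ (2 * e) * (x ^ 2 + τ) ^ (i - e) ≤
        H * (x ^ 2 + τ) ^ k * (x ^ 2 + τ) ^ (i - e) := by
      calc |(dt^[i] w) τ x| * x ^ (2 * e) * (x ^ 2 + τ) ^ (i - e)
          = |(dt^[i] w) τ x| * xh τ x ^ aa i * rho τ x ^ i := by rw [mul_assoc, ← h2]; ring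
        _ ≤ H * rho τ x ^ 25 := h1
        _ = H * (x ^ 2 + τ) ^ k * (x ^ 2 + τ) ^ (i - e) := by
            unfold rho; rw [mul_assoc, ← pow_add, hk, hs]
    exact le_of_mul_le_mul_right h3 (pow_pos hρ _)
  refine key (i - 4) _ ?_ (by omega) (by omega) rfl
  interval_cases i <;> simp [aa]

/-- static form to `PB` -/
theorem PB_of_static {N : ℝ} {w : ℝ → ℝ → ℝ} (hL : 0 < L) (hw : Sm (Ioo 0 1) L w)
    (h : ∀ τ ∈ Ioo (0 : ℝ) (1 / 2), ∀ i ≤ 6, ∀ x ∈ Ioo 0 L,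
      |(dt^[i] w) τ x| * x ^ (2 * (i - 4)) ≤ N * (x ^ 2 + τ) ^ (25 + (i - 4) - i)) :
    PB L N w := by
  intro i hi τ hτ x hx
  have hτ1 : τ ∈ Ioo (0 : ℝ) 1 := ⟨hτ.1, hτ.2.trans (by norm_num)⟩
  -- first on all of `[0,L]`
  have h1 : |(dt^[i] w) τ x| * x ^ (2 * (i - 4)) ≤ N * (x ^ 2 + τ) ^ (25 + (i - 4) - i) := by
    have hcl : closure (Ioo 0 L) = Icc 0 L := closure_Ioo hL.ne
    refine le_on_closure (f := fun x => |(dt^[i] w) τ x| * x ^ (2 * (i - 4)))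
      (g := fun x => N * (x ^ 2 + τ) ^ (25 + (i - 4) - i)) (h τ hτ i hi) ?_ ?_ (hcl ▸ hx)
    · rw [hcl]
      exact ((hw.dt_iter isOpen_Ioo hL i).continuousOn_right hτ1).abs.mul (by fun_prop)
    · fun_prop
  have hρ : 0 < x ^ 2 + τ := by have := hτ.1; positivity
  have hsq : √(x ^ 2 + τ) ^ 2 = x ^ 2 + τ := Real.sq_sqrt hρ.le
  have hs0 : 0 < √(x ^ 2 + τ) := Real.sqrt_pos.2 hρ
  have key : ∀ e k : ℕ, aa i = 2 * e → e ≤ i → 25 + e - i + (i - e) = 25 → (k = 25 + e - i) →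
      |(dt^[i] w) τ x| * x ^ (2 * e) ≤ N * (x ^ 2 + τ) ^ k →
      |(dt^[i] w) τ x| * xh τ x ^ aa i * rho τ x ^ i ≤ N * rho τ x ^ 25 := by
    intro e k he hei hs hk h1
    have h2 : xh τ x ^ aa i * rho τ x ^ i = x ^ (2 * e) * (x ^ 2 + τ) ^ (i - e) := by
      unfold xh rho
      rw [he, div_pow, pow_mul (√(x ^ 2 + τ)), hsq]
      have : (x ^ 2 + τ) ^ i = (x ^ 2 + τ) ^ e * (x ^ 2 + τ) ^ (i - e) := by
        rw [← pow_add]; congr 1; omega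
      rw [this]; field_simp
    calc |(dt^[i] w) τ x| * xh τ x ^ aa i * rho τ x ^ i
        = |(dt^[i] w) τ x| * x ^ (2 * e) * (x ^ 2 + τ) ^ (i - e) := by
          rw [mul_assoc, h2]; ring
      _ ≤ N * (x ^ 2 + τ) ^ k * (x ^ 2 + τ) ^ (i - e) := by gcongr
      _ = N * rho τ x ^ 25 := by unfold rho; rw [mul_assoc, ← pow_add, hk, hs]
  refine key (i - 4) _ ?_ (by omega) (by omega) rfl h1
  interval_cases i <;> simp [aa]

theorem DB_of_static {N : ℝ} {w : ℝ → ℝ → ℝ} (hL : 0 < L) (hw : Sm (Ioo 0 1) L w)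
    (h : ∀ τ ∈ Ioo (0 : ℝ) (1 / 2), ∀ i ≤ 4, ∀ x ∈ Ioo 0 L,
      |(dt^[i] w) τ x| ≤ N * (x ^ 2 + τ) ^ (25 - i)) :
    DB L N w := by
  intro i hi τ hτ x hx
  have hτ1 : τ ∈ Ioo (0 : ℝ) 1 := ⟨hτ.1, hτ.2.trans (by norm_num)⟩
  have h1 : |(dt^[i] w) τ x| ≤ N * (x ^ 2 + τ) ^ (25 - i) := by
    have hcl : closure (Ioo 0 L) = Icc 0 L := closure_Ioo hL.ne
    refine le_on_closure (f := fun x => |(dt^[i] w) τ x|)
      (g := fun x => N * (x ^ 2 + τ) ^ (25 - i)) (h τ hτ i hi) ?_ ?_ (hcl ▸ hx)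
    · rw [hcl]
      exact ((hw.dt_iter isOpen_Ioo hL i).continuousOn_right hτ1).abs
    · fun_prop
  have hρ : 0 < x ^ 2 + τ := by have := hτ.1; positivity
  calc |(dt^[i] w) τ x| * (x ^ 2 + τ) ^ i ≤ N * (x ^ 2 + τ) ^ (25 - i) * (x ^ 2 + τ) ^ i := by
        gcongr
    _ = N * (x ^ 2 + τ) ^ 25 := by
        rw [mul_assoc, ← pow_add]; congr 2; omega

end rel

/-! ### the final statement -/

theorem pointwise_chain_of (hch : ChainThm) {c0 C0 : ℝ} {g : ℝ → ℝ} (hg : Prof c0 C0 g) :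
    ∃ (C : ℝ) (q : ℕ), 1 ≤ C ∧ ∀ L ≥ (8 : ℝ), ∀ φ m : ℝ → ℝ → ℝ, Bg c0 C0 g L φ m →
      ∀ E ht δ : ℝ → ℝ → ℝ, Sm (Ioo 0 1) L E → Sm (Ioo 0 1) L ht → Sm (Ioo 0 1) L δ →
      LinEq L φ E ht δ → ∀ M H : ℝ, 0 ≤ M → 0 ≤ H →
      (∀ j ≤ 7, ∀ τ ∈ Ioo (0 : ℝ) (1 / 2), MM L j τ δ ≤ ENNReal.ofReal (M ^ 2)) →
      (∀ j ≤ 7, ∀ τ ∈ Ioo (0 : ℝ) (1 / 2), ∀ x ∈ Icc 0 L, |(dt^[j] E) τ x| ≤ M) →
      (∀ τ ∈ Ioo (0 : ℝ) 1, ∀ x ∈ Icc (0 : ℝ) 1, E τ x = 0) →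
      PB L H (fun τ x => φ τ x * ht τ x) →
        PB L (C * L ^ q * (M + H)) (bb L φ δ) ∧ DB L (C * L ^ q * (M + H)) δ := by
  have hc0 := hg.c0_pos
  have hC0 : 0 ≤ C0 := by
    have h1 := hg.lower 0 le_rfl
    have h2 := hg.upper 0 le_rfl
    linarith
  obtain ⟨K2, hK2, hD2⟩ := D2_rel c0 C0 hc0 hC0
  set Cc := 1 + C0 + K2 + 2 ^ 6 * C0 / c0 with hCc
  have hKb : 0 ≤ 2 ^ 6 * C0 / c0 := by positivity
  obtain ⟨K, hK, q, hst⟩ := hch c0 Cc hc0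
  refine ⟨K, q, hK, ?_⟩
  intro L hL8 φ m hB E ht δ hE hh hδ heq M H hM hH hMM hEb hE0 hPB
  have hL := Bg.Lpos hB
  have hmain : ∀ τ ∈ Ioo (0 : ℝ) (1 / 2), ChainConcl L τ (K * L ^ q * (M + H))
      (fun i => (dt^[i] δ) τ) (fun i => (dt^[i] (bb L φ δ)) τ) := by
    intro τ hτ
    have hτ1 : τ ∈ Ioo (0 : ℝ) 1 := ⟨hτ.1, hτ.2.trans (by norm_num)⟩
    refine hst L τ M H (φ τ) (fun i => (dt^[i] δ) τ) (fun i => dx L (dt^[i] δ) τ)
      (fun i => dx L (dx L (dt^[i] δ)) τ) (fun i => (dt^[i] (Zf L φ ht δ)) τ)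
      (fun i => (dt^[i] (fun τ x => φ τ x * ht τ x)) τ) (fun i => (dt^[i] (bb L φ δ)) τ)
      (fun i => (dt^[i] E) τ) ?_
    have hsφ := Bg.sm_phi hB
    refine
      { L_ge := hL8
        tau := hτ1
        c_pos := hc0
        C_ge := by rw [hCc]; linarith
        M_nn := hM
        H_nn := hH
        phi_lower := ?_
        phi_upper := ?_
        hD1 := ?_
        hD2 := ?_
        cD2 := ?_
        cE := ?_
        E_bd := ?_
        E_zero := ?_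
        mass := ?_
        Z_eq := ?_
        mom9 := ?_
        mom10 := ?_
        D2_bd := ?_
        b_bd := ?_
        h_bd := ?_ }
    · intro x hx
      rw [Bg.phi_eq' hB hτ1 hx, mul_comm]
      exact mul_le_mul_of_nonneg_left (hB.lower τ hτ1 x hx) (qf_nonneg hL hx)
    · intro x hx
      rw [Bg.phi_eq' hB hτ1 hx, mul_comm]
      refine mul_le_mul_of_nonneg_right ?_ (qf_nonneg hL hx)
      refine (hB.upper τ hτ1 x hx).trans ?_
      rw [hCc]; linarith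
    · intro i _ x hx; exact (hδ.dt_iter isOpen_Ioo hL i).hasDx hL hτ1 hx
    · intro i _ x hx; exact ((hδ.dt_iter isOpen_Ioo hL i).dx isOpen_Ioo hL).hasDx hL hτ1 hx
    · intro i _
      exact (((hδ.dt_iter isOpen_Ioo hL i).dx isOpen_Ioo hL).dx isOpen_Ioo hL).continuousOn_right
        hτ1
    · intro i _; exact (hE.dt_iter isOpen_Ioo hL i).continuousOn_right hτ1
    · intro i hi x hx; exact hEb i (by omega) τ hτ x hx
    · intro i _ x hx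
      have h1 : (dt^[i] E) τ x = (dt^[i] (fun _ _ => (0 : ℝ))) τ x :=
        dtIter_congr_at isOpen_Ioo (fun r hr => hE0 r hr x hx) hτ1 i
      rw [h1, dtIter_eq]
      rcases i with _ | i
      · simp
      · simp
    · intro i hi; exact mass_of_MM hL hδ i hτ1 (hMM i hi τ hτ)
    · intro i _ x hx; exact Z_rel hB hE hh hδ heq i τ hτ1 x hx
    · intro i _; exact (moments hB hE hh hδ heq i hτ1).1
    · intro i _; exact (moments hB hE hh hδ heq i hτ1).2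
    · intro i hi x hx
      refine (hD2 g L φ m ht δ hB hh hδ i hi τ hτ1 x hx).trans ?_
      have hφ : 0 < φ τ x := by
        rw [Bg.phi_eq' hB hτ1 (Ioo_subset_Icc_self hx)]
        exact mul_pos (qf_pos hL hx) (Bg.m_pos hc0 hB hτ1 (Ioo_subset_Icc_self hx))
      have hρ : 0 < x ^ 2 + τ := by have := hτ.1; positivity
      refine mul_le_mul_of_nonneg_right (by rw [hCc]; linarith)
        (Finset.sum_nonneg (fun l _ => by positivity))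
    · intro i hi x hx
      refine (b_rel hc0 hC0 hB hδ i hi hτ1 (Ioo_subset_Icc_self hx)).trans ?_
      have hφ : 0 < φ τ x := by
        rw [Bg.phi_eq' hB hτ1 (Ioo_subset_Icc_self hx)]
        exact mul_pos (qf_pos hL hx) (Bg.m_pos hc0 hB hτ1 (Ioo_subset_Icc_self hx))
      have hρ : 0 < x ^ 2 + τ := by have := hτ.1; positivity
      have hS : 0 ≤ ∑ l ∈ Finset.range (i + 1),
        |dx L (dx L (dt^[l] δ)) τ x| / (x ^ 2 + τ) ^ (i - l) :=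
        Finset.sum_nonneg (fun l _ => by positivity)
      refine mul_le_mul_of_nonneg_right (mul_le_mul_of_nonneg_right ?_ hφ.le) hS
      rw [hCc]; linarith
    · intro i hi x hx
      exact h_of_PB hPB hτ (Ioo_subset_Icc_self hx) i hi
  have hbb : Sm (Ioo 0 1) L (bb L φ δ) :=
    (Bg.sm_phi hB).mul ((hδ.dx isOpen_Ioo hL).dx isOpen_Ioo hL)
  exact ⟨PB_of_static hL hbb (fun τ hτ i hi x hx => (hmain τ hτ).1 i hi x hx),
    DB_of_static hL hδ (fun τ hτ i hi x hx => (hmain τ hτ).2 i hi x hx)⟩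

end Crest.Agent.R213.C.App
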