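import Crest.Agent.R213.J0
import Crest.Agent.R213.J310
import Crest.Agent.R213.C.Level
import Crest.Agent.R213.C.CDefs

-- ▼ part R213/C/Interp
section

/-!
# Row 213, part C, C1: fixed-time interpolation and testing identities

Everything here is at a fixed time `t > 0`; the weights are `(x^2+t)^p` with real `p`.
-/

set_option autoImplicit false

open Set MeasureTheory Filter Topology

noncomputable section

namespace Crest.Agent.R213.C.EN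

open Crest.Agent.R213 Crest.Agent.R213.J310

variable {L t C0 : ℝ}

/-- coefficient data at a fixed time: `f = φ(t,·)`, `f' = φ_x(t,·)`. -/
structure Cf (L C0 : ℝ) (f f' : ℝ → ℝ) : Prop where
  hL : 0 < L
  hC : 0 ≤ C0
  der : ∀ x ∈ Icc 0 L, HasDerivWithinAt f (f' x) (Icc 0 L) x
  cont' : ContinuousOn f' (Icc 0 L)
  endL : f L = 0
  bd : ∀ x ∈ Icc 0 L, |f x| ≤ C0 * x
  bd' : ∀ x ∈ Icc 0 L, |f' x| ≤ C0

theorem Cf.cont {f f' : ℝ → ℝ} (hf : Cf L C0 f f') : ContinuousOn f (Icc 0 L) :=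
  fun x hx => (hf.der x hx).continuousWithinAt

theorem Cf.zero {f f' : ℝ → ℝ} (hf : Cf L C0 f f') : f 0 = 0 := by
  have := hf.bd 0 ⟨le_rfl, hf.hL.le⟩
  simpa using this

/-- a `C²` function on `[0,L]` with its derivatives -/
structure C2f (L : ℝ) (v v' v'' : ℝ → ℝ) : Prop where
  der : ∀ x ∈ Icc 0 L, HasDerivWithinAt v (v' x) (Icc 0 L) x
  der' : ∀ x ∈ Icc 0 L, HasDerivWithinAt v' (v'' x) (Icc 0 L) x
  cont'' : ContinuousOn v'' (Icc 0 L)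

theorem C2f.cont {v v' v'' : ℝ → ℝ} (hv : C2f L v v' v'') : ContinuousOn v (Icc 0 L) :=
  fun x hx => (hv.der x hx).continuousWithinAt

theorem C2f.cont' {v v' v'' : ℝ → ℝ} (hv : C2f L v v' v'') : ContinuousOn v' (Icc 0 L) :=
  fun x hx => (hv.der' x hx).continuousWithinAt

theorem rho_pos (ht : 0 < t) (x : ℝ) : 0 < x ^ 2 + t := by positivity

theorem rho_cont (ht : 0 < t) (p : ℝ) : Continuous fun x : ℝ => (x ^ 2 + t) ^ p :=
  Continuous.rpow_const (by fun_prop) fun x => Or.inl (rho_pos ht x).ne'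

theorem rho_der (ht : 0 < t) (p x : ℝ) :
    HasDerivAt (fun x : ℝ => (x ^ 2 + t) ^ p) (2 * p * x * (x ^ 2 + t) ^ (p - 1)) x := by
  have h : HasDerivAt (fun x : ℝ => x ^ 2 + t) (2 * x) x := by
    simpa using (hasDerivAt_pow 2 x).add_const t
  convert h.rpow_const (p := p) (Or.inl (rho_pos ht x).ne') using 1
  ring

theorem cii (hL : 0 < L) {F : ℝ → ℝ} (hF : ContinuousOn F (Icc 0 L)) :
    IntervalIntegrable F volume 0 L :=
  ContinuousOn.intervalIntegrable_of_Icc hL.le hF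

/-- integral of a derivative -/
theorem int_der (hL : 0 < L) {P P' : ℝ → ℝ}
    (h : ∀ x ∈ Icc 0 L, HasDerivWithinAt P (P' x) (Icc 0 L) x) (hc : ContinuousOn P' (Icc 0 L)) :
    ∫ x in (0 : ℝ)..L, P' x = P L - P 0 := by
  refine intervalIntegral.integral_eq_sub_of_hasDerivAt_of_le hL.le
    (fun x hx => (h x hx).continuousWithinAt) (fun x hx => ?_) (cii hL hc)
  exact (h x (Ioo_subset_Icc_self hx)).hasDerivAt (Icc_mem_nhds hx.1 hx.2)

theorem int_mono (hL : 0 < L) {F G : ℝ → ℝ} (hF : ContinuousOn F (Icc 0 L))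
    (hG : ContinuousOn G (Icc 0 L)) (h : ∀ x ∈ Icc 0 L, F x ≤ G x) :
    ∫ x in (0 : ℝ)..L, F x ≤ ∫ x in (0 : ℝ)..L, G x :=
  intervalIntegral.integral_mono_on hL.le (cii hL hF) (cii hL hG) h

theorem int_nonneg (hL : 0 < L) {F : ℝ → ℝ} (h : ∀ x ∈ Icc 0 L, 0 ≤ F x) :
    0 ≤ ∫ x in (0 : ℝ)..L, F x :=
  intervalIntegral.integral_nonneg hL.le h

/-- the constant of `A1` -/
def KA (C0 p ε : ℝ) : ℝ := C0 ^ 2 / ε + (C0 * (2 * |p - 1| + 11)) ^ 2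

theorem KA_nonneg {p ε : ℝ} (hε : 0 < ε) : 0 ≤ KA C0 p ε := by
  unfold KA; positivity

/-- pointwise algebra of A1 -/
theorem A1_point {f f' v v' v'' x r ε q : ℝ} (hC : 0 ≤ C0) (hx : 0 < x) (hr : x ^ 2 ≤ r)
    (hε : 0 < ε) (hf : |f| ≤ C0 * x) (hf' : |f'| ≤ C0) :
    f ^ 2 * v' ^ 2 ≤ 2 * ((2 * f * f' + 2 * q * x * f ^ 2 / r + 9 * f ^ 2 / x) * v * v' +
      f ^ 2 * (v' ^ 2 + v * v'')) + ε * (f ^ 2 * r * v'' ^ 2) +
      (C0 ^ 2 / ε + (C0 * (2 * |q| + 11)) ^ 2) * v ^ 2 := by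
  have hr0 : 0 < r := lt_of_lt_of_le (by positivity) hr
  set c : ℝ := 2 * f' + 2 * q * x * f / r + 9 * f / x with hc
  have hcb : |c| ≤ C0 * (2 * |q| + 11) := by
    have h1 : |2 * f'| ≤ 2 * C0 := by rw [abs_mul, abs_two]; linarith
    have h2 : |2 * q * x * f / r| ≤ 2 * |q| * C0 := by
      rw [abs_div, abs_mul, abs_mul, abs_mul, abs_two, abs_of_pos hx, abs_of_pos hr0,
        div_le_iff₀ hr0]
      calc 2 * |q| * x * |f| ≤ 2 * |q| * x * (C0 * x) := by gcongr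
        _ = 2 * |q| * C0 * x ^ 2 := by ring
        _ ≤ 2 * |q| * C0 * r := by gcongr
    have h3 : |9 * f / x| ≤ 9 * C0 := by
      rw [abs_div, abs_mul, abs_of_pos hx, div_le_iff₀ hx, abs_of_pos (by norm_num : (0:ℝ) < 9)]
      nlinarith
    calc |c| ≤ |2 * f'| + |2 * q * x * f / r| + |9 * f / x| := by
          rw [hc]; exact abs_add_three _ _ _
      _ ≤ C0 * (2 * |q| + 11) := by linarith
  have e1 : (2 * f * f' + 2 * q * x * f ^ 2 / r + 9 * f ^ 2 / x) = f * c := by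
    rw [hc]; field_simp
  rw [e1]
  have hc2 : c ^ 2 ≤ (C0 * (2 * |q| + 11)) ^ 2 := by
    rw [← sq_abs c]; exact pow_le_pow_left₀ (abs_nonneg _) hcb 2
  have h4 : f ^ 2 ≤ C0 ^ 2 * r := by
    calc f ^ 2 = |f| ^ 2 := (sq_abs f).symm
      _ ≤ (C0 * x) ^ 2 := pow_le_pow_left₀ (abs_nonneg _) hf 2
      _ = C0 ^ 2 * x ^ 2 := by ring
      _ ≤ C0 ^ 2 * r := by gcongr
  have h5 : 0 ≤ ε * (f ^ 2 * r * v'' ^ 2) + 2 * f ^ 2 * v * v'' + C0 ^ 2 / ε * v ^ 2 := by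
    have h6 : f ^ 2 / (ε * r) ≤ C0 ^ 2 / ε := by
      rw [div_le_div_iff₀ (by positivity) hε]
      calc f ^ 2 * ε ≤ C0 ^ 2 * r * ε := by gcongr
        _ = C0 ^ 2 * (ε * r) := by ring
    have h7 : ε * (f ^ 2 * r * v'' ^ 2) + 2 * f ^ 2 * v * v'' + f ^ 2 / (ε * r) * v ^ 2 =
        f ^ 2 / (ε * r) * (ε * r * v'' + v) ^ 2 := by
      field_simp; ring
    have h8 : 0 ≤ f ^ 2 / (ε * r) * (ε * r * v'' + v) ^ 2 := by positivity
    have h9 : f ^ 2 / (ε * r) * v ^ 2 ≤ C0 ^ 2 / ε * v ^ 2 := by gcongr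
    linarith
  have h10 : 0 ≤ (f * v' + c * v) ^ 2 := sq_nonneg _
  have h11 : c ^ 2 * v ^ 2 ≤ (C0 * (2 * |q| + 11)) ^ 2 * v ^ 2 := by gcongr
  nlinarith

/-- **A1** interpolation inequality. -/
theorem A1 {f f' v v' v'' : ℝ → ℝ} (hf : Cf L C0 f f') (ht : 0 < t) (p : ℝ) {ε : ℝ} (hε : 0 < ε)
    (hv : C2f L v v' v'') :
    ∫ x in (0 : ℝ)..L, f x ^ 2 * (x ^ 2 + t) ^ (p - 1) * v' x ^ 2 * x ^ 9 ≤
      ε * (∫ x in (0 : ℝ)..L, f x ^ 2 * (x ^ 2 + t) ^ p * v'' x ^ 2 * x ^ 9) +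
        KA C0 p ε * ∫ x in (0 : ℝ)..L, (x ^ 2 + t) ^ (p - 1) * v x ^ 2 * x ^ 9 := by
  have hL := hf.hL
  have cr := rho_cont (t := t) ht
  have cf := hf.cont
  have cf' := hf.cont'
  have cv := hv.cont
  have cv' := hv.cont'
  have cv'' := hv.cont''
  -- P = f² ρ^{p-1} x⁹ v v'
  set P' : ℝ → ℝ := fun x =>
    (2 * f x * f' x * (x ^ 2 + t) ^ (p - 1) * x ^ 9 +
      f x ^ 2 * (2 * (p - 1) * x * (x ^ 2 + t) ^ (p - 1 - 1)) * x ^ 9 +
      f x ^ 2 * (x ^ 2 + t) ^ (p - 1) * (9 * x ^ 8)) * (v x * v' x) +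
    f x ^ 2 * (x ^ 2 + t) ^ (p - 1) * x ^ 9 * (v' x * v' x + v x * v'' x) with hP'
  have hder : ∀ x ∈ Icc 0 L, HasDerivWithinAt
      (fun x => f x ^ 2 * (x ^ 2 + t) ^ (p - 1) * x ^ 9 * (v x * v' x)) (P' x) (Icc 0 L) x := by
    intro x hx
    have h1 := (hf.der x hx).pow 2
    have h2 := (rho_der ht (p - 1) x).hasDerivWithinAt (s := Icc 0 L)
    have h3 := (hasDerivAt_pow 9 x).hasDerivWithinAt (s := Icc 0 L)
    have h4 := (hv.der x hx).mul (hv.der' x hx)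
    refine (((h1.mul h2).mul h3).mul h4).congr_deriv ?_
    simp only [hP', Pi.pow_apply, Pi.mul_apply]
    push_cast
    ring
  have hPc : ContinuousOn P' (Icc 0 L) := by
    have a1 := (cr (p - 1)).continuousOn (s := Icc 0 L)
    have a2 := (cr (p - 1 - 1)).continuousOn (s := Icc 0 L)
    rw [hP']
    fun_prop
  have hPint : ∫ x in (0 : ℝ)..L, P' x = 0 := by
    rw [int_der hL hder hPc]
    simp [hf.endL, hf.zero]
  have cr1 := (cr (p - 1)).continuousOn (s := Icc 0 L)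
  have cr0 := (cr p).continuousOn (s := Icc 0 L)
  have key : ∫ x in (0 : ℝ)..L, f x ^ 2 * (x ^ 2 + t) ^ (p - 1) * v' x ^ 2 * x ^ 9 ≤
      ∫ x in (0 : ℝ)..L, (2 * P' x + (ε * (f x ^ 2 * (x ^ 2 + t) ^ p * v'' x ^ 2 * x ^ 9) +
        KA C0 p ε * ((x ^ 2 + t) ^ (p - 1) * v x ^ 2 * x ^ 9))) := by
    refine int_mono hL (by fun_prop) (by fun_prop) fun x hx => ?_
    rcases eq_or_lt_of_le hx.1 with h0 | hx0
    · simp [← h0, hP', hf.zero]
    have hr := rho_pos ht x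
    have e1 : (x ^ 2 + t) ^ p = (x ^ 2 + t) ^ (p - 1) * (x ^ 2 + t) := by
      rw [Real.rpow_sub_one hr.ne']; field_simp
    have e2 : (x ^ 2 + t) ^ (p - 1 - 1) = (x ^ 2 + t) ^ (p - 1) / (x ^ 2 + t) :=
      Real.rpow_sub_one hr.ne' _
    have hpt := A1_point (C0 := C0) (f := f x) (f' := f' x) (v := v x) (v' := v' x)
      (v'' := v'' x) (x := x) (r := x ^ 2 + t) (ε := ε) (q := p - 1) hf.hC hx0 (by linarith) hε
      (hf.bd x hx) (hf.bd' x hx)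
    have hw : 0 ≤ (x ^ 2 + t) ^ (p - 1) * x ^ 9 := by positivity
    have := mul_le_mul_of_nonneg_left hpt hw
    have e3 : (x ^ 2 + t) ^ (p - 1) * x ^ 9 * (f x ^ 2 * v' x ^ 2) =
      f x ^ 2 * (x ^ 2 + t) ^ (p - 1) * v' x ^ 2 * x ^ 9 := by ring
    rw [e3] at this
    refine this.trans (le_of_eq ?_)
    simp only [hP', KA]
    rw [e1, e2]
    field_simp
    ring
  rw [intervalIntegral.integral_add, intervalIntegral.integral_add,
    intervalIntegral.integral_const_mul, intervalIntegral.integral_const_mul,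
    intervalIntegral.integral_const_mul, hPint] at key
  · linarith
  · exact cii hL (by fun_prop)
  · exact cii hL (by fun_prop)
  · exact cii hL (by fun_prop)
  · exact cii hL (by fun_prop)

/-! ### Testing identity -/

/-- if `Kint F` has a double zero at `L` then `∫ x⁹ F ψ = ∫ Kint F ψ''`. -/
theorem test_id (hL : 0 < L) {F : ℝ → ℝ} (hF : ContinuousOn F (Icc 0 L)) (h0 : Kint F L = 0)
    (h1 : Kint1 F L = 0) {ψ ψ' ψ'' : ℝ → ℝ} (hψ : C2f L ψ ψ' ψ'') :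
    ∫ x in (0 : ℝ)..L, x ^ 9 * F x * ψ x = ∫ x in (0 : ℝ)..L, Kint F x * ψ'' x := by
  have cK : ContinuousOn (Kint F) (Icc 0 L) := fun x hx =>
    (hasDeriv_Kint hF hx).continuousWithinAt
  have cK1 : ContinuousOn (Kint1 F) (Icc 0 L) := fun x hx =>
    (hasDeriv_Kint1 hF hx).continuousWithinAt
  have cψ := hψ.cont
  have cψ'' := hψ.cont''
  have h := int_der (L := L) hL
    (P := fun x => Kint1 F x * ψ x - Kint F x * ψ' x)
    (P' := fun x => x ^ 9 * F x * ψ x - Kint F x * ψ'' x) (fun x hx => by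
      refine (((hasDeriv_Kint1 hF hx).mul (hψ.der x hx)).sub
        ((hasDeriv_Kint hF hx).mul (hψ.der' x hx))).congr_deriv ?_
      ring) (by fun_prop)
  rw [intervalIntegral.integral_sub (cii hL (by fun_prop)) (cii hL (by fun_prop))] at h
  have e : Kint1 F L * ψ L - Kint F L * ψ' L - (Kint1 F 0 * ψ 0 - Kint F 0 * ψ' 0) = 0 := by
    have h2 : Kint1 F 0 = 0 := by simp [Kint1]
    rw [h0, h1, h2, Kint_zero]; ring
  linarith

/-! ### Inequality (J) -/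

theorem J1_point {f u'' G Z s r : ℝ} (hr : 0 < r) (hs : 0 < s)
    (hZ : |Z| ≤ |f| * G) : Z * u'' ≤ s / 4 * (r * (f * u'') ^ 2) + 1 / s * (G ^ 2 / r) := by
  have h1 : Z * u'' ≤ |f * u''| * G := by
    calc Z * u'' ≤ |Z * u''| := le_abs_self _
      _ = |Z| * |u''| := abs_mul _ _
      _ ≤ |f| * G * |u''| := by gcongr
      _ = |f * u''| * G := by rw [abs_mul]; ring
  have h2 : s / 4 * (r * (f * u'') ^ 2) + 1 / s * (G ^ 2 / r) - |f * u''| * G =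
      (s * r * |f * u''| - 2 * G) ^ 2 / (4 * s * r) := by
    rw [← sq_abs (f * u'')]
    field_simp
    ring
  have h3 : 0 ≤ (s * r * |f * u''| - 2 * G) ^ 2 / (4 * s * r) := by positivity
  linarith

theorem J2_point {f u' G Z x μ r q : ℝ} (hx : 0 ≤ x) (hr : 0 < r) (hxr : x ^ 2 ≤ r) (hμ : 0 < μ)
    (hZ : |Z| ≤ |f| * G) :
    Z * (2 * (2 * q * x / r) * u') ≤ μ * (f ^ 2 * u' ^ 2) + 4 * q ^ 2 / μ * (G ^ 2 / r) := by
  have h1 : Z * (2 * (2 * q * x / r) * u') ≤ 4 * |q| * (x / r) * |f * u'| * G := by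
    calc Z * (2 * (2 * q * x / r) * u') ≤ |Z * (2 * (2 * q * x / r) * u')| := le_abs_self _
      _ = |Z| * (4 * |q| * (x / r) * |u'|) := by
          rw [abs_mul, abs_mul, abs_mul, abs_div, abs_mul, abs_mul, abs_two, abs_of_nonneg hx,
            abs_of_pos hr]
          ring
      _ ≤ |f| * G * (4 * |q| * (x / r) * |u'|) := by gcongr
      _ = 4 * |q| * (x / r) * |f * u'| * G := by rw [abs_mul]; ring
  have h2 : μ * (f ^ 2 * u' ^ 2) + 4 * q ^ 2 / μ * (x ^ 2 / r ^ 2 * G ^ 2) -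
      4 * |q| * (x / r) * |f * u'| * G = (μ * |f * u'| - 2 * |q| * (x / r) * G) ^ 2 / μ := by
    have e : f ^ 2 * u' ^ 2 = |f * u'| ^ 2 := by rw [sq_abs]; ring
    have e2 : q ^ 2 = |q| ^ 2 := (sq_abs q).symm
    rw [e, e2]
    field_simp
    ring
  have h3 : 0 ≤ (μ * |f * u'| - 2 * |q| * (x / r) * G) ^ 2 / μ := by positivity
  have h4 : x ^ 2 / r ^ 2 * G ^ 2 ≤ G ^ 2 / r := by
    rw [div_mul_eq_mul_div, div_le_div_iff₀ (by positivity) hr]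
    have := mul_le_mul_of_nonneg_right hxr (by positivity : 0 ≤ G ^ 2 * r)
    nlinarith
  have h5 : 4 * q ^ 2 / μ * (x ^ 2 / r ^ 2 * G ^ 2) ≤ 4 * q ^ 2 / μ * (G ^ 2 / r) := by gcongr
  linarith

/-- `|ω''| ≤ c2/ρ ω` -/
def c2 (q : ℝ) : ℝ := 2 * |q| + 4 * |q| * |q - 1|


theorem c2_bound {x r q : ℝ} (hr : 0 < r) (hxr : x ^ 2 ≤ r) :
    |2 * q / r + 4 * q * (q - 1) * x ^ 2 / r ^ 2| ≤ c2 q / r := by
  calc |2 * q / r + 4 * q * (q - 1) * x ^ 2 / r ^ 2|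
      ≤ |2 * q / r| + |4 * q * (q - 1) * x ^ 2 / r ^ 2| := abs_add_le _ _
    _ = 2 * |q| / r + 4 * |q| * |q - 1| * x ^ 2 / r ^ 2 := by
        rw [abs_div, abs_div, abs_mul, abs_mul, abs_mul, abs_mul, abs_two, abs_of_pos hr,
          abs_of_pos (by norm_num : (0:ℝ) < 4), abs_of_nonneg (sq_nonneg x),
          abs_of_pos (by positivity : 0 < r ^ 2)]
    _ ≤ 2 * |q| / r + 4 * |q| * |q - 1| / r := by
        have : 4 * |q| * |q - 1| * x ^ 2 / r ^ 2 ≤ 4 * |q| * |q - 1| / r := by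
          rw [div_le_div_iff₀ (by positivity) hr]
          calc 4 * |q| * |q - 1| * x ^ 2 * r ≤ 4 * |q| * |q - 1| * r * r := by gcongr
            _ = 4 * |q| * |q - 1| * r ^ 2 := by ring
        linarith
    _ = c2 q / r := by unfold c2; ring

theorem J3_point {f u G Z x r q : ℝ} (hr : 0 < r) (hxr : x ^ 2 ≤ r)
    (hf : |f| ≤ C0 * x) (hZ : |Z| ≤ |f| * G) (hG : 0 ≤ G) {ν : ℝ} (hν : 0 < ν) :
    Z * ((2 * q / r + 4 * q * (q - 1) * x ^ 2 / r ^ 2) * u) ≤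
      ν * u ^ 2 + c2 q ^ 2 * C0 ^ 2 / (4 * ν) * (G ^ 2 / r) := by
  have hcx : 0 ≤ C0 * x := (abs_nonneg _).trans hf
  have h1 : Z * ((2 * q / r + 4 * q * (q - 1) * x ^ 2 / r ^ 2) * u) ≤
      (c2 q / r * (C0 * x) * G) * |u| := by
    calc _ ≤ |Z * ((2 * q / r + 4 * q * (q - 1) * x ^ 2 / r ^ 2) * u)| := le_abs_self _
      _ = |Z| * (|2 * q / r + 4 * q * (q - 1) * x ^ 2 / r ^ 2| * |u|) := by
          rw [abs_mul, abs_mul]
      _ ≤ (C0 * x * G) * (c2 q / r * |u|) := by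
          have := c2_bound (q := q) hr hxr
          have hZ' : |Z| ≤ C0 * x * G := hZ.trans (by gcongr)
          gcongr
      _ = (c2 q / r * (C0 * x) * G) * |u| := by ring
  set a := c2 q / r * (C0 * x) * G with ha
  have h2 : a * |u| ≤ ν * u ^ 2 + a ^ 2 / (4 * ν) := by
    have : ν * u ^ 2 + a ^ 2 / (4 * ν) - a * |u| = (2 * ν * |u| - a) ^ 2 / (4 * ν) := by
      rw [← sq_abs u]; field_simp; ring
    have h3 : 0 ≤ (2 * ν * |u| - a) ^ 2 / (4 * ν) := by positivity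
    linarith
  have h3 : a ^ 2 ≤ c2 q ^ 2 * C0 ^ 2 * (G ^ 2 / r) := by
    have : a ^ 2 = c2 q ^ 2 * C0 ^ 2 * G ^ 2 * (x ^ 2 / r ^ 2) := by rw [ha]; field_simp
    rw [this]
    have h4 : x ^ 2 / r ^ 2 ≤ 1 / r := by
      rw [div_le_div_iff₀ (by positivity) hr]; nlinarith
    calc c2 q ^ 2 * C0 ^ 2 * G ^ 2 * (x ^ 2 / r ^ 2) ≤ c2 q ^ 2 * C0 ^ 2 * G ^ 2 * (1 / r) := by
          gcongr
      _ = c2 q ^ 2 * C0 ^ 2 * (G ^ 2 / r) := by ring
  have h5 : a ^ 2 / (4 * ν) ≤ c2 q ^ 2 * C0 ^ 2 * (G ^ 2 / r) / (4 * ν) := by gcongr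
  calc _ ≤ a * |u| := h1
    _ ≤ _ := h2
    _ ≤ ν * u ^ 2 + c2 q ^ 2 * C0 ^ 2 * (G ^ 2 / r) / (4 * ν) := by linarith
    _ = _ := by ring

/-- the second derivative of `ρ^q u` -/
def psi2 (t q : ℝ) (u u' u'' : ℝ → ℝ) (x : ℝ) : ℝ :=
  (2 * q * (x ^ 2 + t) ^ (q - 1) + 2 * q * x * (2 * (q - 1) * x * (x ^ 2 + t) ^ (q - 1 - 1))) * u x +
    2 * (2 * q * x * (x ^ 2 + t) ^ (q - 1)) * u' x + (x ^ 2 + t) ^ q * u'' x

theorem psi2_eq (ht : 0 < t) (q : ℝ) (u u' u'' : ℝ → ℝ) (x : ℝ) :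
    psi2 t q u u' u'' x = (x ^ 2 + t) ^ q *
      ((2 * q / (x ^ 2 + t) + 4 * q * (q - 1) * x ^ 2 / (x ^ 2 + t) ^ 2) * u x +
        2 * (2 * q * x / (x ^ 2 + t)) * u' x + u'' x) := by
  have hr := rho_pos ht x
  have e1 : (x ^ 2 + t) ^ (q - 1) = (x ^ 2 + t) ^ q / (x ^ 2 + t) := Real.rpow_sub_one hr.ne' _
  have e2 : (x ^ 2 + t) ^ (q - 1 - 1) = (x ^ 2 + t) ^ (q - 1) / (x ^ 2 + t) :=
    Real.rpow_sub_one hr.ne' _
  rw [psi2, e2, e1]
  field_simp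
  ring

theorem C2f_psi (ht : 0 < t) (q : ℝ) {u u' u'' : ℝ → ℝ} (hu : C2f L u u' u'') :
    C2f L (fun x => (x ^ 2 + t) ^ q * u x)
      (fun x => 2 * q * x * (x ^ 2 + t) ^ (q - 1) * u x + (x ^ 2 + t) ^ q * u' x)
      (psi2 t q u u' u'') := by
  refine ⟨fun x hx => ?_, fun x hx => ?_, ?_⟩
  · exact ((rho_der ht q x).hasDerivWithinAt.mul (hu.der x hx))
  · have h1 : HasDerivAt (fun x : ℝ => 2 * q * x * (x ^ 2 + t) ^ (q - 1))
        (2 * q * (x ^ 2 + t) ^ (q - 1) +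
          2 * q * x * (2 * (q - 1) * x * (x ^ 2 + t) ^ (q - 1 - 1))) x := by
      refine (((hasDerivAt_id x).const_mul (2 * q)).mul (rho_der ht (q - 1) x)).congr_deriv ?_
      simp
    refine ((h1.hasDerivWithinAt.mul (hu.der x hx)).add
      ((rho_der ht q x).hasDerivWithinAt.mul (hu.der' x hx))).congr_deriv ?_
    simp only [psi2]
    ring
  · have cu := hu.cont
    have cu' := hu.cont'
    have cu'' := hu.cont''
    have a0 := (rho_cont (t := t) ht q).continuousOn (s := Icc 0 L)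
    have a1 := (rho_cont (t := t) ht (q - 1)).continuousOn (s := Icc 0 L)
    have a2 := (rho_cont (t := t) ht (q - 1 - 1)).continuousOn (s := Icc 0 L)
    unfold psi2
    fun_prop

/-- the constant of `J_ineq` -/
def KJ (C0 p : ℝ) : ℝ :=
  2 * (1 + 16 * (p - 1) ^ 2 * (1 + KA C0 p 1) + 2 * c2 (p - 1) ^ 2 * C0 ^ 2)

theorem KJ_nonneg (C0 p : ℝ) : 0 ≤ KJ C0 p := by
  have := KA_nonneg (C0 := C0) (p := p) one_pos
  unfold KJ; positivity

set_option maxHeartbeats 1000000 in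
/-- **(J)** at a fixed time (`u = δ_j`, `E = E_{j-1}`, `x⁹ Z = Kint (E + u)`). -/
theorem J_ineq {f f' : ℝ → ℝ} (hf : Cf L C0 f f') (ht : 0 < t) (p : ℝ) {u u' u'' E G Z : ℝ → ℝ}
    (hu : C2f L u u' u'') (hE : ContinuousOn E (Icc 0 L)) (hG : ContinuousOn G (Icc 0 L))
    (hG0 : ∀ x ∈ Icc 0 L, 0 ≤ G x)
    (hK0 : Kint (fun x => E x + u x) L = 0) (hK1 : Kint1 (fun x => E x + u x) L = 0)
    (hKZ : ∀ x ∈ Icc 0 L, Kint (fun x => E x + u x) x = x ^ 9 * Z x)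
    (hZ : ∀ x ∈ Icc 0 L, |Z x| ≤ |f x| * G x) {s : ℝ} (hs : 0 < s) (hs1 : s ≤ 1) :
    ∫ x in (0 : ℝ)..L, (x ^ 2 + t) ^ (p - 1) * u x ^ 2 * x ^ 9 ≤
      s * (∫ x in (0 : ℝ)..L, (x ^ 2 + t) ^ p * (f x * u'' x) ^ 2 * x ^ 9) +
      KJ C0 p / s * (∫ x in (0 : ℝ)..L, (x ^ 2 + t) ^ (p - 2) * G x ^ 2 * x ^ 9) +
      4 * ∫ x in (0 : ℝ)..L, (x ^ 2 + t) ^ (p - 1) * E x ^ 2 * x ^ 9 := by
  have hL := hf.hL
  have hA := A1 hf ht p one_pos hu
  have hKA := KA_nonneg (C0 := C0) (p := p) one_pos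
  set K := KA C0 p 1 with hKdef
  set q : ℝ := p - 1 with hq
  have cF : ContinuousOn (fun x => E x + u x) (Icc 0 L) := hE.add hu.cont
  have hT := test_id hL cF hK0 hK1 (C2f_psi ht q hu)
  set μ : ℝ := s / (4 * (1 + K)) with hμ
  have hμ0 : 0 < μ := by positivity
  have cf := hf.cont
  have cu := hu.cont
  have cu' := hu.cont'
  have cu'' := hu.cont''
  have a0 := (rho_cont (t := t) ht q).continuousOn (s := Icc 0 L)
  have ap := (rho_cont (t := t) ht p).continuousOn (s := Icc 0 L)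
  have a2 := (rho_cont (t := t) ht (p - 2)).continuousOn (s := Icc 0 L)
  have cψ'' := (C2f_psi ht q hu).cont''
  have cK : ContinuousOn (Kint fun x => E x + u x) (Icc 0 L) := fun x hx =>
    (hasDeriv_Kint cF hx).continuousWithinAt
  -- pointwise inequality
  have key : ∫ x in (0 : ℝ)..L, (Kint (fun x => E x + u x) x * psi2 t q u u' u'' x -
      (x ^ 2 + t) ^ q * E x * u x * x ^ 9) ≤
      ∫ x in (0 : ℝ)..L, (s / 4 * ((x ^ 2 + t) ^ p * (f x * u'' x) ^ 2 * x ^ 9) +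
        μ * (f x ^ 2 * (x ^ 2 + t) ^ q * u' x ^ 2 * x ^ 9) +
        1 / 4 * ((x ^ 2 + t) ^ q * u x ^ 2 * x ^ 9) +
        (1 / s + 4 * q ^ 2 / μ + 2 * c2 q ^ 2 * C0 ^ 2) *
          ((x ^ 2 + t) ^ (p - 2) * G x ^ 2 * x ^ 9) +
        2 * ((x ^ 2 + t) ^ q * E x ^ 2 * x ^ 9)) := by
    refine int_mono hL (by fun_prop) (by fun_prop) fun x hx => ?_
    have hr := rho_pos ht x
    have hxr : x ^ 2 ≤ x ^ 2 + t := by linarith
    have e1 : (x ^ 2 + t) ^ p = (x ^ 2 + t) ^ q * (x ^ 2 + t) := by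
      rw [hq, Real.rpow_sub_one hr.ne']; field_simp
    have e2 : (x ^ 2 + t) ^ (p - 2) = (x ^ 2 + t) ^ q / (x ^ 2 + t) := by
      rw [hq, ← Real.rpow_sub_one hr.ne']; congr 1; ring
    have h1 := J1_point (f := f x) (u'' := u'' x) (G := G x) (Z := Z x) (s := s) hr hs (hZ x hx)
    have h2 := J2_point (f := f x) (u' := u' x) (G := G x) (Z := Z x) (q := q) hx.1 hr hxr hμ0
      (hZ x hx)
    have h3 := J3_point (f := f x) (u := u x) (G := G x) (Z := Z x) (x := x) (q := q) hr hxr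
      (hf.bd x hx) (hZ x hx) (hG0 x hx) (by norm_num : (0 : ℝ) < 1 / 8)
    have h4 : -(E x * u x) ≤ 1 / 8 * u x ^ 2 + 2 * E x ^ 2 := by nlinarith [sq_nonneg (u x + 4 * E x)]
    rw [hKZ x hx, psi2_eq ht, e1, e2]
    have hw : 0 ≤ (x ^ 2 + t) ^ q * x ^ 9 := by have := hx.1; positivity
    have h5 := mul_le_mul_of_nonneg_left (add_le_add (add_le_add (add_le_add h1 h2) h3) h4) hw
    refine le_trans (le_of_eq ?_) (h5.trans (le_of_eq ?_))
    · ring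
    · ring
  have e0 : ∫ x in (0 : ℝ)..L, (Kint (fun x => E x + u x) x * psi2 t q u u' u'' x -
      (x ^ 2 + t) ^ q * E x * u x * x ^ 9) = ∫ x in (0 : ℝ)..L, (x ^ 2 + t) ^ q * u x ^ 2 * x ^ 9 := by
    rw [intervalIntegral.integral_sub (cii hL (by fun_prop)) (cii hL (by fun_prop)), ← hT,
      ← intervalIntegral.integral_sub (cii hL (by fun_prop)) (cii hL (by fun_prop))]
    refine intervalIntegral.integral_congr fun x _ => ?_
    ring
  rw [e0] at key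
  rw [intervalIntegral.integral_add, intervalIntegral.integral_add, intervalIntegral.integral_add,
    intervalIntegral.integral_add, intervalIntegral.integral_const_mul,
    intervalIntegral.integral_const_mul, intervalIntegral.integral_const_mul,
    intervalIntegral.integral_const_mul, intervalIntegral.integral_const_mul] at key
  rotate_left
  all_goals first
    | exact cii hL (by fun_prop)
    | skip
  set A := ∫ x in (0 : ℝ)..L, (x ^ 2 + t) ^ q * u x ^ 2 * x ^ 9 with hAdef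
  set B := ∫ x in (0 : ℝ)..L, (x ^ 2 + t) ^ p * (f x * u'' x) ^ 2 * x ^ 9 with hBdef
  set D := ∫ x in (0 : ℝ)..L, (x ^ 2 + t) ^ (p - 2) * G x ^ 2 * x ^ 9 with hDdef
  set EE := ∫ x in (0 : ℝ)..L, (x ^ 2 + t) ^ q * E x ^ 2 * x ^ 9 with hEdef
  have hB' : ∫ x in (0 : ℝ)..L, f x ^ 2 * (x ^ 2 + t) ^ p * u'' x ^ 2 * x ^ 9 = B := by
    refine intervalIntegral.integral_congr fun x _ => ?_
    ring
  rw [hB'] at hA
  have hA0 : 0 ≤ A := int_nonneg hL fun x hx => by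
    have := rho_pos ht x; have := hx.1; positivity
  have hB0 : 0 ≤ B := int_nonneg hL fun x hx => by
    have := rho_pos ht x; have := hx.1; positivity
  have hD0 : 0 ≤ D := int_nonneg hL fun x hx => by
    have := rho_pos ht x; have := hx.1; positivity
  have m1 : μ * (∫ x in (0 : ℝ)..L, f x ^ 2 * (x ^ 2 + t) ^ q * u' x ^ 2 * x ^ 9) ≤
      s / 4 * B + 1 / 4 * A := by
    have h1 := mul_le_mul_of_nonneg_left hA hμ0.le
    have h2 : μ ≤ s / 4 := by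
      rw [hμ]; gcongr; nlinarith
    have h3 : μ * K ≤ 1 / 4 := by
      rw [hμ, div_mul_eq_mul_div, div_le_div_iff₀ (by positivity) (by norm_num)]
      nlinarith
    calc _ ≤ μ * (1 * B + K * A) := h1
      _ = μ * B + (μ * K) * A := by ring
      _ ≤ s / 4 * B + 1 / 4 * A := by gcongr
  have m2 : (1 / s + 4 * q ^ 2 / μ + 2 * c2 q ^ 2 * C0 ^ 2) * D ≤ KJ C0 p / s / 2 * D := by
    gcongr
    have e3 : 4 * q ^ 2 / μ = 16 * q ^ 2 * (1 + K) / s := by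
      rw [hμ]; field_simp; ring
    rw [e3, KJ, ← hq, ← hKdef]
    have h6 : 2 * c2 q ^ 2 * C0 ^ 2 ≤ 2 * c2 q ^ 2 * C0 ^ 2 / s := by
      rw [le_div_iff₀ hs]
      have : 0 ≤ 2 * c2 q ^ 2 * C0 ^ 2 := by positivity
      nlinarith
    calc 1 / s + 16 * q ^ 2 * (1 + K) / s + 2 * c2 q ^ 2 * C0 ^ 2
        ≤ 1 / s + 16 * q ^ 2 * (1 + K) / s + 2 * c2 q ^ 2 * C0 ^ 2 / s := by linarith
      _ = _ := by ring
  have m3 : KJ C0 p / s / 2 * D = (KJ C0 p / s * D) / 2 := by ring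
  rw [m3] at m2
  linarith

end Crest.Agent.R213.C.EN
end
end

-- ▼ part R213/C/EnergyX
section

/-!
# Row 213, part C, C2: energy form inequality at a fixed time
-/

set_option autoImplicit false

open Set MeasureTheory Filter Topology

noncomputable section

namespace Crest.Agent.R213.C.EN

open Crest.Agent.R213 Crest.Agent.R213.J310

variable {L t C0 : ℝ}

/-- the small parameter used in `EN_fix` -/
def eps0 (p : ℝ) : ℝ := 1 / (4096 * (1 + p ^ 2))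

theorem eps0_pos (p : ℝ) : 0 < eps0 p := by unfold eps0; positivity

/-- the constant of `EN_fix` -/
def KE (C0 p : ℝ) : ℝ := 256 * p ^ 2 * KA C0 p (eps0 p) + 16 * c2 p ^ 2 * C0 ^ 2 + 1 / 2

theorem KE_nonneg (C0 p : ℝ) : 0 ≤ KE C0 p := by
  have := KA_nonneg (C0 := C0) (p := p) (eps0_pos p)
  unfold KE; positivity

theorem EN_point {f u u' b R E x r p : ℝ} (hr : 0 < r) (hxr : x ^ 2 ≤ r)
    (hf : |f| ≤ C0 * x) :
    -(R * b) - f * (b + R) * ((2 * p / r + 4 * p * (p - 1) * x ^ 2 / r ^ 2) * u +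
      2 * (2 * p * x / r) * u') + E * u ≤
    9 / 16 * b ^ 2 + 9 / 16 * R ^ 2 + 256 * p ^ 2 * (f ^ 2 * u' ^ 2 / r) +
      (16 * c2 p ^ 2 * C0 ^ 2 + 1 / 2) * (u ^ 2 / r) + 1 / 2 * (r * E ^ 2) := by
  set S := b + R with hS
  have h1 : -(R * b) ≤ 1 / 2 * b ^ 2 + 1 / 2 * R ^ 2 := by nlinarith [sq_nonneg (b + R)]
  -- cross term with u'
  have h2 : -(f * S * (2 * (2 * p * x / r) * u')) ≤ 1 / 64 * S ^ 2 +
      256 * p ^ 2 * (f ^ 2 * u' ^ 2 / r) := by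
    have e : 1 / 64 * S ^ 2 + 256 * p ^ 2 * (x ^ 2 / r ^ 2 * (f ^ 2 * u' ^ 2)) +
        f * S * (2 * (2 * p * x / r) * u') = (1 / 8 * S + 16 * p * (x / r) * (f * u')) ^ 2 := by
      field_simp; ring
    have h3 := sq_nonneg (1 / 8 * S + 16 * p * (x / r) * (f * u'))
    have h4 : x ^ 2 / r ^ 2 * (f ^ 2 * u' ^ 2) ≤ f ^ 2 * u' ^ 2 / r := by
      rw [div_mul_eq_mul_div, div_le_div_iff₀ (by positivity) hr]
      have := mul_le_mul_of_nonneg_right hxr (by positivity : 0 ≤ f ^ 2 * u' ^ 2 * r)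
      nlinarith
    have h5 : 256 * p ^ 2 * (x ^ 2 / r ^ 2 * (f ^ 2 * u' ^ 2)) ≤
        256 * p ^ 2 * (f ^ 2 * u' ^ 2 / r) := by gcongr
    linarith
  -- cross term with u
  have h6 : -(f * S * ((2 * p / r + 4 * p * (p - 1) * x ^ 2 / r ^ 2) * u)) ≤ 1 / 64 * S ^ 2 +
      16 * c2 p ^ 2 * C0 ^ 2 * (u ^ 2 / r) := by
    set k := 2 * p / r + 4 * p * (p - 1) * x ^ 2 / r ^ 2 with hk
    have hkb : |k| ≤ c2 p / r := c2_bound hr hxr
    have e : 1 / 64 * S ^ 2 + 16 * (f * k * u) ^ 2 + f * S * (k * u) =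
        (1 / 8 * S + 4 * (f * k * u)) ^ 2 := by ring
    have h7 := sq_nonneg (1 / 8 * S + 4 * (f * k * u))
    have h8 : (f * k * u) ^ 2 ≤ c2 p ^ 2 * C0 ^ 2 * (u ^ 2 / r) := by
      have h9 : |f * k| ≤ C0 * x * (c2 p / r) := by
        rw [abs_mul]
        have : 0 ≤ C0 * x := (abs_nonneg _).trans hf
        gcongr
      have h10 : (f * k) ^ 2 ≤ (C0 * x * (c2 p / r)) ^ 2 := by
        rw [← sq_abs (f * k)]; exact pow_le_pow_left₀ (abs_nonneg _) h9 2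
      have h11 : (C0 * x * (c2 p / r)) ^ 2 ≤ c2 p ^ 2 * C0 ^ 2 / r := by
        have : (C0 * x * (c2 p / r)) ^ 2 = c2 p ^ 2 * C0 ^ 2 * (x ^ 2 / r ^ 2) := by field_simp
        rw [this]
        have h12 : x ^ 2 / r ^ 2 ≤ 1 / r := by
          rw [div_le_div_iff₀ (by positivity) hr]; nlinarith
        calc c2 p ^ 2 * C0 ^ 2 * (x ^ 2 / r ^ 2) ≤ c2 p ^ 2 * C0 ^ 2 * (1 / r) := by gcongr
          _ = _ := by ring
      calc (f * k * u) ^ 2 = (f * k) ^ 2 * u ^ 2 := by ring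
        _ ≤ c2 p ^ 2 * C0 ^ 2 / r * u ^ 2 := by
            have := h10.trans h11
            gcongr
        _ = _ := by ring
    nlinarith
  have h7 : E * u ≤ 1 / 2 * (u ^ 2 / r) + 1 / 2 * (r * E ^ 2) := by
    have e : 1 / 2 * (u ^ 2 / r) + 1 / 2 * (r * E ^ 2) - E * u = (r * E - u) ^ 2 / (2 * r) := by
      field_simp; ring
    have : 0 ≤ (r * E - u) ^ 2 / (2 * r) := by positivity
    linarith
  have h8 : S ^ 2 ≤ 2 * b ^ 2 + 2 * R ^ 2 := by rw [hS]; nlinarith [sq_nonneg (b - R)]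
  have e9 : f * S * ((2 * p / r + 4 * p * (p - 1) * x ^ 2 / r ^ 2) * u +
      2 * (2 * p * x / r) * u') = f * S * ((2 * p / r + 4 * p * (p - 1) * x ^ 2 / r ^ 2) * u) +
      f * S * (2 * (2 * p * x / r) * u') := by ring
  rw [e9]
  have e10 : (16 * c2 p ^ 2 * C0 ^ 2 + 1 / 2) * (u ^ 2 / r) =
    16 * c2 p ^ 2 * C0 ^ 2 * (u ^ 2 / r) + 1 / 2 * (u ^ 2 / r) := by ring
  rw [e10]
  linarith

set_option maxHeartbeats 1000000 in
/-- **energy form at a fixed time**: `x⁹ f (f u'' + R) = Kint (E + w)` (`w = u_τ`). -/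
theorem EN_fix {f f' : ℝ → ℝ} (hf : Cf L C0 f f') (ht : 0 < t) (p : ℝ)
    {u u' u'' E w R : ℝ → ℝ}
    (hu : C2f L u u' u'') (hE : ContinuousOn E (Icc 0 L)) (hw : ContinuousOn w (Icc 0 L))
    (hR : ContinuousOn R (Icc 0 L))
    (hK0 : Kint (fun x => E x + w x) L = 0) (hK1 : Kint1 (fun x => E x + w x) L = 0)
    (hKZ : ∀ x ∈ Icc 0 L, Kint (fun x => E x + w x) x = x ^ 9 * (f x * (f x * u'' x + R x))) :
    3 / 8 * ∫ x in (0 : ℝ)..L, (x ^ 2 + t) ^ p * (f x * u'' x) ^ 2 * x ^ 9 ≤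
      (∫ x in (0 : ℝ)..L, (x ^ 2 + t) ^ p * (w x * u x) * x ^ 9) +
      9 / 16 * (∫ x in (0 : ℝ)..L, (x ^ 2 + t) ^ p * R x ^ 2 * x ^ 9) +
      KE C0 p * (∫ x in (0 : ℝ)..L, (x ^ 2 + t) ^ (p - 1) * u x ^ 2 * x ^ 9) +
      1 / 2 * ∫ x in (0 : ℝ)..L, (x ^ 2 + t) ^ (p + 1) * E x ^ 2 * x ^ 9 := by
  have hL := hf.hL
  have hA := A1 hf ht p (eps0_pos p) hu
  have hKA := KA_nonneg (C0 := C0) (p := p) (eps0_pos p)
  set K := KA C0 p (eps0 p) with hKdef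
  have cF : ContinuousOn (fun x => E x + w x) (Icc 0 L) := hE.add hw
  have hT := test_id hL cF hK0 hK1 (C2f_psi ht p hu)
  have cf := hf.cont
  have cu := hu.cont
  have cu' := hu.cont'
  have cu'' := hu.cont''
  have ap := (rho_cont (t := t) ht p).continuousOn (s := Icc 0 L)
  have a1 := (rho_cont (t := t) ht (p - 1)).continuousOn (s := Icc 0 L)
  have a2 := (rho_cont (t := t) ht (p + 1)).continuousOn (s := Icc 0 L)
  have cψ'' := (C2f_psi ht p hu).cont''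
  have cK : ContinuousOn (Kint fun x => E x + w x) (Icc 0 L) := fun x hx =>
    (hasDeriv_Kint cF hx).continuousWithinAt
  have key : ∫ x in (0 : ℝ)..L, ((x ^ 2 + t) ^ p * (f x * u'' x) ^ 2 * x ^ 9 +
      ((x ^ 2 + t) ^ p * E x * u x * x ^ 9 -
        Kint (fun x => E x + w x) x * psi2 t p u u' u'' x)) ≤
      ∫ x in (0 : ℝ)..L, (9 / 16 * ((x ^ 2 + t) ^ p * (f x * u'' x) ^ 2 * x ^ 9) +
        9 / 16 * ((x ^ 2 + t) ^ p * R x ^ 2 * x ^ 9) +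
        256 * p ^ 2 * (f x ^ 2 * (x ^ 2 + t) ^ (p - 1) * u' x ^ 2 * x ^ 9) +
        (16 * c2 p ^ 2 * C0 ^ 2 + 1 / 2) * ((x ^ 2 + t) ^ (p - 1) * u x ^ 2 * x ^ 9) +
        1 / 2 * ((x ^ 2 + t) ^ (p + 1) * E x ^ 2 * x ^ 9)) := by
    refine int_mono hL (by fun_prop) (by fun_prop) fun x hx => ?_
    have hr := rho_pos ht x
    have hxr : x ^ 2 ≤ x ^ 2 + t := by linarith
    have e1 : (x ^ 2 + t) ^ (p + 1) = (x ^ 2 + t) ^ p * (x ^ 2 + t) :=
      Real.rpow_add_one hr.ne' _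
    have e2 : (x ^ 2 + t) ^ (p - 1) = (x ^ 2 + t) ^ p / (x ^ 2 + t) :=
      Real.rpow_sub_one hr.ne' _
    have h1 := EN_point (C0 := C0) (f := f x) (u := u x) (u' := u' x)
      (b := f x * u'' x) (R := R x) (E := E x) (x := x) (r := x ^ 2 + t) (p := p) hr hxr
      (hf.bd x hx)
    rw [hKZ x hx, psi2_eq ht, e1, e2]
    have hw : 0 ≤ (x ^ 2 + t) ^ p * x ^ 9 := by have := hx.1; positivity
    have h5 := mul_le_mul_of_nonneg_left h1 hw
    refine le_trans (le_of_eq ?_) (h5.trans (le_of_eq ?_))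
    · ring
    · ring
  have e0 : ∫ x in (0 : ℝ)..L, ((x ^ 2 + t) ^ p * (f x * u'' x) ^ 2 * x ^ 9 +
      ((x ^ 2 + t) ^ p * E x * u x * x ^ 9 -
        Kint (fun x => E x + w x) x * psi2 t p u u' u'' x)) =
      (∫ x in (0 : ℝ)..L, (x ^ 2 + t) ^ p * (f x * u'' x) ^ 2 * x ^ 9) -
      ∫ x in (0 : ℝ)..L, (x ^ 2 + t) ^ p * (w x * u x) * x ^ 9 := by
    rw [intervalIntegral.integral_add (cii hL (by fun_prop)) (cii hL (by fun_prop)),
      intervalIntegral.integral_sub (cii hL (by fun_prop)) (cii hL (by fun_prop)), ← hT,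
      ← intervalIntegral.integral_sub (cii hL (by fun_prop)) (cii hL (by fun_prop)), sub_eq_add_neg,
      ← intervalIntegral.integral_neg]
    congr 1
    refine intervalIntegral.integral_congr fun x _ => ?_
    ring
  rw [e0] at key
  rw [intervalIntegral.integral_add, intervalIntegral.integral_add, intervalIntegral.integral_add,
    intervalIntegral.integral_add, intervalIntegral.integral_const_mul,
    intervalIntegral.integral_const_mul, intervalIntegral.integral_const_mul,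
    intervalIntegral.integral_const_mul, intervalIntegral.integral_const_mul] at key
  rotate_left
  all_goals first
    | exact cii hL (by fun_prop)
    | skip
  set B := ∫ x in (0 : ℝ)..L, (x ^ 2 + t) ^ p * (f x * u'' x) ^ 2 * x ^ 9 with hBdef
  set A := ∫ x in (0 : ℝ)..L, (x ^ 2 + t) ^ (p - 1) * u x ^ 2 * x ^ 9 with hAdef
  have hB' : ∫ x in (0 : ℝ)..L, f x ^ 2 * (x ^ 2 + t) ^ p * u'' x ^ 2 * x ^ 9 = B := by
    refine intervalIntegral.integral_congr fun x _ => ?_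
    ring
  rw [hB'] at hA
  have hB0 : 0 ≤ B := int_nonneg hL fun x hx => by
    have := rho_pos ht x; have := hx.1; positivity
  have m1 := mul_le_mul_of_nonneg_left hA (by positivity : 0 ≤ 256 * p ^ 2)
  have m2 : 256 * p ^ 2 * eps0 p ≤ 1 / 16 := by
    rw [eps0, mul_one_div, div_le_div_iff₀ (by positivity) (by norm_num)]
    nlinarith [sq_nonneg p]
  have m3 : 256 * p ^ 2 * (eps0 p * B) ≤ 1 / 16 * B := by
    rw [← mul_assoc]; gcongr
  have m4 : KE C0 p * A = 256 * p ^ 2 * (K * A) + (16 * c2 p ^ 2 * C0 ^ 2 + 1 / 2) * A := by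
    rw [KE, ← hKdef]; ring
  rw [m4]
  rw [mul_add] at m1
  linarith

end Crest.Agent.R213.C.EN
end
end

-- ▼ part R213/C/EnergyT
section

/-!
# Row 213, part C, C2: one-level energy inequality, integrated in time
-/

set_option autoImplicit false

open Set MeasureTheory Filter Topology

noncomputable section

namespace Crest.Agent.R213.C.EN

open Crest.Agent.R213 Crest.Agent.R213.J310

variable {L t C0 : ℝ}

/-- weighted `x`-integral at time `τ`. -/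
def XX (L p : ℝ) (F : ℝ → ℝ → ℝ) (τ : ℝ) : ℝ :=
  ∫ x in (0 : ℝ)..L, (x ^ 2 + τ) ^ p * F τ x ^ 2 * x ^ 9

/-- data of one level: `x⁹ φ (φ u_xx + R) = Kint (E + u_τ)`. -/
structure LevD (L C0 : ℝ) (φ u E R : ℝ → ℝ → ℝ) : Prop where
  hL : 0 < L
  hC : 0 ≤ C0
  smφ : Sm (Ioo 0 1) L φ
  endL : ∀ τ ∈ Ioo (0 : ℝ) 1, φ τ L = 0
  bd : ∀ τ ∈ Ioo (0 : ℝ) 1, ∀ x ∈ Icc 0 L, |φ τ x| ≤ C0 * x
  bd' : ∀ τ ∈ Ioo (0 : ℝ) 1, ∀ x ∈ Icc 0 L, |dx L φ τ x| ≤ C0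
  smu : Sm (Ioo 0 1) L u
  smE : Sm (Ioo 0 1) L E
  smR : Sm (Ioo 0 1) L R
  RL : ∀ τ ∈ Ioo (0 : ℝ) 1, R τ L = 0
  eq : ∀ τ ∈ Ioo (0 : ℝ) 1, ∀ x ∈ Icc 0 L,
    x ^ 9 * (φ τ x * (φ τ x * dx L (dx L u) τ x + R τ x)) =
      Kint (fun ξ => E τ ξ + dt u τ ξ) x

theorem Sm.C2f {u : ℝ → ℝ → ℝ} (hL : 0 < L) (hu : Sm (Ioo 0 1) L u) {τ : ℝ}
    (hτ : τ ∈ Ioo (0 : ℝ) 1) : C2f L (u τ) (dx L u τ) (dx L (dx L u) τ) where
  der := fun _ hx => hu.hasDx hL hτ hx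
  der' := fun _ hx => (Sm.dx isOpen_Ioo hL hu).hasDx hL hτ hx
  cont'' := (Sm.dx isOpen_Ioo hL (Sm.dx isOpen_Ioo hL hu)).continuousOn_right hτ

variable {φ u E R F : ℝ → ℝ → ℝ}

theorem LevD.cf (h : LevD L C0 φ u E R) {τ : ℝ} (hτ : τ ∈ Ioo (0 : ℝ) 1) :
    Cf L C0 (φ τ) (dx L φ τ) where
  hL := h.hL
  hC := h.hC
  der := fun _ hx => h.smφ.hasDx h.hL hτ hx
  cont' := (Sm.dx isOpen_Ioo h.hL h.smφ).continuousOn_right hτ
  endL := h.endL τ hτ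
  bd := h.bd τ hτ
  bd' := h.bd' τ hτ

theorem LevD.smbe (h : LevD L C0 φ u E R) : Sm (Ioo 0 1) L (fun τ x => φ τ x * dx L (dx L u) τ x) :=
  h.smφ.mul (Sm.dx isOpen_Ioo h.hL (Sm.dx isOpen_Ioo h.hL h.smu))

theorem LevD.contF (h : LevD L C0 φ u E R) {τ : ℝ} (hτ : τ ∈ Ioo (0 : ℝ) 1) :
    ContinuousOn (fun ξ => E τ ξ + dt u τ ξ) (Icc 0 L) :=
  (h.smE.continuousOn_right hτ).add ((Sm.dt isOpen_Ioo h.hL h.smu).continuousOn_right hτ)

theorem LevD.K0 (h : LevD L C0 φ u E R) {τ : ℝ} (hτ : τ ∈ Ioo (0 : ℝ) 1) :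
    Kint (fun ξ => E τ ξ + dt u τ ξ) L = 0 := by
  rw [← h.eq τ hτ L ⟨h.hL.le, le_rfl⟩, h.endL τ hτ]; ring

theorem LevD.K1 (h : LevD L C0 φ u E R) {τ : ℝ} (hτ : τ ∈ Ioo (0 : ℝ) 1) :
    Kint1 (fun ξ => E τ ξ + dt u τ ξ) L = 0 := by
  have hLL : L ∈ Icc 0 L := ⟨h.hL.le, le_rfl⟩
  have h1 := hasDeriv_Kint (h.contF hτ) hLL
  have hk : Sm (Ioo 0 1) L
      (fun τ x => x ^ 9 * (φ τ x * dx L (dx L u) τ x + R τ x)) :=
    (Sm.snd.pow 9).mul (h.smbe.add h.smR)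
  have h2 := (h.smφ.hasDx h.hL hτ hLL).mul (hk.hasDx h.hL hτ hLL)
  have h3 : HasDerivWithinAt (Kint (fun ξ => E τ ξ + dt u τ ξ)) 0 (Icc 0 L) L := by
    have h4 : ∀ y ∈ Icc 0 L, Kint (fun ξ => E τ ξ + dt u τ ξ) y =
        ((fun y => φ τ y) * fun y => y ^ 9 * (φ τ y * dx L (dx L u) τ y + R τ y)) y := by
      intro y hy
      rw [← h.eq τ hτ y hy]
      simp only [Pi.mul_apply]
      ring
    refine (HasDerivWithinAt.congr h2 h4 (h4 L hLL)).congr_deriv ?_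
    simp [h.endL τ hτ, h.RL τ hτ]
  exact UniqueDiffWithinAt.eq_deriv _ (uniqueDiffOn_Icc h.hL L hLL) h1 h3

/-! ### The functions `XX` -/

theorem smX (hF : Sm (Ioo 0 1) L F) (p : ℝ) :
    Sm (Ioo 0 1) L (fun t x => (x ^ 2 + t) ^ p * F t x ^ 2 * x ^ 9) := by
  have h1 : Sm (Ioo 0 1) L (fun t x => (x ^ 2 + t) ^ p) :=
    Sm.rpow ((Sm.snd.pow 2).add Sm.fst) p (fun t ht x _ => (rho_pos ht.1 x).ne')
  exact (h1.mul (hF.pow 2)).mul (Sm.snd.pow 9)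


theorem XX_cont (hL : 0 < L) (hF : Sm (Ioo 0 1) L F) (p : ℝ) :
    ContinuousOn (XX L p F) (Ioo 0 1) :=
  (sm_Px (convex_Ioo 0 1) isOpen_Ioo.uniqueDiffOn hL (smX hF p)).continuousOn_left
    (x := L) ⟨hL.le, le_rfl⟩

theorem XX_nonneg (hL : 0 < L) {τ : ℝ} (hτ : 0 < τ) (p : ℝ) (F : ℝ → ℝ → ℝ) :
    0 ≤ XX L p F τ := int_nonneg hL fun x hx => by
  have := rho_pos hτ x; have := hx.1; positivity

theorem XX_deriv (hL : 0 < L) (hF : Sm (Ioo 0 1) L F) (p : ℝ) {τ : ℝ} (hτ : τ ∈ Ioo (0 : ℝ) 1) :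
    HasDerivAt (XX L p F) (p * XX L (p - 1) F τ +
      2 * ∫ x in (0 : ℝ)..L, (x ^ 2 + τ) ^ p * (dt F τ x * F τ x) * x ^ 9) τ := by
  have hLL : L ∈ Icc 0 L := ⟨hL.le, le_rfl⟩
  have hsm := smX hF p
  have h1 := (sm_Px (convex_Ioo 0 1) isOpen_Ioo.uniqueDiffOn hL hsm).hasDt isOpen_Ioo hτ hLL
  rw [dt_Px (convex_Ioo 0 1) isOpen_Ioo hL hsm hτ hLL] at h1
  refine h1.congr_deriv ?_
  have hdt := Sm.dt isOpen_Ioo hL hF
  have c1 := (rho_cont (t := τ) hτ.1 p).continuousOn (s := Icc 0 L)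
  have c2 := (rho_cont (t := τ) hτ.1 (p - 1)).continuousOn (s := Icc 0 L)
  have c3 := hF.continuousOn_right hτ
  have c4 := hdt.continuousOn_right hτ
  rw [Px, XX, ← intervalIntegral.integral_const_mul, ← intervalIntegral.integral_const_mul,
    ← intervalIntegral.integral_add (cii hL (by fun_prop)) (cii hL (by fun_prop))]
  refine intervalIntegral.integral_congr fun x hx => ?_
  rw [uIcc_of_le hL.le] at hx
  refine dt_eq_of_hasDerivAt ?_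
  have hr : HasDerivAt (fun r : ℝ => (x ^ 2 + r) ^ p) (p * (x ^ 2 + τ) ^ (p - 1)) τ := by
    have h0 : HasDerivAt (fun r : ℝ => x ^ 2 + r) 1 τ := (hasDerivAt_id τ).const_add _
    convert h0.rpow_const (p := p) (Or.inl (rho_pos hτ.1 x).ne') using 1
    ring
  have h2 := (hr.mul ((hF.hasDt isOpen_Ioo hτ hx).pow 2)).mul_const (x ^ 9)
  refine h2.congr_deriv ?_
  simp only [Pi.pow_apply]
  push_cast
  ring

theorem LevD.EN_fix (h : LevD L C0 φ u E R) (p : ℝ) {τ : ℝ} (hτ : τ ∈ Ioo (0 : ℝ) 1) :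
    3 / 8 * XX L p (fun τ x => φ τ x * dx L (dx L u) τ x) τ ≤
      (∫ x in (0 : ℝ)..L, (x ^ 2 + τ) ^ p * (dt u τ x * u τ x) * x ^ 9) +
      9 / 16 * XX L p R τ + KE C0 p * XX L (p - 1) u τ + 1 / 2 * XX L (p + 1) E τ :=
  EN.EN_fix (h.cf hτ) hτ.1 p (Sm.C2f h.hL h.smu hτ) (h.smE.continuousOn_right hτ)
    ((Sm.dt isOpen_Ioo h.hL h.smu).continuousOn_right hτ) (h.smR.continuousOn_right hτ)
    (h.K0 hτ) (h.K1 hτ) (fun x hx => (h.eq τ hτ x hx).symm)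

/-! ### Time integration -/

/-- a time weight on `[a,T]`: `θ ≥ 0`, `θ T = 0`, `-θ' ≤ σ`. -/
structure TW (a T : ℝ) (θ θ' σ : ℝ → ℝ) : Prop where
  ha : 0 < a
  haT : a ≤ T
  hT : T < 1
  cont : ContinuousOn θ (Icc a T)
  cont' : ContinuousOn θ' (Icc a T)
  contσ : ContinuousOn σ (Icc a T)
  der : ∀ τ ∈ Ioo a T, HasDerivAt θ (θ' τ) τ
  nonneg : ∀ τ ∈ Icc a T, 0 ≤ θ τ
  end0 : θ T = 0
  le : ∀ τ ∈ Icc a T, -θ' τ ≤ σ τ

variable {a T : ℝ} {θ θ' σ : ℝ → ℝ}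

theorem TW.sub (h : TW a T θ θ' σ) : Icc a T ⊆ Ioo (0 : ℝ) 1 := fun _ hx =>
  ⟨h.ha.trans_le hx.1, hx.2.trans_lt h.hT⟩

theorem tii (haT : a ≤ T) {F : ℝ → ℝ} (hF : ContinuousOn F (Icc a T)) :
    IntervalIntegrable F volume a T :=
  ContinuousOn.intervalIntegrable_of_Icc haT hF

set_option maxHeartbeats 1000000 in
/-- **one-level energy inequality on `[a,T]`** -/
theorem LevD.EN_time (h : LevD L C0 φ u E R) (hw : TW a T θ θ' σ) (p : ℝ) :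
    3 / 8 * (∫ τ in a..T, θ τ * XX L p (fun τ x => φ τ x * dx L (dx L u) τ x) τ) ≤
      1 / 2 * (∫ τ in a..T, σ τ * XX L p u τ) +
      9 / 16 * (∫ τ in a..T, θ τ * XX L p R τ) +
      (KE C0 p + |p| / 2) * (∫ τ in a..T, θ τ * XX L (p - 1) u τ) +
      1 / 2 * ∫ τ in a..T, θ τ * XX L (p + 1) E τ := by
  have hsub := hw.sub
  have hL := h.hL
  have c0 := (XX_cont hL h.smbe p).mono hsub
  have c1 := (XX_cont hL h.smu p).mono hsub
  have c2 := (XX_cont hL h.smR p).mono hsub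
  have c3 := (XX_cont hL h.smu (p - 1)).mono hsub
  have c4 := (XX_cont hL h.smE (p + 1)).mono hsub
  have cθ := hw.cont
  have cθ' := hw.cont'
  have cσ := hw.contσ
  -- the time derivative
  set G := XX L p u with hG
  set G' : ℝ → ℝ := fun τ => p * XX L (p - 1) u τ +
      2 * ∫ x in (0 : ℝ)..L, (x ^ 2 + τ) ^ p * (dt u τ x * u τ x) * x ^ 9 with hG'
  have cI : ContinuousOn (fun τ => ∫ x in (0 : ℝ)..L, (x ^ 2 + τ) ^ p * (dt u τ x * u τ x) * x ^ 9)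
      (Ioo 0 1) := by
    have hsm : Sm (Ioo 0 1) L (fun t x => (x ^ 2 + t) ^ p * (dt u t x * u t x) * x ^ 9) := by
      have h1 : Sm (Ioo 0 1) L (fun t x => (x ^ 2 + t) ^ p) :=
        Sm.rpow ((Sm.snd.pow 2).add Sm.fst) p (fun t ht x _ => (rho_pos ht.1 x).ne')
      exact (h1.mul ((Sm.dt isOpen_Ioo hL h.smu).mul h.smu)).mul (Sm.snd.pow 9)
    exact (sm_Px (convex_Ioo 0 1) isOpen_Ioo.uniqueDiffOn hL hsm).continuousOn_left
      (x := L) ⟨hL.le, le_rfl⟩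
  have cI' := cI.mono hsub
  have cG' : ContinuousOn G' (Icc a T) := by
    simp only [hG']; fun_prop
  have key1 : ∫ τ in a..T, (θ' τ * G τ + θ τ * G' τ) = θ T * G T - θ a * G a := by
    refine intervalIntegral.integral_eq_sub_of_hasDerivAt_of_le hw.haT (cθ.mul c1)
      (fun τ hτ => ?_) (tii hw.haT (by fun_prop))
    exact (hw.der τ hτ).mul (XX_deriv hL h.smu p (hsub (Ioo_subset_Icc_self hτ)))
  have ha : a ∈ Icc a T := ⟨le_rfl, hw.haT⟩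
  have key2 : ∫ τ in a..T, (θ' τ * G τ + θ τ * G' τ) ≤ 0 := by
    rw [key1, hw.end0]
    have := mul_nonneg (hw.nonneg a ha) (XX_nonneg hL hw.ha p u)
    linarith
  -- pointwise in time
  have key3 : ∫ τ in a..T, 3 / 8 * (θ τ * XX L p (fun τ x => φ τ x * dx L (dx L u) τ x) τ) ≤
      ∫ τ in a..T, (1 / 2 * (θ' τ * G τ + θ τ * G' τ) + 1 / 2 * (σ τ * G τ) +
        9 / 16 * (θ τ * XX L p R τ) + (KE C0 p + |p| / 2) * (θ τ * XX L (p - 1) u τ) +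
        1 / 2 * (θ τ * XX L (p + 1) E τ)) := by
    refine intervalIntegral.integral_mono_on hw.haT (tii hw.haT (by fun_prop))
      (tii hw.haT (by fun_prop)) fun τ hτ => ?_
    have hτ1 := hsub hτ
    have h1 := mul_le_mul_of_nonneg_left (h.EN_fix p hτ1) (hw.nonneg τ hτ)
    have h2 := mul_le_mul_of_nonneg_right (hw.le τ hτ) (XX_nonneg hL hτ1.1 p u)
    have h3 : -p * XX L (p - 1) u τ ≤ |p| * XX L (p - 1) u τ :=
      mul_le_mul_of_nonneg_right (neg_le_abs p) (XX_nonneg hL hτ1.1 _ u)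
    have h4 := mul_le_mul_of_nonneg_left h3 (hw.nonneg τ hτ)
    simp only [hG', hG]
    nlinarith
  rw [intervalIntegral.integral_const_mul, intervalIntegral.integral_add,
    intervalIntegral.integral_add, intervalIntegral.integral_add,
    intervalIntegral.integral_add, intervalIntegral.integral_const_mul,
    intervalIntegral.integral_const_mul, intervalIntegral.integral_const_mul,
    intervalIntegral.integral_const_mul, intervalIntegral.integral_const_mul] at key3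
  rotate_left
  all_goals first
    | exact tii hw.haT (by fun_prop)
    | skip
  linarith

end Crest.Agent.R213.C.EN
end
end

-- ▼ part R213/C/LevelStep
section

/-!
# Row 213, part C, C1+C2: the absorbed one-level inequality (real form)
-/

set_option autoImplicit false

open Set MeasureTheory Filter Topology

noncomputable section

namespace Crest.Agent.R213.C.EN

open Crest.Agent.R213 Crest.Agent.R213.J310

variable {L t C0 : ℝ}

/-- the exponent of the weight of level `j` -/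
def pj (j : ℕ) : ℝ := 2 * (j : ℝ) - 60

theorem pj_pow {r : ℝ} (hr : 0 < r) {i j : ℕ} (hij : i ≤ j) :
    r ^ pj j = r ^ pj i * (r ^ (j - i)) ^ 2 := by
  have h : pj j = pj i + (((j - i) * 2 : ℕ) : ℝ) := by
    unfold pj
    push_cast [Nat.cast_sub hij]
    ring
  rw [h, Real.rpow_add hr, Real.rpow_natCast, pow_mul]

theorem R_point {j : ℕ} {r C h R : ℝ} {b hh : ℕ → ℝ} (hr : 0 < r)
    (hR : |R| ≤ |h| + C * ∑ i ∈ Finset.range j, (|b i| + |hh i|) / r ^ (j - i)) :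
    r ^ pj j * R ^ 2 ≤ 4 / 3 * (r ^ pj j * h ^ 2) +
      8 * j * C ^ 2 * ∑ i ∈ Finset.range j, (r ^ pj i * b i ^ 2 + r ^ pj i * hh i ^ 2) := by
  set S := ∑ i ∈ Finset.range j, (|b i| + |hh i|) / r ^ (j - i) with hS
  have h1 : R ^ 2 ≤ 4 / 3 * h ^ 2 + 4 * C ^ 2 * S ^ 2 := by
    have h2 : R ^ 2 ≤ (|h| + C * S) ^ 2 := by
      rw [← sq_abs R]; exact pow_le_pow_left₀ (abs_nonneg _) hR 2
    have h3 : (|h| + C * S) ^ 2 ≤ 4 / 3 * |h| ^ 2 + 4 * (C * S) ^ 2 := by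
      nlinarith [sq_nonneg (|h| - 3 * (C * S))]
    rw [sq_abs] at h3
    calc R ^ 2 ≤ _ := h2
      _ ≤ _ := h3
      _ = _ := by ring
  have h4 : S ^ 2 ≤ j * ∑ i ∈ Finset.range j, ((|b i| + |hh i|) / r ^ (j - i)) ^ 2 := by
    have := sq_sum_le_card_mul_sum_sq (s := Finset.range j)
      (f := fun i => (|b i| + |hh i|) / r ^ (j - i))
    simpa using this
  have hw : 0 < r ^ pj j := Real.rpow_pos_of_pos hr _
  have h5 : r ^ pj j * ∑ i ∈ Finset.range j, ((|b i| + |hh i|) / r ^ (j - i)) ^ 2 ≤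
      2 * ∑ i ∈ Finset.range j, (r ^ pj i * b i ^ 2 + r ^ pj i * hh i ^ 2) := by
    rw [Finset.mul_sum, Finset.mul_sum]
    refine Finset.sum_le_sum fun i hi => ?_
    have hij : i ≤ j := (Finset.mem_range.1 hi).le
    have hri : 0 < r ^ pj i := Real.rpow_pos_of_pos hr _
    rw [pj_pow hr hij, div_pow]
    have hrp : 0 < r ^ (j - i) := pow_pos hr _
    have e : r ^ pj i * (r ^ (j - i)) ^ 2 * ((|b i| + |hh i|) ^ 2 / (r ^ (j - i)) ^ 2) =
        r ^ pj i * (|b i| + |hh i|) ^ 2 := by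
      field_simp
    rw [e]
    have h6 : (|b i| + |hh i|) ^ 2 ≤ 2 * (b i ^ 2 + hh i ^ 2) := by
      rw [← sq_abs (b i), ← sq_abs (hh i)]
      nlinarith [sq_nonneg (|b i| - |hh i|)]
    calc r ^ pj i * (|b i| + |hh i|) ^ 2 ≤ r ^ pj i * (2 * (b i ^ 2 + hh i ^ 2)) := by gcongr
      _ = _ := by ring
  have h7 : r ^ pj j * S ^ 2 ≤ r ^ pj j * (j * ∑ i ∈ Finset.range j,
      ((|b i| + |hh i|) / r ^ (j - i)) ^ 2) := by gcongr
  have h8 := mul_le_mul_of_nonneg_left h1 hw.le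
  have h9 : (j : ℝ) * (r ^ pj j * ∑ i ∈ Finset.range j, ((|b i| + |hh i|) / r ^ (j - i)) ^ 2) ≤
      j * (2 * ∑ i ∈ Finset.range j, (r ^ pj i * b i ^ 2 + r ^ pj i * hh i ^ 2)) := by gcongr
  have h10 : 4 * C ^ 2 * (r ^ pj j * S ^ 2) ≤ 4 * C ^ 2 * (j *
      (2 * ∑ i ∈ Finset.range j, (r ^ pj i * b i ^ 2 + r ^ pj i * hh i ^ 2))) := by
    have : r ^ pj j * S ^ 2 ≤ j *
      (2 * ∑ i ∈ Finset.range j, (r ^ pj i * b i ^ 2 + r ^ pj i * hh i ^ 2)) := by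
      refine (h7.trans (le_of_eq ?_)).trans h9
      ring
    gcongr
  calc r ^ pj j * R ^ 2 ≤ r ^ pj j * (4 / 3 * h ^ 2 + 4 * C ^ 2 * S ^ 2) := h8
    _ = 4 / 3 * (r ^ pj j * h ^ 2) + 4 * C ^ 2 * (r ^ pj j * S ^ 2) := by ring
    _ ≤ 4 / 3 * (r ^ pj j * h ^ 2) + 4 * C ^ 2 * (j *
      (2 * ∑ i ∈ Finset.range j, (r ^ pj i * b i ^ 2 + r ^ pj i * hh i ^ 2))) := by linarith
    _ = _ := by ring

/-! ### comparison lemmas for `XX` -/

theorem XX_integrand_cont {τ p : ℝ} (hτ : 0 < τ) {F : ℝ → ℝ → ℝ}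
    (hF : ContinuousOn (F τ) (Icc 0 L)) :
    ContinuousOn (fun x => (x ^ 2 + τ) ^ p * F τ x ^ 2 * x ^ 9) (Icc 0 L) := by
  have c1 := (rho_cont (t := τ) hτ p).continuousOn (s := Icc 0 L)
  fun_prop

theorem XX_succ_le (hL : 0 < L) {τ : ℝ} (hτ : τ ∈ Ioo (0 : ℝ) 1) (p : ℝ) {F : ℝ → ℝ → ℝ}
    (hF : ContinuousOn (F τ) (Icc 0 L)) : XX L (p + 1) F τ ≤ (L ^ 2 + 1) * XX L p F τ := by
  unfold XX
  rw [← intervalIntegral.integral_const_mul]
  refine int_mono hL (XX_integrand_cont hτ.1 hF)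
    (continuousOn_const.mul (XX_integrand_cont hτ.1 hF)) fun x hx => ?_
  have hr := rho_pos hτ.1 x
  rw [Real.rpow_add_one hr.ne']
  have h1 : x ^ 2 + τ ≤ L ^ 2 + 1 := by nlinarith [hx.1, hx.2, hτ.2]
  have h2 : 0 ≤ (x ^ 2 + τ) ^ p * F τ x ^ 2 * x ^ 9 := by have := hx.1; positivity
  calc (x ^ 2 + τ) ^ p * (x ^ 2 + τ) * F τ x ^ 2 * x ^ 9
      = (x ^ 2 + τ) * ((x ^ 2 + τ) ^ p * F τ x ^ 2 * x ^ 9) := by ring
    _ ≤ (L ^ 2 + 1) * ((x ^ 2 + τ) ^ p * F τ x ^ 2 * x ^ 9) := by gcongr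

/-- `XX` of the remainder of level `j`. -/
theorem XX_R_le (hL : 0 < L) {τ : ℝ} (hτ : 0 < τ) {j : ℕ} {C : ℝ} {R h : ℝ → ℝ → ℝ}
    {b hh : ℕ → ℝ → ℝ → ℝ} (cR : ContinuousOn (R τ) (Icc 0 L)) (ch : ContinuousOn (h τ) (Icc 0 L))
    (cb : ∀ i < j, ContinuousOn (b i τ) (Icc 0 L)) (chh : ∀ i < j, ContinuousOn (hh i τ) (Icc 0 L))
    (hR : ∀ x ∈ Icc 0 L, |R τ x| ≤ |h τ x| +
      C * ∑ i ∈ Finset.range j, (|b i τ x| + |hh i τ x|) / (x ^ 2 + τ) ^ (j - i)) :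
    XX L (pj j) R τ ≤ 4 / 3 * XX L (pj j) h τ +
      8 * j * C ^ 2 * ∑ i ∈ Finset.range j, (XX L (pj i) (b i) τ + XX L (pj i) (hh i) τ) := by
  have key : XX L (pj j) R τ ≤ ∫ x in (0 : ℝ)..L,
      (4 / 3 * ((x ^ 2 + τ) ^ (pj j) * h τ x ^ 2 * x ^ 9) +
      8 * j * C ^ 2 * ∑ i ∈ Finset.range j, ((x ^ 2 + τ) ^ (pj i) * b i τ x ^ 2 * x ^ 9 +
        (x ^ 2 + τ) ^ (pj i) * hh i τ x ^ 2 * x ^ 9)) := by
    refine int_mono hL (XX_integrand_cont hτ cR) ?_ fun x hx => ?_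
    · refine (continuousOn_const.mul (XX_integrand_cont hτ ch)).add (continuousOn_const.mul ?_)
      refine continuousOn_finsetSum _ fun i hi => ?_
      have hi' := Finset.mem_range.1 hi
      exact (XX_integrand_cont hτ (cb i hi')).add (XX_integrand_cont hτ (chh i hi'))
    · have h1 := R_point (j := j) (r := x ^ 2 + τ) (C := C) (h := h τ x) (R := R τ x)
        (b := fun i => b i τ x) (hh := fun i => hh i τ x) (rho_pos hτ x) (hR x hx)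
      have h2 : (0 : ℝ) ≤ x ^ 9 := pow_nonneg hx.1 9
      have h3 := mul_le_mul_of_nonneg_right h1 h2
      refine h3.trans (le_of_eq ?_)
      rw [add_mul, mul_assoc (8 * (j : ℝ) * C ^ 2), Finset.sum_mul]
      congr 1
      · ring
      · congr 1
        refine Finset.sum_congr rfl fun i _ => ?_
        ring
  refine key.trans (le_of_eq ?_)
  rw [intervalIntegral.integral_add, intervalIntegral.integral_const_mul,
    intervalIntegral.integral_const_mul, intervalIntegral.integral_finsetSum]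
  · congr 2
    refine Finset.sum_congr rfl fun i hi => ?_
    have hi' := Finset.mem_range.1 hi
    rw [intervalIntegral.integral_add (cii hL (XX_integrand_cont hτ (cb i hi')))
      (cii hL (XX_integrand_cont hτ (chh i hi')))]
    rfl
  · intro i hi
    have hi' := Finset.mem_range.1 hi
    exact cii hL ((XX_integrand_cont hτ (cb i hi')).add (XX_integrand_cont hτ (chh i hi')))
  · exact cii hL (continuousOn_const.mul (XX_integrand_cont hτ ch))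
  · refine cii hL (continuousOn_const.mul ?_)
    refine continuousOn_finsetSum _ fun i hi => ?_
    have hi' := Finset.mem_range.1 hi
    exact (XX_integrand_cont hτ (cb i hi')).add (XX_integrand_cont hτ (chh i hi'))

variable {φ u E R : ℝ → ℝ → ℝ}

/-- (J) in terms of `XX`. -/
theorem LevD.J (h : LevD L C0 φ u E R) (p : ℝ) {τ : ℝ} (hτ : τ ∈ Ioo (0 : ℝ) 1) {s : ℝ}
    (hs : 0 < s) (hs1 : s ≤ 1) :
    XX L (p - 1) (dt u) τ ≤ s * XX L p (fun τ x => φ τ x * dx L (dx L (dt u)) τ x) τ +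
      2 * KJ C0 p / s * (XX L (p - 2) (fun τ x => φ τ x * dx L (dx L u) τ x) τ +
        XX L (p - 2) R τ) + 4 * XX L (p - 1) E τ := by
  have hL := h.hL
  have cbe := h.smbe.continuousOn_right hτ
  have cR := h.smR.continuousOn_right hτ
  have hJ := J_ineq (C0 := C0) (h.cf hτ) hτ.1 p (u := dt u τ) (E := E τ)
    (G := fun x => |φ τ x * dx L (dx L u) τ x| + |R τ x|)
    (Z := fun x => φ τ x * (φ τ x * dx L (dx L u) τ x + R τ x))
    (Sm.C2f hL (Sm.dt isOpen_Ioo hL h.smu) hτ) (h.smE.continuousOn_right hτ)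
    (cbe.abs.add cR.abs) (fun x _ => by positivity) (h.K0 hτ) (h.K1 hτ)
    (fun x hx => (h.eq τ hτ x hx).symm)
    (fun x _ => by
      rw [abs_mul]
      gcongr
      exact abs_add_le _ _) hs hs1
  have h2 : ∫ x in (0 : ℝ)..L, (x ^ 2 + τ) ^ (p - 2) *
      (|φ τ x * dx L (dx L u) τ x| + |R τ x|) ^ 2 * x ^ 9 ≤
      2 * (XX L (p - 2) (fun τ x => φ τ x * dx L (dx L u) τ x) τ + XX L (p - 2) R τ) := by
    have cbe1 := XX_integrand_cont (p := p - 2) (F := fun τ x => φ τ x * dx L (dx L u) τ x)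
      hτ.1 cbe
    have cR1 := XX_integrand_cont (p := p - 2) (F := R) hτ.1 cR
    unfold XX
    rw [← intervalIntegral.integral_add (cii hL cbe1) (cii hL cR1),
      ← intervalIntegral.integral_const_mul]
    have c1 := (rho_cont (t := τ) hτ.1 (p - 2)).continuousOn (s := Icc 0 L)
    refine int_mono hL ?_ ?_ fun x hx => ?_
    · exact (c1.mul ((cbe.abs.add cR.abs).pow 2)).mul (by fun_prop)
    · exact continuousOn_const.mul (cbe1.add cR1)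
    · have hw : 0 ≤ (x ^ 2 + τ) ^ (p - 2) * x ^ 9 := by
        have := rho_pos hτ.1 x; have := hx.1; positivity
      have h3 : (|φ τ x * dx L (dx L u) τ x| + |R τ x|) ^ 2 ≤
          2 * ((φ τ x * dx L (dx L u) τ x) ^ 2 + R τ x ^ 2) := by
        rw [← sq_abs (φ τ x * dx L (dx L u) τ x), ← sq_abs (R τ x)]
        nlinarith [sq_nonneg (|φ τ x * dx L (dx L u) τ x| - |R τ x|)]
      have h4 := mul_le_mul_of_nonneg_left h3 hw
      calc _ = (x ^ 2 + τ) ^ (p - 2) * x ^ 9 *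
            (|φ τ x * dx L (dx L u) τ x| + |R τ x|) ^ 2 := by ring
        _ ≤ _ := h4
        _ = _ := by ring
  have hKJ := KJ_nonneg C0 p
  have h3 : KJ C0 p / s * ∫ x in (0 : ℝ)..L, (x ^ 2 + τ) ^ (p - 2) *
      (|φ τ x * dx L (dx L u) τ x| + |R τ x|) ^ 2 * x ^ 9 ≤
      KJ C0 p / s * (2 * (XX L (p - 2) (fun τ x => φ τ x * dx L (dx L u) τ x) τ +
        XX L (p - 2) R τ)) := by gcongr
  unfold XX at h3 ⊢
  refine hJ.trans ?_
  have e : ∀ Y : ℝ, KJ C0 p / s * (2 * Y) = 2 * KJ C0 p / s * Y := fun Y => by ring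
  rw [e] at h3
  linarith

/-! ### Time integrals -/

/-- weighted time integral -/
def IR (κ a T L : ℝ) (k : ℕ) (p : ℝ) (F : ℝ → ℝ → ℝ) : ℝ :=
  ∫ τ in a..T, (T - τ) ^ k * τ ^ (2 * κ) * XX L p F τ

variable {κ a T p : ℝ} {F : ℝ → ℝ → ℝ}

theorem IR_integrand_cont (hL : 0 < L) (ha : 0 < a) (hT : T < 1) (κ : ℝ) (k : ℕ) (p : ℝ)
    (hF : Sm (Ioo 0 1) L F) :
    ContinuousOn (fun τ => (T - τ) ^ k * τ ^ (2 * κ) * XX L p F τ) (Icc a T) := by
  have h1 : ContinuousOn (fun τ : ℝ => τ ^ (2 * κ)) (Icc a T) :=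
    continuousOn_id.rpow_const fun τ hτ => Or.inl (ha.trans_le hτ.1).ne'
  have h2 : ContinuousOn (XX L p F) (Icc a T) := (XX_cont hL hF p).mono fun τ hτ =>
    ⟨ha.trans_le hτ.1, hτ.2.trans_lt hT⟩
  fun_prop

theorem IR_mono (haT : a ≤ T) {f g : ℝ → ℝ} (hf : ContinuousOn f (Icc a T))
    (hg : ContinuousOn g (Icc a T)) (h : ∀ τ ∈ Icc a T, f τ ≤ g τ) :
    ∫ τ in a..T, f τ ≤ ∫ τ in a..T, g τ :=
  intervalIntegral.integral_mono_on haT (tii haT hf) (tii haT hg) h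

theorem IR_nonneg (hL : 0 < L) (ha : 0 < a) (haT : a ≤ T) (κ : ℝ) (k : ℕ) (p : ℝ)
    (F : ℝ → ℝ → ℝ) : 0 ≤ IR κ a T L k p F := by
  refine intervalIntegral.integral_nonneg haT fun τ hτ => ?_
  have h0 : 0 < τ := ha.trans_le hτ.1
  have h1 := XX_nonneg hL h0 p F
  have h2 : 0 ≤ T - τ := sub_nonneg.2 hτ.2
  positivity

theorem IR_anti (hL : 0 < L) (ha : 0 < a) (haT : a ≤ T) (hT : T < 1) (κ : ℝ) {k k' : ℕ}
    (hk : k ≤ k') (p : ℝ) (hF : Sm (Ioo 0 1) L F) :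
    IR κ a T L k' p F ≤ IR κ a T L k p F := by
  refine IR_mono haT (IR_integrand_cont hL ha hT κ k' p hF) (IR_integrand_cont hL ha hT κ k p hF)
    fun τ hτ => ?_
  have h0 : 0 < τ := ha.trans_le hτ.1
  have h1 := XX_nonneg hL h0 p F
  have h2 : 0 ≤ T - τ := sub_nonneg.2 hτ.2
  have h3 : (T - τ) ^ k' ≤ (T - τ) ^ k := pow_le_pow_of_le_one h2 (by linarith) hk
  gcongr

theorem IR_succ (hL : 0 < L) (ha : 0 < a) (haT : a ≤ T) (hT : T < 1) (κ : ℝ) (k : ℕ)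
    (p : ℝ) (hF : Sm (Ioo 0 1) L F) :
    IR κ a T L k (p + 1) F ≤ (L ^ 2 + 1) * IR κ a T L k p F := by
  unfold IR
  rw [← intervalIntegral.integral_const_mul]
  refine IR_mono haT (IR_integrand_cont hL ha hT κ k (p + 1) hF)
    (continuousOn_const.mul (IR_integrand_cont hL ha hT κ k p hF)) fun τ hτ => ?_
  have h0 : 0 < τ := ha.trans_le hτ.1
  have hτ1 : τ ∈ Ioo (0 : ℝ) 1 := ⟨h0, hτ.2.trans_lt hT⟩
  have h1 := XX_succ_le hL hτ1 p (hF.continuousOn_right hτ1)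
  have h2 : 0 ≤ T - τ := sub_nonneg.2 hτ.2
  calc (T - τ) ^ k * τ ^ (2 * κ) * XX L (p + 1) F τ
      ≤ (T - τ) ^ k * τ ^ (2 * κ) * ((L ^ 2 + 1) * XX L p F τ) := by gcongr
    _ = _ := by ring

theorem int_lin3 (haT : a ≤ T) {f g h e : ℝ → ℝ} (cf : ContinuousOn f (Icc a T))
    (cg : ContinuousOn g (Icc a T)) (ch : ContinuousOn h (Icc a T))
    (ce : ContinuousOn e (Icc a T)) (A B C : ℝ) :
    ∫ τ in a..T, (A * f τ + B * (g τ + h τ) + C * e τ) =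
      A * (∫ τ in a..T, f τ) + B * ((∫ τ in a..T, g τ) + ∫ τ in a..T, h τ) +
      C * ∫ τ in a..T, e τ := by
  rw [intervalIntegral.integral_add, intervalIntegral.integral_add,
    intervalIntegral.integral_const_mul, intervalIntegral.integral_const_mul,
    intervalIntegral.integral_const_mul, intervalIntegral.integral_add (tii haT cg) (tii haT ch)]
  all_goals exact tii haT (by fun_prop)

theorem int_lin2 (haT : a ≤ T) {f g : ℝ → ℝ} (cf : ContinuousOn f (Icc a T))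
    (cg : ContinuousOn g (Icc a T)) (A B : ℝ) :
    ∫ τ in a..T, (A * f τ + B * g τ) = A * (∫ τ in a..T, f τ) + B * ∫ τ in a..T, g τ := by
  rw [intervalIntegral.integral_add, intervalIntegral.integral_const_mul,
    intervalIntegral.integral_const_mul]
  all_goals exact tii haT (by fun_prop)

/-- time weight of level `j`. -/
theorem TW_std (hκ : 0 ≤ κ) (ha : 0 < a) (haT : a ≤ T) (hT : T < 1) (k : ℕ) :
    TW a T (fun τ => (T - τ) ^ (2 * (k + 1)) * τ ^ (2 * κ))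
      (fun τ => -(((2 * (k + 1) : ℕ) : ℝ) * (T - τ) ^ (2 * k + 1)) * τ ^ (2 * κ) +
        (T - τ) ^ (2 * (k + 1)) * (2 * κ * τ ^ (2 * κ - 1)))
      (fun τ => ((2 * (k + 1) : ℕ) : ℝ) * ((T - τ) ^ (2 * k + 1) * τ ^ (2 * κ))) where
  ha := ha
  haT := haT
  hT := hT
  cont := by
    have h1 : ContinuousOn (fun τ : ℝ => τ ^ (2 * κ)) (Icc a T) :=
      continuousOn_id.rpow_const fun τ hτ => Or.inl (ha.trans_le hτ.1).ne'
    fun_prop
  cont' := by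
    have h1 : ContinuousOn (fun τ : ℝ => τ ^ (2 * κ)) (Icc a T) :=
      continuousOn_id.rpow_const fun τ hτ => Or.inl (ha.trans_le hτ.1).ne'
    have h2 : ContinuousOn (fun τ : ℝ => τ ^ (2 * κ - 1)) (Icc a T) :=
      continuousOn_id.rpow_const fun τ hτ => Or.inl (ha.trans_le hτ.1).ne'
    fun_prop
  contσ := by
    have h1 : ContinuousOn (fun τ : ℝ => τ ^ (2 * κ)) (Icc a T) :=
      continuousOn_id.rpow_const fun τ hτ => Or.inl (ha.trans_le hτ.1).ne'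
    fun_prop
  der := fun τ hτ => by
    have h0 : 0 < τ := ha.trans hτ.1
    have h1 : HasDerivAt (fun τ : ℝ => T - τ) (-1) τ := by
      simpa using (hasDerivAt_id τ).const_sub T
    have h2 := h1.pow (2 * (k + 1))
    have h3 : HasDerivAt (fun τ : ℝ => τ ^ (2 * κ)) (2 * κ * τ ^ (2 * κ - 1)) τ :=
      Real.hasDerivAt_rpow_const (Or.inl h0.ne')
    refine (h2.mul h3).congr_deriv ?_
    have e : 2 * (k + 1) - 1 = 2 * k + 1 := by omega
    simp only [Pi.pow_apply, e]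
    ring
  nonneg := fun τ hτ => by
    have h0 : 0 < τ := ha.trans_le hτ.1
    have h2 : 0 ≤ T - τ := sub_nonneg.2 hτ.2
    positivity
  end0 := by simp
  le := fun τ hτ => by
    have h0 : 0 < τ := ha.trans_le hτ.1
    have h2 : 0 ≤ T - τ := sub_nonneg.2 hτ.2
    have h3 : 0 ≤ (T - τ) ^ (2 * (k + 1)) * (2 * κ * τ ^ (2 * κ - 1)) := by positivity
    nlinarith

theorem IR_J (h : LevD L C0 φ u E R) (ha : 0 < a) (haT : a ≤ T) (hT : T < 1) (k : ℕ) (p : ℝ)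
    {ε : ℝ} (hε : 0 < ε) (hε1 : ε ≤ 1) :
    IR κ a T L (2 * k + 1) (p - 1) (dt u) ≤
      ε * IR κ a T L (2 * (k + 1)) p (fun τ x => φ τ x * dx L (dx L (dt u)) τ x) +
      2 * KJ C0 p / ε * (IR κ a T L (2 * k) (p - 2) (fun τ x => φ τ x * dx L (dx L u) τ x) +
        IR κ a T L (2 * k) (p - 2) R) + 4 * IR κ a T L (2 * k + 1) (p - 1) E := by
  have hL := h.hL
  have sdt := Sm.dt isOpen_Ioo hL h.smu
  have sbe1 : Sm (Ioo 0 1) L (fun τ x => φ τ x * dx L (dx L (dt u)) τ x) :=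
    h.smφ.mul (Sm.dx isOpen_Ioo hL (Sm.dx isOpen_Ioo hL sdt))
  have c1 := IR_integrand_cont hL ha hT κ (2 * k + 1) (p - 1) sdt
  have c2 := IR_integrand_cont hL ha hT κ (2 * (k + 1)) p sbe1
  have c3 := IR_integrand_cont hL ha hT κ (2 * k) (p - 2) h.smbe
  have c4 := IR_integrand_cont hL ha hT κ (2 * k) (p - 2) h.smR
  have c5 := IR_integrand_cont hL ha hT κ (2 * k + 1) (p - 1) h.smE
  have hKJ := KJ_nonneg C0 p
  have key : IR κ a T L (2 * k + 1) (p - 1) (dt u) ≤ ∫ τ in a..T,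
      (ε * ((T - τ) ^ (2 * (k + 1)) * τ ^ (2 * κ) *
          XX L p (fun τ x => φ τ x * dx L (dx L (dt u)) τ x) τ) +
        2 * KJ C0 p / ε * ((T - τ) ^ (2 * k) * τ ^ (2 * κ) *
          XX L (p - 2) (fun τ x => φ τ x * dx L (dx L u) τ x) τ +
          (T - τ) ^ (2 * k) * τ ^ (2 * κ) * XX L (p - 2) R τ) +
        4 * ((T - τ) ^ (2 * k + 1) * τ ^ (2 * κ) * XX L (p - 1) E τ)) := by
    refine IR_mono haT c1 (((continuousOn_const.mul c2).add (continuousOn_const.mul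
      (c3.add c4))).add (continuousOn_const.mul c5)) fun τ hτ => ?_
    have h0 : 0 < τ := ha.trans_le hτ.1
    have hτ1 : τ ∈ Ioo (0 : ℝ) 1 := ⟨h0, hτ.2.trans_lt hT⟩
    have x1 := XX_nonneg hL h0 p (fun τ x => φ τ x * dx L (dx L (dt u)) τ x)
    have x2 := XX_nonneg hL h0 (p - 2) (fun τ x => φ τ x * dx L (dx L u) τ x)
    have x3 := XX_nonneg hL h0 (p - 2) R
    have x4 := XX_nonneg hL h0 (p - 1) E
    rcases eq_or_lt_of_le hτ.2 with hT' | hT'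
    · have e : (T - τ) ^ (2 * k + 1) = 0 := by rw [hT']; simp
      rw [e]
      have h2 : 0 ≤ T - τ := sub_nonneg.2 hτ.2
      have : 0 ≤ (ε * ((T - τ) ^ (2 * (k + 1)) * τ ^ (2 * κ) *
          XX L p (fun τ x => φ τ x * dx L (dx L (dt u)) τ x) τ) +
        2 * KJ C0 p / ε * ((T - τ) ^ (2 * k) * τ ^ (2 * κ) *
          XX L (p - 2) (fun τ x => φ τ x * dx L (dx L u) τ x) τ +
          (T - τ) ^ (2 * k) * τ ^ (2 * κ) * XX L (p - 2) R τ)) := by positivity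
      simpa using this
    · have h2 : 0 < T - τ := sub_pos.2 hT'
      have h3 : ε * (T - τ) ≤ 1 := by nlinarith
      have h4 := h.J p hτ1 (mul_pos hε h2) h3
      have hw : 0 ≤ (T - τ) ^ (2 * k + 1) * τ ^ (2 * κ) := by positivity
      have h5 := mul_le_mul_of_nonneg_left h4 hw
      refine h5.trans (le_of_eq ?_)
      field_simp
      ring
  exact key.trans (le_of_eq (int_lin3 haT c2 c3 c4 c5 _ _ _))

theorem IR_R_le (hL : 0 < L) (ha : 0 < a) (haT : a ≤ T) (hT : T < 1) (k : ℕ) {j : ℕ} {C : ℝ}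
    {h : ℝ → ℝ → ℝ} {b hh : ℕ → ℝ → ℝ → ℝ} (sR : Sm (Ioo 0 1) L R) (sh : Sm (Ioo 0 1) L h)
    (sb : ∀ i < j, Sm (Ioo 0 1) L (b i)) (shh : ∀ i < j, Sm (Ioo 0 1) L (hh i))
    (hR : ∀ τ ∈ Icc a T, ∀ x ∈ Icc 0 L, |R τ x| ≤ |h τ x| +
      C * ∑ i ∈ Finset.range j, (|b i τ x| + |hh i τ x|) / (x ^ 2 + τ) ^ (j - i)) :
    IR κ a T L k (pj j) R ≤ 4 / 3 * IR κ a T L k (pj j) h +
      8 * j * C ^ 2 * ∑ i ∈ Finset.range j,
        (IR κ a T L k (pj i) (b i) + IR κ a T L k (pj i) (hh i)) := by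
  have c1 := IR_integrand_cont hL ha hT κ k (pj j) sR
  have c2 := IR_integrand_cont hL ha hT κ k (pj j) sh
  have c3 : ∀ i ∈ Finset.range j, ContinuousOn
      (fun τ => (T - τ) ^ k * τ ^ (2 * κ) * XX L (pj i) (b i) τ +
        (T - τ) ^ k * τ ^ (2 * κ) * XX L (pj i) (hh i) τ) (Icc a T) := fun i hi =>
    (IR_integrand_cont hL ha hT κ k (pj i) (sb i (Finset.mem_range.1 hi))).add
      (IR_integrand_cont hL ha hT κ k (pj i) (shh i (Finset.mem_range.1 hi)))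
  have key : IR κ a T L k (pj j) R ≤ ∫ τ in a..T,
      (4 / 3 * ((T - τ) ^ k * τ ^ (2 * κ) * XX L (pj j) h τ) +
      8 * j * C ^ 2 * ∑ i ∈ Finset.range j, ((T - τ) ^ k * τ ^ (2 * κ) * XX L (pj i) (b i) τ +
        (T - τ) ^ k * τ ^ (2 * κ) * XX L (pj i) (hh i) τ)) := by
    refine IR_mono haT c1 ((continuousOn_const.mul c2).add (continuousOn_const.mul
      (continuousOn_finsetSum _ c3))) fun τ hτ => ?_
    have h0 : 0 < τ := ha.trans_le hτ.1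
    have hτ1 : τ ∈ Ioo (0 : ℝ) 1 := ⟨h0, hτ.2.trans_lt hT⟩
    have h2 : 0 ≤ T - τ := sub_nonneg.2 hτ.2
    have h4 := XX_R_le (b := b) (hh := hh) hL h0 (sR.continuousOn_right hτ1)
      (sh.continuousOn_right hτ1) (fun i hi => (sb i hi).continuousOn_right hτ1)
      (fun i hi => (shh i hi).continuousOn_right hτ1) (hR τ hτ)
    have hw : 0 ≤ (T - τ) ^ k * τ ^ (2 * κ) := by positivity
    have h5 := mul_le_mul_of_nonneg_left h4 hw
    refine h5.trans (le_of_eq ?_)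
    rw [mul_add, mul_left_comm _ (8 * (j : ℝ) * C ^ 2), Finset.mul_sum]
    congr 1
    · ring
    · congr 1
      refine Finset.sum_congr rfl fun i _ => ?_
      ring
  refine (key.trans (le_of_eq (int_lin2 haT c2 (continuousOn_finsetSum _ c3) _ _))).trans
    (le_of_eq ?_)
  rw [intervalIntegral.integral_finsetSum (fun i hi => tii haT (c3 i hi))]
  unfold IR
  congr 2
  refine Finset.sum_congr rfl fun i hi => ?_
  have hi' := Finset.mem_range.1 hi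
  rw [intervalIntegral.integral_add (tii haT (IR_integrand_cont hL ha hT κ k (pj i) (sb i hi')))
    (tii haT (IR_integrand_cont hL ha hT κ k (pj i) (shh i hi')))]

theorem IR_EN (h : LevD L C0 φ u E R) (hκ : 0 ≤ κ) (ha : 0 < a) (haT : a ≤ T) (hT : T < 1)
    (k : ℕ) (p : ℝ) :
    3 / 8 * IR κ a T L (2 * (k + 1)) p (fun τ x => φ τ x * dx L (dx L u) τ x) ≤
      (k + 1) * IR κ a T L (2 * k + 1) p u + 9 / 16 * IR κ a T L (2 * (k + 1)) p R +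
      (KE C0 p + |p| / 2) * IR κ a T L (2 * (k + 1)) (p - 1) u +
      1 / 2 * IR κ a T L (2 * (k + 1)) (p + 1) E := by
  have h1 := h.EN_time (TW_std hκ ha haT hT k) p
  unfold IR
  refine h1.trans (le_of_eq ?_)
  congr 3
  have e : ∀ τ, ((2 * (k + 1) : ℕ) : ℝ) * ((T - τ) ^ (2 * k + 1) * τ ^ (2 * κ)) * XX L p u τ =
      (2 * (k + 1)) * ((T - τ) ^ (2 * k + 1) * τ ^ (2 * κ) * XX L p u τ) := fun τ => by
    push_cast; ring
  simp only [e]
  rw [intervalIntegral.integral_const_mul]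
  ring

/-! ### The absorbed one-level inequality -/

/-- from the background to the coefficient facts -/
theorem LevD.of_level {c0 C0 : ℝ} {g : ℝ → ℝ} {L : ℝ} {φ m : ℝ → ℝ → ℝ} (hc0 : 0 < c0)
    (hB : Bg c0 C0 g L φ m) {u E R : ℝ → ℝ → ℝ} (su : Sm (Ioo 0 1) L u) (sE : Sm (Ioo 0 1) L E)
    (sR : Sm (Ioo 0 1) L R) (RL : ∀ τ ∈ Ioo (0 : ℝ) 1, R τ L = 0)
    (eq : ∀ τ ∈ Ioo (0 : ℝ) 1, ∀ x ∈ Icc 0 L,
      x ^ 9 * (φ τ x * (φ τ x * dx L (dx L u) τ x + R τ x)) =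
        Kint (fun ξ => E τ ξ + dt u τ ξ) x) : LevD L C0 φ u E R where
  hL := by linarith [hB.L_ge]
  hC := by
    have h1 : (1 / 2 : ℝ) ∈ Ioo (0 : ℝ) 1 := by constructor <;> norm_num
    have h2 : (0 : ℝ) ∈ Icc 0 L := ⟨le_rfl, by linarith [hB.L_ge]⟩
    linarith [hB.lower _ h1 _ h2, hB.upper _ h1 _ h2]
  smφ := by
    have hL : 0 < L := by linarith [hB.L_ge]
    have h1 : Sm (Ioo 0 1) L (fun τ x => x * (1 - x / L) * m τ x) := by
      refine Sm.mul (Sm.mul Sm.snd ((Sm.const 1).sub ?_)) hB.sm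
      exact (Sm.snd.const_mul (1 / L)).congr fun t _ x _ => by ring
    exact h1.congr fun t ht x hx => hB.phi_eq t ht x hx
  endL := fun τ hτ => by
    have hL : 0 < L := by linarith [hB.L_ge]
    rw [hB.phi_eq τ hτ L ⟨hL.le, le_rfl⟩, div_self hL.ne']; ring
  bd := fun τ hτ x hx => by
    have hL : 0 < L := by linarith [hB.L_ge]
    rw [hB.phi_eq τ hτ x hx]
    have h1 := hB.lower τ hτ x hx
    have h2 := hB.upper τ hτ x hx
    have h3 : 0 ≤ 1 - x / L := by rw [sub_nonneg, div_le_one hL]; exact hx.2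
    have h4 : 1 - x / L ≤ 1 := by
      have : 0 ≤ x / L := div_nonneg hx.1 hL.le
      linarith
    have h0 : 0 ≤ m τ x := by linarith
    rw [abs_of_nonneg (by have := hx.1; positivity)]
    calc x * (1 - x / L) * m τ x ≤ x * 1 * C0 := by
          have := hx.1
          gcongr
      _ = C0 * x := by ring
  bd' := hB.dphi
  smu := su
  smE := sE
  smR := sR
  RL := RL
  eq := eq

/-- constants -/
def KR (c0 M : ℝ) (j : ℕ) : ℝ := 8 * j * CLev c0 M j ^ 2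

theorem KR_nonneg (c0 M : ℝ) (j : ℕ) : 0 ≤ KR c0 M j := by unfold KR; positivity

def K2s (c0 C0 M : ℝ) (k : ℕ) : ℝ := 2 * KJ C0 (pj (k + 1)) * (7 / 3 + KR c0 M k)

theorem K2s_nonneg (c0 C0 M : ℝ) (k : ℕ) : 0 ≤ K2s c0 C0 M k := by
  have := KR_nonneg c0 M k
  have := KJ_nonneg C0 (pj (k + 1))
  unfold K2s; positivity

def K3s (c0 C0 M : ℝ) (k : ℕ) : ℝ :=
  8 / 3 * ((k + 1) + (KE C0 (pj (k + 1)) + |pj (k + 1)| / 2)) + 3 / 2 * KR c0 M (k + 1) + 4 / 3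

theorem K3s_ge (c0 C0 M : ℝ) (k : ℕ) : 4 / 3 ≤ K3s c0 C0 M k := by
  have := KR_nonneg c0 M (k + 1)
  have := KE_nonneg C0 (pj (k + 1))
  have : 0 ≤ 8 / 3 * (((k : ℝ) + 1) + (KE C0 (pj (k + 1)) + |pj (k + 1)| / 2)) := by positivity
  unfold K3s; linarith

/-- the constant of the absorbed one-level inequality -/
def KS (c0 C0 M : ℝ) (k : ℕ) : ℝ :=
  2 * (2 * K3s c0 C0 M k ^ 2 * K2s c0 C0 M k + 5 * K3s c0 C0 M k) +
    2 * K2s c0 C0 M k * K3s c0 C0 M k + 4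

theorem KS_nonneg (c0 C0 M : ℝ) (k : ℕ) : 0 ≤ KS c0 C0 M k := by
  have := K2s_nonneg c0 C0 M k
  have := K3s_ge c0 C0 M k
  have : 0 ≤ K3s c0 C0 M k := by linarith
  unfold KS; positivity

/-- pure algebra of the absorption -/
theorem absorb {X Y H Sg Sk Sj Q K2 K3 : ℝ} (hQ : 1 ≤ Q) (hK2 : 0 ≤ K2) (hK3 : 4 / 3 ≤ K3)
    (hX : 0 ≤ X) (hSg : 0 ≤ Sg) (hSk : 0 ≤ Sk) (hSj : 0 ≤ Sj)
    (hJ : ∀ ε, 0 < ε → ε ≤ 1 → Y ≤ ε * X + K2 / ε * Sg + 4 * Q * Sk)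
    (hE : X ≤ 2 * H + K3 * Q * (Y + Sg + Sj)) :
    X ≤ 4 * H + (2 * (2 * K3 ^ 2 * K2 + 5 * K3) + 2 * K2 * K3 + 4) * Q ^ 2 * (Sg + Sk + Sj) ∧
    Y ≤ 4 * H + (2 * (2 * K3 ^ 2 * K2 + 5 * K3) + 2 * K2 * K3 + 4) * Q ^ 2 * (Sg + Sk + Sj) := by
  have hK3' : 0 < K3 := by linarith
  have hQ' : 0 < Q := by linarith
  have hε : 0 < 1 / (2 * K3 * Q) := by positivity
  have hε1 : 1 / (2 * K3 * Q) ≤ 1 := by
    rw [div_le_one (by positivity)]; nlinarith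
  have h1 := hJ _ hε hε1
  have e1 : K2 / (1 / (2 * K3 * Q)) = 2 * K2 * K3 * Q := by field_simp
  rw [e1] at h1
  have h2 : K3 * Q * Y ≤ 1 / 2 * X + 2 * K3 ^ 2 * K2 * Q ^ 2 * Sg + 4 * K3 * Q ^ 2 * Sk := by
    have h3 := mul_le_mul_of_nonneg_left h1 (by positivity : 0 ≤ K3 * Q)
    refine h3.trans (le_of_eq ?_)
    field_simp
  have hQQ : Q ≤ Q ^ 2 := by nlinarith
  have h3 : X ≤ 4 * H + 2 * (2 * K3 ^ 2 * K2 + 5 * K3) * Q ^ 2 * (Sg + Sk + Sj) := by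
    have h4 : K3 * Q * (Sg + Sj) ≤ K3 * Q ^ 2 * (Sg + Sk + Sj) := by
      have : Sg + Sj ≤ Sg + Sk + Sj := by linarith
      gcongr
    have h5 : 2 * K3 ^ 2 * K2 * Q ^ 2 * Sg ≤ 2 * K3 ^ 2 * K2 * Q ^ 2 * (Sg + Sk + Sj) := by
      have : Sg ≤ Sg + Sk + Sj := by linarith
      gcongr
    have h6 : 4 * K3 * Q ^ 2 * Sk ≤ 4 * K3 * Q ^ 2 * (Sg + Sk + Sj) := by
      have : Sk ≤ Sg + Sk + Sj := by linarith
      gcongr
    have h7 : X ≤ 2 * H + (K3 * Q * Y + K3 * Q * (Sg + Sj)) := by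
      refine hE.trans (le_of_eq ?_); ring
    have e : 2 * (2 * K3 ^ 2 * K2 + 5 * K3) * Q ^ 2 * (Sg + Sk + Sj) =
      2 * (2 * K3 ^ 2 * K2 * Q ^ 2 * (Sg + Sk + Sj) + 4 * K3 * Q ^ 2 * (Sg + Sk + Sj) +
        K3 * Q ^ 2 * (Sg + Sk + Sj)) := by ring
    rw [e]
    linarith
  have hS : 0 ≤ Q ^ 2 * (Sg + Sk + Sj) := by positivity
  have h8 : (2 * K2 * K3 + 4) * (Q ^ 2 * (Sg + Sk + Sj)) =
      2 * K2 * K3 * (Q ^ 2 * (Sg + Sk + Sj)) + 4 * (Q ^ 2 * (Sg + Sk + Sj)) := by ring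
  have e9 : (2 * (2 * K3 ^ 2 * K2 + 5 * K3) + 2 * K2 * K3 + 4) * Q ^ 2 * (Sg + Sk + Sj) =
      2 * (2 * K3 ^ 2 * K2 + 5 * K3) * Q ^ 2 * (Sg + Sk + Sj) +
      (2 * K2 * K3 + 4) * (Q ^ 2 * (Sg + Sk + Sj)) := by ring
  have h10 : 0 ≤ (2 * K2 * K3 + 4) * (Q ^ 2 * (Sg + Sk + Sj)) := by positivity
  refine ⟨by rw [e9]; linarith, ?_⟩
  have h11 : 1 / (2 * K3 * Q) * X ≤ X := by nlinarith
  have h12 : 2 * K2 * K3 * Q * Sg ≤ 2 * K2 * K3 * (Q ^ 2 * (Sg + Sk + Sj)) := by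
    have : Q * Sg ≤ Q ^ 2 * (Sg + Sk + Sj) := by
      have : Sg ≤ Sg + Sk + Sj := by linarith
      gcongr
    calc 2 * K2 * K3 * Q * Sg = 2 * K2 * K3 * (Q * Sg) := by ring
      _ ≤ _ := by gcongr
  have h13 : 4 * Q * Sk ≤ 4 * (Q ^ 2 * (Sg + Sk + Sj)) := by
    have : Q * Sk ≤ Q ^ 2 * (Sg + Sk + Sj) := by
      have : Sk ≤ Sg + Sk + Sj := by linarith
      gcongr
    linarith
  rw [e9, h8]
  linarith

set_option maxHeartbeats 1000000 in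
/-- **the absorbed one-level inequality** on `[a,T]` (`j = k+1`), top constant `4`. -/
theorem level_step {c0 C0 : ℝ} {g : ℝ → ℝ} {L κ a T M : ℝ} {φ m : ℝ → ℝ → ℝ} (hc0 : 0 < c0)
    (hB : Bg c0 C0 g L φ m) (hκ : 0 ≤ κ) (ha : 0 < a) (haT : a ≤ T) (hT : T < 1) (hM : 1 ≤ M)
    {E ht δ : ℝ → ℝ → ℝ} (hE : Sm (Ioo 0 1) L E) (hh : Sm (Ioo 0 1) L ht)
    (hd : Sm (Ioo 0 1) L δ) (heq : LinEq L φ E ht δ) (k : ℕ)
    (hm : ∀ i ≤ k + 1, ∀ τ ∈ Icc a T, ∀ x ∈ Icc 0 L, (x ^ 2 + τ) ^ i * |(dt^[i] m) τ x| ≤ M) :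
    IR κ a T L (2 * (k + 1)) (pj (k + 1)) (be L φ (k + 1) δ) ≤
      4 * IR κ a T L (2 * (k + 1)) (pj (k + 1)) (dt^[k + 1] (fun τ x => φ τ x * ht τ x)) +
      KS c0 C0 M k * (L ^ 2 + 1) ^ 2 *
        ((∑ i ∈ Finset.range (k + 1), (IR κ a T L (2 * i) (pj i) (be L φ i δ) +
            IR κ a T L (2 * i) (pj i) (dt^[i] (fun τ x => φ τ x * ht τ x)))) +
          IR κ a T L (2 * k) (pj k) (dt^[k] E) +
          IR κ a T L (2 * (k + 1)) (pj (k + 1)) (dt^[k + 1] E)) ∧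
    IR κ a T L (2 * k + 1) (pj (k + 1) - 1) (dt^[k + 1] δ) ≤
      4 * IR κ a T L (2 * (k + 1)) (pj (k + 1)) (dt^[k + 1] (fun τ x => φ τ x * ht τ x)) +
      KS c0 C0 M k * (L ^ 2 + 1) ^ 2 *
        ((∑ i ∈ Finset.range (k + 1), (IR κ a T L (2 * i) (pj i) (be L φ i δ) +
            IR κ a T L (2 * i) (pj i) (dt^[i] (fun τ x => φ τ x * ht τ x)))) +
          IR κ a T L (2 * k) (pj k) (dt^[k] E) +
          IR κ a T L (2 * (k + 1)) (pj (k + 1)) (dt^[k + 1] E)) := by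
  have hL : 0 < L := by linarith [hB.L_ge]
  have hI : IsOpen (Ioo (0 : ℝ) 1) := isOpen_Ioo
  obtain ⟨R0, sR0, R0L, eq0, bd0⟩ := level hc0 hB hE hh hd heq k
  obtain ⟨R1, sR1, R1L, eq1, bd1⟩ := level hc0 hB hE hh hd heq (k + 1)
  have sdj : ∀ j, Sm (Ioo 0 1) L (dt^[j] δ) := fun j => hd.dt_iter hI hL j
  have sEj : ∀ j, Sm (Ioo 0 1) L (dt^[j] E) := fun j => hE.dt_iter hI hL j
  -- level data
  have D0 : LevD L C0 φ (dt^[k] δ) (dt^[k] E) R0 :=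
    LevD.of_level hc0 hB (sdj k) (sEj k) sR0 R0L (by
      intro τ hτ x hx
      have := eq0 τ hτ x hx
      rwa [Function.iterate_succ_apply'] at this)
  have D1 : LevD L C0 φ (dt^[k + 1] δ) (dt^[k + 1] E) R1 :=
    LevD.of_level hc0 hB (sdj (k + 1)) (sEj (k + 1)) sR1 R1L (by
      intro τ hτ x hx
      have := eq1 τ hτ x hx
      rwa [Function.iterate_succ_apply' dt (k + 1)] at this)
  have sφ := D0.smφ
  have sh : Sm (Ioo 0 1) L (fun τ x => φ τ x * ht τ x) := sφ.mul hh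
  have shj : ∀ j, Sm (Ioo 0 1) L (dt^[j] (fun τ x => φ τ x * ht τ x)) := fun j =>
    sh.dt_iter hI hL j
  have sbe : ∀ j, Sm (Ioo 0 1) L (be L φ j δ) := fun j =>
    sφ.mul (Sm.dx hI hL (Sm.dx hI hL (sdj j)))
  have hsub : Icc a T ⊆ Ioo (0 : ℝ) 1 := fun τ hτ => ⟨ha.trans_le hτ.1, hτ.2.trans_lt hT⟩
  set h := fun τ x => φ τ x * ht τ x with hhdef
  set Sg := ∑ i ∈ Finset.range (k + 1), (IR κ a T L (2 * i) (pj i) (be L φ i δ) +
            IR κ a T L (2 * i) (pj i) (dt^[i] h)) with hSg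
  have nn : ∀ (n : ℕ) (p : ℝ) (F : ℝ → ℝ → ℝ), 0 ≤ IR κ a T L n p F := fun n p F =>
    IR_nonneg hL ha haT κ n p F
  have hSg0 : 0 ≤ Sg := Finset.sum_nonneg fun i _ => add_nonneg (nn _ _ _) (nn _ _ _)
  -- remainder bounds
  have hR1 : IR κ a T L (2 * (k + 1)) (pj (k + 1)) R1 ≤
      4 / 3 * IR κ a T L (2 * (k + 1)) (pj (k + 1)) (dt^[k + 1] h) + KR c0 M (k + 1) * Sg := by
    have h1 := IR_R_le (κ := κ) hL ha haT hT (2 * (k + 1)) (j := k + 1) (C := CLev c0 M (k + 1))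
      (R := R1) (h := dt^[k + 1] h) (b := fun i => be L φ i δ) (hh := fun i => dt^[i] h) sR1
      (shj (k + 1)) (fun i _ => sbe i) (fun i _ => shj i)
      (fun τ hτ x hx => bd1 M hM τ (hsub hτ) x hx (fun i hi => hm i hi τ hτ x hx))
    refine h1.trans ?_
    have h2 : ∑ i ∈ Finset.range (k + 1), (IR κ a T L (2 * (k + 1)) (pj i) (be L φ i δ) +
        IR κ a T L (2 * (k + 1)) (pj i) (dt^[i] h)) ≤ Sg := by
      refine Finset.sum_le_sum fun i hi => ?_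
      have hi' := Finset.mem_range.1 hi
      exact add_le_add (IR_anti hL ha haT hT κ (by omega) _ (sbe i))
        (IR_anti hL ha haT hT κ (by omega) _ (shj i))
    have h3 : 0 ≤ KR c0 M (k + 1) := KR_nonneg _ _ _
    have h4 := mul_le_mul_of_nonneg_left h2 h3
    unfold KR at h4 ⊢
    linarith
  have hR0 : IR κ a T L (2 * k) (pj k) R0 ≤ (4 / 3 + KR c0 M k) * Sg := by
    have h1 := IR_R_le (κ := κ) hL ha haT hT (2 * k) (j := k) (C := CLev c0 M k)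
      (R := R0) (h := dt^[k] h) (b := fun i => be L φ i δ) (hh := fun i => dt^[i] h) sR0
      (shj k) (fun i _ => sbe i) (fun i _ => shj i)
      (fun τ hτ x hx => bd0 M hM τ (hsub hτ) x hx (fun i hi => hm i (by omega) τ hτ x hx))
    have h2 : ∑ i ∈ Finset.range k, (IR κ a T L (2 * k) (pj i) (be L φ i δ) +
        IR κ a T L (2 * k) (pj i) (dt^[i] h)) ≤ Sg := by
      rw [hSg, Finset.sum_range_succ]
      have h3 : ∑ i ∈ Finset.range k, (IR κ a T L (2 * k) (pj i) (be L φ i δ) +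
          IR κ a T L (2 * k) (pj i) (dt^[i] h)) ≤
          ∑ i ∈ Finset.range k, (IR κ a T L (2 * i) (pj i) (be L φ i δ) +
          IR κ a T L (2 * i) (pj i) (dt^[i] h)) := by
        refine Finset.sum_le_sum fun i hi => ?_
        have hi' := Finset.mem_range.1 hi
        exact add_le_add (IR_anti hL ha haT hT κ (by omega) _ (sbe i))
          (IR_anti hL ha haT hT κ (by omega) _ (shj i))
      linarith [nn (2 * k) (pj k) (be L φ k δ), nn (2 * k) (pj k) (dt^[k] h)]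
    have h3 : IR κ a T L (2 * k) (pj k) (dt^[k] h) ≤ Sg := by
      rw [hSg, Finset.sum_range_succ]
      have : 0 ≤ ∑ i ∈ Finset.range k, (IR κ a T L (2 * i) (pj i) (be L φ i δ) +
          IR κ a T L (2 * i) (pj i) (dt^[i] h)) :=
        Finset.sum_nonneg fun i _ => add_nonneg (nn _ _ _) (nn _ _ _)
      linarith [nn (2 * k) (pj k) (be L φ k δ)]
    have h4 : 0 ≤ KR c0 M k := KR_nonneg _ _ _
    have h5 := mul_le_mul_of_nonneg_left h2 h4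
    unfold KR at h5 ⊢
    linarith
  have hbk : IR κ a T L (2 * k) (pj k) (be L φ k δ) ≤ Sg := by
    rw [hSg, Finset.sum_range_succ]
    have : 0 ≤ ∑ i ∈ Finset.range k, (IR κ a T L (2 * i) (pj i) (be L φ i δ) +
        IR κ a T L (2 * i) (pj i) (dt^[i] h)) :=
      Finset.sum_nonneg fun i _ => add_nonneg (nn _ _ _) (nn _ _ _)
    linarith [nn (2 * k) (pj k) (dt^[k] h)]
  -- (J)
  have e2 : pj (k + 1) - 2 = pj k := by unfold pj; push_cast; ring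
  have e1 : pj (k + 1) - 1 = pj k + 1 := by unfold pj; push_cast; ring
  have hKJ := KJ_nonneg C0 (pj (k + 1))
  have hEk : IR κ a T L (2 * k + 1) (pj (k + 1) - 1) (dt^[k] E) ≤
      (L ^ 2 + 1) * IR κ a T L (2 * k) (pj k) (dt^[k] E) := by
    rw [e1]
    refine (IR_succ hL ha haT hT κ (2 * k + 1) (pj k) (sEj k)).trans ?_
    have := IR_anti hL ha haT hT κ (by omega : 2 * k ≤ 2 * k + 1) (pj k) (sEj k)
    gcongr
  have hJ : ∀ ε, 0 < ε → ε ≤ 1 →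
      IR κ a T L (2 * k + 1) (pj (k + 1) - 1) (dt^[k + 1] δ) ≤
      ε * IR κ a T L (2 * (k + 1)) (pj (k + 1)) (be L φ (k + 1) δ) +
      K2s c0 C0 M k / ε * Sg + 4 * (L ^ 2 + 1) * IR κ a T L (2 * k) (pj k) (dt^[k] E) := by
    intro ε hε hε1
    have h1 := IR_J (κ := κ) D0 ha haT hT k (pj (k + 1)) hε hε1
    rw [e2] at h1
    have h2 : dt (dt^[k] δ) = dt^[k + 1] δ := (Function.iterate_succ_apply' dt k δ).symm
    rw [h2] at h1
    have h3 : IR κ a T L (2 * k) (pj k) (fun τ x => φ τ x * dx L (dx L (dt^[k] δ)) τ x) +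
        IR κ a T L (2 * k) (pj k) R0 ≤ (7 / 3 + KR c0 M k) * Sg := by
      have : IR κ a T L (2 * k) (pj k) (fun τ x => φ τ x * dx L (dx L (dt^[k] δ)) τ x) ≤ Sg := hbk
      linarith
    have h4 : 2 * KJ C0 (pj (k + 1)) / ε *
        (IR κ a T L (2 * k) (pj k) (fun τ x => φ τ x * dx L (dx L (dt^[k] δ)) τ x) +
        IR κ a T L (2 * k) (pj k) R0) ≤ K2s c0 C0 M k / ε * Sg := by
      calc _ ≤ 2 * KJ C0 (pj (k + 1)) / ε * ((7 / 3 + KR c0 M k) * Sg) := by gcongr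
        _ = _ := by unfold K2s; ring
    have h5 : IR κ a T L (2 * (k + 1)) (pj (k + 1))
        (fun τ x => φ τ x * dx L (dx L (dt^[k + 1] δ)) τ x) =
        IR κ a T L (2 * (k + 1)) (pj (k + 1)) (be L φ (k + 1) δ) := rfl
    rw [h5] at h1
    linarith
  -- (EN)
  have hEN : IR κ a T L (2 * (k + 1)) (pj (k + 1)) (be L φ (k + 1) δ) ≤
      2 * IR κ a T L (2 * (k + 1)) (pj (k + 1)) (dt^[k + 1] h) +
      K3s c0 C0 M k * (L ^ 2 + 1) *
        (IR κ a T L (2 * k + 1) (pj (k + 1) - 1) (dt^[k + 1] δ) + Sg +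
          IR κ a T L (2 * (k + 1)) (pj (k + 1)) (dt^[k + 1] E)) := by
    have h1 := IR_EN (κ := κ) D1 hκ ha haT hT k (pj (k + 1))
    have h2 : IR κ a T L (2 * (k + 1)) (pj (k + 1))
        (fun τ x => φ τ x * dx L (dx L (dt^[k + 1] δ)) τ x) =
        IR κ a T L (2 * (k + 1)) (pj (k + 1)) (be L φ (k + 1) δ) := rfl
    rw [h2] at h1
    set Y := IR κ a T L (2 * k + 1) (pj (k + 1) - 1) (dt^[k + 1] δ) with hY
    have hY0 : 0 ≤ Y := nn _ _ _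
    have h3 : IR κ a T L (2 * k + 1) (pj (k + 1)) (dt^[k + 1] δ) ≤ (L ^ 2 + 1) * Y := by
      have := IR_succ hL ha haT hT κ (2 * k + 1) (pj (k + 1) - 1) (sdj (k + 1))
      rwa [sub_add_cancel] at this
    have h4 : IR κ a T L (2 * (k + 1)) (pj (k + 1) - 1) (dt^[k + 1] δ) ≤ Y :=
      IR_anti hL ha haT hT κ (by omega) _ (sdj (k + 1))
    have h5 := IR_succ hL ha haT hT κ (2 * (k + 1)) (pj (k + 1)) (sEj (k + 1))
    set Sj := IR κ a T L (2 * (k + 1)) (pj (k + 1)) (dt^[k + 1] E) with hSj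
    have hSj0 : 0 ≤ Sj := nn _ _ _
    set H := IR κ a T L (2 * (k + 1)) (pj (k + 1)) (dt^[k + 1] h) with hH
    have hQ : (1 : ℝ) ≤ L ^ 2 + 1 := by nlinarith [sq_nonneg L]
    have hKE := KE_nonneg C0 (pj (k + 1))
    have hKR := KR_nonneg c0 M (k + 1)
    have t1 : ((k : ℝ) + 1) * IR κ a T L (2 * k + 1) (pj (k + 1)) (dt^[k + 1] δ) ≤
        ((k : ℝ) + 1) * ((L ^ 2 + 1) * Y) := by gcongr
    have t2 : (KE C0 (pj (k + 1)) + |pj (k + 1)| / 2) *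
        IR κ a T L (2 * (k + 1)) (pj (k + 1) - 1) (dt^[k + 1] δ) ≤
        (KE C0 (pj (k + 1)) + |pj (k + 1)| / 2) * ((L ^ 2 + 1) * Y) := by
      have : IR κ a T L (2 * (k + 1)) (pj (k + 1) - 1) (dt^[k + 1] δ) ≤ (L ^ 2 + 1) * Y :=
        h4.trans (by nlinarith)
      gcongr
    have t3 : KR c0 M (k + 1) * Sg ≤ KR c0 M (k + 1) * ((L ^ 2 + 1) * Sg) := by
      have : Sg ≤ (L ^ 2 + 1) * Sg := by nlinarith
      gcongr
    have t4 : 0 ≤ 8 / 3 * (((k : ℝ) + 1) + (KE C0 (pj (k + 1)) + |pj (k + 1)| / 2)) *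
        ((L ^ 2 + 1) * (Sg + Sj)) := by positivity
    have t5 : 0 ≤ 3 / 2 * KR c0 M (k + 1) * ((L ^ 2 + 1) * (Y + Sj)) := by positivity
    have t6 : 0 ≤ 4 / 3 * ((L ^ 2 + 1) * (Y + Sg)) := by positivity
    have e : K3s c0 C0 M k * (L ^ 2 + 1) * (Y + Sg + Sj) =
        8 / 3 * (((k : ℝ) + 1) * ((L ^ 2 + 1) * Y) +
          (KE C0 (pj (k + 1)) + |pj (k + 1)| / 2) * ((L ^ 2 + 1) * Y)) +
        8 / 3 * (((k : ℝ) + 1) + (KE C0 (pj (k + 1)) + |pj (k + 1)| / 2)) *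
          ((L ^ 2 + 1) * (Sg + Sj)) +
        3 / 2 * (KR c0 M (k + 1) * ((L ^ 2 + 1) * Sg)) +
        3 / 2 * KR c0 M (k + 1) * ((L ^ 2 + 1) * (Y + Sj)) +
        4 / 3 * ((L ^ 2 + 1) * (Y + Sg)) + 4 / 3 * ((L ^ 2 + 1) * Sj) := by
      unfold K3s; ring
    rw [e]
    linarith
  exact absorb (by nlinarith [sq_nonneg L]) (K2s_nonneg _ _ _ _) (K3s_ge _ _ _ _) (nn _ _ _)
    hSg0 (nn _ _ _) (nn _ _ _) hJ hEN

theorem final_alg {L K Kt X Y Sg H S0 S1 : ℝ} (hL : 1 ≤ L) (hK : 0 ≤ K) (hKt : K ≤ Kt)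
    (hSg : 0 ≤ Sg) (hH : 0 ≤ H) (h0 : 0 ≤ S0) (h1 : 0 ≤ S1)
    (hX : X ≤ 4 * H + K * (L ^ 2 + 1) ^ 2 * (Sg + S0 + S1))
    (hY : Y ≤ 4 * H + K * (L ^ 2 + 1) ^ 2 * (Sg + S0 + S1)) :
    X + Y ≤ (8 + 8 * Kt) * L ^ 4 * (Sg + H + S0 + S1) := by
  have hQ : (L ^ 2 + 1) ^ 2 ≤ 4 * L ^ 4 := by
    have h1 : (1 : ℝ) ≤ L ^ 2 := one_le_pow₀ hL
    calc (L ^ 2 + 1) ^ 2 ≤ (2 * L ^ 2) ^ 2 :=
          pow_le_pow_left₀ (by positivity) (by linarith) 2
      _ = 4 * L ^ 4 := by ring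
  have hKt0 : 0 ≤ Kt := hK.trans hKt
  have h3 : K * (L ^ 2 + 1) ^ 2 * (Sg + S0 + S1) ≤ Kt * (4 * L ^ 4) * (Sg + S0 + S1) := by
    gcongr
  have hL4 : 1 ≤ L ^ 4 := one_le_pow₀ hL
  have h4 : H ≤ L ^ 4 * H := le_mul_of_one_le_left hH hL4
  have h5 : 0 ≤ 8 * Kt * (L ^ 4 * H) := by positivity
  have h6 : 0 ≤ 8 * (L ^ 4 * (Sg + S0 + S1)) := by positivity
  have e : (8 + 8 * Kt) * L ^ 4 * (Sg + H + S0 + S1) =
      2 * (Kt * (4 * L ^ 4) * (Sg + S0 + S1)) + 8 * (L ^ 4 * H) + 8 * Kt * (L ^ 4 * H) +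
      8 * (L ^ 4 * (Sg + S0 + S1)) := by ring
  rw [e]
  linarith

/-- the form used for the induction over `j ≤ 8`. -/
theorem one_level_real {c0 C0 κ : ℝ} {g : ℝ → ℝ} (hc0 : 0 < c0) (hκ : 0 ≤ κ) :
    ∃ (C : ℝ) (q : ℕ), 1 ≤ C ∧ ∀ L ≥ (8 : ℝ), ∀ φ m : ℝ → ℝ → ℝ, Bg c0 C0 g L φ m →
      ∀ E ht δ : ℝ → ℝ → ℝ, Sm (Ioo 0 1) L E → Sm (Ioo 0 1) L ht → Sm (Ioo 0 1) L δ →
      LinEq L φ E ht δ → ∀ j, 1 ≤ j → j ≤ 8 → ∀ a, 0 < a → a < 3 / 4 →
        IR κ a (3 / 4) L (2 * j) (pj j) (be L φ j δ) +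
          IR κ a (3 / 4) L (2 * j - 1) (pj j - 1) (dt^[j] δ) ≤
        C * L ^ q * ((∑ i ∈ Finset.range j, (IR κ a (3 / 4) L (2 * i) (pj i) (be L φ i δ) +
            IR κ a (3 / 4) L (2 * i) (pj i) (dt^[i] (fun τ x => φ τ x * ht τ x)))) +
          IR κ a (3 / 4) L (2 * j) (pj j) (dt^[j] (fun τ x => φ τ x * ht τ x)) +
          IR κ a (3 / 4) L (2 * (j - 1)) (pj (j - 1)) (dt^[j - 1] E) +
          IR κ a (3 / 4) L (2 * j) (pj j) (dt^[j] E)) := by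
  set M : ℝ := max 1 C0 with hM
  have hM1 : 1 ≤ M := le_max_left _ _
  refine ⟨8 + 8 * ∑ k ∈ Finset.range 8, KS c0 C0 M k, 4, ?_, ?_⟩
  · have : 0 ≤ ∑ k ∈ Finset.range 8, KS c0 C0 M k := Finset.sum_nonneg fun k _ => KS_nonneg _ _ _ _
    linarith
  intro L hL φ m hB E ht δ hE hh hd heq j hj1 hj8 a ha haT
  obtain ⟨k, rfl⟩ : ∃ k, j = k + 1 := ⟨j - 1, by omega⟩
  have hm : ∀ i ≤ k + 1, ∀ τ ∈ Icc a (3 / 4 : ℝ), ∀ x ∈ Icc 0 L,
      (x ^ 2 + τ) ^ i * |(dt^[i] m) τ x| ≤ M := fun i hi τ hτ x hx =>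
    (hB.dtm i (by omega) τ ⟨ha.trans_le hτ.1, by linarith [hτ.2]⟩ x hx).trans (le_max_right _ _)
  have hst := level_step (κ := κ) (T := 3 / 4) hc0 hB hκ ha haT.le (by norm_num) hM1 hE hh hd heq k hm
  have e1 : 2 * (k + 1) - 1 = 2 * k + 1 := by omega
  have e2 : k + 1 - 1 = k := rfl
  rw [e1, e2]
  have hL0 : 0 < L := by linarith
  have nn : ∀ (n : ℕ) (p : ℝ) (F : ℝ → ℝ → ℝ), 0 ≤ IR κ a (3 / 4) L n p F := fun n p F =>
    IR_nonneg hL0 ha haT.le κ n p F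
  obtain ⟨h1, h2⟩ := hst
  set h := fun τ x => φ τ x * ht τ x with hhdef
  set Sg := ∑ i ∈ Finset.range (k + 1), (IR κ a (3 / 4) L (2 * i) (pj i) (be L φ i δ) +
            IR κ a (3 / 4) L (2 * i) (pj i) (dt^[i] h)) with hSg
  have hSg0 : 0 ≤ Sg := Finset.sum_nonneg fun i _ => add_nonneg (nn _ _ _) (nn _ _ _)
  have hKS : KS c0 C0 M k ≤ ∑ k ∈ Finset.range 8, KS c0 C0 M k :=
    Finset.single_le_sum (f := fun k => KS c0 C0 M k) (fun k _ => KS_nonneg _ _ _ _)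
      (Finset.mem_range.2 (by omega))
  exact final_alg (by linarith) (KS_nonneg c0 C0 M k) hKS hSg0 (nn _ _ _) (nn _ _ _) (nn _ _ _)
    h1 h2

end Crest.Agent.R213.C.EN
end
end

-- ▼ part R213/C/EnLevels
section

/-!
# Row 213, Part C, C2: induction over levels (from the one-level inequality to `energy_levels`)
-/

set_option autoImplicit false

open Set MeasureTheory Filter Topology

noncomputable section

namespace Crest.Agent.R213.C

/-- weighted squared norm over `(a,T) × (0,L)`. -/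
def N2I (a T L : ℝ) (V u : ℝ → ℝ → ℝ) : ENNReal :=
  ∫⁻ p in (Ioo a T ×ˢ Ioo (0 : ℝ) L), ENNReal.ofReal (V p.1 p.2 * p.2 ^ 9 * (u p.1 p.2) ^ 2)

/-- the one-level inequality, constants independent of `a`. -/
def OneLevel (c0 C0 κ : ℝ) (g : ℝ → ℝ) (C : ℝ) (q : ℕ) : Prop :=
  ∀ L ≥ (8 : ℝ), ∀ φ m : ℝ → ℝ → ℝ, Bg c0 C0 g L φ m →
    ∀ E ht δ : ℝ → ℝ → ℝ, Sm (Ioo 0 1) L E → Sm (Ioo 0 1) L ht → Sm (Ioo 0 1) L δ →
      LinEq L φ E ht δ → ∀ j, 1 ≤ j → j ≤ 8 → ∀ a : ℝ, 0 < a → a < 3 / 4 →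
        N2I a (3 / 4) L (fun τ x => (3 / 4 - τ) ^ (2 * j) * WJ κ j τ x) (be L φ j δ) +
          N2I a (3 / 4) L (fun τ x => (3 / 4 - τ) ^ (2 * j - 1) * WA κ j τ x) (dt^[j] δ) ≤
        ENNReal.ofReal (C * L ^ q) *
          (∑ i ∈ Finset.range j, N2I a (3 / 4) L
              (fun τ x => (3 / 4 - τ) ^ (2 * i) * WJ κ i τ x) (be L φ i δ) +
            ∑ i ∈ Finset.range (j + 1),
              (N2I a (3 / 4) L (WJ κ i) (dt^[i] (fun τ x => φ τ x * ht τ x)) +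
                N2I a (3 / 4) L (WA κ i) (dt^[i] E)))

theorem N2I_le_of_weight {a T L c : ℝ} (hc : 0 ≤ c) {V V' u : ℝ → ℝ → ℝ}
    (h : ∀ τ ∈ Ioo a T, ∀ x ∈ Ioo (0 : ℝ) L, V τ x ≤ c * V' τ x) :
    N2I a T L V u ≤ ENNReal.ofReal c * N2I a T L V' u := by
  unfold N2I
  rw [← lintegral_const_mul' _ _ ENNReal.ofReal_ne_top]
  apply setLIntegral_mono' (measurableSet_Ioo.prod measurableSet_Ioo)
  intro p hp
  rw [← ENNReal.ofReal_mul hc]
  apply ENNReal.ofReal_le_ofReal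
  have h1 := h p.1 hp.1 p.2 hp.2
  have h2 : 0 ≤ p.2 ^ 9 * (u p.1 p.2) ^ 2 := by
    have := hp.2.1.le
    positivity
  calc V p.1 p.2 * p.2 ^ 9 * (u p.1 p.2) ^ 2 = V p.1 p.2 * (p.2 ^ 9 * (u p.1 p.2) ^ 2) := by ring
    _ ≤ c * V' p.1 p.2 * (p.2 ^ 9 * (u p.1 p.2) ^ 2) := mul_le_mul_of_nonneg_right h1 h2
    _ = _ := by ring

theorem N2I_mono_weight {a T L : ℝ} {V V' u : ℝ → ℝ → ℝ}
    (h : ∀ τ ∈ Ioo a T, ∀ x ∈ Ioo (0 : ℝ) L, V τ x ≤ V' τ x) :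
    N2I a T L V u ≤ N2I a T L V' u := by
  have := N2I_le_of_weight (u := u) zero_le_one (fun τ hτ x hx => (h τ hτ x hx).trans_eq (one_mul _).symm)
  simpa using this

theorem N2I_mono_set {a a' T T' L : ℝ} (ha : a' ≤ a) (hT : T ≤ T') {V u : ℝ → ℝ → ℝ} :
    N2I a T L V u ≤ N2I a' T' L V u :=
  lintegral_mono_set (Set.prod_mono (Ioo_subset_Ioo ha hT) le_rfl)

theorem N2I_le_N2T {a T L : ℝ} (ha : 0 ≤ a) {V u : ℝ → ℝ → ℝ} :
    N2I a T L V u ≤ N2T T L V u :=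
  lintegral_mono_set (Set.prod_mono (Ioo_subset_Ioo ha le_rfl) le_rfl)

/-- monotone convergence `a → 0`. -/
theorem N2T_le_of_forall {T L : ℝ} {V u : ℝ → ℝ → ℝ} {K : ENNReal} {T' : ℝ} (hT' : 0 < T')
    (h : ∀ a, 0 < a → a < T' → N2I a T L V u ≤ K) : N2T T L V u ≤ K := by
  have hU : (Ioo (0 : ℝ) T ×ˢ Ioo (0 : ℝ) L) =
      ⋃ n : ℕ, (Ioo (T' / (n + 2)) T ×ˢ Ioo (0 : ℝ) L) := by
    ext p
    simp only [mem_prod, mem_iUnion, mem_Ioo]
    constructor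
    · rintro ⟨⟨h1, h2⟩, h3⟩
      obtain ⟨n, hn⟩ := exists_nat_gt (T' / p.1)
      refine ⟨n, ⟨?_, h2⟩, h3⟩
      rw [div_lt_iff₀ (by positivity)]
      rw [div_lt_iff₀ h1] at hn
      nlinarith
    · rintro ⟨n, ⟨h1, h2⟩, h3⟩
      exact ⟨⟨lt_trans (by positivity) h1, h2⟩, h3⟩
  have hd : Directed (· ⊆ ·) (fun n : ℕ => (Ioo (T' / ((n : ℝ) + 2)) T ×ˢ Ioo (0 : ℝ) L)) := by
    apply Monotone.directed_le
    intro n k hnk
    apply Set.prod_mono _ le_rfl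
    apply Ioo_subset_Ioo _ le_rfl
    have : (n : ℝ) ≤ k := by exact_mod_cast hnk
    gcongr
  have := setLIntegral_iUnion_of_directed (μ := volume)
    (fun p : ℝ × ℝ => ENNReal.ofReal (V p.1 p.2 * p.2 ^ 9 * (u p.1 p.2) ^ 2)) hd
  unfold N2T
  rw [hU, this]
  apply iSup_le
  intro n
  apply h
  · positivity
  · rw [div_lt_iff₀ (by positivity)]
    have : (0 : ℝ) ≤ n := Nat.cast_nonneg n
    nlinarith

/-- the right-hand side of `energy_levels` at level `j`. -/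
def SS (κ L : ℝ) (φ E ht δ : ℝ → ℝ → ℝ) (j : ℕ) : ENNReal :=
  N2 L (Wt κ) (bb L φ δ) + N2 L (Wt' κ) δ +
    ∑ i ∈ Finset.range (j + 1),
      (N2T (3 / 4) L (WJ κ i) (dt^[i] (fun τ x => φ τ x * ht τ x)) +
        N2T (3 / 4) L (WA κ i) (dt^[i] E))

theorem SS_mono {κ L : ℝ} {φ E ht δ : ℝ → ℝ → ℝ} {i j : ℕ} (h : i ≤ j) :
    SS κ L φ E ht δ i ≤ SS κ L φ E ht δ j := by
  unfold SS
  gcongr

theorem WJ_nonnegE {κ τ x : ℝ} (hτ : 0 < τ) (j : ℕ) : 0 ≤ WJ κ j τ x := by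
  unfold WJ
  have := Real.rpow_nonneg hτ.le (2 * κ)
  positivity

theorem WA_nonnegE {κ τ x : ℝ} (hτ : 0 < τ) (j : ℕ) : 0 ≤ WA κ j τ x := by
  unfold WA
  have := WJ_nonnegE (κ := κ) (x := x) hτ j
  positivity

/-- level `0` -/
theorem level_zero {κ L : ℝ} {φ E ht δ : ℝ → ℝ → ℝ} {a : ℝ} (ha : 0 < a) :
    N2I a (3 / 4) L (WJ κ 0) (be L φ 0 δ) + N2I a (3 / 4) L (WA κ 0) (dt^[0] δ) ≤
      ENNReal.ofReal 2 * SS κ L φ E ht δ 0 := by
  have h1 : N2I a (3 / 4) L (WJ κ 0) (be L φ 0 δ) ≤ N2 L (Wt κ) (bb L φ δ) := by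
    refine (N2I_le_N2T ha.le).trans ?_
    unfold N2T N2
    have e : be L φ 0 δ = bb L φ δ := rfl
    rw [e]
    exact lintegral_mono_set (Set.prod_mono (Ioo_subset_Ioo le_rfl (by norm_num)) le_rfl)
  have h2 : N2I a (3 / 4) L (WA κ 0) (dt^[0] δ) ≤ ENNReal.ofReal 2 * N2 L (Wt' κ) δ := by
    refine (N2I_le_of_weight (c := 2) (V' := Wt' κ) (by norm_num) ?_).trans ?_
    · intro τ hτ x hx
      have ht0 : 0 < τ := lt_trans ha hτ.1
      have hW := WJ_nonnegE (κ := κ) (x := x) ht0 0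
      have e1 : WJ κ 0 τ x = Wt κ τ x := rfl
      unfold WA Wt'
      rw [e1] at hW ⊢
      have h3 : 1 + 1 / (x ^ 2 + τ) ≤ 2 / τ := by
        have h4 : 1 / (x ^ 2 + τ) ≤ 1 / τ := by
          apply one_div_le_one_div_of_le ht0; nlinarith [sq_nonneg x]
        have h5 : (1 : ℝ) ≤ 1 / τ := by
          rw [le_div_iff₀ ht0]; linarith [hτ.2]
        have h6 : 2 / τ = 1 / τ + 1 / τ := by ring
        rw [h6]; linarith
      calc Wt κ τ x * (1 + 1 / (x ^ 2 + τ)) ≤ Wt κ τ x * (2 / τ) :=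
            mul_le_mul_of_nonneg_left h3 hW
        _ = 2 * (Wt κ τ x / τ) := by ring
    · gcongr
      refine (N2I_le_N2T ha.le).trans ?_
      unfold N2T N2
      exact lintegral_mono_set (Set.prod_mono (Ioo_subset_Ioo le_rfl (by norm_num)) le_rfl)
  calc _ ≤ N2 L (Wt κ) (bb L φ δ) + ENNReal.ofReal 2 * N2 L (Wt' κ) δ := add_le_add h1 h2
    _ ≤ ENNReal.ofReal 2 * N2 L (Wt κ) (bb L φ δ) + ENNReal.ofReal 2 * N2 L (Wt' κ) δ := by
        gcongr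
        have : (1 : ENNReal) ≤ ENNReal.ofReal 2 := by
          rw [← ENNReal.ofReal_one]; exact ENNReal.ofReal_le_ofReal (by norm_num)
        exact le_mul_of_one_le_left' this
    _ = ENNReal.ofReal 2 * (N2 L (Wt κ) (bb L φ δ) + N2 L (Wt' κ) δ) := (mul_add _ _ _).symm
    _ ≤ _ := by
        gcongr
        unfold SS
        exact le_self_add

/-- induction over levels -/
theorem levels_ind {c0 C0 κ : ℝ} {g : ℝ → ℝ} {C1 : ℝ} {q1 : ℕ} (hC1 : 1 ≤ C1)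
    (hOL : OneLevel c0 C0 κ g C1 q1) (n : ℕ) (hn : n ≤ 8) :
    ∃ (C : ℝ) (q : ℕ), 1 ≤ C ∧ ∀ L ≥ (8 : ℝ), ∀ φ m : ℝ → ℝ → ℝ, Bg c0 C0 g L φ m →
      ∀ E ht δ : ℝ → ℝ → ℝ, Sm (Ioo 0 1) L E → Sm (Ioo 0 1) L ht → Sm (Ioo 0 1) L δ →
      LinEq L φ E ht δ → ∀ j ≤ n, ∀ a : ℝ, 0 < a → a < 3 / 4 →
        N2I a (3 / 4) L (fun τ x => (3 / 4 - τ) ^ (2 * j) * WJ κ j τ x) (be L φ j δ) +
          N2I a (3 / 4) L (fun τ x => (3 / 4 - τ) ^ (2 * j - 1) * WA κ j τ x) (dt^[j] δ) ≤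
        ENNReal.ofReal (C * L ^ q) * SS κ L φ E ht δ j := by
  induction n with
  | zero =>
    refine ⟨2, 0, by norm_num, ?_⟩
    intro L hL φ m hB E ht δ hE hh hd heq j hj a ha ha'
    obtain rfl : j = 0 := by omega
    have := level_zero (κ := κ) (L := L) (φ := φ) (E := E) (ht := ht) (δ := δ) ha
    simpa using this
  | succ n ih =>
    obtain ⟨C, q, hC, hI⟩ := ih (by omega)
    refine ⟨C1 * ((n + 2 : ℕ) : ℝ) * C, q1 + q, ?_, ?_⟩
    · have : (1 : ℝ) ≤ ((n + 2 : ℕ) : ℝ) := by exact_mod_cast Nat.succ_le_succ (Nat.zero_le _)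
      have h1 : 1 ≤ C1 * ((n + 2 : ℕ) : ℝ) := one_le_mul_of_one_le_of_one_le hC1 this
      exact one_le_mul_of_one_le_of_one_le h1 hC
    intro L hL φ m hB E ht δ hE hh hd heq j hj a ha ha'
    have hL1 : (1 : ℝ) ≤ L := by linarith
    have hL0 : (0 : ℝ) < L := by linarith
    rcases Nat.lt_or_ge n j with hjn | hjn
    · obtain rfl : j = n + 1 := by omega
      refine (hOL L hL φ m hB E ht δ hE hh hd heq (n + 1) (by omega) (by omega) a ha ha').trans ?_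
      set S := SS κ L φ E ht δ (n + 1) with hS
      have hsum1 : ∑ i ∈ Finset.range (n + 1), N2I a (3 / 4) L
          (fun τ x => (3 / 4 - τ) ^ (2 * i) * WJ κ i τ x) (be L φ i δ) ≤
          ((n + 1 : ℕ) : ENNReal) * (ENNReal.ofReal (C * L ^ q) * S) := by
        rw [← nsmul_eq_mul]
        refine (Finset.sum_le_card_nsmul _ _ (ENNReal.ofReal (C * L ^ q) * S) ?_).trans_eq
          (by rw [Finset.card_range])
        intro i hi
        have hi' : i ≤ n := by simpa [Nat.lt_succ_iff] using hi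
        refine ((le_self_add).trans ((hI L hL φ m hB E ht δ hE hh hd heq i hi' a ha ha').trans ?_))
        gcongr
        exact SS_mono (by omega)
      have hsum2 : ∑ i ∈ Finset.range (n + 1 + 1),
              (N2I a (3 / 4) L (WJ κ i) (dt^[i] (fun τ x => φ τ x * ht τ x)) +
                N2I a (3 / 4) L (WA κ i) (dt^[i] E)) ≤ S := by
        rw [hS]; unfold SS
        refine (Finset.sum_le_sum fun i _ => add_le_add (N2I_le_N2T ha.le) (N2I_le_N2T ha.le)).trans ?_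
        exact le_add_self
      have h1 : (1 : ENNReal) ≤ ENNReal.ofReal (C * L ^ q) := by
        rw [← ENNReal.ofReal_one]
        apply ENNReal.ofReal_le_ofReal
        exact one_le_mul_of_one_le_of_one_le hC (one_le_pow₀ hL1)
      calc _ ≤ ENNReal.ofReal (C1 * L ^ q1) *
            (((n + 1 : ℕ) : ENNReal) * (ENNReal.ofReal (C * L ^ q) * S) + ENNReal.ofReal (C * L ^ q) * S) := by
            gcongr
            exact hsum2.trans (le_mul_of_one_le_left' h1)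
        _ = ENNReal.ofReal (C1 * ((n + 2 : ℕ) : ℝ) * C * L ^ (q1 + q)) * S := by
            have e1 : C1 * ((n + 2 : ℕ) : ℝ) * C * L ^ (q1 + q)
                = (C1 * L ^ q1) * (((n + 2 : ℕ) : ℝ) * (C * L ^ q)) := by ring
            have e3 : ENNReal.ofReal ((C1 * L ^ q1) * (((n + 2 : ℕ) : ℝ) * (C * L ^ q)))
                = ENNReal.ofReal (C1 * L ^ q1) * (((n + 2 : ℕ) : ENNReal) * ENNReal.ofReal (C * L ^ q)) := by
              rw [ENNReal.ofReal_mul (by positivity : (0:ℝ) ≤ C1 * L ^ q1),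
                ENNReal.ofReal_mul (by positivity : (0:ℝ) ≤ ((n + 2 : ℕ) : ℝ)), ENNReal.ofReal_natCast]
            rw [e1, e3]
            push_cast
            ring
    · refine (hI L hL φ m hB E ht δ hE hh hd heq j hjn a ha ha').trans ?_
      gcongr ?_ * _
      apply ENNReal.ofReal_le_ofReal
      have h3 : (1 : ℝ) ≤ C1 * ((n + 2 : ℕ) : ℝ) := by
        have : (1 : ℝ) ≤ ((n + 2 : ℕ) : ℝ) := by exact_mod_cast Nat.succ_le_succ (Nat.zero_le _)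
        exact one_le_mul_of_one_le_of_one_le hC1 this
      have h4 : L ^ q ≤ L ^ (q1 + q) := pow_le_pow_right₀ hL1 (by omega)
      calc C * L ^ q ≤ C * L ^ (q1 + q) := by gcongr
        _ = 1 * (C * L ^ (q1 + q)) := by ring
        _ ≤ (C1 * ((n + 2 : ℕ) : ℝ)) * (C * L ^ (q1 + q)) := by gcongr
        _ = _ := by ring

/-- [C1+C2: `energy_levels`] from the one-level inequality -/
theorem energy_levels_of {c0 C0 κ : ℝ} {g : ℝ → ℝ} {C1 : ℝ} {q1 : ℕ} (hC1 : 1 ≤ C1)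
    (hOL : OneLevel c0 C0 κ g C1 q1) :
    ∃ (C : ℝ) (q : ℕ), 1 ≤ C ∧ ∀ L ≥ (8 : ℝ), ∀ φ m : ℝ → ℝ → ℝ, Bg c0 C0 g L φ m →
      ∀ E ht δ : ℝ → ℝ → ℝ, Sm (Ioo 0 1) L E → Sm (Ioo 0 1) L ht → Sm (Ioo 0 1) L δ →
      LinEq L φ E ht δ → ∀ j ≤ 8,
        N2T (5 / 8) L (WJ κ j) (be L φ j δ) + N2T (5 / 8) L (WA κ j) (dt^[j] δ) ≤
          ENNReal.ofReal (C * L ^ q) * (N2 L (Wt κ) (bb L φ δ) + N2 L (Wt' κ) δ +
            ∑ i ∈ Finset.range (j + 1),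
              (N2T (3 / 4) L (WJ κ i) (dt^[i] (fun τ x => φ τ x * ht τ x)) +
                N2T (3 / 4) L (WA κ i) (dt^[i] E))) := by
  obtain ⟨C, q, hC, hI⟩ := levels_ind hC1 hOL 8 le_rfl
  refine ⟨2 * 8 ^ 16 * C, q, by nlinarith, ?_⟩
  intro L hL φ m hB E ht δ hE hh hd heq j hj
  have hL1 : (1 : ℝ) ≤ L := by linarith
  change _ ≤ _ * SS κ L φ E ht δ j
  have key : ∀ a : ℝ, 0 < a → a < 3 / 4 →
      N2I a (5 / 8) L (WJ κ j) (be L φ j δ) ≤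
        ENNReal.ofReal (8 ^ 16 * C * L ^ q) * SS κ L φ E ht δ j ∧
      N2I a (5 / 8) L (WA κ j) (dt^[j] δ) ≤
        ENNReal.ofReal (8 ^ 16 * C * L ^ q) * SS κ L φ E ht δ j := by
    intro a ha ha'
    have h0 := hI L hL φ m hB E ht δ hE hh hd heq j hj a ha ha'
    have hw : ∀ (k : ℕ), k ≤ 16 → ∀ (V u : ℝ → ℝ → ℝ), (∀ τ x, 0 < τ → 0 ≤ V τ x) →
        N2I a (5 / 8) L V u ≤ ENNReal.ofReal (8 ^ 16) *
          N2I a (3 / 4) L (fun τ x => (3 / 4 - τ) ^ k * V τ x) u := by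
      intro k hk V u hV
      have h1 : N2I a (5 / 8) L V u ≤ ENNReal.ofReal (8 ^ 16) *
          N2I a (5 / 8) L (fun τ x => (3 / 4 - τ) ^ k * V τ x) u := by
        apply N2I_le_of_weight (by positivity)
        intro τ hτ x hx
        have ht0 : 0 < τ := lt_trans ha hτ.1
        have h2 : (1 : ℝ) ≤ 8 ^ 16 * (3 / 4 - τ) ^ k := by
          have h3 : (1 / 8 : ℝ) ^ k ≤ (3 / 4 - τ) ^ k :=
            pow_le_pow_left₀ (by norm_num) (by linarith [hτ.2]) k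
          have h4 : (1 / 8 : ℝ) ^ 16 ≤ (1 / 8 : ℝ) ^ k :=
            pow_le_pow_of_le_one (by norm_num) (by norm_num) hk
          have h5 : (8 : ℝ) ^ 16 * (1 / 8) ^ 16 = 1 := by norm_num
          calc (1 : ℝ) = 8 ^ 16 * (1 / 8) ^ 16 := h5.symm
            _ ≤ 8 ^ 16 * (3 / 4 - τ) ^ k := by gcongr; exact h4.trans h3
        calc V τ x = 1 * V τ x := (one_mul _).symm
          _ ≤ (8 ^ 16 * (3 / 4 - τ) ^ k) * V τ x := mul_le_mul_of_nonneg_right h2 (hV τ x ht0)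
          _ = _ := by ring
      refine h1.trans ?_
      gcongr
      exact N2I_mono_set le_rfl (by norm_num)
    have e1 : ENNReal.ofReal (8 ^ 16 * C * L ^ q) = ENNReal.ofReal (8 ^ 16) * ENNReal.ofReal (C * L ^ q) := by
      rw [← ENNReal.ofReal_mul (by positivity)]; congr 1; ring
    constructor
    · refine (hw (2 * j) (by omega) (WJ κ j) (be L φ j δ) (fun τ x h => WJ_nonnegE h j)).trans ?_
      rw [e1, mul_assoc]
      gcongr
      exact le_self_add.trans h0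
    · refine (hw (2 * j - 1) (by omega) (WA κ j) (dt^[j] δ) (fun τ x h => WA_nonnegE h j)).trans ?_
      rw [e1, mul_assoc]
      gcongr
      exact le_add_self.trans h0
  have h1 := N2T_le_of_forall (T := 5 / 8) (T' := 3 / 4) (by norm_num) (fun a ha ha' => (key a ha ha').1)
  have h2 := N2T_le_of_forall (T := 5 / 8) (T' := 3 / 4) (by norm_num) (fun a ha ha' => (key a ha ha').2)
  calc _ ≤ ENNReal.ofReal (8 ^ 16 * C * L ^ q) * SS κ L φ E ht δ j +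
        ENNReal.ofReal (8 ^ 16 * C * L ^ q) * SS κ L φ E ht δ j := add_le_add h1 h2
    _ = ENNReal.ofReal (2 * 8 ^ 16 * C * L ^ q) * SS κ L φ E ht δ j := by
        rw [← two_mul, ← mul_assoc]
        congr 1
        have e2 : (2 : ENNReal) = ENNReal.ofReal 2 := by norm_num
        rw [e2, ← ENNReal.ofReal_mul (by norm_num)]
        congr 1; ring

end Crest.Agent.R213.C
end
end

-- ▼ part R213/C/EnConv
section

/-!
# Row 213, part C, C2: conversion between iterated real integrals and `lintegral` (helper436)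
-/

set_option autoImplicit false

open Set MeasureTheory Filter Topology

noncomputable section

namespace Crest.Agent.R213.C.EN

open Crest.Agent.R213

/-- general form: a nonnegative continuous function on `[a,T] × [0,L]` -/
theorem ofReal_iter {a T L : ℝ} (haT : a ≤ T) (hL : 0 ≤ L) {h : ℝ → ℝ → ℝ}
    (hc : ContinuousOn (fun q : ℝ × ℝ => h q.1 q.2) (Icc a T ×ˢ Icc 0 L))
    (h0 : ∀ τ ∈ Icc a T, ∀ x ∈ Icc 0 L, 0 ≤ h τ x) :
    ENNReal.ofReal (∫ τ in a..T, ∫ x in (0 : ℝ)..L, h τ x) =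
      ∫⁻ q in (Ioo a T ×ˢ Ioo (0 : ℝ) L), ENNReal.ofReal (h q.1 q.2) := by
  have hsub : Ioo a T ×ˢ Ioo (0 : ℝ) L ⊆ Icc a T ×ˢ Icc 0 L :=
    Set.prod_mono Ioo_subset_Icc_self Ioo_subset_Icc_self
  have hms : MeasurableSet (Ioo a T ×ˢ Ioo (0 : ℝ) L) := measurableSet_Ioo.prod measurableSet_Ioo
  have hI : IntegrableOn (fun q : ℝ × ℝ => h q.1 q.2) (Ioo a T ×ˢ Ioo (0 : ℝ) L) :=
    (hc.integrableOn_compact (isCompact_Icc.prod isCompact_Icc)).mono_set hsub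
  have hI' : Integrable (fun q : ℝ × ℝ => h q.1 q.2)
      ((volume.restrict (Ioo a T)).prod (volume.restrict (Ioo (0 : ℝ) L))) := by
    rw [Measure.prod_restrict]
    exact hI
  have e1 : ∫ τ in a..T, ∫ x in (0 : ℝ)..L, h τ x =
      ∫ q in (Ioo a T ×ˢ Ioo (0 : ℝ) L), h q.1 q.2 := by
    have e2 : ∫ q in (Ioo a T ×ˢ Ioo (0 : ℝ) L), h q.1 q.2 = ∫ q, h q.1 q.2
        ∂((volume.restrict (Ioo a T)).prod (volume.restrict (Ioo (0 : ℝ) L))) := by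
      rw [Measure.prod_restrict]
      rfl
    rw [e2, integral_prod _ hI', intervalIntegral.integral_of_le haT, integral_Ioc_eq_integral_Ioo]
    refine setIntegral_congr_fun measurableSet_Ioo fun τ _ => ?_
    simp only
    rw [intervalIntegral.integral_of_le hL, integral_Ioc_eq_integral_Ioo]
  rw [e1]
  exact ofReal_integral_eq_lintegral_ofReal hI ((ae_restrict_mem hms).mono fun q hq =>
    h0 q.1 (Ioo_subset_Icc_self hq.1) q.2 (Ioo_subset_Icc_self hq.2))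

variable {L a T κ p : ℝ} {F : ℝ → ℝ → ℝ}

/-- **conversion lemma** -/
theorem ofReal_XX (hF : Sm (Ioo 0 1) L F) (hL : 0 < L) (ha : 0 < a) (haT : a ≤ T) (hT : T < 1)
    (k : ℕ) :
    ENNReal.ofReal (∫ τ in a..T, (T - τ) ^ k * τ ^ (2 * κ) * XX L p F τ) =
      ∫⁻ q in (Ioo a T ×ˢ Ioo (0 : ℝ) L),
        ENNReal.ofReal ((T - q.1) ^ k * q.1 ^ (2 * κ) * (q.2 ^ 2 + q.1) ^ p * q.2 ^ 9 *
          F q.1 q.2 ^ 2) := by
  have hcF : ContinuousOn (fun q : ℝ × ℝ => F q.1 q.2) (Icc a T ×ˢ Icc 0 L) :=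
    hF.continuousOn.mono (Set.prod_mono (fun τ hτ => ⟨ha.trans_le hτ.1, hτ.2.trans_lt hT⟩)
      subset_rfl)
  have hc : ContinuousOn (fun q : ℝ × ℝ => (T - q.1) ^ k * q.1 ^ (2 * κ) *
      (q.2 ^ 2 + q.1) ^ p * q.2 ^ 9 * F q.1 q.2 ^ 2) (Icc a T ×ˢ Icc 0 L) := by
    have h1 : ContinuousOn (fun q : ℝ × ℝ => q.1 ^ (2 * κ)) (Icc a T ×ˢ Icc 0 L) :=
      ContinuousOn.rpow_const continuousOn_fst fun q hq => Or.inl (ha.trans_le hq.1.1).ne'
    have h2 : ContinuousOn (fun q : ℝ × ℝ => (q.2 ^ 2 + q.1) ^ p) (Icc a T ×ˢ Icc 0 L) :=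
      ContinuousOn.rpow_const (by fun_prop) fun q hq => Or.inl (by
        have := ha.trans_le hq.1.1
        positivity)
    exact (((((continuousOn_const.sub continuousOn_fst).pow k).mul h1).mul h2).mul
      (continuousOn_snd.pow 9)).mul (hcF.pow 2)
  have h0 : ∀ τ ∈ Icc a T, ∀ x ∈ Icc 0 L, 0 ≤ (T - τ) ^ k * τ ^ (2 * κ) *
      (x ^ 2 + τ) ^ p * x ^ 9 * F τ x ^ 2 := by
    intro τ hτ x hx
    have h1 : 0 ≤ T - τ := sub_nonneg.2 hτ.2
    have h2 : 0 < τ := ha.trans_le hτ.1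
    have h3 : 0 ≤ x := hx.1
    positivity
  rw [← ofReal_iter (h := fun τ x => (T - τ) ^ k * τ ^ (2 * κ) * (x ^ 2 + τ) ^ p * x ^ 9 *
    F τ x ^ 2) haT hL.le hc h0]
  congr 1
  refine intervalIntegral.integral_congr fun τ _ => ?_
  simp only [XX]
  rw [← intervalIntegral.integral_const_mul]
  refine intervalIntegral.integral_congr fun x _ => ?_
  ring


end Crest.Agent.R213.C.EN
end
end

-- ▼ part R213/C/EnReal

/-!
# Row 213, part C, C2: from the real one-level inequality to `OneLevel`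
-/

set_option autoImplicit false

open Set MeasureTheory Filter Topology

noncomputable section

namespace Crest.Agent.R213.C.EN

open Crest.Agent.R213 Crest.Agent.R213.C

variable {κ L a : ℝ} {F : ℝ → ℝ → ℝ}

/-- the real one-level inequality (statement of `one_level_real`). -/
def OneLevelReal (c0 C0 κ : ℝ) (g : ℝ → ℝ) (C : ℝ) (q : ℕ) : Prop :=
  ∀ L ≥ (8 : ℝ), ∀ φ m : ℝ → ℝ → ℝ, Bg c0 C0 g L φ m →
    ∀ E ht δ : ℝ → ℝ → ℝ, Sm (Ioo 0 1) L E → Sm (Ioo 0 1) L ht → Sm (Ioo 0 1) L δ →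
      LinEq L φ E ht δ → ∀ j, 1 ≤ j → j ≤ 8 → ∀ a : ℝ, 0 < a → a < 3 / 4 →
        IR κ a (3 / 4) L (2 * j) (pj j) (be L φ j δ) +
          IR κ a (3 / 4) L (2 * j - 1) (pj j - 1) (dt^[j] δ) ≤
        C * L ^ q *
          (∑ i ∈ Finset.range j, (IR κ a (3 / 4) L (2 * i) (pj i) (be L φ i δ) +
              IR κ a (3 / 4) L (2 * i) (pj i) (dt^[i] (fun τ x => φ τ x * ht τ x))) +
            IR κ a (3 / 4) L (2 * j) (pj j) (dt^[j] (fun τ x => φ τ x * ht τ x)) +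
            IR κ a (3 / 4) L (2 * (j - 1)) (pj (j - 1)) (dt^[j - 1] E) +
            IR κ a (3 / 4) L (2 * j) (pj j) (dt^[j] E))

theorem ofReal_IR (hL : 0 < L) (ha : 0 < a) (haT : a ≤ 3 / 4) (k : ℕ) (p : ℝ)
    (hF : Sm (Ioo 0 1) L F) :
    ENNReal.ofReal (IR κ a (3 / 4) L k p F) =
      N2I a (3 / 4) L (fun τ x => (3 / 4 - τ) ^ k * τ ^ (2 * κ) * (x ^ 2 + τ) ^ p) F :=
  ofReal_XX hF hL ha haT (by norm_num) k

theorem rpow_pj {r : ℝ} (hr : 0 < r) {j : ℕ} (hj : j ≤ 8) :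
    r ^ pj j = 1 / r ^ (60 - 2 * j) := by
  have h : pj j = -(((60 - 2 * j : ℕ)) : ℝ) := by
    unfold pj
    rw [Nat.cast_sub (by omega)]
    push_cast
    ring
  rw [h, Real.rpow_neg hr.le, Real.rpow_natCast, one_div]

theorem weight_pj {τ x : ℝ} (hτ : 0 < τ) {j : ℕ} (hj : j ≤ 8) :
    τ ^ (2 * κ) * (x ^ 2 + τ) ^ pj j = WJ κ j τ x := by
  have hr : 0 < x ^ 2 + τ := by positivity
  rw [rpow_pj hr hj]
  unfold WJ
  ring

theorem N2I_congr_weight {a T L : ℝ} {V V' u : ℝ → ℝ → ℝ}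
    (h : ∀ τ ∈ Ioo a T, ∀ x ∈ Ioo (0 : ℝ) L, V τ x = V' τ x) :
    N2I a T L V u = N2I a T L V' u :=
  le_antisymm (N2I_mono_weight fun τ hτ x hx => (h τ hτ x hx).le)
    (N2I_mono_weight fun τ hτ x hx => (h τ hτ x hx).ge)

/-- the conversion at level `j` -/
theorem ofReal_IR_pj (hL : 0 < L) (ha : 0 < a) (haT : a ≤ 3 / 4) (k : ℕ) {j : ℕ} (hj : j ≤ 8)
    (hF : Sm (Ioo 0 1) L F) :
    ENNReal.ofReal (IR κ a (3 / 4) L k (pj j) F) =
      N2I a (3 / 4) L (fun τ x => (3 / 4 - τ) ^ k * WJ κ j τ x) F := by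
  rw [ofReal_IR hL ha haT k _ hF]
  apply N2I_congr_weight
  intro τ hτ x hx
  rw [mul_assoc, weight_pj (ha.trans hτ.1) hj]

/-- the `δ` term -/
theorem N2I_WA_le (hL : 0 < L) (ha : 0 < a) (haT : a ≤ 3 / 4) (k : ℕ) {j : ℕ} (hj : j ≤ 8)
    (hF : Sm (Ioo 0 1) L F) :
    N2I a (3 / 4) L (fun τ x => (3 / 4 - τ) ^ k * WA κ j τ x) F ≤
      ENNReal.ofReal (L ^ 2 + 2) * ENNReal.ofReal (IR κ a (3 / 4) L k (pj j - 1) F) := by
  rw [ofReal_IR hL ha haT k _ hF]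
  apply N2I_le_of_weight (by positivity)
  intro τ hτ x hx
  have hτ0 : 0 < τ := ha.trans hτ.1
  have hr : 0 < x ^ 2 + τ := by positivity
  have h1 : 0 ≤ 3 / 4 - τ := sub_nonneg.2 hτ.2.le
  have hW := WJ_nonnegE (κ := κ) (x := x) hτ0 j
  have h2 : (x ^ 2 + τ) ^ (pj j - 1) = (x ^ 2 + τ) ^ pj j / (x ^ 2 + τ) :=
    Real.rpow_sub_one hr.ne' _
  rw [h2]
  have h3 : (3 / 4 - τ) ^ k * τ ^ (2 * κ) * ((x ^ 2 + τ) ^ pj j / (x ^ 2 + τ)) =
      (3 / 4 - τ) ^ k * (τ ^ (2 * κ) * (x ^ 2 + τ) ^ pj j) / (x ^ 2 + τ) := by ring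
  rw [h3, weight_pj hτ0 hj]
  unfold WA
  have h4 : 1 + 1 / (x ^ 2 + τ) ≤ (L ^ 2 + 2) / (x ^ 2 + τ) := by
    rw [le_div_iff₀ hr, add_mul, one_div, inv_mul_cancel₀ hr.ne']
    have h5 : x ^ 2 ≤ L ^ 2 := pow_le_pow_left₀ hx.1.le hx.2.le 2
    linarith [hτ.2]
  calc (3 / 4 - τ) ^ k * (WJ κ j τ x * (1 + 1 / (x ^ 2 + τ)))
      ≤ (3 / 4 - τ) ^ k * (WJ κ j τ x * ((L ^ 2 + 2) / (x ^ 2 + τ))) := by gcongr
    _ = (L ^ 2 + 2) * ((3 / 4 - τ) ^ k * WJ κ j τ x / (x ^ 2 + τ)) := by ring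

theorem N2I_WJ_le (ha : 0 < a) (k j : ℕ) :
    N2I a (3 / 4) L (fun τ x => (3 / 4 - τ) ^ k * WJ κ j τ x) F ≤ N2I a (3 / 4) L (WJ κ j) F := by
  apply N2I_mono_weight
  intro τ hτ x hx
  have hτ0 : 0 < τ := ha.trans hτ.1
  have h1 : 0 ≤ 3 / 4 - τ := sub_nonneg.2 hτ.2.le
  have h2 : (3 / 4 - τ) ^ k ≤ 1 := pow_le_one₀ h1 (by linarith)
  calc (3 / 4 - τ) ^ k * WJ κ j τ x ≤ 1 * WJ κ j τ x :=
        mul_le_mul_of_nonneg_right h2 (WJ_nonnegE hτ0 j)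
    _ = _ := one_mul _

theorem N2I_WJ_le_WA (ha : 0 < a) (k j : ℕ) :
    N2I a (3 / 4) L (fun τ x => (3 / 4 - τ) ^ k * WJ κ j τ x) F ≤ N2I a (3 / 4) L (WA κ j) F := by
  refine (N2I_WJ_le ha k j).trans (N2I_mono_weight ?_)
  intro τ hτ x hx
  have hτ0 : 0 < τ := ha.trans hτ.1
  have hr : 0 < x ^ 2 + τ := by positivity
  unfold WA
  have hW := WJ_nonnegE (κ := κ) (x := x) hτ0 j
  have h1 : (1 : ℝ) ≤ 1 + 1 / (x ^ 2 + τ) := by
    have : 0 ≤ 1 / (x ^ 2 + τ) := by positivity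
    linarith
  exact le_mul_of_one_le_right hW h1

theorem oneLevel_of_real {c0 C0 : ℝ} {g : ℝ → ℝ} {C : ℝ} {q : ℕ} (hC : 1 ≤ C)
    (h : OneLevelReal c0 C0 κ g C q) : OneLevel c0 C0 κ g (2 * C) (q + 2) := by
  intro L hL φ m hB E ht δ hE hh hd heq j hj1 hj8 a ha ha'
  have hL0 : 0 < L := by linarith
  have hL1 : (1 : ℝ) ≤ L := by linarith
  have sφ : Sm (Ioo (0 : ℝ) 1) L φ := by
    have h1 : Sm (Ioo (0 : ℝ) 1) L (fun τ x => x * (1 - x / L) * m τ x) :=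
      (Sm.snd.mul ((Sm.const 1).sub (Sm.snd.div (Sm.const L) (fun _ _ _ _ => hL0.ne')))).mul hB.sm
    exact h1.congr hB.phi_eq
  have sbe : ∀ i, Sm (Ioo (0 : ℝ) 1) L (be L φ i δ) := fun i =>
    sφ.mul (((hd.dt_iter isOpen_Ioo hL0 i).dx isOpen_Ioo hL0).dx isOpen_Ioo hL0)
  have sht : ∀ i, Sm (Ioo (0 : ℝ) 1) L (dt^[i] (fun τ x => φ τ x * ht τ x)) := fun i =>
    (sφ.mul hh).dt_iter isOpen_Ioo hL0 i
  have sE : ∀ i, Sm (Ioo (0 : ℝ) 1) L (dt^[i] E) := fun i => hE.dt_iter isOpen_Ioo hL0 i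
  have sδ : ∀ i, Sm (Ioo (0 : ℝ) 1) L (dt^[i] δ) := fun i => hd.dt_iter isOpen_Ioo hL0 i
  have key := h L hL φ m hB E ht δ hE hh hd heq j hj1 hj8 a ha ha'
  have hn : ∀ (k : ℕ) (p : ℝ) (G : ℝ → ℝ → ℝ), 0 ≤ IR κ a (3 / 4) L k p G :=
    fun k p G => IR_nonneg hL0 ha ha'.le κ k p G
  have key2 := ENNReal.ofReal_le_ofReal key
  rw [ENNReal.ofReal_add (hn _ _ _) (hn _ _ _),
    ENNReal.ofReal_mul (by positivity : (0 : ℝ) ≤ C * L ^ q),
    ENNReal.ofReal_add (add_nonneg (add_nonneg (Finset.sum_nonneg fun i _ =>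
      add_nonneg (hn _ _ _) (hn _ _ _)) (hn _ _ _)) (hn _ _ _)) (hn _ _ _),
    ENNReal.ofReal_add (add_nonneg (Finset.sum_nonneg fun i _ =>
      add_nonneg (hn _ _ _) (hn _ _ _)) (hn _ _ _)) (hn _ _ _),
    ENNReal.ofReal_add (Finset.sum_nonneg fun i _ =>
      add_nonneg (hn _ _ _) (hn _ _ _)) (hn _ _ _),
    ENNReal.ofReal_sum_of_nonneg (fun i _ => add_nonneg (hn _ _ _) (hn _ _ _))] at key2
  set Q : ENNReal := ∑ i ∈ Finset.range j, N2I a (3 / 4) L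
      (fun τ x => (3 / 4 - τ) ^ (2 * i) * WJ κ i τ x) (be L φ i δ) +
    ∑ i ∈ Finset.range (j + 1),
      (N2I a (3 / 4) L (WJ κ i) (dt^[i] (fun τ x => φ τ x * ht τ x)) +
        N2I a (3 / 4) L (WA κ i) (dt^[i] E)) with hQ
  have hR : ∑ i ∈ Finset.range j, ENNReal.ofReal
        (IR κ a (3 / 4) L (2 * i) (pj i) (be L φ i δ) +
          IR κ a (3 / 4) L (2 * i) (pj i) (dt^[i] (fun τ x => φ τ x * ht τ x))) +
      ENNReal.ofReal (IR κ a (3 / 4) L (2 * j) (pj j) (dt^[j] (fun τ x => φ τ x * ht τ x))) +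
      ENNReal.ofReal (IR κ a (3 / 4) L (2 * (j - 1)) (pj (j - 1)) (dt^[j - 1] E)) +
      ENNReal.ofReal (IR κ a (3 / 4) L (2 * j) (pj j) (dt^[j] E)) ≤ Q := by
    have e1 : ∀ i ∈ Finset.range j, ENNReal.ofReal
        (IR κ a (3 / 4) L (2 * i) (pj i) (be L φ i δ) +
          IR κ a (3 / 4) L (2 * i) (pj i) (dt^[i] (fun τ x => φ τ x * ht τ x))) ≤
        N2I a (3 / 4) L (fun τ x => (3 / 4 - τ) ^ (2 * i) * WJ κ i τ x) (be L φ i δ) +
          N2I a (3 / 4) L (WJ κ i) (dt^[i] (fun τ x => φ τ x * ht τ x)) := by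
      intro i hi
      have hi' : i < j := Finset.mem_range.1 hi
      rw [ENNReal.ofReal_add (hn _ _ _) (hn _ _ _),
        ofReal_IR_pj hL0 ha ha'.le _ (by omega) (sbe i),
        ofReal_IR_pj hL0 ha ha'.le _ (by omega) (sht i)]
      exact add_le_add le_rfl (N2I_WJ_le ha _ _)
    have e2 : ENNReal.ofReal
        (IR κ a (3 / 4) L (2 * j) (pj j) (dt^[j] (fun τ x => φ τ x * ht τ x))) ≤
        N2I a (3 / 4) L (WJ κ j) (dt^[j] (fun τ x => φ τ x * ht τ x)) := by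
      rw [ofReal_IR_pj hL0 ha ha'.le _ hj8 (sht j)]
      exact N2I_WJ_le ha _ _
    have e3 : ∀ i ≤ 8, ENNReal.ofReal (IR κ a (3 / 4) L (2 * i) (pj i) (dt^[i] E)) ≤
        N2I a (3 / 4) L (WA κ i) (dt^[i] E) := by
      intro i hi
      rw [ofReal_IR_pj hL0 ha ha'.le _ hi (sE i)]
      exact N2I_WJ_le_WA ha _ _
    have e4 : N2I a (3 / 4) L (WA κ (j - 1)) (dt^[j - 1] E) +
        N2I a (3 / 4) L (WA κ j) (dt^[j] E) ≤
        ∑ i ∈ Finset.range (j + 1), N2I a (3 / 4) L (WA κ i) (dt^[i] E) := by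
      obtain ⟨n, rfl⟩ : ∃ n, j = n + 1 := ⟨j - 1, by omega⟩
      rw [Finset.sum_range_succ, Finset.sum_range_succ]
      simp only [Nat.add_sub_cancel]
      gcongr
      exact le_add_self
    rw [hQ]
    calc _ ≤ ∑ i ∈ Finset.range j,
          (N2I a (3 / 4) L (fun τ x => (3 / 4 - τ) ^ (2 * i) * WJ κ i τ x) (be L φ i δ) +
            N2I a (3 / 4) L (WJ κ i) (dt^[i] (fun τ x => φ τ x * ht τ x))) +
          N2I a (3 / 4) L (WJ κ j) (dt^[j] (fun τ x => φ τ x * ht τ x)) +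
          N2I a (3 / 4) L (WA κ (j - 1)) (dt^[j - 1] E) +
          N2I a (3 / 4) L (WA κ j) (dt^[j] E) := by
          gcongr ?_ + ?_ + ?_ + ?_
          · exact Finset.sum_le_sum e1
          · exact e3 (j - 1) (by omega)
          · exact e3 j hj8
      _ ≤ _ := by
          rw [Finset.sum_add_distrib, Finset.sum_add_distrib, Finset.sum_range_succ
            (fun i => N2I a (3 / 4) L (WJ κ i) (dt^[i] (fun τ x => φ τ x * ht τ x)))]
          calc _ = ∑ i ∈ Finset.range j, N2I a (3 / 4) L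
                (fun τ x => (3 / 4 - τ) ^ (2 * i) * WJ κ i τ x) (be L φ i δ) +
                (∑ i ∈ Finset.range j,
                  N2I a (3 / 4) L (WJ κ i) (dt^[i] (fun τ x => φ τ x * ht τ x)) +
                  N2I a (3 / 4) L (WJ κ j) (dt^[j] (fun τ x => φ τ x * ht τ x)) +
                  (N2I a (3 / 4) L (WA κ (j - 1)) (dt^[j - 1] E) +
                  N2I a (3 / 4) L (WA κ j) (dt^[j] E))) := by
                  simp only [add_assoc]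
            _ ≤ _ := by gcongr
  have hLq : ENNReal.ofReal (L ^ 2 + 2) * ENNReal.ofReal (C * L ^ q) ≤
      ENNReal.ofReal (2 * C * L ^ (q + 2)) := by
    rw [← ENNReal.ofReal_mul (by positivity)]
    apply ENNReal.ofReal_le_ofReal
    have h1 : L ^ 2 + 2 ≤ 2 * L ^ 2 := by nlinarith
    calc (L ^ 2 + 2) * (C * L ^ q) ≤ (2 * L ^ 2) * (C * L ^ q) := by gcongr
      _ = _ := by ring
  have hone : (1 : ENNReal) ≤ ENNReal.ofReal (L ^ 2 + 2) := by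
    rw [← ENNReal.ofReal_one]
    exact ENNReal.ofReal_le_ofReal (by nlinarith)
  calc _ ≤ ENNReal.ofReal (L ^ 2 + 2) *
        ENNReal.ofReal (IR κ a (3 / 4) L (2 * j) (pj j) (be L φ j δ)) +
        ENNReal.ofReal (L ^ 2 + 2) *
        ENNReal.ofReal (IR κ a (3 / 4) L (2 * j - 1) (pj j - 1) (dt^[j] δ)) := by
        refine add_le_add ?_ (N2I_WA_le hL0 ha ha'.le _ hj8 (sδ j))
        rw [ofReal_IR_pj hL0 ha ha'.le _ hj8 (sbe j)]
        exact le_mul_of_one_le_left' hone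
    _ = ENNReal.ofReal (L ^ 2 + 2) *
        (ENNReal.ofReal (IR κ a (3 / 4) L (2 * j) (pj j) (be L φ j δ)) +
        ENNReal.ofReal (IR κ a (3 / 4) L (2 * j - 1) (pj j - 1) (dt^[j] δ))) :=
        (mul_add _ _ _).symm
    _ ≤ ENNReal.ofReal (L ^ 2 + 2) * (ENNReal.ofReal (C * L ^ q) * Q) := by
        gcongr
        refine key2.trans ?_
        gcongr
    _ = ENNReal.ofReal (L ^ 2 + 2) * ENNReal.ofReal (C * L ^ q) * Q := (mul_assoc _ _ _).symm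
    _ ≤ _ := by gcongr

/-- [C1+C2: `energy_levels`] from the real one-level inequality -/
theorem energyLevels_of_real {c0 C0 : ℝ} {g : ℝ → ℝ} {C : ℝ} {q : ℕ} (hC : 1 ≤ C)
    (h : OneLevelReal c0 C0 κ g C q) :
    ∃ (C : ℝ) (q : ℕ), 1 ≤ C ∧ ∀ L ≥ (8 : ℝ), ∀ φ m : ℝ → ℝ → ℝ, Bg c0 C0 g L φ m →
      ∀ E ht δ : ℝ → ℝ → ℝ, Sm (Ioo 0 1) L E → Sm (Ioo 0 1) L ht → Sm (Ioo 0 1) L δ →
      LinEq L φ E ht δ → ∀ j ≤ 8,
        N2T (5 / 8) L (WJ κ j) (be L φ j δ) + N2T (5 / 8) L (WA κ j) (dt^[j] δ) ≤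
          ENNReal.ofReal (C * L ^ q) * (N2 L (Wt κ) (bb L φ δ) + N2 L (Wt' κ) δ +
            ∑ i ∈ Finset.range (j + 1),
              (N2T (3 / 4) L (WJ κ i) (dt^[i] (fun τ x => φ τ x * ht τ x)) +
                N2T (3 / 4) L (WA κ i) (dt^[i] E))) :=
  energy_levels_of (by linarith) (oneLevel_of_real hC h)

end Crest.Agent.R213.C.EN
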