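import Crest.Agent.R213.J0

/-!
# Row 213, part C: iterated `τ`-derivatives (Leibniz rule) and graded bounds

`(dt^[j]) u t x` is `iteratedDeriv j (fun r => u r x) t`.
-/

set_option autoImplicit false

open Set Finset

noncomputable section

namespace Crest.Agent.R213.Leib

variable {s : Set ℝ} {L t x : ℝ} {u v : ℝ → ℝ → ℝ}

theorem dt_iter_eq (u : ℝ → ℝ → ℝ) (j : ℕ) (t x : ℝ) :
    (dt^[j]) u t x = iteratedDeriv j (fun r => u r x) t := by
  rw [iteratedDeriv_eq_iterate]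
  induction j generalizing u t with
  | zero => rfl
  | succ j ih =>
    rw [Function.iterate_succ_apply, Function.iterate_succ_apply, ih]
    rfl

theorem contDiffAt_left_of_Sm (hu : Sm s L u) (hs : IsOpen s) (ht : t ∈ s) (hx : x ∈ Icc 0 L)
    (n : ℕ) : ContDiffAt ℝ n (fun r => u r x) t :=
  ((hu.contDiffOn_left hx).contDiffAt (hs.mem_nhds ht)).of_le (by exact_mod_cast le_top)

theorem dt_iter_mul (hu : Sm s L u) (hv : Sm s L v) (hs : IsOpen s) (ht : t ∈ s)
    (hx : x ∈ Icc 0 L) (j : ℕ) :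
    (dt^[j]) (fun t x => u t x * v t x) t x =
      ∑ i ∈ range (j + 1), (j.choose i : ℝ) * (dt^[i]) u t x * (dt^[j - i]) v t x := by
  simp only [dt_iter_eq]
  exact iteratedDeriv_mul (contDiffAt_left_of_Sm hu hs ht hx j) (contDiffAt_left_of_Sm hv hs ht hx j)

theorem dt_iter_add (hu : Sm s L u) (hv : Sm s L v) (hs : IsOpen s) (ht : t ∈ s)
    (hx : x ∈ Icc 0 L) (j : ℕ) :
    (dt^[j]) (fun t x => u t x + v t x) t x = (dt^[j]) u t x + (dt^[j]) v t x := by
  simp only [dt_iter_eq]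
  exact iteratedDeriv_add (contDiffAt_left_of_Sm hu hs ht hx j) (contDiffAt_left_of_Sm hv hs ht hx j)




theorem dt_iter_right_mul (f : ℝ → ℝ) (j : ℕ) :
    (dt^[j]) (fun t x => f x * u t x) t x = f x * (dt^[j]) u t x := by
  simp only [dt_iter_eq]
  exact iteratedDeriv_const_mul_field (f x) _

theorem dt_iter_succ (j : ℕ) (u : ℝ → ℝ → ℝ) : (dt^[j + 1]) u = dt ((dt^[j]) u) :=
  Function.iterate_succ_apply' _ _ _


/-- `∂_τ^j` commutes with `∂ₓ`. -/
theorem dt_iter_dx (hs : IsOpen s) (hL : 0 < L) (hu : Sm s L u) (ht : t ∈ s)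
    (hx : x ∈ Icc 0 L) (j : ℕ) :
    (dt^[j]) (dx L u) t x = dx L ((dt^[j]) u) t x := by
  induction j generalizing t x with
  | zero => rfl
  | succ j ih =>
    rw [dt_iter_succ, dt_iter_succ]
    rw [dt_congr hs (fun r hr => ih hr hx) ht]
    exact (hu.dt_iter hs hL j).dt_dx hs hL ht hx

theorem dt_iter_dx_dx (hs : IsOpen s) (hL : 0 < L) (hu : Sm s L u) (ht : t ∈ s)
    (hx : x ∈ Icc 0 L) (j : ℕ) :
    (dt^[j]) (dx L (dx L u)) t x
      = dx L (dx L ((dt^[j]) u)) t x := by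
  rw [dt_iter_dx hs hL (hu.dx hs hL) ht hx j]
  exact dx_congr (fun y hy => dt_iter_dx hs hL hu ht hy j) hx

/-! ### Leibniz bounds -/


theorem sum_choose_real (j : ℕ) : ∑ i ∈ range (j + 1), (j.choose i : ℝ) = 2 ^ j := by
  exact_mod_cast Nat.sum_range_choose j




end Crest.Agent.R213.Leib
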