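import Crest.Agent.R213.J0
import Crest.Agent.R213.C.CDefs
import Crest.Agent.R213.C.Algebra
import Crest.Agent.R213.C.ChainApp

-- ▼ part R213/C/ENorm
section

/-!
Row 213, part C (block C6b): norms of the error `E` and of the cut-off nonlinear term.
-/

set_option autoImplicit false

open Set MeasureTheory Filter Topology

noncomputable section

namespace Crest.Agent.R213.C

theorem N2_eq_N2T (L : ℝ) (V u : ℝ → ℝ → ℝ) : N2 L V u = N2T 1 L V u := rfl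

theorem Wt_eq_WJ (κ : ℝ) : Wt κ = WJ κ 0 := rfl

/-- crude bound of `N2T` by a constant bound of the integrand -/
theorem N2T_le_const {T L c : ℝ} {V u : ℝ → ℝ → ℝ} (hT : 0 ≤ T) (hT1 : T ≤ 1) (hL : 0 ≤ L)
    (hc : 0 ≤ c) (h : ∀ τ ∈ Ioo (0 : ℝ) T, ∀ x ∈ Ioo (0 : ℝ) L, V τ x * x ^ 9 * u τ x ^ 2 ≤ c) :
    N2T T L V u ≤ ENNReal.ofReal (c * L) := by
  unfold N2T
  calc ∫⁻ p in (Ioo (0 : ℝ) T ×ˢ Ioo (0 : ℝ) L),
        ENNReal.ofReal (V p.1 p.2 * p.2 ^ 9 * (u p.1 p.2) ^ 2)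
      ≤ ∫⁻ _ in (Ioo (0 : ℝ) T ×ˢ Ioo (0 : ℝ) L), ENNReal.ofReal c := by
        refine setLIntegral_mono' (measurableSet_Ioo.prod measurableSet_Ioo) fun p hp => ?_
        exact ENNReal.ofReal_le_ofReal (h p.1 hp.1 p.2 hp.2)
    _ = ENNReal.ofReal c * (ENNReal.ofReal T * ENNReal.ofReal L) := by
        rw [setLIntegral_const, Measure.volume_eq_prod, Measure.prod_prod, Real.volume_Ioo,
          Real.volume_Ioo, sub_zero, sub_zero]
    _ ≤ ENNReal.ofReal (c * L) := by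
        rw [← ENNReal.ofReal_mul hT, ← ENNReal.ofReal_mul hc]
        refine ENNReal.ofReal_le_ofReal (mul_le_mul_of_nonneg_left ?_ hc)
        nlinarith

/-- vanishing of all time derivatives where the function vanishes -/
theorem dt_iter_zero {s : Set ℝ} {u : ℝ → ℝ → ℝ} {x : ℝ} (hs : IsOpen s)
    (h : ∀ r ∈ s, u r x = 0) {t : ℝ} (ht : t ∈ s) (j : ℕ) : (dt^[j] u) t x = 0 := by
  induction j generalizing t with
  | zero => exact h t ht
  | succ j ih =>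
    rw [Function.iterate_succ_apply']
    change deriv (fun r => (dt^[j] u) r x) t = 0
    have e : (fun r => (dt^[j] u) r x) =ᶠ[𝓝 t] fun _ => 0 := by
      filter_upwards [hs.mem_nhds ht] with r hr using ih hr
    rw [e.deriv_eq, deriv_const]

/-- If `u = 0` for `τ ≥ 1/2`, the norm over `(0,T)` is at most the norm over `(0,1/2)`. -/
theorem N2T_le_half {T L : ℝ} {V u : ℝ → ℝ → ℝ} (hT1 : T ≤ 1)
    (h : ∀ τ ∈ Ioo (0 : ℝ) 1, 1 / 2 ≤ τ → ∀ x ∈ Icc 0 L, u τ x = 0) :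
    N2T T L V u ≤ N2T (1 / 2) L V u := by
  unfold N2T
  set f : ℝ × ℝ → ENNReal := fun p => ENNReal.ofReal (V p.1 p.2 * p.2 ^ 9 * (u p.1 p.2) ^ 2)
    with hf
  set S' : Set (ℝ × ℝ) := Ioo (0 : ℝ) (1 / 2) ×ˢ Ioo (0 : ℝ) L with hS'
  have hm : MeasurableSet S' := measurableSet_Ioo.prod measurableSet_Ioo
  calc ∫⁻ p in (Ioo (0 : ℝ) T ×ˢ Ioo (0 : ℝ) L), f p
      = ∫⁻ p in (Ioo (0 : ℝ) T ×ˢ Ioo (0 : ℝ) L), S'.indicator f p := by
        refine setLIntegral_congr_fun (measurableSet_Ioo.prod measurableSet_Ioo) fun p hp => ?_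
        by_cases hp' : p ∈ S'
        · rw [indicator_of_mem hp']
        · rw [indicator_of_notMem hp']
          have h1 : 1 / 2 ≤ p.1 := by
            by_contra hlt
            exact hp' ⟨⟨hp.1.1, not_le.1 hlt⟩, hp.2⟩
          change ENNReal.ofReal _ = 0
          rw [h p.1 ⟨hp.1.1, hp.1.2.trans_le hT1⟩ h1 p.2 (Ioo_subset_Icc_self hp.2)]
          simp
    _ ≤ ∫⁻ p, S'.indicator f p := setLIntegral_le_lintegral _ _
    _ = ∫⁻ p in S', f p := lintegral_indicator hm f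

/-- **C6b (a)** -/
theorem E_norms {κ : ℝ} (hκ : κ ∈ Ioo (1 / 8 : ℝ) (1 / 4)) :
    ∃ (C : ℝ) (q : ℕ), 1 ≤ C ∧ ∀ L ≥ (8 : ℝ), ∀ E : ℝ → ℝ → ℝ, Sm (Ioo 0 1) L E →
      (∀ τ ∈ Ioo (0 : ℝ) 1, ∀ x ∈ Icc (0 : ℝ) 1, E τ x = 0) → ∀ e : ℝ, 0 ≤ e →
      (∀ j ≤ 9, ∀ τ ∈ Ioo (0 : ℝ) 1, ∀ x ∈ Icc 0 L, |(dt^[j] E) τ x| ≤ e) →
      N2 L (Wt'' κ) E ≤ ENNReal.ofReal (C * L ^ q * e ^ 2) ∧
      ∀ j ≤ 8, N2T (3 / 4) L (WA κ j) (dt^[j] E) ≤ ENNReal.ofReal (C * L ^ q * e ^ 2) := by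
  refine ⟨2, 10, by norm_num, fun L hL E _ hE0 e he hE => ?_⟩
  have hL0 : (0 : ℝ) ≤ L := by linarith
  -- pointwise facts
  have key : ∀ (W : ℝ) (j : ℕ), j ≤ 8 → 0 ≤ W → ∀ τ ∈ Ioo (0 : ℝ) 1, ∀ x ∈ Ioo (0 : ℝ) L,
      (1 ≤ x → W ≤ 2) → W * x ^ 9 * (dt^[j] E) τ x ^ 2 ≤ 2 * L ^ 9 * e ^ 2 := by
    intro W j hj hW τ hτ x hx hW2
    rcases le_or_gt x 1 with h1 | h1
    · rw [dt_iter_zero isOpen_Ioo (fun r hr => hE0 r hr x ⟨hx.1.le, h1⟩) hτ j]
      have : (0 : ℝ) ≤ 2 * L ^ 9 * e ^ 2 := by positivity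
      simpa using this
    · have h2 : x ^ 9 ≤ L ^ 9 := pow_le_pow_left₀ hx.1.le hx.2.le 9
      have h3 : (dt^[j] E) τ x ^ 2 ≤ e ^ 2 := by
        rw [← sq_abs]
        exact pow_le_pow_left₀ (abs_nonneg _) (hE j (by omega) τ hτ x (Ioo_subset_Icc_self hx)) 2
      exact mul_le_mul (mul_le_mul (hW2 h1.le) h2 (pow_nonneg hx.1.le 9) (by norm_num)) h3
        (sq_nonneg _) (by positivity)
  have hrp : ∀ τ ∈ Ioo (0 : ℝ) 1, τ ^ (2 * κ) ≤ 1 := fun τ hτ =>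
    Real.rpow_le_one hτ.1.le hτ.2.le (by linarith [hκ.1])
  have hrp0 : ∀ τ ∈ Ioo (0 : ℝ) 1, 0 ≤ τ ^ (2 * κ) := fun τ hτ => Real.rpow_nonneg hτ.1.le _
  have hconst : 2 * L ^ 9 * e ^ 2 * L = 2 * L ^ 10 * e ^ 2 := by ring
  constructor
  · rw [N2_eq_N2T, ← hconst]
    refine N2T_le_const zero_le_one le_rfl hL0 (by positivity) fun τ hτ x hx => ?_
    have hρ0 : 0 < x ^ 2 + τ := by have := hτ.1; positivity
    refine key (Wt'' κ τ x) 0 (by norm_num) ?_ τ hτ x hx fun h1 => ?_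
    · unfold Wt'' Wt
      exact mul_nonneg hτ.1.le (div_nonneg (hrp0 τ hτ) (pow_nonneg hρ0.le _))
    · unfold Wt'' Wt
      have hρ : 1 ≤ x ^ 2 + τ := by nlinarith [hτ.1]
      have h3 : τ ^ (2 * κ) / (x ^ 2 + τ) ^ 60 ≤ 1 := by
        rw [div_le_one (by positivity)]
        exact (hrp τ hτ).trans (one_le_pow₀ hρ)
      have h4 : 0 ≤ τ ^ (2 * κ) / (x ^ 2 + τ) ^ 60 := div_nonneg (hrp0 τ hτ) (by positivity)
      nlinarith [hτ.1, hτ.2]
  · intro j hj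
    rw [← hconst]
    refine N2T_le_const (by norm_num) (by norm_num) hL0 (by positivity) fun τ hτ x hx => ?_
    have hτ1 : τ ∈ Ioo (0 : ℝ) 1 := ⟨hτ.1, hτ.2.trans (by norm_num)⟩
    have hρ0 : 0 < x ^ 2 + τ := by have := hτ.1; positivity
    refine key (WA κ j τ x) j hj ?_ τ hτ1 x hx fun h1 => ?_
    · unfold WA WJ
      exact mul_nonneg (div_nonneg (hrp0 τ hτ1) (by positivity)) (by positivity)
    · unfold WA WJ
      have hρ : 1 ≤ x ^ 2 + τ := by nlinarith [hτ.1]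
      have h3 : τ ^ (2 * κ) / (x ^ 2 + τ) ^ (60 - 2 * j) ≤ 1 := by
        rw [div_le_one (by positivity)]
        exact (hrp τ hτ1).trans (one_le_pow₀ hρ)
      have h4 : 0 ≤ τ ^ (2 * κ) / (x ^ 2 + τ) ^ (60 - 2 * j) :=
        div_nonneg (hrp0 τ hτ1) (by positivity)
      have h5 : 1 / (x ^ 2 + τ) ≤ 1 := by
        rw [div_le_one hρ0]; exact hρ
      have h6 : 0 ≤ 1 / (x ^ 2 + τ) := by positivity
      nlinarith

/-- **C6b (b)** -/
theorem ht_norms {κ : ℝ} {L N : ℝ} (_hL : 8 ≤ L) {φ ht : ℝ → ℝ → ℝ} (_hφ : Sm (Ioo 0 1) L φ)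
    (_hh : Sm (Ioo 0 1) L ht)
    (h0 : ∀ τ ∈ Ioo (0 : ℝ) 1, 3 / 8 ≤ τ → ∀ x ∈ Icc 0 L, ht τ x = 0)
    (hQ : QB κ L N (fun τ x => φ τ x * ht τ x)) :
    N2 L (Wt κ) (fun τ x => φ τ x * ht τ x) ≤ ENNReal.ofReal (N ^ 2) ∧
      ∀ j ≤ 8, N2T (3 / 4) L (WJ κ j) (dt^[j] (fun τ x => φ τ x * ht τ x)) ≤
        ENNReal.ofReal (N ^ 2) := by
  have hz : ∀ j : ℕ, ∀ τ ∈ Ioo (0 : ℝ) 1, 1 / 2 ≤ τ → ∀ x ∈ Icc 0 L,
      (dt^[j] (fun τ x => φ τ x * ht τ x)) τ x = 0 := by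
    intro j τ hτ hτ2 x hx
    refine dt_iter_zero (s := Ioo (3 / 8) 1) isOpen_Ioo (fun r hr => ?_)
      ⟨by linarith, hτ.2⟩ j
    rw [h0 r ⟨by linarith [hr.1], hr.2⟩ hr.1.le x hx, mul_zero]
  refine ⟨?_, fun j hj => ?_⟩
  · rw [N2_eq_N2T, Wt_eq_WJ]
    exact (N2T_le_half le_rfl (hz 0)).trans (hQ 0 (by norm_num))
  · exact (N2T_le_half (by norm_num) (hz j)).trans (hQ j hj)

end Crest.Agent.R213.C
end
end

-- ▼ part R213/C/SupTau
section

/-!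
# Row 213, Part C, C3: sup in `τ` from weighted `L²` norms of `u` and `∂_τ u`
-/

set_option autoImplicit false

open Set MeasureTheory Filter Topology

noncomputable section

namespace Crest.Agent.R213.C

/-- Cauchy–Schwarz for interval integrals of continuous functions. -/
theorem cs_interval {a b : ℝ} (hab : a ≤ b) {f g : ℝ → ℝ} (hf : ContinuousOn f (Icc a b))
    (hg : ContinuousOn g (Icc a b)) :
    (∫ t in a..b, f t * g t) ^ 2 ≤ (∫ t in a..b, f t ^ 2) * (∫ t in a..b, g t ^ 2) := by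
  have hu : uIcc a b = Icc a b := uIcc_of_le hab
  have i1 : IntervalIntegrable (fun t => f t ^ 2) volume a b :=
    (ContinuousOn.pow (by rwa [hu]) 2).intervalIntegrable
  have i2 : IntervalIntegrable (fun t => g t ^ 2) volume a b :=
    (ContinuousOn.pow (by rwa [hu]) 2).intervalIntegrable
  have i3 : IntervalIntegrable (fun t => f t * g t) volume a b :=
    (ContinuousOn.mul (by rwa [hu]) (by rwa [hu])).intervalIntegrable
  have key : ∀ s : ℝ, 0 ≤ (∫ t in a..b, f t ^ 2) * (s * s) + (2 * ∫ t in a..b, f t * g t) * s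
      + (∫ t in a..b, g t ^ 2) := by
    intro s
    have h0 : 0 ≤ ∫ t in a..b, (s * f t + g t) ^ 2 :=
      intervalIntegral.integral_nonneg hab (fun t _ => sq_nonneg _)
    have h1 : ∫ t in a..b, (s * f t + g t) ^ 2
        = ∫ t in a..b, ((s * s) * f t ^ 2 + (2 * s) * (f t * g t) + g t ^ 2) := by
      congr 1; ext t; ring
    rw [h1, intervalIntegral.integral_add ((i1.const_mul _).add (i3.const_mul _)) i2,
      intervalIntegral.integral_add (i1.const_mul _) (i3.const_mul _),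
      intervalIntegral.integral_const_mul, intervalIntegral.integral_const_mul] at h0
    linarith
  have := discrim_le_zero key
  unfold discrim at this
  nlinarith [this]

/-- one-dimensional trace inequality with weight `τ^{2κ}`. -/
theorem trace_1d {κ t0 l : ℝ} (hκ0 : 0 < κ) (hκ1 : κ ≤ 1 / 4) (ht0 : 0 < t0) (hl : 0 < l)
    {f f' : ℝ → ℝ} (hf : ∀ t ∈ Icc t0 (t0 + l), HasDerivAt f (f' t) t)
    (hf' : ContinuousOn f' (Icc t0 (t0 + l))) :
    f t0 ^ 2 ≤ (4 / l) * (l / 2) ^ (-(2 * κ)) * (∫ t in t0..(t0 + l), t ^ (2 * κ) * f t ^ 2)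
      + 4 * l ^ (1 - 2 * κ) * (∫ t in t0..(t0 + l), t ^ (2 * κ) * f' t ^ 2) := by
  have hle : t0 ≤ t0 + l := by linarith
  have hfc : ContinuousOn f (Icc t0 (t0 + l)) := fun t ht => (hf t ht).continuousAt.continuousWithinAt
  have hu : uIcc t0 (t0 + l) = Icc t0 (t0 + l) := uIcc_of_le hle
  have hpos : ∀ t ∈ Icc t0 (t0 + l), 0 < t := fun t ht => lt_of_lt_of_le ht0 ht.1
  have hrp : ∀ r : ℝ, ContinuousOn (fun t : ℝ => t ^ r) (Icc t0 (t0 + l)) := by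
    intro r t ht
    exact (Real.continuousAt_rpow_const t r (Or.inl (hpos t ht).ne')).continuousWithinAt
  -- A := ∫ |f'|
  set A := ∫ t in t0..(t0 + l), |f' t| with hA
  have hAint : IntervalIntegrable (fun t => |f' t|) volume t0 (t0 + l) :=
    (ContinuousOn.abs (by rwa [hu])).intervalIntegrable
  have hf'int : IntervalIntegrable f' volume t0 (t0 + l) :=
    (show ContinuousOn f' (uIcc t0 (t0 + l)) by rwa [hu]).intervalIntegrable
  have h1 : ∀ t ∈ Icc t0 (t0 + l), f t0 ^ 2 ≤ 2 * f t ^ 2 + 2 * A ^ 2 := by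
    intro t ht
    have hsub : Icc t0 t ⊆ Icc t0 (t0 + l) := Icc_subset_Icc le_rfl ht.2
    have hftc : ∫ s in t0..t, f' s = f t - f t0 := by
      apply intervalIntegral.integral_eq_sub_of_hasDerivAt
      · intro s hs
        rw [uIcc_of_le ht.1] at hs
        exact hf s (hsub hs)
      · exact (show ContinuousOn f' (uIcc t0 t) by
          rw [uIcc_of_le ht.1]; exact hf'.mono hsub).intervalIntegrable
    have hab : |f t - f t0| ≤ A := by
      rw [← hftc]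
      calc |∫ s in t0..t, f' s| ≤ ∫ s in t0..t, |f' s| :=
            intervalIntegral.abs_integral_le_integral_abs ht.1
        _ ≤ A := by
            rw [hA]
            apply intervalIntegral.integral_mono_interval le_rfl ht.1 ht.2
            · exact Filter.Eventually.of_forall (fun s => abs_nonneg _)
            · exact hAint
    have hA0 : 0 ≤ A := le_trans (abs_nonneg _) hab
    have h2 : (f t - f t0) ^ 2 ≤ A ^ 2 := by
      rw [← sq_abs]; exact pow_le_pow_left₀ (abs_nonneg _) hab 2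
    nlinarith [sq_nonneg (f t + (f t - f t0)), sq_nonneg (f t0 - 2 * f t)]
  -- average over the second half
  have hm : t0 ≤ t0 + l / 2 := by linarith
  have hm2 : t0 + l / 2 ≤ t0 + l := by linarith
  have hsub2 : Icc (t0 + l / 2) (t0 + l) ⊆ Icc t0 (t0 + l) := Icc_subset_Icc hm le_rfl
  have hu2 : uIcc (t0 + l / 2) (t0 + l) = Icc (t0 + l / 2) (t0 + l) := uIcc_of_le hm2
  have h3 : f t0 ^ 2 * (l / 2) ≤ 2 * (∫ t in (t0 + l / 2)..(t0 + l), f t ^ 2) + l * A ^ 2 := by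
    have e1 : ∫ _ in (t0 + l / 2)..(t0 + l), f t0 ^ 2 = f t0 ^ 2 * (l / 2) := by
      rw [intervalIntegral.integral_const, smul_eq_mul]; ring
    have e2 : ∫ t in (t0 + l / 2)..(t0 + l), (2 * f t ^ 2 + 2 * A ^ 2)
        = 2 * (∫ t in (t0 + l / 2)..(t0 + l), f t ^ 2) + l * A ^ 2 := by
      rw [intervalIntegral.integral_add, intervalIntegral.integral_const_mul,
        intervalIntegral.integral_const, smul_eq_mul]
      · ring
      · exact (ContinuousOn.mul continuousOn_const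
          (ContinuousOn.pow (by rw [hu2]; exact hfc.mono hsub2) 2)).intervalIntegrable
      · exact intervalIntegrable_const
    rw [← e1, ← e2]
    apply intervalIntegral.integral_mono_on hm2
    · exact intervalIntegrable_const
    · exact (ContinuousOn.add (ContinuousOn.mul continuousOn_const
          (ContinuousOn.pow (by rw [hu2]; exact hfc.mono hsub2) 2)) continuousOn_const).intervalIntegrable
    · intro t ht; exact h1 t (hsub2 ht)
  -- the L² part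
  have hl2 : 0 < l / 2 := by linarith
  have h4 : ∫ t in (t0 + l / 2)..(t0 + l), f t ^ 2 ≤
      (l / 2) ^ (-(2 * κ)) * ∫ t in t0..(t0 + l), t ^ (2 * κ) * f t ^ 2 := by
    have e1 : ∫ t in (t0 + l / 2)..(t0 + l), f t ^ 2 ≤
        ∫ t in (t0 + l / 2)..(t0 + l), (l / 2) ^ (-(2 * κ)) * (t ^ (2 * κ) * f t ^ 2) := by
      apply intervalIntegral.integral_mono_on hm2
      · exact (ContinuousOn.pow (by rw [hu2]; exact hfc.mono hsub2) 2).intervalIntegrable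
      · exact (ContinuousOn.mul continuousOn_const (ContinuousOn.mul (by
          rw [hu2]; exact (hrp _).mono hsub2)
          (ContinuousOn.pow (by rw [hu2]; exact hfc.mono hsub2) 2))).intervalIntegrable
      · intro t ht
        have ht' : l / 2 ≤ t := by linarith [ht.1]
        have : 1 ≤ (l / 2) ^ (-(2 * κ)) * t ^ (2 * κ) := by
          rw [Real.rpow_neg hl2.le, ← div_eq_inv_mul, one_le_div (Real.rpow_pos_of_pos hl2 _)]
          exact Real.rpow_le_rpow hl2.le ht' (by linarith)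
        nlinarith [sq_nonneg (f t), this]
    refine e1.trans ?_
    rw [intervalIntegral.integral_const_mul]
    apply mul_le_mul_of_nonneg_left _ (Real.rpow_nonneg hl2.le _)
    apply intervalIntegral.integral_mono_interval hm hm2 le_rfl
    · refine (ae_restrict_iff' measurableSet_Ioc).2 (Filter.Eventually.of_forall ?_)
      intro t ht
      exact mul_nonneg (Real.rpow_nonneg (le_trans ht0.le ht.1.le) _) (sq_nonneg _)
    · exact (ContinuousOn.mul (by rw [hu]; exact hrp _)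
        (ContinuousOn.pow (by rwa [hu]) 2)).intervalIntegrable
  -- Cauchy–Schwarz part
  have h5 : A ^ 2 ≤ (2 * l ^ (1 - 2 * κ)) * ∫ t in t0..(t0 + l), t ^ (2 * κ) * f' t ^ 2 := by
    have cs := cs_interval hle (f := fun t => t ^ (-κ)) (g := fun t => t ^ κ * |f' t|)
      (hrp _) ((hrp _).mul hf'.abs)
    have e1 : (∫ t in t0..(t0 + l), t ^ (-κ) * (t ^ κ * |f' t|)) = A := by
      rw [hA]
      apply intervalIntegral.integral_congr
      intro t ht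
      rw [hu] at ht
      have := hpos t ht
      show t ^ (-κ) * (t ^ κ * |f' t|) = |f' t|
      rw [← mul_assoc, ← Real.rpow_add this]; simp
    have e2 : (∫ t in t0..(t0 + l), (t ^ κ * |f' t|) ^ 2)
        = ∫ t in t0..(t0 + l), t ^ (2 * κ) * f' t ^ 2 := by
      apply intervalIntegral.integral_congr
      intro t ht
      rw [hu] at ht
      have := hpos t ht
      show (t ^ κ * |f' t|) ^ 2 = t ^ (2 * κ) * f' t ^ 2
      rw [mul_pow, sq_abs, ← Real.rpow_natCast (t ^ κ) 2, ← Real.rpow_mul this.le]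
      norm_num [mul_comm]
    have e3 : (∫ t in t0..(t0 + l), (t ^ (-κ)) ^ 2) ≤ 2 * l ^ (1 - 2 * κ) := by
      have e4 : (∫ t in t0..(t0 + l), (t ^ (-κ)) ^ 2) = ∫ t in t0..(t0 + l), t ^ (-(2 * κ)) := by
        apply intervalIntegral.integral_congr
        intro t ht
        rw [hu] at ht
        have := hpos t ht
        show (t ^ (-κ)) ^ 2 = t ^ (-(2 * κ))
        rw [← Real.rpow_natCast (t ^ (-κ)) 2, ← Real.rpow_mul this.le]
        congr 1; push_cast; ring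
      rw [e4, integral_rpow (Or.inl (by linarith))]
      have hd : 0 < -(2 * κ) + 1 := by linarith
      rw [div_le_iff₀ hd]
      have hsa : (t0 + l) ^ (-(2 * κ) + 1) ≤ t0 ^ (-(2 * κ) + 1) + l ^ (-(2 * κ) + 1) :=
        Real.rpow_add_le_add_rpow ht0.le hl.le hd.le (by linarith)
      have hl1 : 0 ≤ l ^ (-(2 * κ) + 1) := Real.rpow_nonneg hl.le _
      have : (1 : ℝ) - 2 * κ = -(2 * κ) + 1 := by ring
      rw [this]
      nlinarith
    rw [e1, e2] at cs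
    refine cs.trans (mul_le_mul_of_nonneg_right e3 ?_)
    apply intervalIntegral.integral_nonneg hle
    intro t ht
    exact mul_nonneg (Real.rpow_nonneg (hpos t ht).le _) (sq_nonneg _)
  set I1 := ∫ t in t0..(t0 + l), t ^ (2 * κ) * f t ^ 2
  set I2 := ∫ t in t0..(t0 + l), t ^ (2 * κ) * f' t ^ 2
  have h6 : f t0 ^ 2 * (l / 2) ≤ 2 * ((l / 2) ^ (-(2 * κ)) * I1) + l * ((2 * l ^ (1 - 2 * κ)) * I2) := by
    nlinarith
  have h7 : f t0 ^ 2 ≤ (2 / l) * (2 * ((l / 2) ^ (-(2 * κ)) * I1) + l * ((2 * l ^ (1 - 2 * κ)) * I2)) := by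
    have : f t0 ^ 2 = (2 / l) * (f t0 ^ 2 * (l / 2)) := by field_simp
    rw [this]
    exact mul_le_mul_of_nonneg_left h6 (by positivity)
  refine h7.trans (le_of_eq ?_)
  field_simp
  ring

/-- pointwise (fixed `x`) weighted trace inequality. `R = x²`, `ρ = R + τ`. -/
theorem trace_wt {κ t0 R M : ℝ} (hκ0 : 0 < κ) (hκ1 : κ ≤ 1 / 4) (ht0 : 0 < t0)
    (hR : 0 ≤ R) (hRM : R + t0 ≤ M) (hM : 1 ≤ M) (m : ℕ)
    {f f' : ℝ → ℝ} (hf : ∀ t ∈ Icc t0 (t0 + min (R + t0) 1 / 8), HasDerivAt f (f' t) t)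
    (hf' : ContinuousOn f' (Icc t0 (t0 + min (R + t0) 1 / 8))) :
    f t0 ^ 2 / (R + t0) ^ m ≤ (9 / 8) ^ (m + 2) * 512 * M ^ 2 *
      ((∫ t in t0..(t0 + min (R + t0) 1 / 8), t ^ (2 * κ) / (R + t) ^ (m + 2) * f t ^ 2)
        + ∫ t in t0..(t0 + min (R + t0) 1 / 8), t ^ (2 * κ) / (R + t) ^ m * f' t ^ 2) := by
  have hρ : 0 < R + t0 := by linarith
  set l := min (R + t0) 1 / 8 with hl_def
  have hmin : 0 < min (R + t0) 1 := lt_min hρ one_pos
  have hl : 0 < l := by rw [hl_def]; positivity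
  have hl1 : l ≤ 1 / 8 := by rw [hl_def]; linarith [min_le_right (R + t0) 1]
  have hl2 : l ≤ (R + t0) / 8 := by rw [hl_def]; linarith [min_le_left (R + t0) 1]
  have hρl : (R + t0) / l ≤ 8 * M := by
    rw [div_le_iff₀ hl, hl_def]
    rcases le_total (R + t0) 1 with h | h
    · rw [min_eq_left h]; nlinarith
    · rw [min_eq_right h]; nlinarith
  have hle : t0 ≤ t0 + l := by linarith
  have hu : uIcc t0 (t0 + l) = Icc t0 (t0 + l) := uIcc_of_le hle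
  have hpos : ∀ t ∈ Icc t0 (t0 + l), 0 < t := fun t ht => lt_of_lt_of_le ht0 ht.1
  have hρt : ∀ t ∈ Icc t0 (t0 + l), R + t0 ≤ R + t ∧ R + t ≤ 9 / 8 * (R + t0) := by
    intro t ht; exact ⟨by linarith [ht.1], by linarith [ht.2]⟩
  have hfc : ContinuousOn f (Icc t0 (t0 + l)) := fun t ht => (hf t ht).continuousAt.continuousWithinAt
  have hrp : ContinuousOn (fun t : ℝ => t ^ (2 * κ)) (Icc t0 (t0 + l)) := by
    intro t ht
    exact (Real.continuousAt_rpow_const t _ (Or.inl (hpos t ht).ne')).continuousWithinAt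
  have hrk : ∀ k : ℕ, ContinuousOn (fun t : ℝ => t ^ (2 * κ) / (R + t) ^ k) (Icc t0 (t0 + l)) := by
    intro k
    apply hrp.div (by fun_prop)
    intro t ht
    have : 0 < R + t := by linarith [hpos t ht]
    positivity
  have h0 := trace_1d hκ0 hκ1 ht0 hl hf hf'
  have hc1 : (4 / l) * (l / 2) ^ (-(2 * κ)) ≤ 8 / l ^ 2 := by
    have : (l / 2) ^ (-(2 * κ)) ≤ (l / 2) ^ (-1 : ℝ) :=
      Real.rpow_le_rpow_of_exponent_ge (by positivity) (by linarith) (by linarith)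
    rw [Real.rpow_neg_one] at this
    calc (4 / l) * (l / 2) ^ (-(2 * κ)) ≤ (4 / l) * (l / 2)⁻¹ := by gcongr
      _ = 8 / l ^ 2 := by field_simp; norm_num
  have hc2 : 4 * l ^ (1 - 2 * κ) ≤ 4 := by
    have : l ^ (1 - 2 * κ) ≤ 1 := Real.rpow_le_one hl.le (by linarith) (by linarith)
    linarith
  set J1 := ∫ t in t0..(t0 + l), t ^ (2 * κ) * f t ^ 2 with hJ1
  set J2 := ∫ t in t0..(t0 + l), t ^ (2 * κ) * f' t ^ 2 with hJ2
  set I1 := ∫ t in t0..(t0 + l), t ^ (2 * κ) / (R + t) ^ (m + 2) * f t ^ 2 with hI1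
  set I2 := ∫ t in t0..(t0 + l), t ^ (2 * κ) / (R + t) ^ m * f' t ^ 2 with hI2
  have hcmp : ∀ (k : ℕ) (g : ℝ → ℝ), ContinuousOn g (Icc t0 (t0 + l)) →
      (∫ t in t0..(t0 + l), t ^ (2 * κ) * g t ^ 2) ≤
        (9 / 8 * (R + t0)) ^ k * ∫ t in t0..(t0 + l), t ^ (2 * κ) / (R + t) ^ k * g t ^ 2 := by
    intro k g hg
    rw [← intervalIntegral.integral_const_mul]
    apply intervalIntegral.integral_mono_on hle
    · exact (ContinuousOn.mul (by rwa [hu]) (ContinuousOn.pow (by rwa [hu]) 2)).intervalIntegrable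
    · exact (ContinuousOn.mul continuousOn_const (ContinuousOn.mul (by rw [hu]; exact hrk k)
        (ContinuousOn.pow (by rwa [hu]) 2))).intervalIntegrable
    · intro t ht
      have h1 := hρt t ht
      have h2 : 0 < R + t := by linarith [h1.1]
      have h3 : (R + t) ^ k ≤ (9 / 8 * (R + t0)) ^ k := pow_le_pow_left₀ h2.le h1.2 k
      have h4 : 0 ≤ t ^ (2 * κ) * g t ^ 2 :=
        mul_nonneg (Real.rpow_nonneg (hpos t ht).le _) (sq_nonneg _)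
      have h5 : (9 / 8 * (R + t0)) ^ k * (t ^ (2 * κ) / (R + t) ^ k * g t ^ 2)
          = (t ^ (2 * κ) * g t ^ 2) * ((9 / 8 * (R + t0)) ^ k / (R + t) ^ k) := by
        field_simp
      rw [h5]
      have h6 : 1 ≤ (9 / 8 * (R + t0)) ^ k / (R + t) ^ k := by
        rw [one_le_div (by positivity)]; exact h3
      nlinarith
  have hK1 := hcmp (m + 2) f hfc
  have hK2 := hcmp m f' hf'
  rw [← hJ1, ← hI1] at hK1
  rw [← hJ2, ← hI2] at hK2
  have hI1n : 0 ≤ I1 := by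
    rw [hI1]; apply intervalIntegral.integral_nonneg hle
    intro t ht
    have : 0 < R + t := by linarith [hpos t ht]
    have := Real.rpow_nonneg (hpos t ht).le (2 * κ)
    positivity
  have hI2n : 0 ≤ I2 := by
    rw [hI2]; apply intervalIntegral.integral_nonneg hle
    intro t ht
    have : 0 < R + t := by linarith [hpos t ht]
    have := Real.rpow_nonneg (hpos t ht).le (2 * κ)
    positivity
  have hJ1n : 0 ≤ J1 := by
    rw [hJ1]; apply intervalIntegral.integral_nonneg hle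
    intro t ht
    exact mul_nonneg (Real.rpow_nonneg (hpos t ht).le _) (sq_nonneg _)
  have hJ2n : 0 ≤ J2 := by
    rw [hJ2]; apply intervalIntegral.integral_nonneg hle
    intro t ht
    exact mul_nonneg (Real.rpow_nonneg (hpos t ht).le _) (sq_nonneg _)
  have h1 : f t0 ^ 2 ≤ (8 / l ^ 2) * ((9 / 8 * (R + t0)) ^ (m + 2) * I1)
      + 4 * ((9 / 8 * (R + t0)) ^ m * I2) := by
    calc f t0 ^ 2 ≤ (4 / l) * (l / 2) ^ (-(2 * κ)) * J1 + 4 * l ^ (1 - 2 * κ) * J2 := h0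
      _ ≤ (8 / l ^ 2) * J1 + 4 * J2 := by gcongr
      _ ≤ _ := by gcongr
  have hρm : 0 < (R + t0) ^ m := by positivity
  rw [div_le_iff₀ hρm]
  refine h1.trans ?_
  have e1 : (8 / l ^ 2) * ((9 / 8 * (R + t0)) ^ (m + 2) * I1)
      = (9 / 8) ^ (m + 2) * 8 * ((R + t0) / l) ^ 2 * I1 * (R + t0) ^ m := by
    rw [mul_pow, pow_add (R + t0) m 2]; field_simp
  have e2 : 4 * ((9 / 8 * (R + t0)) ^ m * I2) = (9 / 8) ^ m * 4 * I2 * (R + t0) ^ m := by
    rw [mul_pow]; ring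
  rw [e1, e2]
  have h2 : ((R + t0) / l) ^ 2 ≤ (8 * M) ^ 2 := pow_le_pow_left₀ (by positivity) hρl 2
  have h3 : (9 / 8 : ℝ) ^ (m + 2) * 8 * ((R + t0) / l) ^ 2 * I1 * (R + t0) ^ m
      ≤ (9 / 8 : ℝ) ^ (m + 2) * 8 * (8 * M) ^ 2 * I1 * (R + t0) ^ m := by gcongr
  have h4 : (9 / 8 : ℝ) ^ m * 4 * I2 * (R + t0) ^ m ≤
      (9 / 8 : ℝ) ^ (m + 2) * 512 * M ^ 2 * I2 * (R + t0) ^ m := by
    have : (9 / 8 : ℝ) ^ m * 4 ≤ (9 / 8 : ℝ) ^ (m + 2) * 512 * M ^ 2 := by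
      have a1 : (9 / 8 : ℝ) ^ m ≤ (9 / 8 : ℝ) ^ (m + 2) := pow_le_pow_right₀ (by norm_num) (by omega)
      have a2 : (4 : ℝ) ≤ 512 * M ^ 2 := by nlinarith
      calc (9 / 8 : ℝ) ^ m * 4 ≤ (9 / 8 : ℝ) ^ (m + 2) * (512 * M ^ 2) := by gcongr
        _ = _ := by ring
    gcongr
  calc _ ≤ (9 / 8 : ℝ) ^ (m + 2) * 8 * (8 * M) ^ 2 * I1 * (R + t0) ^ m
        + (9 / 8 : ℝ) ^ (m + 2) * 512 * M ^ 2 * I2 * (R + t0) ^ m := add_le_add h3 h4
    _ = _ := by ring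

/-- measurability of weighted squares of `Sm` functions. -/
theorem aemeas_wt {κ L T : ℝ} (hT : T ≤ 1) (m : ℕ) {u : ℝ → ℝ → ℝ}
    (hu : ContinuousOn (fun p : ℝ × ℝ => u p.1 p.2) (Ioo 0 1 ×ˢ Icc 0 L)) :
    AEMeasurable (fun q : ℝ × ℝ =>
      ENNReal.ofReal (q.1 ^ (2 * κ) / (q.2 ^ 2 + q.1) ^ m * q.2 ^ 9 * (u q.1 q.2) ^ 2))
      (volume.restrict (Ioo (0 : ℝ) T ×ˢ Ioo (0 : ℝ) L)) := by
  apply AEMeasurable.ennreal_ofReal
  apply ContinuousOn.aemeasurable _ (measurableSet_Ioo.prod measurableSet_Ioo)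
  have hsub : Ioo (0 : ℝ) T ×ˢ Ioo (0 : ℝ) L ⊆ Ioo 0 1 ×ˢ Icc 0 L :=
    prod_mono (Ioo_subset_Ioo le_rfl hT) Ioo_subset_Icc_self
  have h1 : ContinuousOn (fun q : ℝ × ℝ => q.1 ^ (2 * κ)) (Ioo (0 : ℝ) T ×ˢ Ioo (0 : ℝ) L) := by
    intro q hq
    exact (ContinuousAt.rpow_const continuousAt_fst (Or.inl hq.1.1.ne')).continuousWithinAt
  have h2 : ContinuousOn (fun q : ℝ × ℝ => (q.2 ^ 2 + q.1) ^ m) (Ioo (0 : ℝ) T ×ˢ Ioo (0 : ℝ) L) := by
    fun_prop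
  refine ((h1.div h2 ?_).mul (by fun_prop)).mul ((hu.mono hsub).pow 2)
  intro q hq
  have h3 : 0 < q.1 := hq.1.1
  positivity

/-- C3, measure version: sup in `τ` of weighted `L²(dx)` norms. -/
theorem sup_tau_core {κ L : ℝ} (hκ0 : 0 < κ) (hκ1 : κ ≤ 1 / 4) (hL : 1 ≤ L) (m : ℕ)
    {u : ℝ → ℝ → ℝ} (hu : Sm (Ioo 0 1) L u) {t0 : ℝ} (ht0 : 0 < t0) (ht1 : t0 ≤ 1 / 2) :
    ∫⁻ x in Ioo (0 : ℝ) L, ENNReal.ofReal (x ^ 9 * (u t0 x) ^ 2 / (x ^ 2 + t0) ^ m) ≤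
      ENNReal.ofReal ((9 / 8) ^ (m + 2) * 512 * (L ^ 2 + 1) ^ 2) *
      ((∫⁻ q in Ioo (0 : ℝ) (5 / 8) ×ˢ Ioo (0 : ℝ) L,
          ENNReal.ofReal (q.1 ^ (2 * κ) / (q.2 ^ 2 + q.1) ^ (m + 2) * q.2 ^ 9 * (u q.1 q.2) ^ 2))
        + ∫⁻ q in Ioo (0 : ℝ) (5 / 8) ×ˢ Ioo (0 : ℝ) L,
          ENNReal.ofReal (q.1 ^ (2 * κ) / (q.2 ^ 2 + q.1) ^ m * q.2 ^ 9 * (dt u q.1 q.2) ^ 2)) := by
  have hL0 : 0 < L := by linarith
  set K : ℝ := (9 / 8) ^ (m + 2) * 512 * (L ^ 2 + 1) ^ 2 with hK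
  have hK0 : 0 ≤ K := by positivity
  have hudt : Sm (Ioo 0 1) L (dt u) := hu.dt isOpen_Ioo hL0
  -- Tonelli
  have hT1 : ∫⁻ q in Ioo (0 : ℝ) (5 / 8) ×ˢ Ioo (0 : ℝ) L,
        ENNReal.ofReal (q.1 ^ (2 * κ) / (q.2 ^ 2 + q.1) ^ (m + 2) * q.2 ^ 9 * (u q.1 q.2) ^ 2)
      = ∫⁻ x in Ioo (0 : ℝ) L, ∫⁻ t in Ioo (0 : ℝ) (5 / 8),
        ENNReal.ofReal (t ^ (2 * κ) / (x ^ 2 + t) ^ (m + 2) * x ^ 9 * (u t x) ^ 2) := by
    have hm := aemeas_wt (κ := κ) (T := 5 / 8) (by norm_num) (m + 2) hu.continuousOn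
    rw [Measure.volume_eq_prod, ← Measure.prod_restrict] at hm ⊢
    exact lintegral_prod_symm _ hm
  have hT2 : ∫⁻ q in Ioo (0 : ℝ) (5 / 8) ×ˢ Ioo (0 : ℝ) L,
        ENNReal.ofReal (q.1 ^ (2 * κ) / (q.2 ^ 2 + q.1) ^ m * q.2 ^ 9 * (dt u q.1 q.2) ^ 2)
      = ∫⁻ x in Ioo (0 : ℝ) L, ∫⁻ t in Ioo (0 : ℝ) (5 / 8),
        ENNReal.ofReal (t ^ (2 * κ) / (x ^ 2 + t) ^ m * x ^ 9 * (dt u t x) ^ 2) := by
    have hm := aemeas_wt (κ := κ) (T := 5 / 8) (by norm_num) m hudt.continuousOn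
    rw [Measure.volume_eq_prod, ← Measure.prod_restrict] at hm ⊢
    exact lintegral_prod_symm _ hm
  have hm1 : AEMeasurable (fun x : ℝ => ∫⁻ t in Ioo (0 : ℝ) (5 / 8),
        ENNReal.ofReal (t ^ (2 * κ) / (x ^ 2 + t) ^ (m + 2) * x ^ 9 * (u t x) ^ 2))
        (volume.restrict (Ioo (0 : ℝ) L)) := by
    have hm := aemeas_wt (κ := κ) (T := 5 / 8) (by norm_num) (m + 2) hu.continuousOn
    rw [Measure.volume_eq_prod, ← Measure.prod_restrict] at hm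
    exact hm.lintegral_prod_left'
  rw [hT1, hT2, ← lintegral_add_left' hm1, ← lintegral_const_mul' _ _ ENNReal.ofReal_ne_top]
  apply setLIntegral_mono' measurableSet_Ioo
  intro x hx
  have hx0 : 0 < x := hx.1
  have hxI : x ∈ Icc 0 L := ⟨hx.1.le, hx.2.le⟩
  have hR : 0 ≤ x ^ 2 := sq_nonneg x
  have hM : x ^ 2 + t0 ≤ L ^ 2 + 1 := by
    have : x ^ 2 ≤ L ^ 2 := pow_le_pow_left₀ hx0.le hx.2.le 2
    linarith
  set l := min (x ^ 2 + t0) 1 / 8 with hl_def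
  have hmin : 0 < min (x ^ 2 + t0) 1 := lt_min (by linarith) one_pos
  have hl : 0 < l := by rw [hl_def]; positivity
  have hl1 : l ≤ 1 / 8 := by rw [hl_def]; linarith [min_le_right (x ^ 2 + t0) 1]
  have hle : t0 ≤ t0 + l := by linarith
  have huIcc : uIcc t0 (t0 + l) = Icc t0 (t0 + l) := uIcc_of_le hle
  have hIsub : Icc t0 (t0 + l) ⊆ Ioo (0 : ℝ) 1 := by
    intro t ht; exact ⟨by linarith [ht.1], by linarith [ht.2]⟩
  have hf : ∀ t ∈ Icc t0 (t0 + l), HasDerivAt (fun r => u r x) (dt u t x) t := by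
    intro t ht; exact hu.hasDt isOpen_Ioo (hIsub ht) hxI
  have hf' : ContinuousOn (fun t => dt u t x) (Icc t0 (t0 + l)) :=
    (hudt.continuousOn_left hxI).mono hIsub
  have hfc : ContinuousOn (fun t => u t x) (Icc t0 (t0 + l)) :=
    (hu.continuousOn_left hxI).mono hIsub
  have key := trace_wt (κ := κ) (R := x ^ 2) (M := L ^ 2 + 1) hκ0 hκ1 ht0 hR hM
    (by nlinarith) m hf hf'
  rw [← hl_def, ← hK] at key
  have hpos : ∀ t ∈ Icc t0 (t0 + l), 0 < t := fun t ht => lt_of_lt_of_le ht0 ht.1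
  have hconv : ∀ (k : ℕ) (g : ℝ → ℝ), ContinuousOn g (Icc t0 (t0 + l)) →
      ENNReal.ofReal (x ^ 9 * ∫ t in t0..(t0 + l), t ^ (2 * κ) / (x ^ 2 + t) ^ k * g t ^ 2) ≤
        ∫⁻ t in Ioo (0 : ℝ) (5 / 8),
          ENNReal.ofReal (t ^ (2 * κ) / (x ^ 2 + t) ^ k * x ^ 9 * g t ^ 2) := by
    intro k g hg
    rw [← intervalIntegral.integral_const_mul]
    have e1 : (∫ t in t0..(t0 + l), x ^ 9 * (t ^ (2 * κ) / (x ^ 2 + t) ^ k * g t ^ 2))
        = ∫ t in Ioo t0 (t0 + l), t ^ (2 * κ) / (x ^ 2 + t) ^ k * x ^ 9 * g t ^ 2 := by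
      rw [intervalIntegral.integral_of_le hle, integral_Ioc_eq_integral_Ioo]
      congr 1; ext t; ring
    have hc : ContinuousOn (fun t => t ^ (2 * κ) / (x ^ 2 + t) ^ k * x ^ 9 * g t ^ 2)
        (Icc t0 (t0 + l)) := by
      have hrp : ContinuousOn (fun t : ℝ => t ^ (2 * κ)) (Icc t0 (t0 + l)) := by
        intro t ht
        exact (Real.continuousAt_rpow_const t _ (Or.inl (hpos t ht).ne')).continuousWithinAt
      refine ((hrp.div (by fun_prop) ?_).mul continuousOn_const).mul (hg.pow 2)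
      intro t ht
      have : 0 < x ^ 2 + t := by linarith [hpos t ht]
      positivity
    have hint : IntegrableOn (fun t => t ^ (2 * κ) / (x ^ 2 + t) ^ k * x ^ 9 * g t ^ 2)
        (Ioo t0 (t0 + l)) := (hc.integrableOn_Icc).mono_set Ioo_subset_Icc_self
    rw [e1, ofReal_integral_eq_lintegral_ofReal hint]
    · apply lintegral_mono_set
      intro t ht
      exact ⟨by linarith [ht.1], by linarith [ht.2]⟩
    · refine (ae_restrict_iff' measurableSet_Ioo).2 (Filter.Eventually.of_forall ?_)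
      intro t ht
      have h1 : 0 < t := by linarith [ht.1]
      have h2 : 0 < x ^ 2 + t := by linarith
      have h3 := Real.rpow_nonneg h1.le (2 * κ)
      show (0 : ℝ) ≤ t ^ (2 * κ) / (x ^ 2 + t) ^ k * x ^ 9 * g t ^ 2
      positivity
  have hnn : ∀ (k : ℕ) (g : ℝ → ℝ), 0 ≤ ∫ t in t0..(t0 + l), t ^ (2 * κ) / (x ^ 2 + t) ^ k * g t ^ 2 := by
    intro k g
    apply intervalIntegral.integral_nonneg hle
    intro t ht
    have h1 := hpos t ht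
    have h2 : 0 < x ^ 2 + t := by linarith
    have h3 := Real.rpow_nonneg h1.le (2 * κ)
    positivity
  calc ENNReal.ofReal (x ^ 9 * (u t0 x) ^ 2 / (x ^ 2 + t0) ^ m)
      ≤ ENNReal.ofReal (K * (x ^ 9 * (∫ t in t0..(t0 + l), t ^ (2 * κ) / (x ^ 2 + t) ^ (m + 2) * (u t x) ^ 2)
        + x ^ 9 * ∫ t in t0..(t0 + l), t ^ (2 * κ) / (x ^ 2 + t) ^ m * (dt u t x) ^ 2)) := by
        apply ENNReal.ofReal_le_ofReal
        calc x ^ 9 * (u t0 x) ^ 2 / (x ^ 2 + t0) ^ m = x ^ 9 * ((u t0 x) ^ 2 / (x ^ 2 + t0) ^ m) := by ring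
          _ ≤ x ^ 9 * (K * ((∫ t in t0..(t0 + l), t ^ (2 * κ) / (x ^ 2 + t) ^ (m + 2) * (u t x) ^ 2)
              + ∫ t in t0..(t0 + l), t ^ (2 * κ) / (x ^ 2 + t) ^ m * (dt u t x) ^ 2)) := by
              gcongr
          _ = _ := by ring
    _ = ENNReal.ofReal K * (ENNReal.ofReal (x ^ 9 * (∫ t in t0..(t0 + l),
            t ^ (2 * κ) / (x ^ 2 + t) ^ (m + 2) * (u t x) ^ 2))
        + ENNReal.ofReal (x ^ 9 * ∫ t in t0..(t0 + l),
            t ^ (2 * κ) / (x ^ 2 + t) ^ m * (dt u t x) ^ 2)) := by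
        rw [ENNReal.ofReal_mul hK0, ENNReal.ofReal_add]
        · have := hnn (m + 2) (fun t => u t x); positivity
        · have := hnn m (fun t => dt u t x); positivity
    _ ≤ _ := by
        gcongr
        · exact hconv (m + 2) (fun t => u t x) hfc
        · exact hconv m (fun t => dt u t x) hf'

/-- [C3: `sup_tau`] -/
theorem sup_tau {κ : ℝ} (hκ : κ ∈ Ioo (1 / 8 : ℝ) (1 / 4)) :
    ∃ (C : ℝ) (q : ℕ), 1 ≤ C ∧ ∀ L ≥ (8 : ℝ), ∀ δ : ℝ → ℝ → ℝ, Sm (Ioo 0 1) L δ →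
      ∀ j ≤ 7, ∀ τ ∈ Ioo (0 : ℝ) (1 / 2),
        MM L j τ δ ≤ ENNReal.ofReal (C * L ^ q) *
          (N2T (5 / 8) L (WA κ j) (dt^[j] δ) + N2T (5 / 8) L (WA κ (j + 1)) (dt^[j + 1] δ)) := by
  refine ⟨(9 / 8) ^ 60 * 2048, 4, ?_, ?_⟩
  · have : (1 : ℝ) ≤ (9 / 8) ^ 60 := one_le_pow₀ (by norm_num)
    linarith
  intro L hL δ hδ j hj τ hτ
  have hL0 : 0 < L := by linarith
  have hsm : Sm (Ioo 0 1) L (dt^[j] δ) := hδ.dt_iter isOpen_Ioo hL0 j
  have h := sup_tau_core (κ := κ) (by linarith [hκ.1]) hκ.2.le (by linarith : (1 : ℝ) ≤ L)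
    (58 - 2 * j) hsm hτ.1 hτ.2.le
  have hm2 : 58 - 2 * j + 2 = 60 - 2 * j := by omega
  rw [hm2] at h
  have hle1 : ∀ (i : ℕ) (v : ℝ → ℝ → ℝ), (∫⁻ q in Ioo (0 : ℝ) (5 / 8) ×ˢ Ioo (0 : ℝ) L,
      ENNReal.ofReal (q.1 ^ (2 * κ) / (q.2 ^ 2 + q.1) ^ (60 - 2 * i) * q.2 ^ 9 * (v q.1 q.2) ^ 2))
      ≤ N2T (5 / 8) L (WA κ i) v := by
    intro i v
    unfold N2T
    apply setLIntegral_mono' (measurableSet_Ioo.prod measurableSet_Ioo)
    intro q hq
    apply ENNReal.ofReal_le_ofReal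
    have h1 : 0 < q.1 := hq.1.1
    have h2 : 0 < q.2 := hq.2.1
    have h3 := Real.rpow_nonneg h1.le (2 * κ)
    unfold WA WJ
    have h4 : 0 ≤ q.1 ^ (2 * κ) / (q.2 ^ 2 + q.1) ^ (60 - 2 * i) := by positivity
    have h5 : (1 : ℝ) ≤ 1 + 1 / (q.2 ^ 2 + q.1) := by
      have : 0 < 1 / (q.2 ^ 2 + q.1) := by positivity
      linarith
    have h6 : 0 ≤ q.2 ^ 9 * (v q.1 q.2) ^ 2 := by positivity
    rw [mul_assoc, mul_assoc]
    exact mul_le_mul_of_nonneg_right (le_mul_of_one_le_right h4 h5) h6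
  have e2 : 58 - 2 * j = 60 - 2 * (j + 1) := by omega
  have hd : dt (dt^[j] δ) = dt^[j + 1] δ := (Function.iterate_succ_apply' dt j δ).symm
  calc MM L j τ δ = ∫⁻ x in Ioo (0 : ℝ) L,
        ENNReal.ofReal (x ^ 9 * ((dt^[j] δ) τ x) ^ 2 / (x ^ 2 + τ) ^ (58 - 2 * j)) := rfl
    _ ≤ _ := h
    _ ≤ ENNReal.ofReal ((9 / 8) ^ 60 * 2048 * L ^ 4) *
        (N2T (5 / 8) L (WA κ j) (dt^[j] δ) + N2T (5 / 8) L (WA κ (j + 1)) (dt^[j + 1] δ)) := by
        have hc : (9 / 8 : ℝ) ^ (60 - 2 * j) * 512 * (L ^ 2 + 1) ^ 2 ≤ (9 / 8) ^ 60 * 2048 * L ^ 4 := by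
          have a1 : (9 / 8 : ℝ) ^ (60 - 2 * j) ≤ (9 / 8) ^ 60 :=
            pow_le_pow_right₀ (by norm_num) (by omega)
          have a2 : (L ^ 2 + 1) ^ 2 ≤ (2 * L ^ 2) ^ 2 :=
            pow_le_pow_left₀ (by positivity) (by nlinarith) 2
          calc (9 / 8 : ℝ) ^ (60 - 2 * j) * 512 * (L ^ 2 + 1) ^ 2
              ≤ (9 / 8 : ℝ) ^ 60 * 512 * (2 * L ^ 2) ^ 2 := by gcongr
            _ = _ := by ring
        refine mul_le_mul' (ENNReal.ofReal_le_ofReal hc) (add_le_add (hle1 j _) ?_)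
        have h7 := hle1 (j + 1) (dt^[j + 1] δ)
        rw [hd, e2]
        exact h7

end Crest.Agent.R213.C
end
end

-- ▼ part R213/C/LinEst

/-!
# Row 213, part C6: the linear estimate in `NB` (assembly of C1-C4)
-/

set_option autoImplicit false

open Set MeasureTheory Filter Topology

noncomputable section

namespace Crest.Agent.R213.C

/-- statement of C1+C2 -/
def EnergyLevels (c0 C0 κ : ℝ) (g : ℝ → ℝ) : Prop :=
    ∃ (C : ℝ) (q : ℕ), 1 ≤ C ∧ ∀ L ≥ (8 : ℝ), ∀ φ m : ℝ → ℝ → ℝ, Bg c0 C0 g L φ m →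
      ∀ E ht δ : ℝ → ℝ → ℝ, Sm (Ioo 0 1) L E → Sm (Ioo 0 1) L ht → Sm (Ioo 0 1) L δ →
      LinEq L φ E ht δ → ∀ j ≤ 8,
        N2T (5 / 8) L (WJ κ j) (be L φ j δ) + N2T (5 / 8) L (WA κ j) (dt^[j] δ) ≤
          ENNReal.ofReal (C * L ^ q) * (N2 L (Wt κ) (bb L φ δ) + N2 L (Wt' κ) δ +
            ∑ i ∈ Finset.range (j + 1),
              (N2T (3 / 4) L (WJ κ i) (dt^[i] (fun τ x => φ τ x * ht τ x)) +
                N2T (3 / 4) L (WA κ i) (dt^[i] E)))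

/-- statement of C4 -/
def PointwiseChain (c0 C0 : ℝ) (g : ℝ → ℝ) : Prop :=
    ∃ (C : ℝ) (q : ℕ), 1 ≤ C ∧ ∀ L ≥ (8 : ℝ), ∀ φ m : ℝ → ℝ → ℝ, Bg c0 C0 g L φ m →
      ∀ E ht δ : ℝ → ℝ → ℝ, Sm (Ioo 0 1) L E → Sm (Ioo 0 1) L ht → Sm (Ioo 0 1) L δ →
      LinEq L φ E ht δ → ∀ M H : ℝ, 0 ≤ M → 0 ≤ H →
      (∀ j ≤ 7, ∀ τ ∈ Ioo (0 : ℝ) (1 / 2), MM L j τ δ ≤ ENNReal.ofReal (M ^ 2)) →
      (∀ j ≤ 7, ∀ τ ∈ Ioo (0 : ℝ) (1 / 2), ∀ x ∈ Icc 0 L, |(dt^[j] E) τ x| ≤ M) →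
      (∀ τ ∈ Ioo (0 : ℝ) 1, ∀ x ∈ Icc (0 : ℝ) 1, E τ x = 0) →
      PB L H (fun τ x => φ τ x * ht τ x) →
        PB L (C * L ^ q * (M + H)) (bb L φ δ) ∧ DB L (C * L ^ q * (M + H)) δ

section

variable {c0 C0 κ : ℝ} {g : ℝ → ℝ} {L : ℝ} {φ m δ : ℝ → ℝ → ℝ}

theorem halfSub : Ioo (0 : ℝ) (1 / 2) ⊆ Ioo (0 : ℝ) 1 := Ioo_subset_Ioo_right (by norm_num)

theorem bg_sm_phi (hB : Bg c0 C0 g L φ m) : Sm (Ioo (0 : ℝ) 1) L φ := by
  have hL : 0 < L := by linarith [hB.L_ge]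
  have h1 : Sm (Ioo (0 : ℝ) 1) L (fun τ x => x * (1 - x / L) * m τ x) :=
    (Sm.snd.mul ((Sm.const 1).sub (Sm.snd.div (Sm.const L) (fun _ _ _ _ => hL.ne')))).mul hB.sm
  exact h1.congr hB.phi_eq

/-- Leibniz for `b = φ δ_xx`, levels up to 8, in terms of `be` -/
theorem b_rel8 (hc0 : 0 < c0) (hC0 : 0 ≤ C0) (hB : Bg c0 C0 g L φ m)
    (hδ : Sm (Ioo (0 : ℝ) 1) L δ) (i : ℕ) (hi : i ≤ 8) {τ x : ℝ} (hτ : τ ∈ Ioo (0 : ℝ) 1)
    (hx : x ∈ Icc 0 L) :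
    |(dt^[i] (bb L φ δ)) τ x| ≤ (2 ^ 8 * C0 / c0) *
      ∑ l ∈ Finset.range (i + 1), |be L φ l δ τ x| / (x ^ 2 + τ) ^ (i - l) := by
  have hL : 0 < L := by linarith [hB.L_ge]
  have hρ : 0 < x ^ 2 + τ := rho_pos hx.1 hτ.1
  have hxx := (hδ.dx isOpen_Ioo hL).dx isOpen_Ioo hL
  have e1 : (dt^[i] (bb L φ δ)) τ x =
      App.qf L x * (dt^[i] (fun t x => m t x * dx L (dx L δ) t x)) τ x := by
    rw [← App.dtIter_left_mul (fun x => App.qf L x)]
    refine App.dtIter_congr_at isOpen_Ioo (fun r hr => ?_) hτ i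
    simp only [bb, App.Bg.phi_eq' hB hr hx]; ring
  have h1 := App.mul_bd hρ isOpen_Ioo hB.sm hxx hτ hx i (A := C0)
    (fun k hk => hB.dtm k (by omega) τ hτ x hx)
  have h2 : App.qf L x ≤ φ τ x / c0 := by
    rw [le_div_iff₀ hc0, App.Bg.phi_eq' hB hτ hx]
    exact mul_le_mul_of_nonneg_left (hB.lower τ hτ x hx) (App.qf_nonneg hL hx)
  have hφ0 : 0 ≤ φ τ x := by
    have h3 := (App.qf_nonneg hL hx).trans h2
    exact (div_nonneg_iff.1 h3).elim (fun h => h.1) (fun h => absurd h.2 (not_le.2 hc0))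
  have h3 : ∑ l ∈ Finset.range (i + 1), |(dt^[l] (dx L (dx L δ))) τ x| / (x ^ 2 + τ) ^ (i - l) =
      ∑ l ∈ Finset.range (i + 1), |dx L (dx L (dt^[l] δ)) τ x| / (x ^ 2 + τ) ^ (i - l) :=
    Finset.sum_congr rfl (fun l _ => by rw [App.dtIter_dxdx isOpen_Ioo hL hδ l τ hτ x hx])
  rw [h3] at h1
  have h4 : ∑ l ∈ Finset.range (i + 1), |be L φ l δ τ x| / (x ^ 2 + τ) ^ (i - l) =
      φ τ x * ∑ l ∈ Finset.range (i + 1), |dx L (dx L (dt^[l] δ)) τ x| / (x ^ 2 + τ) ^ (i - l) := by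
    rw [Finset.mul_sum]
    refine Finset.sum_congr rfl (fun l _ => ?_)
    unfold be
    rw [abs_mul, abs_of_nonneg hφ0, mul_div_assoc]
  rw [h4]
  set S := ∑ l ∈ Finset.range (i + 1), |dx L (dx L (dt^[l] δ)) τ x| / (x ^ 2 + τ) ^ (i - l) with hS
  have hS0 : 0 ≤ S := Finset.sum_nonneg (fun l _ => by positivity)
  rw [e1, abs_mul, abs_of_nonneg (App.qf_nonneg hL hx)]
  calc App.qf L x * |(dt^[i] (fun t x => m t x * dx L (dx L δ) t x)) τ x|
      ≤ (φ τ x / c0) * (2 ^ 8 * C0 * S) := by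
        apply mul_le_mul h2 _ (abs_nonneg _) (by positivity)
        refine h1.trans ?_
        gcongr
        norm_num
    _ = (2 ^ 8 * C0 / c0) * (φ τ x * S) := by field_simp

theorem be_sm (hB : Bg c0 C0 g L φ m) (hδ : Sm (Ioo (0 : ℝ) 1) L δ) (j : ℕ) :
    Sm (Ioo (0 : ℝ) 1) L (be L φ j δ) := by
  have hL : 0 < L := by linarith [hB.L_ge]
  exact (bg_sm_phi hB).mul (((hδ.dt_iter isOpen_Ioo hL j).dx isOpen_Ioo hL).dx isOpen_Ioo hL)

theorem QB_of_EE (hc0 : 0 < c0) (hC0 : 0 ≤ C0) (hB : Bg c0 C0 g L φ m)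
    (hδ : Sm (Ioo (0 : ℝ) 1) L δ) {S : ℝ} (hS0 : 0 ≤ S)
    (hS : ∀ j ≤ 8, N2T (5 / 8) L (WJ κ j) (be L φ j δ) ≤ ENNReal.ofReal (S ^ 2)) :
    QB κ L (9 * (2 ^ 8 * C0 / c0) * S) (bb L φ δ) := by
  have hL : 0 < L := by linarith [hB.L_ge]
  set A : ℝ := 2 ^ 8 * C0 / c0 with hA
  have hA0 : 0 ≤ A := by positivity
  intro j hj
  -- measurability
  have hmeas : ∀ l : ℕ, AEMeasurable (fun p : ℝ × ℝ => ENNReal.ofReal
      (WJ κ l p.1 p.2 * p.2 ^ 9 * (be L φ l δ p.1 p.2) ^ 2)) (volume.restrict (Rg L)) := by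
    intro l
    have h1 : AEMeasurable (fun p : ℝ × ℝ => be L φ l δ p.1 p.2) (volume.restrict (Rg L)) := by
      have := ((be_sm hB hδ l).mono halfSub).continuousOn
      exact (this.mono (Set.prod_mono subset_rfl Ioo_subset_Icc_self)).aemeasurable
        (measurableSet_Rg L)
    refine AEMeasurable.ennreal_ofReal ?_
    refine AEMeasurable.mul (Measurable.aemeasurable ?_) (h1.pow_const 2)
    unfold WJ
    fun_prop
  have hpt : ∀ p ∈ Rg L, WJ κ j p.1 p.2 * p.2 ^ 9 * ((dt^[j] (bb L φ δ)) p.1 p.2) ^ 2 ≤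
      ∑ l ∈ Finset.range (j + 1), (9 * A ^ 2) *
        (WJ κ l p.1 p.2 * p.2 ^ 9 * (be L φ l δ p.1 p.2) ^ 2) := by
    intro p hp
    have hτ1 : p.1 ∈ Ioo (0 : ℝ) 1 := halfSub hp.1
    have hx : p.2 ∈ Icc 0 L := Ioo_subset_Icc_self hp.2
    have hρ : 0 < p.2 ^ 2 + p.1 := rho_pos hx.1 hτ1.1
    have h1 := b_rel8 hc0 hC0 hB hδ j hj hτ1 hx
    have h2 : ((dt^[j] (bb L φ δ)) p.1 p.2) ^ 2 ≤ A ^ 2 * (9 * ∑ l ∈ Finset.range (j + 1),
        (|be L φ l δ p.1 p.2| / (p.2 ^ 2 + p.1) ^ (j - l)) ^ 2) := by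
      rw [← sq_abs]
      calc |(dt^[j] (bb L φ δ)) p.1 p.2| ^ 2
          ≤ (A * ∑ l ∈ Finset.range (j + 1),
              |be L φ l δ p.1 p.2| / (p.2 ^ 2 + p.1) ^ (j - l)) ^ 2 :=
            pow_le_pow_left₀ (abs_nonneg _) h1 2
        _ = A ^ 2 * (∑ l ∈ Finset.range (j + 1),
              |be L φ l δ p.1 p.2| / (p.2 ^ 2 + p.1) ^ (j - l)) ^ 2 := by ring
        _ ≤ A ^ 2 * (9 * ∑ l ∈ Finset.range (j + 1),
              (|be L φ l δ p.1 p.2| / (p.2 ^ 2 + p.1) ^ (j - l)) ^ 2) := by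
            have h3 := sq_sum_le_card_mul_sum_sq (s := Finset.range (j + 1))
              (f := fun l => |be L φ l δ p.1 p.2| / (p.2 ^ 2 + p.1) ^ (j - l))
            have h4 : ((Finset.range (j + 1)).card : ℝ) ≤ 9 := by
              rw [Finset.card_range]
              have : ((j + 1 : ℕ) : ℝ) ≤ ((9 : ℕ) : ℝ) := by exact_mod_cast (by omega)
              simpa using this
            refine mul_le_mul_of_nonneg_left (h3.trans ?_) (by positivity)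
            exact mul_le_mul_of_nonneg_right h4 (Finset.sum_nonneg fun l _ => by positivity)
    have hW : 0 ≤ WJ κ j p.1 p.2 * p.2 ^ 9 :=
      mul_nonneg (WJ_nonneg hτ1.1 hx.1) (pow_nonneg hx.1 9)
    refine (mul_le_mul_of_nonneg_left h2 hW).trans (le_of_eq ?_)
    rw [Finset.mul_sum, Finset.mul_sum, Finset.mul_sum]
    refine Finset.sum_congr rfl fun l hl => ?_
    have hl' : l ≤ j := Nat.lt_succ_iff.1 (Finset.mem_range.1 hl)
    have e := WJ_add (κ := κ) (τ := p.1) (x := p.2) (i := l) (k := j - l) (by omega) hτ1.1 hx.1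
    rw [Nat.add_sub_cancel' hl'] at e
    have e2 : (|be L φ l δ p.1 p.2| / (p.2 ^ 2 + p.1) ^ (j - l)) ^ 2 =
        (be L φ l δ p.1 p.2) ^ 2 / (p.2 ^ 2 + p.1) ^ (2 * (j - l)) := by
      rw [div_pow, sq_abs, ← pow_mul, mul_comm (j - l) 2]
    have hne : ((p.2 ^ 2 + p.1) ^ (2 * (j - l))) ≠ 0 := (pow_pos hρ _).ne'
    rw [e, e2]
    clear_value A
    field_simp
  calc N2T (1 / 2) L (WJ κ j) (dt^[j] (bb L φ δ))
      ≤ ∫⁻ p in Rg L, ∑ l ∈ Finset.range (j + 1), ENNReal.ofReal (9 * A ^ 2) *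
          ENNReal.ofReal (WJ κ l p.1 p.2 * p.2 ^ 9 * (be L φ l δ p.1 p.2) ^ 2) := by
        refine setLIntegral_mono' (measurableSet_Rg L) fun p hp => ?_
        refine (ENNReal.ofReal_le_ofReal (hpt p hp)).trans ?_
        have hn : ∀ l ∈ Finset.range (j + 1), 0 ≤ (9 * A ^ 2) *
            (WJ κ l p.1 p.2 * p.2 ^ 9 * (be L φ l δ p.1 p.2) ^ 2) := by
          intro l _
          have := WJ_nonneg (κ := κ) (j := l) hp.1.1 hp.2.1.le
          have h3 : 0 ≤ p.2 := hp.2.1.le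
          positivity
        rw [ENNReal.ofReal_sum_of_nonneg hn]
        refine le_of_eq (Finset.sum_congr rfl fun l _ => ?_)
        rw [ENNReal.ofReal_mul (by positivity)]
    _ = ∑ l ∈ Finset.range (j + 1), ENNReal.ofReal (9 * A ^ 2) * ∫⁻ p in Rg L,
          ENNReal.ofReal (WJ κ l p.1 p.2 * p.2 ^ 9 * (be L φ l δ p.1 p.2) ^ 2) := by
        rw [lintegral_finsetSum' _ (fun l _ => (hmeas l).const_mul _)]
        exact Finset.sum_congr rfl fun l _ => lintegral_const_mul'' _ (hmeas l)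
    _ ≤ ∑ l ∈ Finset.range (j + 1), ENNReal.ofReal (9 * A ^ 2) * ENNReal.ofReal (S ^ 2) := by
        refine Finset.sum_le_sum fun l hl => ?_
        have hl' : l ≤ 8 := (Nat.lt_succ_iff.1 (Finset.mem_range.1 hl)).trans hj
        gcongr
        refine le_trans (lintegral_mono_set ?_) (hS l hl')
        exact Set.prod_mono (Ioo_subset_Ioo_right (by norm_num)) subset_rfl
    _ = (j + 1 : ℕ) * ENNReal.ofReal (9 * A ^ 2 * S ^ 2) := by
        rw [Finset.sum_const, Finset.card_range, nsmul_eq_mul, ← ENNReal.ofReal_mul (by positivity)]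
    _ ≤ ENNReal.ofReal ((9 * A * S) ^ 2) := by
        rw [← ENNReal.ofReal_natCast, ← ENNReal.ofReal_mul (by positivity)]
        refine ENNReal.ofReal_le_ofReal ?_
        have h9 : ((j + 1 : ℕ) : ℝ) ≤ 9 := by
          have : ((j + 1 : ℕ) : ℝ) ≤ ((9 : ℕ) : ℝ) := by exact_mod_cast (by omega)
          simpa using this
        have h0 : 0 ≤ 9 * A ^ 2 * S ^ 2 := by positivity
        calc ((j + 1 : ℕ) : ℝ) * (9 * A ^ 2 * S ^ 2) ≤ 9 * (9 * A ^ 2 * S ^ 2) :=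
              mul_le_mul_of_nonneg_right h9 h0
          _ = (9 * A * S) ^ 2 := by ring

end

end Crest.Agent.R213.C
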