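import Crest.Agent.R213.C.Algebra
import Crest.Agent.R213.J0bK
import Crest.Agent.R213.C.LinEst

-- ▼ part R213/C/Iteration
section

/-!
# Row 213, part C7: the iteration
-/

set_option autoImplicit false

open Set MeasureTheory Filter Topology

noncomputable section

namespace Crest.Agent.R213.C

variable {c0 C0 κ L N N' ε : ℝ} {g η : ℝ → ℝ} {φ m E u v : ℝ → ℝ → ℝ}

/-- the body of `lin_est` -/
def LinEst (c0 C0 : ℝ) (g : ℝ → ℝ) (κ L2 C : ℝ) (q : ℕ) : Prop :=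
  ∀ L ≥ L2, ∀ φ m : ℝ → ℝ → ℝ, Bg c0 C0 g L φ m →
      ∀ E ht : ℝ → ℝ → ℝ, Sm (Ioo 0 1) L E → Sm (Ioo 0 1) L ht →
      (∀ τ ∈ Ioo (0 : ℝ) 1, 3 / 8 ≤ τ → ∀ x ∈ Icc 0 L, ht τ x = 0) →
      (∀ τ ∈ Ioo (0 : ℝ) 1, ∀ x ∈ Icc (0 : ℝ) 1, E τ x = 0) →
      ∀ N e : ℝ, 0 ≤ N → 0 ≤ e →
      PB L N (fun τ x => φ τ x * ht τ x) → QB κ L N (fun τ x => φ τ x * ht τ x) →
      (∀ j ≤ 9, ∀ τ ∈ Ioo (0 : ℝ) 1, ∀ x ∈ Icc 0 L, |(dt^[j] E) τ x| ≤ e) →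
      ∃ δ : ℝ → ℝ → ℝ, Sm (Ioo 0 1) L δ ∧ LinEq L φ E ht δ ∧
        PB L (C * L ^ q * (N + e)) (bb L φ δ) ∧ QB κ L (C * L ^ q * (N + e)) (bb L φ δ) ∧
        DB L (C * L ^ q * (N + e)) δ

/-- the body of `alg_nl` -/
def NLEst (κ : ℝ) (η : ℝ → ℝ) (C : ℝ) (q : ℕ) : Prop :=
  ∀ L ≥ (8 : ℝ), ∀ b b' : ℝ → ℝ → ℝ,
      Sm (Ioo 0 (1 / 2)) L b → Sm (Ioo 0 (1 / 2)) L b' →
      (∀ τ ∈ Ioo (0 : ℝ) (1 / 2), ∀ x ∈ Icc 0 L, |b τ x| ≤ 1 / 2) →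
      (∀ τ ∈ Ioo (0 : ℝ) (1 / 2), ∀ x ∈ Icc 0 L, |b' τ x| ≤ 1 / 2) →
      ∀ N A : ℝ, 0 ≤ N → N ≤ 1 → 0 ≤ A →
      PB L N b → QB κ L N b → PB L N b' → QB κ L N b' →
      PB L A (fun τ x => b τ x - b' τ x) → QB κ L A (fun τ x => b τ x - b' τ x) →
        PB L (C * L ^ q * N * A) (fun τ x => η τ * (b τ x ^ 2 / (1 + b τ x)) -
          η τ * (b' τ x ^ 2 / (1 + b' τ x))) ∧
        QB κ L (C * L ^ q * N * A) (fun τ x => η τ * (b τ x ^ 2 / (1 + b τ x)) -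
          η τ * (b' τ x ^ 2 / (1 + b' τ x)))

/-! ### congruence and sums -/

theorem PB.congrI (hu : PB L N u)
    (h : ∀ τ ∈ Ioo (0 : ℝ) (1 / 2), ∀ x ∈ Icc 0 L, v τ x = u τ x) : PB L N v := by
  intro j hj τ hτ x hx
  rw [dt_iter_congr_half h hτ hx]
  exact hu j hj τ hτ x hx

theorem DB.congrI (hu : DB L N u)
    (h : ∀ τ ∈ Ioo (0 : ℝ) (1 / 2), ∀ x ∈ Icc 0 L, v τ x = u τ x) : DB L N v := by
  intro j hj τ hτ x hx
  rw [dt_iter_congr_half h hτ hx]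
  exact hu j hj τ hτ x hx

theorem QB.congrI (hu : QB κ L N u)
    (h : ∀ τ ∈ Ioo (0 : ℝ) (1 / 2), ∀ x ∈ Icc 0 L, v τ x = u τ x) : QB κ L N v := by
  intro j hj
  refine le_trans (le_of_eq ?_) (hu j hj)
  refine setLIntegral_congr_fun (measurableSet_Rg L) ?_
  intro p hp
  simp only
  rw [dt_iter_congr_half h hp.1 (Ioo_subset_Icc_self hp.2)]

theorem DB.monoI (h : DB L N u) (hN : N ≤ N') : DB L N' u := by
  intro j hj τ hτ x hx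
  exact (h j hj τ hτ x hx).trans
    (mul_le_mul_of_nonneg_right hN (pow_nonneg (rho_pos hx.1 hτ.1).le _))

theorem DB.addI (hus : Sm (Ioo 0 (1 / 2)) L u) (hvs : Sm (Ioo 0 (1 / 2)) L v)
    (hu : DB L N u) (hv : DB L N' v) : DB L (N + N') (fun τ x => u τ x + v τ x) := by
  intro j hj τ hτ x hx
  rw [dt_iter_add isOpen_Ioo hus hvs hτ hx]
  have h1 := hu j hj τ hτ x hx
  have h2 := hv j hj τ hτ x hx
  have h3 : 0 ≤ (x ^ 2 + τ) ^ j := pow_nonneg (rho_pos hx.1 hτ.1).le _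
  calc |(dt^[j] u) τ x + (dt^[j] v) τ x| * (x ^ 2 + τ) ^ j
      ≤ (|(dt^[j] u) τ x| + |(dt^[j] v) τ x|) * (x ^ 2 + τ) ^ j :=
        mul_le_mul_of_nonneg_right (abs_add_le _ _) h3
    _ ≤ (N + N') * (x ^ 2 + τ) ^ 25 := by rw [add_mul, add_mul]; exact add_le_add h1 h2

/-! ### The equation is linear -/

theorem Bg_posI (hB : Bg c0 C0 g L φ m) : 0 < L := by
  have := hB.L_ge
  linarith

theorem Bg_sm_phiI (hB : Bg c0 C0 g L φ m) : Sm (Ioo 0 1) L φ := by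
  have h1 : Sm (Ioo 0 1) L (fun τ x => x * (1 - x / L) * m τ x) := by
    refine Sm.mul ?_ hB.sm
    exact Sm.mul Sm.snd (Sm.sub (Sm.const 1) (Sm.div Sm.snd (Sm.const L)
      (fun _ _ _ _ => (Bg_posI hB).ne')))
  exact h1.congr hB.phi_eq

theorem half_subsetI : Ioo (0 : ℝ) (1 / 2) ⊆ Ioo (0 : ℝ) 1 :=
  Ioo_subset_Ioo_right (by norm_num)

theorem sm_bbI (hL : 0 < L) (hφ : Sm (Ioo 0 1) L φ) (hu : Sm (Ioo 0 1) L u) :
    Sm (Ioo 0 1) L (bb L φ u) :=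
  hφ.mul ((hu.dx isOpen_Ioo hL).dx isOpen_Ioo hL)

theorem dxdx_addI (hL : 0 < L) (hu : Sm (Ioo 0 1) L u) (hv : Sm (Ioo 0 1) L v) {τ x : ℝ}
    (hτ : τ ∈ Ioo (0 : ℝ) 1) (hx : x ∈ Icc 0 L) :
    dx L (dx L (fun τ x => u τ x + v τ x)) τ x = dx L (dx L u) τ x + dx L (dx L v) τ x := by
  rw [dx_congr (u := fun τ x => dx L u τ x + dx L v τ x)
    (fun y hy => Sm.dx_add hu hv hL hτ hy) hx]
  exact Sm.dx_add (hu.dx isOpen_Ioo hL) (hv.dx isOpen_Ioo hL) hL hτ hx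

theorem bb_addI (hL : 0 < L) (hu : Sm (Ioo 0 1) L u) (hv : Sm (Ioo 0 1) L v) {τ x : ℝ}
    (hτ : τ ∈ Ioo (0 : ℝ) 1) (hx : x ∈ Icc 0 L) :
    bb L φ (fun τ x => u τ x + v τ x) τ x = bb L φ u τ x + bb L φ v τ x := by
  unfold bb
  rw [dxdx_addI hL hu hv hτ hx, mul_add]

theorem LinEq.addI {E' ht ht' : ℝ → ℝ → ℝ} (hL : 0 < L) (hE : Sm (Ioo 0 1) L E)
    (hE' : Sm (Ioo 0 1) L E') (hu : Sm (Ioo 0 1) L u) (hv : Sm (Ioo 0 1) L v)
    (h1 : LinEq L φ E ht u) (h2 : LinEq L φ E' ht' v) :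
    LinEq L φ (fun τ x => E τ x + E' τ x) (fun τ x => ht τ x + ht' τ x)
      (fun τ x => u τ x + v τ x) := by
  intro τ hτ x hx
  have e1 := h1 τ hτ x hx
  have e2 := h2 τ hτ x hx
  have hdu := hu.dt isOpen_Ioo hL
  have hdv := hv.dt isOpen_Ioo hL
  have e3 : Kint (fun ξ => (E τ ξ + E' τ ξ) + dt (fun τ x => u τ x + v τ x) τ ξ) x =
      Kint (fun ξ => (E τ ξ + dt u τ ξ) + (E' τ ξ + dt v τ ξ)) x := by
    refine Kint_congr (L := L) hx ?_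
    intro y hy
    rw [Sm.dt_add hu hv isOpen_Ioo hτ hy]
    ring
  rw [e3, Kint_add ((hE.add hdu).continuousOn_right hτ) ((hE'.add hdv).continuousOn_right hτ) hx,
    ← e1, ← e2, dxdx_addI hL hu hv hτ hx]
  ring

theorem LinEq.congrI {E' ht ht' : ℝ → ℝ → ℝ} (h1 : LinEq L φ E ht u)
    (hE : ∀ τ ∈ Ioo (0 : ℝ) 1, ∀ x ∈ Icc 0 L, E' τ x = E τ x)
    (hh : ∀ τ ∈ Ioo (0 : ℝ) 1, ∀ x ∈ Icc 0 L, ht' τ x = ht τ x) :
    LinEq L φ E' ht' u := by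
  intro τ hτ x hx
  rw [hh τ hτ x hx, h1 τ hτ x hx]
  refine Kint_congr (L := L) hx ?_
  intro y hy
  rw [hE τ hτ y hy]

/-! ### The nonlinear term -/

theorem Sm_unionI {s1 s2 : Set ℝ} (h1 : IsOpen s1) (h2 : IsOpen s2) (hu1 : Sm s1 L u)
    (hu2 : Sm s2 L u) : Sm (s1 ∪ s2) L u := by
  intro p hp
  have key : ∀ s : Set ℝ, IsOpen s → Sm s L u → p.1 ∈ s →
      ContDiffWithinAt ℝ (⊤ : ℕ∞) (fun p : ℝ × ℝ => u p.1 p.2) ((s1 ∪ s2) ×ˢ Icc 0 L) p := by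
    intro s hs hus hps
    have h := hus p ⟨hps, hp.2⟩
    refine h.mono_of_mem_nhdsWithin ?_
    rw [mem_nhdsWithin]
    exact ⟨s ×ˢ univ, hs.prod isOpen_univ, ⟨hps, mem_univ _⟩, fun q hq => ⟨hq.1.1, hq.2.2⟩⟩
  rcases hp.1 with h | h
  · exact key s1 h1 hu1 h
  · exact key s2 h2 hu2 h

theorem hNL_zero_of_geI (hη : EtaOK η) {τ x : ℝ} (hτ : 3 / 8 ≤ τ) : hNL L φ η u τ x = 0 := by
  unfold hNL
  rw [hη.eq_zero τ hτ, zero_mul]

theorem sm_hNLI (hL : 0 < L) (hη : EtaOK η) (hφ : Sm (Ioo 0 1) L φ) (hu : Sm (Ioo 0 1) L u)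
    (hb : ∀ τ ∈ Ioo (0 : ℝ) (1 / 2), ∀ x ∈ Icc 0 L, |bb L φ u τ x| ≤ 1 / 2) :
    Sm (Ioo 0 1) L (hNL L φ η u) := by
  have e : Ioo (0 : ℝ) 1 = Ioo (0 : ℝ) (1 / 2) ∪ Ioo (3 / 8 : ℝ) 1 := by
    ext t
    simp only [mem_Ioo, mem_union]
    constructor
    · rintro ⟨h1, h2⟩
      rcases lt_or_ge t (1 / 2) with h | h
      · exact Or.inl ⟨h1, h⟩
      · exact Or.inr ⟨by linarith, h2⟩
    · rintro (h | h)
      · exact ⟨h.1, by linarith [h.2]⟩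
      · exact ⟨by linarith [h.1], h.2⟩
  rw [e]
  refine Sm_unionI isOpen_Ioo isOpen_Ioo ?_ ?_
  · have hφ' : Sm (Ioo 0 (1 / 2)) L φ := hφ.mono half_subsetI
    have hd : Sm (Ioo 0 (1 / 2)) L (dx L (dx L u)) :=
      ((hu.dx isOpen_Ioo hL).dx isOpen_Ioo hL).mono half_subsetI
    have hη' : Sm (Ioo 0 (1 / 2)) L (fun t _ => η t) := Sm.of_left hη.smooth.contDiffOn
    refine hη'.mul ((hφ'.mul (hd.pow 2)).div ((Sm.const 1).add (hφ'.mul hd)) ?_)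
    intro t ht x hx
    have h1 := hb t ht x hx
    have h2 : -(1 / 2) ≤ bb L φ u t x := (abs_le.1 h1).1
    have h3 : bb L φ u t x = φ t x * dx L (dx L u) t x := rfl
    rw [h3] at h2
    have : 0 < 1 + φ t x * dx L (dx L u) t x := by linarith
    exact this.ne'
  · exact (Sm.const 0).congr (fun t ht x _ => hNL_zero_of_geI hη ht.1.le)

theorem phi_hNLI (τ x : ℝ) :
    φ τ x * hNL L φ η u τ x = η τ * (bb L φ u τ x ^ 2 / (1 + bb L φ u τ x)) := by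
  unfold hNL bb
  rw [mul_left_comm, mul_div_assoc']
  ring_nf

theorem dxdx_zeroI (hL : 0 < L) {τ x : ℝ} (hx : x ∈ Icc 0 L) :
    dx L (dx L (fun _ _ => (0 : ℝ))) τ x = 0 := by
  rw [dx_congr (u := fun _ _ => (0 : ℝ)) (fun y hy => dx_const 0 hL hy) hx]
  exact dx_const 0 hL hx

theorem bb_zeroI (hL : 0 < L) {τ x : ℝ} (hx : x ∈ Icc 0 L) :
    bb L φ (fun _ _ => (0 : ℝ)) τ x = 0 := by
  unfold bb
  rw [dxdx_zeroI hL hx, mul_zero]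

theorem hNL_zeroI (hL : 0 < L) {τ x : ℝ} (hx : x ∈ Icc 0 L) :
    hNL L φ η (fun _ _ => (0 : ℝ)) τ x = 0 := by
  unfold hNL
  rw [dxdx_zeroI hL hx]
  simp

theorem dt_iter_zeroI (j : ℕ) (τ x : ℝ) : (dt^[j] (fun _ _ => (0 : ℝ))) τ x = 0 := by
  rw [dt_iter_eq]
  simp

theorem PB.zeroI (hN : 0 ≤ N) : PB L N (fun _ _ => (0 : ℝ)) := by
  intro j _ τ hτ x hx
  rw [dt_iter_zeroI, abs_zero, zero_mul, zero_mul]
  exact mul_nonneg hN (pow_nonneg (rho_pos hx.1 hτ.1).le _)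

theorem QB.zeroI : QB κ L N (fun _ _ => (0 : ℝ)) := by
  intro j _
  have : N2T (1 / 2) L (WJ κ j) (dt^[j] (fun _ _ => (0 : ℝ))) = 0 := by
    unfold N2T
    refine (setLIntegral_congr_fun (g := fun _ => 0) (measurableSet_Rg L) ?_).trans (by simp)
    intro p _
    simp only
    rw [dt_iter_zeroI]
    simp
  rw [this]
  exact bot_le

/-! ### One step -/

/-- the state of the iteration: previous and current approximations -/
structure ItGood (κ L : ℝ) (φ E : ℝ → ℝ → ℝ) (η : ℝ → ℝ) (ε : ℝ) (i : ℕ)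
    (s : (ℝ → ℝ → ℝ) × (ℝ → ℝ → ℝ)) : Prop where
  smp : Sm (Ioo 0 1) L s.1
  smd : Sm (Ioo 0 1) L s.2
  eqn : LinEq L φ E (hNL L φ η s.1) s.2
  pbp : PB L (2 * ε) (bb L φ s.1)
  qbp : QB κ L (2 * ε) (bb L φ s.1)
  pbd : PB L (ε * (2 - (1 / 2) ^ i)) (bb L φ s.2)
  qbd : QB κ L (ε * (2 - (1 / 2) ^ i)) (bb L φ s.2)
  db : DB L (ε * (2 - (1 / 2) ^ i)) s.2
  pbdiff : PB L (ε * (1 / 2) ^ i) (fun τ x => bb L φ s.2 τ x - bb L φ s.1 τ x)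
  qbdiff : QB κ L (ε * (1 / 2) ^ i) (fun τ x => bb L φ s.2 τ x - bb L φ s.1 τ x)

theorem PB.abs_leI {c : ℝ} (h : PB L N u) (hN : 0 ≤ N) (hc : N * (L ^ 2 + 1) ^ 25 ≤ c) {τ x : ℝ}
    (hτ : τ ∈ Ioo (0 : ℝ) (1 / 2)) (hx : x ∈ Icc 0 L) : |u τ x| ≤ c := by
  have h1 := h.low (j := 0) (by norm_num) hτ hx
  simp only [pow_zero, mul_one, Function.iterate_zero, id] at h1
  refine h1.trans (le_trans ?_ hc)
  exact mul_le_mul_of_nonneg_left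
    (pow_le_pow_left₀ (rho_pos hx.1 hτ.1).le (rho_le hx hτ) 25) hN

theorem half_pow_leI (i : ℕ) : (1 / 2 : ℝ) ^ i ≤ 1 := pow_le_one₀ (by norm_num) (by norm_num)

theorem half_pow_posI (i : ℕ) : 0 < (1 / 2 : ℝ) ^ i := by positivity

theorem it_step {L2 C C' : ℝ} {q q' : ℕ} (hlin : LinEst c0 C0 g κ L2 C q)
    (hnl : NLEst κ η C' q') (hη : EtaOK η) (hL : L2 ≤ L) (hL8 : 8 ≤ L)
    (hC : 0 ≤ C) (hC' : 0 ≤ C')
    (hadd : ∀ (N N' : ℝ) (u v : ℝ → ℝ → ℝ), NB κ L N u → NB κ L N' v →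
      NB κ L (N + N') (fun t x => u t x + v t x))
    (hB : Bg c0 C0 g L φ m) (hε : 0 ≤ ε) (hE : Sm (Ioo 0 1) L E)
    (ha : 2 * ε * (L ^ 2 + 1) ^ 25 ≤ 1 / 20) (hb : C * L ^ q * (C' * L ^ q' * (2 * ε)) ≤ 1 / 2)
    (hc : 2 * ε ≤ 1) (i : ℕ) (s : (ℝ → ℝ → ℝ) × (ℝ → ℝ → ℝ)) (hs : ItGood κ L φ E η ε i s) :
    ∃ s' : (ℝ → ℝ → ℝ) × (ℝ → ℝ → ℝ), ItGood κ L φ E η ε (i + 1) s' ∧ s'.1 = s.2 ∧
      DB L (ε * (1 / 2) ^ (i + 1)) (fun τ x => s'.2 τ x - s.2 τ x) := by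
  obtain ⟨p, d⟩ := s
  have hL0 : 0 < L := by linarith
  have hφ := Bg_sm_phiI hB
  have hpos := half_pow_posI i
  have hle := half_pow_leI i
  have hN1 : ε * (2 - (1 / 2) ^ i) ≤ 2 * ε := by
    have := mul_nonneg hε hpos.le
    linarith
  have hN0 : 0 ≤ ε * (2 - (1 / 2) ^ i) := mul_nonneg hε (by linarith)
  have smp := hs.smp
  have smd := hs.smd
  simp only at smp smd
  have pbd2 : PB L (2 * ε) (bb L φ d) := hs.pbd.mono hN1
  have qbd2 : QB κ L (2 * ε) (bb L φ d) := hs.qbd.mono hN0 hN1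
  have h2ε : 0 ≤ 2 * ε := by linarith
  have bd : ∀ τ ∈ Ioo (0 : ℝ) (1 / 2), ∀ x ∈ Icc 0 L, |bb L φ d τ x| ≤ 1 / 2 := fun τ hτ x hx =>
    (pbd2.abs_leI h2ε (ha.trans (by norm_num)) hτ hx)
  have bp : ∀ τ ∈ Ioo (0 : ℝ) (1 / 2), ∀ x ∈ Icc 0 L, |bb L φ p τ x| ≤ 1 / 2 := fun τ hτ x hx =>
    (hs.pbp.abs_leI h2ε (ha.trans (by norm_num)) hτ hx)
  have smbd : Sm (Ioo 0 (1 / 2)) L (bb L φ d) := (sm_bbI hL0 hφ smd).mono half_subsetI
  have smbp : Sm (Ioo 0 (1 / 2)) L (bb L φ p) := (sm_bbI hL0 hφ smp).mono half_subsetI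
  have hA0 : 0 ≤ ε * (1 / 2) ^ i := mul_nonneg hε hpos.le
  obtain ⟨hp1, hq1⟩ := hnl L hL8 (bb L φ d) (bb L φ p) smbd smbp bd bp (2 * ε)
    (ε * (1 / 2) ^ i) h2ε hc hA0 pbd2 qbd2 hs.pbp hs.qbp hs.pbdiff hs.qbdiff
  have hN'0 : 0 ≤ C' * L ^ q' * (2 * ε) * (ε * (1 / 2) ^ i) := by positivity
  have smhd := sm_hNLI hL0 hη hφ smd bd
  have smhp := sm_hNLI hL0 hη hφ smp bp
  have heq : ∀ τ x, φ τ x * (hNL L φ η d τ x - hNL L φ η p τ x) =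
      η τ * (bb L φ d τ x ^ 2 / (1 + bb L φ d τ x)) -
        η τ * (bb L φ p τ x ^ 2 / (1 + bb L φ p τ x)) := by
    intro τ x
    rw [mul_sub, phi_hNLI, phi_hNLI]
  obtain ⟨w, smw, eqw, pbw, qbw, dbw⟩ := hlin L hL φ m hB (fun _ _ => 0)
    (fun τ x => hNL L φ η d τ x - hNL L φ η p τ x) (Sm.const 0) (smhd.sub smhp)
    (fun τ _ h38 x _ => by
      rw [hNL_zero_of_geI hη h38, hNL_zero_of_geI hη h38, sub_zero])
    (fun _ _ _ _ => rfl) (C' * L ^ q' * (2 * ε) * (ε * (1 / 2) ^ i)) 0 hN'0 le_rfl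
    (hp1.congrI fun τ _ x _ => heq τ x) (hq1.congrI fun τ _ x _ => heq τ x)
    (fun j _ τ _ x _ => by rw [dt_iter_zeroI, abs_zero])
  have hM : C * L ^ q * (C' * L ^ q' * (2 * ε) * (ε * (1 / 2) ^ i) + 0) ≤
      ε * (1 / 2) ^ (i + 1) := by
    calc C * L ^ q * (C' * L ^ q' * (2 * ε) * (ε * (1 / 2) ^ i) + 0)
        = (C * L ^ q * (C' * L ^ q' * (2 * ε))) * (ε * (1 / 2) ^ i) := by ring
      _ ≤ (1 / 2) * (ε * (1 / 2) ^ i) := mul_le_mul_of_nonneg_right hb hA0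
      _ = ε * (1 / 2) ^ (i + 1) := by ring
  have hM0 : 0 ≤ C * L ^ q * (C' * L ^ q' * (2 * ε) * (ε * (1 / 2) ^ i) + 0) := by positivity
  have pbw' := pbw.mono hM
  have qbw' := qbw.mono hM0 hM
  have dbw' := dbw.monoI hM
  have smbw : Sm (Ioo 0 (1 / 2)) L (bb L φ w) := (sm_bbI hL0 hφ smw).mono half_subsetI
  have hnb := hadd _ _ _ _ ⟨smbd, hs.pbd, hs.qbd⟩ ⟨smbw, pbw', qbw'⟩
  have hsum : ε * (2 - (1 / 2) ^ i) + ε * (1 / 2) ^ (i + 1) = ε * (2 - (1 / 2) ^ (i + 1)) := by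
    rw [pow_succ]; ring
  simp only [hsum] at hnb
  have hbb : ∀ τ ∈ Ioo (0 : ℝ) (1 / 2), ∀ x ∈ Icc 0 L,
      bb L φ (fun τ x => d τ x + w τ x) τ x = bb L φ d τ x + bb L φ w τ x := fun τ hτ x hx =>
    bb_addI hL0 smd smw (half_subsetI hτ) hx
  refine ⟨(d, fun τ x => d τ x + w τ x), ?_, rfl, ?_⟩
  · refine ⟨smd, smd.add smw, ?_, pbd2, qbd2, hnb.pb.congrI hbb, hnb.qb.congrI hbb, ?_, ?_, ?_⟩
    · have h1 := LinEq.addI hL0 hE (Sm.const 0) smd smw hs.eqn eqw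
      refine h1.congrI (fun τ _ x _ => (add_zero _).symm) (fun τ _ x _ => ?_)
      simp only
      ring
    · have := hs.db.addI (smd.mono half_subsetI) (smw.mono half_subsetI) dbw'
      rwa [hsum] at this
    · refine pbw'.congrI (fun τ hτ x hx => ?_)
      simp only
      rw [hbb τ hτ x hx]
      ring
    · refine qbw'.congrI (fun τ hτ x hx => ?_)
      simp only
      rw [hbb τ hτ x hx]
      ring
  · refine dbw'.congrI (fun τ _ x _ => ?_)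
    simp only
    ring



theorem it_start {L2 C : ℝ} {q : ℕ} (hlin : LinEst c0 C0 g κ L2 C q) (hL : L2 ≤ L)
    (hL0 : 0 < L) (hC : 0 ≤ C) {e : ℝ} (he : 0 ≤ e)
    (hB : Bg c0 C0 g L φ m) (hE : Sm (Ioo 0 1) L E)
    (hE0 : ∀ τ ∈ Ioo (0 : ℝ) 1, ∀ x ∈ Icc (0 : ℝ) 1, E τ x = 0)
    (hEe : ∀ j ≤ 9, ∀ τ ∈ Ioo (0 : ℝ) 1, ∀ x ∈ Icc 0 L, |(dt^[j] E) τ x| ≤ e)
    (hε : ε = C * L ^ q * e) :
    ∃ s : (ℝ → ℝ → ℝ) × (ℝ → ℝ → ℝ), ItGood κ L φ E η ε 0 s ∧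
      LinEq L φ E (fun _ _ => 0) s.2 := by
  have hz : ∀ τ ∈ Ioo (0 : ℝ) (1 / 2), ∀ x ∈ Icc 0 L,
      φ τ x * (fun _ _ => (0 : ℝ)) τ x = (fun _ _ => (0 : ℝ)) τ x :=
    fun τ _ x _ => mul_zero _
  obtain ⟨d, smd, eqd, pbd, qbd, db⟩ := hlin L hL φ m hB E (fun _ _ => 0) hE (Sm.const 0)
    (fun _ _ _ _ _ => rfl) hE0 0 e le_rfl he ((PB.zeroI le_rfl).congrI hz) (QB.zeroI.congrI hz) hEe
  rw [zero_add, ← hε] at pbd qbd db
  have hε0 : 0 ≤ ε := by rw [hε]; positivity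
  refine ⟨(fun _ _ => 0, d), ⟨Sm.const 0, smd, ?_, ?_, ?_, ?_, ?_, ?_, ?_, ?_⟩, eqd⟩
  · exact eqd.congrI (fun _ _ _ _ => rfl) (fun τ _ x hx => hNL_zeroI hL0 hx)
  · exact (PB.zeroI (by linarith)).congrI (fun τ _ x hx => bb_zeroI hL0 hx)
  · exact QB.zeroI.congrI (fun τ _ x hx => bb_zeroI hL0 hx)
  · simpa [show (2 : ℝ) - 1 = 1 by norm_num] using pbd
  · simpa [show (2 : ℝ) - 1 = 1 by norm_num] using qbd
  · simpa [show (2 : ℝ) - 1 = 1 by norm_num] using db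
  · rw [pow_zero, mul_one]
    refine pbd.congrI (fun τ _ x hx => ?_)
    simp only
    rw [bb_zeroI hL0 hx, sub_zero]
  · rw [pow_zero, mul_one]
    refine qbd.congrI (fun τ _ x hx => ?_)
    simp only
    rw [bb_zeroI hL0 hx, sub_zero]

theorem it_core {L2 C C' : ℝ} {q q' : ℕ} (hlin : LinEst c0 C0 g κ L2 C q)
    (hnl : NLEst κ η C' q') (hη : EtaOK η) (hL : L2 ≤ L) (hL8 : 8 ≤ L)
    (hC : 0 ≤ C) (hC' : 0 ≤ C')
    (hadd : ∀ (N N' : ℝ) (u v : ℝ → ℝ → ℝ), NB κ L N u → NB κ L N' v →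
      NB κ L (N + N') (fun t x => u t x + v t x))
    (hB : Bg c0 C0 g L φ m) {e : ℝ} (he : 0 ≤ e) (hε : ε = C * L ^ q * e) (hE : Sm (Ioo 0 1) L E)
    (hE0 : ∀ τ ∈ Ioo (0 : ℝ) 1, ∀ x ∈ Icc (0 : ℝ) 1, E τ x = 0)
    (hEe : ∀ j ≤ 9, ∀ τ ∈ Ioo (0 : ℝ) 1, ∀ x ∈ Icc 0 L, |(dt^[j] E) τ x| ≤ e)
    (ha : 2 * ε * (L ^ 2 + 1) ^ 25 ≤ 1 / 20) (hb : C * L ^ q * (C' * L ^ q' * (2 * ε)) ≤ 1 / 2) :
    ∃ d : ℕ → ℝ → ℝ → ℝ, Iter κ L φ E η d := by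
  have hL0 : 0 < L := by linarith
  have hε0 : 0 ≤ ε := by rw [hε]; positivity
  have hc : 2 * ε ≤ 1 := by
    have h1 : 1 ≤ (L ^ 2 + 1) ^ 25 := one_le_pow₀ (by nlinarith)
    have h2 : 2 * ε * 1 ≤ 2 * ε * (L ^ 2 + 1) ^ 25 :=
      mul_le_mul_of_nonneg_left h1 (by linarith)
    linarith
  obtain ⟨s0, hs0, hs0'⟩ := it_start (η := η) hlin hL hL0 hC he hB hE hE0 hEe hε
  have hstep : ∀ i : ℕ, ∀ s : {s : (ℝ → ℝ → ℝ) × (ℝ → ℝ → ℝ) // ItGood κ L φ E η ε i s},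
      ∃ s' : {s : (ℝ → ℝ → ℝ) × (ℝ → ℝ → ℝ) // ItGood κ L φ E η ε (i + 1) s}, s'.1.1 = s.1.2 ∧
      DB L (ε * (1 / 2) ^ (i + 1)) (fun τ x => s'.1.2 τ x - s.1.2 τ x) := by
    intro i s
    obtain ⟨s', h1, h2, h3⟩ := it_step hlin hnl hη hL hL8 hC hC' hadd hB hε0 hE ha hb hc i s.1 s.2
    exact ⟨⟨s', h1⟩, h2, h3⟩
  choose f hf1 hf2 using hstep
  let S : ∀ i : ℕ, {s : (ℝ → ℝ → ℝ) × (ℝ → ℝ → ℝ) // ItGood κ L φ E η ε i s} := fun i =>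
    Nat.rec ⟨s0, hs0⟩ (fun i s => f i s) i
  have hS : ∀ i, S (i + 1) = f i (S i) := fun i => rfl
  refine ⟨fun i => (S i).1.2, ?_, ?_, ?_, ?_, ?_, ?_, ?_, ?_, ?_⟩
  · exact fun i => (S i).2.smd
  · exact hs0'
  · intro i
    have h := (S (i + 1)).2.eqn
    rwa [hS i, hf1] at h
  · intro i τ hτ x hx
    have h1 : ε * (2 - (1 / 2) ^ i) ≤ 2 * ε := by
      have := mul_nonneg hε0 (half_pow_posI i).le
      linarith
    exact ((S i).2.pbd.mono h1).abs_leI (by linarith) ha hτ hx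
  · intro i
    refine (S i).2.pbd.mono ?_
    have := mul_nonneg hε0 (half_pow_posI i).le
    linarith
  · intro i
    refine (S i).2.qbd.mono (mul_nonneg hε0 (by linarith [half_pow_leI i])) ?_
    have := mul_nonneg hε0 (half_pow_posI i).le
    linarith
  · intro i
    refine (S i).2.db.monoI ?_
    have := mul_nonneg hε0 (half_pow_posI i).le
    linarith
  · intro i
    have h := (S (i + 1)).2.pbdiff
    rw [hS i, hf1] at h
    refine PB.mono h ?_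
    have h1 := half_pow_posI i
    rw [pow_succ]
    nlinarith
  · intro i
    have h := hf2 i (S i)
    refine DB.monoI h ?_
    have h1 := half_pow_posI i
    rw [pow_succ]
    nlinarith

/-- C7, from the bodies of `lin_est` and `alg_nl` -/
theorem iteration_of {L2 C C' : ℝ} {q q' : ℕ} (hlin : LinEst c0 C0 g κ L2 C q)
    (hnl : NLEst κ η C' q') (hη : EtaOK η) (hC : 1 ≤ C) (hC' : 1 ≤ C')
    (hadd : ∀ (L N N' : ℝ) (u v : ℝ → ℝ → ℝ), 0 < L → NB κ L N u → NB κ L N' v →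
      NB κ L (N + N') (fun t x => u t x + v t x)) :
    ∃ (L3 : ℝ) (P : ℕ), 8 ≤ L3 ∧ ∀ L ≥ L3, ∀ φ m : ℝ → ℝ → ℝ, Bg c0 C0 g L φ m →
      ∀ E : ℝ → ℝ → ℝ, Sm (Ioo 0 1) L E →
        (∀ τ ∈ Ioo (0 : ℝ) 1, ∀ x ∈ Icc (0 : ℝ) 1, E τ x = 0) →
        (∀ j ≤ 9, ∀ τ ∈ Ioo (0 : ℝ) 1, ∀ x ∈ Icc 0 L, |(dt^[j] E) τ x| ≤ L ^ (-(P : ℝ))) →
        ∃ d : ℕ → ℝ → ℝ → ℝ, Iter κ L φ E η d := by
  refine ⟨max (max L2 8) (2 ^ 40 * C ^ 2 * C'), 2 * q + q' + 51,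
    (le_max_right _ _).trans (le_max_left _ _), ?_⟩
  intro L hL φ m hB E hE hE0 hEe
  have hL2 : L2 ≤ L := ((le_max_left _ _).trans (le_max_left _ _)).trans hL
  have hL8 : 8 ≤ L := ((le_max_right _ _).trans (le_max_left _ _)).trans hL
  have hL1 : 2 ^ 40 * C ^ 2 * C' ≤ L := (le_max_right _ _).trans hL
  have hL0 : 0 < L := by linarith
  have hCC : C ≤ C ^ 2 * C' := by
    have : C * 1 ≤ C * (C * C') :=
      mul_le_mul_of_nonneg_left (one_le_mul_of_one_le_of_one_le hC hC') (by linarith)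
    calc C = C * 1 := (mul_one _).symm
      _ ≤ _ := this
      _ = _ := by ring
  have hrw : L ^ (-((2 * q + q' + 51 : ℕ) : ℝ)) = 1 / L ^ (2 * q + q' + 51) := by
    rw [Real.rpow_neg hL0.le, Real.rpow_natCast, one_div]
  have hεe : C * L ^ q * L ^ (-((2 * q + q' + 51 : ℕ) : ℝ)) = C / L ^ (q + q' + 51) := by
    rw [hrw, show 2 * q + q' + 51 = q + (q + q' + 51) by ring, pow_add L q (q + q' + 51)]
    field_simp
  have hpow : ∀ n : ℕ, 1 ≤ L ^ n := fun n => one_le_pow₀ (by linarith)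
  refine it_core hlin hnl hη hL2 hL8 (by linarith) (by linarith)
    (fun N N' u v => hadd L N N' u v hL0) hB (Real.rpow_nonneg hL0.le _) rfl hE hE0 hEe ?_ ?_
  · rw [hεe]
    have h1 : (L ^ 2 + 1) ^ 25 ≤ 2 ^ 25 * L ^ 50 := by
      calc (L ^ 2 + 1) ^ 25 ≤ (2 * L ^ 2) ^ 25 :=
            pow_le_pow_left₀ (by positivity) (by nlinarith) 25
        _ = 2 ^ 25 * L ^ 50 := by rw [mul_pow, ← pow_mul]
    calc 2 * (C / L ^ (q + q' + 51)) * (L ^ 2 + 1) ^ 25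
        ≤ 2 * (C / L ^ (q + q' + 51)) * (2 ^ 25 * L ^ 50) := by
          refine mul_le_mul_of_nonneg_left h1 (by positivity)
      _ = 2 ^ 26 * C / (L ^ (q + q') * L) := by
          rw [show q + q' + 51 = (q + q') + 1 + 50 by ring, pow_add L (q + q' + 1) 50,
            pow_succ L (q + q')]
          field_simp
      _ ≤ 2 ^ 26 * C / (1 * L) := by
          refine div_le_div_of_nonneg_left (by positivity) (by positivity) ?_
          exact mul_le_mul_of_nonneg_right (hpow _) hL0.le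
      _ ≤ 1 / 20 := by
          rw [one_mul, div_le_div_iff₀ hL0 (by norm_num)]
          nlinarith
  · rw [hεe]
    calc C * L ^ q * (C' * L ^ q' * (2 * (C / L ^ (q + q' + 51))))
        = 2 * (C ^ 2 * C') / (L ^ 50 * L) := by
          rw [show q + q' + 51 = q + (q' + (50 + 1)) by ring, pow_add L q, pow_add L q',
            pow_add L 50 1, pow_one]
          field_simp
      _ ≤ 2 * (C ^ 2 * C') / (1 * L) := by
          refine div_le_div_of_nonneg_left (by positivity) (by positivity) ?_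
          exact mul_le_mul_of_nonneg_right (hpow _) hL0.le
      _ ≤ 1 / 2 := by
          rw [one_mul, div_le_div_iff₀ hL0 (by norm_num)]
          nlinarith

end Crest.Agent.R213.C
end
end

-- ▼ part R213/C/LinEstMain

/-!
# Row 213, part C6: `lin_est` from the statements of C1+C2 (`EnergyLevels`) and C4
(`PointwiseChain`)
-/

set_option autoImplicit false

open Set MeasureTheory Filter Topology

noncomputable section

namespace Crest.Agent.R213.C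

theorem lin_est_of {c0 C0 κ : ℝ} {g : ℝ → ℝ} (hg : Prof c0 C0 g)
    (hκ : κ ∈ Ioo (1 / 8 : ℝ) (1 / 4)) (hEL : EnergyLevels c0 C0 κ g)
    (hPC : PointwiseChain c0 C0 g) {L1 C1 : ℝ} (hlin : LinSolv c0 C0 g κ L1 C1) :
    ∃ (L2 C : ℝ) (q : ℕ), 8 ≤ L2 ∧ 1 ≤ C ∧ ∀ L ≥ L2, ∀ φ m : ℝ → ℝ → ℝ, Bg c0 C0 g L φ m →
      ∀ E ht : ℝ → ℝ → ℝ, Sm (Ioo 0 1) L E → Sm (Ioo 0 1) L ht →
      (∀ τ ∈ Ioo (0 : ℝ) 1, 3 / 8 ≤ τ → ∀ x ∈ Icc 0 L, ht τ x = 0) →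
      (∀ τ ∈ Ioo (0 : ℝ) 1, ∀ x ∈ Icc (0 : ℝ) 1, E τ x = 0) →
      ∀ N e : ℝ, 0 ≤ N → 0 ≤ e →
      PB L N (fun τ x => φ τ x * ht τ x) → QB κ L N (fun τ x => φ τ x * ht τ x) →
      (∀ j ≤ 9, ∀ τ ∈ Ioo (0 : ℝ) 1, ∀ x ∈ Icc 0 L, |(dt^[j] E) τ x| ≤ e) →
      ∃ δ : ℝ → ℝ → ℝ, Sm (Ioo 0 1) L δ ∧ LinEq L φ E ht δ ∧
        PB L (C * L ^ q * (N + e)) (bb L φ δ) ∧ QB κ L (C * L ^ q * (N + e)) (bb L φ δ) ∧
        DB L (C * L ^ q * (N + e)) δ := by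
  have hc0 : 0 < c0 := hg.c0_pos
  have hC0 : 0 ≤ C0 := by
    have h1 := hg.lower 0 le_rfl
    have h2 := hg.upper 0 le_rfl
    linarith
  obtain ⟨Ce, qe, hCe, hEL⟩ := hEL
  obtain ⟨Cp, qp, hCp, hPC⟩ := hPC
  obtain ⟨Cn, qn, hCn, hEn⟩ := E_norms hκ
  obtain ⟨Cs, qs, hCs, hst⟩ := sup_tau hκ
  set C1' : ℝ := max C1 1 with hC1'
  have hC1'1 : 1 ≤ C1' := le_max_right _ _
  set A : ℝ := 9 * (2 ^ 8 * C0 / c0) with hA
  have hA0 : 0 ≤ A := by positivity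
  set G : ℝ := Ce * (C1' + 9) * Cn with hG
  have hG1 : 1 ≤ G := by
    have h1 : 1 ≤ Ce * (C1' + 9) := one_le_mul_of_one_le_of_one_le hCe (by linarith)
    exact one_le_mul_of_one_le_of_one_le h1 hCn
  refine ⟨max L1 8, (4 * Cp * Cs + A) * G, qp + qs + qe + qn, le_max_right _ _, ?_, ?_⟩
  · have h1 : 1 ≤ 4 * Cp * Cs + A := by
      have : 1 ≤ Cp * Cs := one_le_mul_of_one_le_of_one_le hCp hCs
      nlinarith
    exact one_le_mul_of_one_le_of_one_le h1 hG1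
  intro L hL φ m hB E ht hE hht h0 hE0 N e hN he hPBh hQBh hEe
  have hL1 : L1 ≤ L := (le_max_left _ _).trans hL
  have hL8 : (8 : ℝ) ≤ L := (le_max_right _ _).trans hL
  have hL0 : 0 < L := by linarith
  have hpw : ∀ n : ℕ, 1 ≤ L ^ n := fun n => one_le_pow₀ (by linarith)
  obtain ⟨hE1, hE2⟩ := hEn L hL8 E hE hE0 e he hEe
  obtain ⟨hh1, hh2⟩ := ht_norms hL8 (bg_sm_phi hB) hht h0 hQBh
  obtain ⟨δ, hδ, hδn, hδeq⟩ := hlin L hL1 φ m hB E ht hE hht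
    (lt_of_le_of_lt hE1 ENNReal.ofReal_lt_top) (lt_of_le_of_lt hh1 ENNReal.ofReal_lt_top)
  have hδeq' : LinEq L φ E ht δ := hδeq
  -- the total data
  set B : ℝ := Cn * L ^ qn * (N + e) ^ 2 with hBdef
  have hNe : 0 ≤ N + e := add_nonneg hN he
  have hCn0 : 0 ≤ Cn * L ^ qn := by positivity
  have hCn1 : 1 ≤ Cn * L ^ qn := one_le_mul_of_one_le_of_one_le hCn (hpw qn)
  have hB0 : 0 ≤ B := by positivity
  have hsum : N ^ 2 + Cn * L ^ qn * e ^ 2 ≤ B := by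
    have h1 : N ^ 2 ≤ Cn * L ^ qn * N ^ 2 := by
      have := mul_le_mul_of_nonneg_right hCn1 (sq_nonneg N)
      linarith
    have h2 : Cn * L ^ qn * (N ^ 2 + e ^ 2) ≤ Cn * L ^ qn * (N + e) ^ 2 :=
      mul_le_mul_of_nonneg_left (by nlinarith [mul_nonneg hN he]) hCn0
    rw [hBdef]; linarith
  have hdata : N2 L (Wt κ) (bb L φ δ) + N2 L (Wt' κ) δ ≤ ENNReal.ofReal (C1' * B) := by
    refine hδn.trans ?_
    rw [ENNReal.ofReal_mul (by linarith : (0 : ℝ) ≤ C1')]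
    refine mul_le_mul' (ENNReal.ofReal_le_ofReal (le_max_left _ _)) ?_
    refine (add_le_add hh1 hE1).trans ?_
    rw [← ENNReal.ofReal_add (sq_nonneg N) (by positivity)]
    exact ENNReal.ofReal_le_ofReal hsum
  set K0 : ℝ := Ce * L ^ qe * (C1' + 9) * (Cn * L ^ qn) with hK0
  have hK01 : 1 ≤ K0 := by
    have h1 : 1 ≤ Ce * L ^ qe := one_le_mul_of_one_le_of_one_le hCe (hpw qe)
    have h2 : 1 ≤ Ce * L ^ qe * (C1' + 9) := one_le_mul_of_one_le_of_one_le h1 (by linarith)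
    exact one_le_mul_of_one_le_of_one_le h2 hCn1
  have hlev : ∀ j ≤ 8, N2T (5 / 8) L (WJ κ j) (be L φ j δ) +
      N2T (5 / 8) L (WA κ j) (dt^[j] δ) ≤ ENNReal.ofReal (K0 * (N + e) ^ 2) := by
    intro j hj
    refine (hEL L hL8 φ m hB E ht δ hE hht hδ hδeq' j hj).trans ?_
    have hsumj : ∑ i ∈ Finset.range (j + 1),
        (N2T (3 / 4) L (WJ κ i) (dt^[i] (fun τ x => φ τ x * ht τ x)) +
          N2T (3 / 4) L (WA κ i) (dt^[i] E)) ≤ ENNReal.ofReal (9 * B) := by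
      calc ∑ i ∈ Finset.range (j + 1),
          (N2T (3 / 4) L (WJ κ i) (dt^[i] (fun τ x => φ τ x * ht τ x)) +
            N2T (3 / 4) L (WA κ i) (dt^[i] E))
          ≤ ∑ _i ∈ Finset.range (j + 1), ENNReal.ofReal B := by
            refine Finset.sum_le_sum fun i hi => ?_
            have hi' : i ≤ 8 := by
              have := Finset.mem_range.1 hi
              omega
            refine (add_le_add (hh2 i hi') (hE2 i hi')).trans ?_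
            rw [← ENNReal.ofReal_add (sq_nonneg N) (by positivity)]
            exact ENNReal.ofReal_le_ofReal hsum
        _ = ENNReal.ofReal (((j + 1 : ℕ) : ℝ) * B) := by
            rw [Finset.sum_const, Finset.card_range, nsmul_eq_mul, ← ENNReal.ofReal_natCast,
              ← ENNReal.ofReal_mul (by positivity)]
        _ ≤ ENNReal.ofReal (9 * B) := by
            refine ENNReal.ofReal_le_ofReal (mul_le_mul_of_nonneg_right ?_ hB0)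
            have : ((j + 1 : ℕ) : ℝ) ≤ ((9 : ℕ) : ℝ) := by exact_mod_cast (by omega)
            simpa using this
    calc ENNReal.ofReal (Ce * L ^ qe) * (N2 L (Wt κ) (bb L φ δ) + N2 L (Wt' κ) δ +
          ∑ i ∈ Finset.range (j + 1),
            (N2T (3 / 4) L (WJ κ i) (dt^[i] (fun τ x => φ τ x * ht τ x)) +
              N2T (3 / 4) L (WA κ i) (dt^[i] E)))
        ≤ ENNReal.ofReal (Ce * L ^ qe) *
            (ENNReal.ofReal (C1' * B) + ENNReal.ofReal (9 * B)) :=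
          mul_le_mul' le_rfl (add_le_add hdata hsumj)
      _ = ENNReal.ofReal (K0 * (N + e) ^ 2) := by
          rw [← ENNReal.ofReal_add (by positivity) (by positivity),
            ← ENNReal.ofReal_mul (by positivity)]
          congr 1
          rw [hK0, hBdef]; ring
  have hK0M : K0 * (N + e) ^ 2 ≤ (K0 * (N + e)) ^ 2 := by
    rw [mul_pow]
    exact mul_le_mul_of_nonneg_right (by nlinarith) (sq_nonneg _)
  -- sup in time
  set K1 : ℝ := 2 * (Cs * L ^ qs) * K0 with hK1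
  have hCs1 : 1 ≤ Cs * L ^ qs := one_le_mul_of_one_le_of_one_le hCs (hpw qs)
  have hK11 : 1 ≤ K1 := by
    have h1 : 1 ≤ Cs * L ^ qs * K0 := one_le_mul_of_one_le_of_one_le hCs1 hK01
    rw [hK1]; linarith
  have hMM : ∀ j ≤ 7, ∀ τ ∈ Ioo (0 : ℝ) (1 / 2), MM L j τ δ ≤
      ENNReal.ofReal ((K1 * (N + e)) ^ 2) := by
    intro j hj τ hτ
    refine (hst L hL8 δ hδ j hj τ hτ).trans ?_
    have h1 : N2T (5 / 8) L (WA κ j) (dt^[j] δ) ≤ ENNReal.ofReal (K0 * (N + e) ^ 2) :=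
      (le_add_left le_rfl).trans (hlev j (by omega))
    have h2 : N2T (5 / 8) L (WA κ (j + 1)) (dt^[j + 1] δ) ≤
        ENNReal.ofReal (K0 * (N + e) ^ 2) :=
      (le_add_left le_rfl).trans (hlev (j + 1) (by omega))
    refine (mul_le_mul' le_rfl (add_le_add h1 h2)).trans ?_
    rw [← ENNReal.ofReal_add (by positivity) (by positivity), ← ENNReal.ofReal_mul (by positivity)]
    refine ENNReal.ofReal_le_ofReal ?_
    have h3 : Cs * L ^ qs * (K0 * (N + e) ^ 2 + K0 * (N + e) ^ 2) = K1 * (N + e) ^ 2 := by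
      rw [hK1]; ring
    rw [h3, mul_pow]
    exact mul_le_mul_of_nonneg_right (by nlinarith) (sq_nonneg _)
  have hEM : ∀ j ≤ 7, ∀ τ ∈ Ioo (0 : ℝ) (1 / 2), ∀ x ∈ Icc 0 L,
      |(dt^[j] E) τ x| ≤ K1 * (N + e) := by
    intro j hj τ hτ x hx
    refine (hEe j (by omega) τ (halfSub hτ) x hx).trans ?_
    calc e ≤ 1 * (N + e) := by linarith
      _ ≤ K1 * (N + e) := mul_le_mul_of_nonneg_right hK11 hNe
  have hM0 : 0 ≤ K1 * (N + e) := by positivity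
  obtain ⟨hPB, hDB⟩ := hPC L hL8 φ m hB E ht δ hE hht hδ hδeq' (K1 * (N + e)) N hM0 hN hMM hEM
    hE0 hPBh
  have hQB := QB_of_EE (κ := κ) hc0 hC0 hB hδ (S := K0 * (N + e)) (by positivity)
    (fun j hj => (le_add_right le_rfl).trans ((hlev j hj).trans (ENNReal.ofReal_le_ofReal hK0M)))
  -- constants
  have hGG : K0 = G * L ^ (qe + qn) := by rw [hK0, hG, pow_add]; ring
  have hc1 : Cp * L ^ qp * (K1 * (N + e) + N) ≤
      (4 * Cp * Cs + A) * G * L ^ (qp + qs + qe + qn) * (N + e) := by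
    have h1 : K1 * (N + e) + N ≤ 2 * K1 * (N + e) := by
      have : N ≤ K1 * (N + e) := by
        calc N ≤ 1 * (N + e) := by linarith
          _ ≤ K1 * (N + e) := mul_le_mul_of_nonneg_right hK11 hNe
      linarith
    calc Cp * L ^ qp * (K1 * (N + e) + N) ≤ Cp * L ^ qp * (2 * K1 * (N + e)) :=
          mul_le_mul_of_nonneg_left h1 (by positivity)
      _ = 4 * Cp * Cs * G * L ^ (qp + qs + qe + qn) * (N + e) := by
          rw [hK1, hGG]; ring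
      _ ≤ (4 * Cp * Cs + A) * G * L ^ (qp + qs + qe + qn) * (N + e) := by
          have hG0 : 0 ≤ G := by linarith
          gcongr
          linarith
  have hc2 : A * (K0 * (N + e)) ≤
      (4 * Cp * Cs + A) * G * L ^ (qp + qs + qe + qn) * (N + e) := by
    have hG0 : 0 ≤ G := by linarith
    have h1 : L ^ (qe + qn) ≤ L ^ (qp + qs + qe + qn) :=
      pow_le_pow_right₀ (by linarith) (by omega)
    have h2 : A ≤ 4 * Cp * Cs + A := by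
      have : 0 ≤ 4 * Cp * Cs := by positivity
      linarith
    calc A * (K0 * (N + e)) = A * G * L ^ (qe + qn) * (N + e) := by rw [hGG]; ring
      _ ≤ (4 * Cp * Cs + A) * G * L ^ (qp + qs + qe + qn) * (N + e) := by
          gcongr
  refine ⟨δ, hδ, hδeq', hPB.mono hc1, hQB.mono ?_ ?_, ?_⟩
  · positivity
  · exact hc2
  · intro j hj τ hτ x hx
    exact (hDB j hj τ hτ x hx).trans
      (mul_le_mul_of_nonneg_right hc1 (pow_nonneg (rho_pos hx.1 hτ.1).le _))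

end Crest.Agent.R213.C
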