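import Crest.Agent.R213.J0K
import Crest.Agent.R213.J0bK
import Crest.Agent.R213.C.Intp
import Crest.Agent.R213.C.CDefs
import Crest.Agent.R213.J0
import Crest.Agent.R213.J1
import Crest.Agent.R213.J0bGen
import Crest.Agent.R213.J310

-- ▼ part R213/C/LimT
section

/-!
# Row 213, part C, C9a: the limit of the iteration, time derivatives and the equation (helper924)
-/

set_option autoImplicit false

open Set MeasureTheory Filter Topology

noncomputable section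

namespace Crest.Agent.R213.C

variable {L : ℝ}

/-- `dt^[n]` of a difference -/
theorem iter_dt_sub {s : Set ℝ} {u v : ℝ → ℝ → ℝ} {t x : ℝ} (hu : Sm s L u) (hv : Sm s L v)
    (hs : IsOpen s) (ht : t ∈ s) (hx : x ∈ Icc 0 L) (n : ℕ) :
    (dt^[n] (fun t x => u t x - v t x)) t x = (dt^[n] u) t x - (dt^[n] v) t x := by
  have h := sm_iter_dt_add hu (hv.const_mul (-1)) hs ht hx n
  rw [iter_dt_const_mul] at h
  have e : (fun t x => u t x - v t x) = fun t x => u t x + (-1) * v t x := by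
    funext t x; ring
  rw [e, h]; ring

theorem hasDerivAt_iter_dt {s : Set ℝ} {u : ℝ → ℝ → ℝ} {t x : ℝ} (hs : IsOpen s) (hL : 0 < L)
    (hu : Sm s L u) (ht : t ∈ s) (hx : x ∈ Icc 0 L) (n : ℕ) :
    HasDerivAt (fun r => (dt^[n] u) r x) ((dt^[n + 1] u) t x) t := by
  have h := (Sm.dt_iter hs hL hu n).hasDt hs ht hx
  rw [Function.iterate_succ_apply']
  exact h

/-- all `τ`-derivatives converge geometrically if the functions do and all derivatives are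
bounded, locally in `τ > 0`. -/
theorem geo_rates {T : ℝ} (hL : 0 < L) {w : ℕ → ℝ → ℝ → ℝ} {K r : ℝ} (hK : 0 ≤ K) (hr0 : 0 < r)
    (hr1 : r < 1) (hsm : ∀ i, Sm (Ioo 0 T) L (w i))
    (h0 : ∀ i, ∀ τ ∈ Ioo 0 T, ∀ x ∈ Icc 0 L, |w i τ x| ≤ K * r ^ i)
    (hb : ∀ (J : ℕ) (τ1 : ℝ), 0 < τ1 → ∃ M : ℝ, ∀ i, ∀ τ ∈ Ioo τ1 T, ∀ x ∈ Icc 0 L,
      |(dt^[J] (w i)) τ x| ≤ M)
    (J : ℕ) {τ1 : ℝ} (hτ1 : 0 < τ1) :
    ∃ K' r' : ℝ, 0 ≤ K' ∧ 0 < r' ∧ r' < 1 ∧ ∀ i, ∀ τ ∈ Ioo τ1 T, ∀ x ∈ Icc 0 L,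
      |(dt^[J] (w i)) τ x| ≤ K' * r' ^ i := by
  induction J with
  | zero =>
    exact ⟨K, r, hK, hr0, hr1, fun i τ hτ x hx => h0 i τ ⟨hτ1.trans hτ.1, hτ.2⟩ x hx⟩
  | succ J ih =>
    obtain ⟨K1, r1, hK1, hr10, hr11, h1⟩ := ih
    by_cases hT' : T ≤ τ1
    · exact ⟨0, 1 / 2, le_rfl, by norm_num, by norm_num,
        fun i τ hτ => absurd (hτ.1.trans hτ.2) (not_lt.2 hT')⟩
    push Not at hT'
    obtain ⟨M, hM⟩ := hb (J + 2) τ1 hτ1
    set l := (T - τ1) / 8 with hl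
    have hlpos : 0 < l := by rw [hl]; linarith
    have hs0 : 0 < √r1 := Real.sqrt_pos.2 hr10
    have hs1 : √r1 < 1 := by
      rw [← Real.sqrt_one]; exact Real.sqrt_lt_sqrt hr10.le hr11
    refine ⟨2 * K1 / l + |M| * l, √r1, by positivity, hs0, hs1, ?_⟩
    intro i τ hτ x hx
    set h := l * (√r1) ^ i with hh
    have hhpos : 0 < h := by positivity
    have hhl : h ≤ l := by
      have : (√r1) ^ i ≤ 1 := pow_le_one₀ hs0.le hs1.le
      nlinarith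
    obtain ⟨a, b, ha, hb', hτab, hab⟩ :
        ∃ a b, τ1 < a ∧ b < T ∧ τ ∈ Icc a b ∧ a + 2 * h ≤ b := by
      by_cases hm : τ ≤ (τ1 + T) / 2
      · exact ⟨τ, τ + 2 * h, hτ.1, by linarith, ⟨le_rfl, by linarith⟩, le_rfl⟩
      · push Not at hm
        exact ⟨τ - 2 * h, τ, by linarith, hτ.2, ⟨by linarith, le_rfl⟩, by linarith⟩
    have hsub : ∀ s ∈ Icc a b, s ∈ Ioo τ1 T := fun s hs =>
      ⟨lt_of_lt_of_le ha hs.1, lt_of_le_of_lt hs.2 hb'⟩
    have hsub' : ∀ s ∈ Icc a b, s ∈ Ioo 0 T := fun s hs =>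
      ⟨hτ1.trans (hsub s hs).1, (hsub s hs).2⟩
    have key := deriv_le_of_sup (f := fun r => (dt^[J] (w i)) r x)
      (f1 := fun r => (dt^[J + 1] (w i)) r x) (f2 := fun r => (dt^[J + 2] (w i)) r x)
      (ε := K1 * r1 ^ i) (C := |M|) hhpos hab
      (fun s hs => (hasDerivAt_iter_dt isOpen_Ioo hL (hsm i) (hsub' s hs) hx J).hasDerivWithinAt)
      (fun s hs =>
        (hasDerivAt_iter_dt isOpen_Ioo hL (hsm i) (hsub' s hs) hx (J + 1)).hasDerivWithinAt)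
      (fun s hs => h1 i s (hsub s hs) x hx)
      (fun s hs => (hM i s (hsub s hs) x hx).trans (le_abs_self M)) hτab
    refine key.trans (le_of_eq ?_)
    have hpow : r1 ^ i = (√r1) ^ i * (√r1) ^ i := by
      rw [← mul_pow, Real.mul_self_sqrt hr10.le]
    have hne : (√r1) ^ i ≠ 0 := by positivity
    rw [hpow, hh]
    field_simp

/-- a geometrically Cauchy sequence of continuous functions has a continuous uniform limit -/
theorem exists_unif_limit {X : Type*} [TopologicalSpace X] {S : Set X} {F : ℕ → X → ℝ} {K r : ℝ}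
    (hr1 : r < 1) (hr0 : 0 < r) (h : ∀ i, ∀ p ∈ S, |F (i + 1) p - F i p| ≤ K * r ^ i) :
    ∀ G : X → ℝ, (∀ p ∈ S, G p = limUnder atTop (fun i => F i p)) →
      TendstoUniformlyOn F G atTop S := by
  intro G hG
  have hd : ∀ p ∈ S, ∀ i, dist (F i p) (F (i + 1) p) ≤ K * r ^ i := by
    intro p hp i
    rw [dist_comm, Real.dist_eq]
    exact h i p hp
  have hlim : ∀ p ∈ S, Tendsto (fun i => F i p) atTop (𝓝 (G p)) := by
    intro p hp
    rw [hG p hp]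
    exact (cauchySeq_of_le_geometric r K hr1 (hd p hp)).tendsto_limUnder
  rw [Metric.tendstoUniformlyOn_iff]
  intro ε hε
  have ht : Tendsto (fun i : ℕ => K * r ^ i / (1 - r)) atTop (𝓝 0) := by
    have := ((tendsto_pow_atTop_nhds_zero_of_lt_one hr0.le hr1).const_mul K).div_const (1 - r)
    simpa using this
  filter_upwards [ht.eventually_lt_const hε] with i hi
  intro p hp
  rw [dist_comm]
  exact (dist_le_of_le_geometric_of_tendsto r K hr1 (hd p hp) (hlim p hp) i).trans_lt hi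

/-- the limit of the iteration with all its `τ`-derivatives -/
structure TLim (T L : ℝ) (d : ℕ → ℝ → ℝ → ℝ) (D : ℕ → ℝ → ℝ → ℝ) : Prop where
  unif : ∀ J τ1, 0 < τ1 → TendstoUniformlyOn
    (fun (i : ℕ) (p : ℝ × ℝ) => (dt^[J] (d i)) p.1 p.2) (fun p => D J p.1 p.2) atTop
      (Ioo τ1 T ×ˢ Icc 0 L)
  cont : ∀ J, ContinuousOn (fun p : ℝ × ℝ => D J p.1 p.2) (Ioo 0 T ×ˢ Icc 0 L)
  deriv : ∀ J, ∀ τ ∈ Ioo 0 T, ∀ x ∈ Icc 0 L, HasDerivAt (fun r => D J r x) (D (J + 1) τ x) τ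

theorem TLim.tendsto {T L : ℝ} {d : ℕ → ℝ → ℝ → ℝ} {D : ℕ → ℝ → ℝ → ℝ} (h : TLim T L d D)
    (J : ℕ) {τ x : ℝ} (hτ : τ ∈ Ioo 0 T) (hx : x ∈ Icc 0 L) :
    Tendsto (fun i => (dt^[J] (d i)) τ x) atTop (𝓝 (D J τ x)) :=
  (h.unif J (τ / 2) (half_pos hτ.1)).tendsto_at
    (x := (τ, x)) ⟨⟨by linarith [hτ.1], hτ.2⟩, hx⟩

theorem exists_tlim {T : ℝ} (hL : 0 < L) {d : ℕ → ℝ → ℝ → ℝ} {K r : ℝ} (hK : 0 ≤ K) (hr0 : 0 < r)
    (hr1 : r < 1) (hsm : ∀ i, Sm (Ioo 0 T) L (d i))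
    (h0 : ∀ i, ∀ τ ∈ Ioo 0 T, ∀ x ∈ Icc 0 L, |d (i + 1) τ x - d i τ x| ≤ K * r ^ i)
    (hb : ∀ (J : ℕ) (τ1 : ℝ), 0 < τ1 → ∃ M : ℝ, ∀ i, ∀ τ ∈ Ioo τ1 T, ∀ x ∈ Icc 0 L,
      |(dt^[J] (d i)) τ x| ≤ M) :
    ∃ D, TLim T L d D := by
  have hbw : ∀ (J : ℕ) (τ1 : ℝ), 0 < τ1 → ∃ M : ℝ, ∀ i, ∀ τ ∈ Ioo τ1 T, ∀ x ∈ Icc 0 L,
      |(dt^[J] (fun t x => d (i + 1) t x - d i t x)) τ x| ≤ M := by
    intro J τ1 hτ1
    obtain ⟨M, hM⟩ := hb J τ1 hτ1
    refine ⟨M + M, fun i τ hτ x hx => ?_⟩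
    rw [iter_dt_sub (hsm (i + 1)) (hsm i) isOpen_Ioo ⟨hτ1.trans hτ.1, hτ.2⟩ hx J]
    exact (abs_sub _ _).trans (add_le_add (hM _ _ hτ _ hx) (hM _ _ hτ _ hx))
  have hrate := fun (J : ℕ) (τ1 : ℝ) (hτ1 : 0 < τ1) =>
    geo_rates (T := T) hL (w := fun i t x => d (i + 1) t x - d i t x) hK hr0 hr1
      (fun i => (hsm (i + 1)).sub (hsm i)) h0 hbw J hτ1
  let D : ℕ → ℝ → ℝ → ℝ := fun J τ x => limUnder atTop (fun i => (dt^[J] (d i)) τ x)
  have hunif : ∀ J τ1, 0 < τ1 → TendstoUniformlyOn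
      (fun (i : ℕ) (p : ℝ × ℝ) => (dt^[J] (d i)) p.1 p.2) (fun p => D J p.1 p.2) atTop
        (Ioo τ1 T ×ˢ Icc 0 L) := by
    intro J τ1 hτ1
    obtain ⟨K', r', -, hr0', hr1', h'⟩ := hrate J τ1 hτ1
    refine exists_unif_limit (K := K') hr1' hr0' ?_ _ (fun p hp => rfl)
    rintro i ⟨τ, x⟩ ⟨hτ, hx⟩
    have := h' i τ hτ x hx
    rwa [iter_dt_sub (hsm (i + 1)) (hsm i) isOpen_Ioo ⟨hτ1.trans hτ.1, hτ.2⟩ hx J] at this
  refine ⟨D, hunif, ?_, ?_⟩
  · rintro J ⟨τ, x⟩ ⟨hτ, hx⟩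
    have h1 : ContinuousOn (fun p : ℝ × ℝ => D J p.1 p.2) (Ioo (τ / 2) T ×ˢ Icc 0 L) := by
      refine (hunif J (τ / 2) (half_pos hτ.1)).continuousOn (Eventually.frequently ?_)
      refine Eventually.of_forall fun i => ?_
      exact (Sm.dt_iter isOpen_Ioo hL (hsm i) J).continuousOn.mono
        (Set.prod_mono (Ioo_subset_Ioo_left (half_pos hτ.1).le) subset_rfl)
    have h2 := h1 (τ, x) ⟨⟨by linarith [hτ.1], hτ.2⟩, hx⟩
    refine h2.mono_of_mem_nhdsWithin ?_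
    rw [nhdsWithin_prod_eq]
    refine prod_mem_prod (mem_nhdsWithin_of_mem_nhds (Ioo_mem_nhds ?_ hτ.2)) self_mem_nhdsWithin
    linarith [hτ.1]
  · intro J τ hτ x hx
    have hmem : τ ∈ Ioo (τ / 2) T := ⟨by linarith [hτ.1], hτ.2⟩
    refine hasDerivAt_of_tendstoUniformlyOn (s := Ioo (τ / 2) T) (l := atTop) isOpen_Ioo
      (f := fun i r => (dt^[J] (d i)) r x) (f' := fun i r => (dt^[J + 1] (d i)) r x)
      (g := fun r => D J r x) (g' := fun r => D (J + 1) r x) ?_ ?_ ?_ hmem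
    · have := hunif (J + 1) (τ / 2) (half_pos hτ.1)
      rw [Metric.tendstoUniformlyOn_iff] at this ⊢
      intro ε hε
      filter_upwards [this ε hε] with i hi
      intro r hr
      exact hi (r, x) ⟨hr, hx⟩
    · refine Eventually.of_forall fun i r hr => ?_
      exact hasDerivAt_iter_dt isOpen_Ioo hL (hsm i) ⟨(half_pos hτ.1).trans hr.1, hr.2⟩ hx J
    · intro r hr
      exact (hunif J (τ / 2) (half_pos hτ.1)).tendsto_at (x := (r, x)) ⟨hr, hx⟩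

/-! ### the second primitive of the limit -/

theorem taylor_within {f f1 f2 : ℝ → ℝ}
    (h1 : ∀ s ∈ Icc 0 L, HasDerivWithinAt f (f1 s) (Icc 0 L) s)
    (h2 : ∀ s ∈ Icc 0 L, HasDerivWithinAt f1 (f2 s) (Icc 0 L) s)
    (hc : ContinuousOn f2 (Icc 0 L)) {a y : ℝ} (ha : a ∈ Icc 0 L) (hy : y ∈ Icc 0 L)
    (hay : a ≤ y) : ∫ s in a..y, (y - s) * f2 s = f y - f a - (y - a) * f1 a := by
  have h3 : ∀ s ∈ Icc 0 L,
      HasDerivWithinAt (fun s => (y - s) * f1 s + f s) ((y - s) * f2 s) (Icc 0 L) s := by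
    intro s hs
    have h := (((hasDerivWithinAt_id s (Icc 0 L)).const_sub y).mul (h2 s hs)).add (h1 s hs)
    refine h.congr_deriv ?_
    simp
  have h4 := ftc_within h3 (by fun_prop) ha hy hay
  rw [h4]
  ring

theorem taylor_within' {f f1 f2 : ℝ → ℝ}
    (h1 : ∀ s ∈ Icc 0 L, HasDerivWithinAt f (f1 s) (Icc 0 L) s)
    (h2 : ∀ s ∈ Icc 0 L, HasDerivWithinAt f1 (f2 s) (Icc 0 L) s)
    (hc : ContinuousOn f2 (Icc 0 L)) {a y : ℝ} (ha : a ∈ Icc 0 L) (hy : y ∈ Icc 0 L) :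
    ∫ s in a..y, (y - s) * f2 s = f y - f a - (y - a) * f1 a := by
  rcases le_total a y with h | h
  · exact taylor_within h1 h2 hc ha hy h
  have h3 : ∀ s ∈ Icc 0 L,
      HasDerivWithinAt (fun s => (y - s) * f1 s + f s) ((y - s) * f2 s) (Icc 0 L) s := by
    intro s hs
    have h := (((hasDerivWithinAt_id s (Icc 0 L)).const_sub y).mul (h2 s hs)).add (h1 s hs)
    refine h.congr_deriv ?_
    simp
  have h4 := ftc_within h3 (by fun_prop) hy ha h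
  rw [intervalIntegral.integral_symm, h4]
  ring

/-- Taylor formula for the limit in the open interval. -/
theorem tay_of_limit (hL : 0 < L) {F F1 F2 : ℕ → ℝ → ℝ} {f V : ℝ → ℝ}
    (h1 : ∀ i, ∀ s ∈ Icc 0 L, HasDerivWithinAt (F i) (F1 i s) (Icc 0 L) s)
    (h2 : ∀ i, ∀ s ∈ Icc 0 L, HasDerivWithinAt (F1 i) (F2 i s) (Icc 0 L) s)
    (hc : ∀ i, ContinuousOn (F2 i) (Icc 0 L))
    (hlim : ∀ x ∈ Icc 0 L, Tendsto (fun i => F i x) atTop (𝓝 (f x)))
    (hint : ∀ x ∈ Ioo 0 L, Tendsto (fun i => ∫ s in (L / 2)..x, (x - s) * F2 i s) atTop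
      (𝓝 (∫ s in (L / 2)..x, (x - s) * V s))) :
    ∃ p, ∀ x ∈ Ioo 0 L, f x = f (L / 2) + (x - L / 2) * p + ∫ s in (L / 2)..x, (x - s) * V s := by
  have mh : L / 2 ∈ Icc 0 L := ⟨by linarith, by linarith⟩
  have mq : 3 * L / 4 ∈ Ioo 0 L := ⟨by linarith, by linarith⟩
  have hne : 3 * L / 4 - L / 2 ≠ 0 := by
    have : 3 * L / 4 - L / 2 = L / 4 := by ring
    rw [this]; positivity
  have key : ∀ i, ∀ x ∈ Icc 0 L, (x - L / 2) * F1 i (L / 2) =
      F i x - F i (L / 2) - ∫ s in (L / 2)..x, (x - s) * F2 i s := by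
    intro i x hx
    rw [taylor_within' (h1 i) (h2 i) (hc i) mh hx]
    ring
  set p := (f (3 * L / 4) - f (L / 2) -
    ∫ s in (L / 2)..(3 * L / 4), (3 * L / 4 - s) * V s) / (3 * L / 4 - L / 2) with hp
  have hF1 : Tendsto (fun i => F1 i (L / 2)) atTop (𝓝 p) := by
    have t := ((((hlim _ (Ioo_subset_Icc_self mq)).sub (hlim _ mh)).sub (hint _ mq)).div_const
      (3 * L / 4 - L / 2))
    refine t.congr fun i => ?_
    rw [← key i _ (Ioo_subset_Icc_self mq)]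
    field_simp
  refine ⟨p, fun x hx => ?_⟩
  have hx' := Ioo_subset_Icc_self hx
  have t1 := (hF1.const_mul (x - L / 2)).congr fun i => key i x hx'
  have t2 := ((hlim x hx').sub (hlim _ mh)).sub (hint x hx)
  have := tendsto_nhds_unique t1 t2
  linarith

theorem three_pt {f f1 f2 : ℝ → ℝ}
    (h1 : ∀ s ∈ Icc 0 L, HasDerivWithinAt f (f1 s) (Icc 0 L) s)
    (h2 : ∀ s ∈ Icc 0 L, HasDerivWithinAt f1 (f2 s) (Icc 0 L) s)
    (hc : ContinuousOn f2 (Icc 0 L)) {a x b : ℝ} (ha : a ∈ Icc 0 L) (hb : b ∈ Icc 0 L)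
    (hax : a ≤ x) (hxb : x ≤ b) :
    (b - x) * f a - (b - a) * f x + (x - a) * f b =
      (x - a) * (∫ s in a..b, (b - s) * f2 s) - (b - a) * ∫ s in a..x, (x - s) * f2 s := by
  have hx : x ∈ Icc 0 L := ⟨ha.1.trans hax, hxb.trans hb.2⟩
  rw [taylor_within h1 h2 hc ha hb (hax.trans hxb), taylor_within h1 h2 hc ha hx hax]
  ring

theorem tendsto_int_of_unif {F : ℕ → ℝ → ℝ} {V : ℝ → ℝ} {a b y : ℝ} (hab : a ≤ b)
    (hc : ∀ i, ContinuousOn (F i) (Icc a b)) (h : TendstoUniformlyOn F V atTop (Icc a b)) :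
    Tendsto (fun i => ∫ s in a..b, (y - s) * F i s) atTop (𝓝 (∫ s in a..b, (y - s) * V s)) := by
  have hM : ∃ M, 0 < M ∧ ∀ s ∈ Icc a b, |y - s| ≤ M := by
    obtain ⟨M, hM⟩ := isCompact_Icc.exists_bound_of_continuousOn
      (f := fun s : ℝ => y - s) (s := Icc a b) (by fun_prop)
    exact ⟨|M| + 1, by positivity, fun s hs => (hM s hs).trans (by linarith [le_abs_self M])⟩
  obtain ⟨M, hM0, hM⟩ := hM
  refine TendstoUniformlyOn.tendsto_intervalIntegral_of_continuousOn ?_ ?_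
  · refine Eventually.of_forall fun i => ?_
    rw [uIcc_of_le hab]
    exact (by fun_prop : ContinuousOn (fun s : ℝ => y - s) (Icc a b)).mul (hc i)
  · rw [uIcc_of_le hab, Metric.tendstoUniformlyOn_iff]
    rw [Metric.tendstoUniformlyOn_iff] at h
    intro ε hε
    filter_upwards [h (ε / M) (div_pos hε hM0)] with i hi
    intro s hs
    have h1 := hi s hs
    rw [Real.dist_eq] at h1 ⊢
    rw [← mul_sub, abs_mul]
    calc |y - s| * |V s - F i s| ≤ M * |V s - F i s| :=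
          mul_le_mul_of_nonneg_right (hM s hs) (abs_nonneg _)
      _ < M * (ε / M) := mul_lt_mul_of_pos_left h1 hM0
      _ = ε := by field_simp

/-- `f` is the double primitive of `V` if it is the limit of functions whose second derivatives
converge to `V` locally uniformly in the open interval. -/
theorem rep_of_limit (hL : 0 < L) {F F1 F2 : ℕ → ℝ → ℝ} {f V : ℝ → ℝ}
    (h1 : ∀ i, ∀ s ∈ Icc 0 L, HasDerivWithinAt (F i) (F1 i s) (Icc 0 L) s)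
    (h2 : ∀ i, ∀ s ∈ Icc 0 L, HasDerivWithinAt (F1 i) (F2 i s) (Icc 0 L) s)
    (hc : ∀ i, ContinuousOn (F2 i) (Icc 0 L)) (hf : ContinuousOn f (Icc 0 L))
    (hV : ContinuousOn V (Icc 0 L))
    (hlim : ∀ x ∈ Icc 0 L, Tendsto (fun i => F i x) atTop (𝓝 (f x)))
    (hunif : ∀ a b, 0 < a → b < L → TendstoUniformlyOn F2 V atTop (Icc a b)) :
    ∃ p, ∀ x ∈ Icc 0 L, f x = f 0 + x * p + ∫ s in (0 : ℝ)..x, (x - s) * V s := by
  have m0 : (0 : ℝ) ∈ Icc 0 L := ⟨le_rfl, hL.le⟩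
  have mL : L ∈ Icc 0 L := ⟨hL.le, le_rfl⟩
  -- double primitive of `V`
  set P1 : ℝ → ℝ := fun x => ∫ s in (0 : ℝ)..x, V s with hP1
  set P : ℝ → ℝ := fun x => ∫ s in (0 : ℝ)..x, P1 s with hP
  have dP1 : ∀ s ∈ Icc 0 L, HasDerivWithinAt P1 (V s) (Icc 0 L) s := fun s hs => ftc_Icc hV hs
  have cP1 : ContinuousOn P1 (Icc 0 L) := fun s hs => (dP1 s hs).continuousWithinAt
  have dP : ∀ s ∈ Icc 0 L, HasDerivWithinAt P (P1 s) (Icc 0 L) s := fun s hs => ftc_Icc cP1 hs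
  have cP : ContinuousOn P (Icc 0 L) := fun s hs => (dP s hs).continuousWithinAt
  have hPx : ∀ x ∈ Icc 0 L, P x = ∫ s in (0 : ℝ)..x, (x - s) * V s := by
    intro x hx
    rw [taylor_within dP dP1 hV m0 hx hx.1]
    simp [hP, hP1]
  set G : ℝ → ℝ := fun x => f x - P x with hG
  have cG : ContinuousOn G (Icc 0 L) := hf.sub cP
  -- three point relation in the open interval
  have key : ∀ a x b, 0 < a → a ≤ x → x ≤ b → b < L →
      (b - x) * G a - (b - a) * G x + (x - a) * G b = 0 := by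
    intro a x b ha hax hxb hb
    have ma : a ∈ Icc 0 L := ⟨ha.le, (hax.trans hxb).trans hb.le⟩
    have mb : b ∈ Icc 0 L := ⟨ha.le.trans (hax.trans hxb), hb.le⟩
    have mx : x ∈ Icc 0 L := ⟨ha.le.trans hax, hxb.trans hb.le⟩
    have hsub : Icc a b ⊆ Icc 0 L := Icc_subset_Icc ma.1 mb.2
    have hsub' : Icc a x ⊆ Icc 0 L := Icc_subset_Icc ma.1 mx.2
    have e1 := fun i => three_pt (h1 i) (h2 i) (hc i) ma mb hax hxb
    have e2 := three_pt dP dP1 hV ma mb hax hxb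
    have t1 : Tendsto (fun i => (b - x) * F i a - (b - a) * F i x + (x - a) * F i b) atTop
        (𝓝 ((b - x) * f a - (b - a) * f x + (x - a) * f b)) :=
      (((hlim a ma).const_mul _).sub ((hlim x mx).const_mul _)).add ((hlim b mb).const_mul _)
    have t2 : Tendsto (fun i => (x - a) * (∫ s in a..b, (b - s) * F2 i s) -
        (b - a) * ∫ s in a..x, (x - s) * F2 i s) atTop
        (𝓝 ((x - a) * (∫ s in a..b, (b - s) * V s) - (b - a) * ∫ s in a..x, (x - s) * V s)) :=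
      ((tendsto_int_of_unif (hax.trans hxb) (fun i => (hc i).mono hsub)
        (hunif a b ha hb)).const_mul _).sub
      ((tendsto_int_of_unif hax (fun i => (hc i).mono hsub')
        (hunif a x ha (lt_of_le_of_lt hxb hb))).const_mul _)
    have t3 := tendsto_nhds_unique (t1.congr e1) t2
    rw [hG]
    simp only
    linarith
  -- extension to the closed interval
  have key2 : ∀ a x, 0 < a → a ≤ x → x < L →
      (L - x) * G a - (L - a) * G x + (x - a) * G L = 0 := by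
    intro a x ha hax hx
    have hs : Icc x L ⊆ Icc 0 L := Icc_subset_Icc_left (ha.le.trans hax)
    have hE : EqOn (fun b => (b - x) * G a - (b - a) * G x + (x - a) * G b) (fun _ => 0)
        (Icc x L) := by
      refine Set.EqOn.of_subset_closure (s := Ioo x L) ?_ ?_ continuousOn_const
        Ioo_subset_Icc_self (by rw [closure_Ioo hx.ne])
      · intro b hb
        exact key a x b ha hax hb.1.le hb.2
      · have := cG.mono hs
        fun_prop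
    exact hE ⟨hx.le, le_rfl⟩
  have key3 : ∀ x, 0 < x → x < L → (L - x) * G 0 - (L - 0) * G x + (x - 0) * G L = 0 := by
    intro x hx hxL
    have hs : Icc 0 x ⊆ Icc 0 L := Icc_subset_Icc_right hxL.le
    have hE : EqOn (fun a => (L - x) * G a - (L - a) * G x + (x - a) * G L) (fun _ => 0)
        (Icc 0 x) := by
      refine Set.EqOn.of_subset_closure (s := Ioo 0 x) ?_ ?_ continuousOn_const
        Ioo_subset_Icc_self (by rw [closure_Ioo hx.ne])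
      · intro a ha
        exact key2 a x ha.1 ha.2.le hxL
      · have := cG.mono hs
        fun_prop
    exact hE ⟨le_rfl, hx.le⟩
  refine ⟨(G L - G 0) / L, fun x hx => ?_⟩
  have hG0 : G 0 = f 0 := by simp [hG, hP]
  rw [← hPx x hx]
  have hxG : G x = f 0 + x * ((G L - G 0) / L) := by
    rcases eq_or_lt_of_le hx.1 with h0 | h0
    · rw [← h0]; simp [hG0]
    rcases eq_or_lt_of_le hx.2 with h1' | h1'
    · rw [h1', ← hG0]; field_simp; ring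
    · have := key3 x h0 h1'
      rw [← hG0]
      field_simp
      linarith
  have : f x = G x + P x := by simp [hG]
  rw [this, hxG]

/-! ### the limit of the iteration -/

/-- the data of the limit of the iteration, before spatial smoothness. -/
structure LimData (L : ℝ) (φ E : ℝ → ℝ → ℝ) (D : ℕ → ℝ → ℝ → ℝ) (B : ℝ → ℝ → ℝ) : Prop where
  cont : ∀ J, ContinuousOn (fun p : ℝ × ℝ => D J p.1 p.2) (Ioo 0 (1 / 4) ×ˢ Icc 0 L)
  deriv : ∀ J, ∀ τ ∈ Ioo (0 : ℝ) (1 / 4), ∀ x ∈ Icc 0 L,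
    HasDerivAt (fun r => D J r x) (D (J + 1) τ x) τ
  contB : ContinuousOn (fun p : ℝ × ℝ => B p.1 p.2) (Ioo 0 (1 / 4) ×ˢ Icc 0 L)
  small : ∀ τ ∈ Ioo (0 : ℝ) (1 / 4), ∀ x ∈ Icc 0 L, |B τ x| ≤ 1 / 20
  B0 : ∀ τ ∈ Ioo (0 : ℝ) (1 / 4), B τ 0 = 0
  BL : ∀ τ ∈ Ioo (0 : ℝ) (1 / 4), B τ L = 0
  eqn : ∀ τ ∈ Ioo (0 : ℝ) (1 / 4), ∀ x ∈ Icc 0 L,
    x ^ 9 * φ τ x * (B τ x / (1 + B τ x)) = Kint (fun ξ => E τ ξ + D 1 τ ξ) x
  mom : ∀ τ ∈ Ioo (0 : ℝ) (1 / 4), K1 (fun ξ => E τ ξ + D 1 τ ξ) L = 0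
  rep : ∀ τ ∈ Ioo (0 : ℝ) (1 / 4), ∀ V : ℝ → ℝ, ContinuousOn V (Icc 0 L) →
    (∀ x ∈ Ioo 0 L, φ τ x * V x = B τ x) →
    ∃ p, ∀ x ∈ Icc 0 L, D 0 τ x = D 0 τ 0 + x * p + x ^ 2 * ∫ r in (0 : ℝ)..1, (1 - r) * V (r * x)
  tay : ∀ τ ∈ Ioo (0 : ℝ) (1 / 4), ∃ p : ℝ, ∀ x ∈ Ioo 0 L,
    D 0 τ x = D 0 τ (L / 2) + (x - L / 2) * p + ∫ ξ in (L / 2)..x, (x - ξ) * (B τ ξ / φ τ ξ)
  dt0 : ∀ τ ∈ Ioo (0 : ℝ) (1 / 4), |D 1 τ 0| ≤ 1

theorem LimData.lim {φ E : ℝ → ℝ → ℝ} {D : ℕ → ℝ → ℝ → ℝ} {B : ℝ → ℝ → ℝ}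
    (h : LimData L φ E D B) : Tendsto (fun τ => √τ * D 1 τ 0) (𝓝[>] 0) (𝓝 0) := by
  have h1 : Tendsto (fun τ : ℝ => √τ) (𝓝[>] 0) (𝓝 0) := by
    have := (Real.continuous_sqrt.tendsto 0).mono_left (nhdsWithin_le_nhds (s := Ioi (0 : ℝ)))
    rwa [Real.sqrt_zero] at this
  refine squeeze_zero_norm' ?_ h1
  have : Ioo (0 : ℝ) (1 / 4) ∈ 𝓝[>] (0 : ℝ) := Ioo_mem_nhdsGT (by norm_num)
  filter_upwards [this] with τ hτ
  rw [Real.norm_eq_abs, abs_mul, abs_of_nonneg (Real.sqrt_nonneg τ)]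
  exact mul_le_of_le_one_right (Real.sqrt_nonneg τ) (h.dt0 τ hτ)

theorem int_scale (V : ℝ → ℝ) (x : ℝ) :
    ∫ s in (0 : ℝ)..x, (x - s) * V s = x ^ 2 * ∫ r in (0 : ℝ)..1, (1 - r) * V (r * x) := by
  have h := intervalIntegral.mul_integral_comp_mul_right (a := 0) (b := 1)
    (f := fun ξ => (x - ξ) * V ξ) x
  rw [zero_mul, one_mul] at h
  rw [← h, ← intervalIntegral.integral_const_mul, ← intervalIntegral.integral_const_mul]
  refine intervalIntegral.integral_congr (fun r _ => ?_)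
  ring

theorem limT_phi_lower {φ m : ℝ → ℝ → ℝ} {c0 C0 : ℝ} {g : ℝ → ℝ} (hB : Bg c0 C0 g L φ m)
    (hc0 : 0 < c0) {τ a b x : ℝ} (hτ : τ ∈ Ioo (0 : ℝ) 1) (ha : 0 < a) (hb : b < L)
    (hx : x ∈ Icc a b) : a * (1 - b / L) * c0 ≤ φ τ x := by
  have hL : 0 < L := by linarith [hB.L_ge]
  have hx' : x ∈ Icc 0 L := ⟨ha.le.trans hx.1, hx.2.trans hb.le⟩
  rw [hB.phi_eq τ hτ x hx']
  have h1 : 0 < 1 - b / L := by rw [sub_pos, div_lt_one hL]; exact hb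
  have h2 : 1 - b / L ≤ 1 - x / L := by
    have : x / L ≤ b / L := div_le_div_of_nonneg_right hx.2 hL.le
    linarith
  have h3 := hB.lower τ hτ x hx'
  have h4 : a * (1 - b / L) ≤ x * (1 - x / L) := mul_le_mul hx.1 h2 h1.le (ha.le.trans hx.1)
  have h5 : 0 ≤ x * (1 - x / L) := le_trans (by positivity) h4
  exact mul_le_mul h4 h3 hc0.le h5

theorem limT_phi_zero {φ m : ℝ → ℝ → ℝ} {c0 C0 : ℝ} {g : ℝ → ℝ} (hB : Bg c0 C0 g L φ m)
    {τ : ℝ} (hτ : τ ∈ Ioo (0 : ℝ) 1) : φ τ 0 = 0 ∧ φ τ L = 0 := by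
  have hL : 0 < L := by linarith [hB.L_ge]
  constructor
  · rw [hB.phi_eq τ hτ 0 ⟨le_rfl, hL.le⟩]; ring
  · rw [hB.phi_eq τ hτ L ⟨hL.le, le_rfl⟩, div_self hL.ne']; ring

theorem limT_sm_phi {φ m : ℝ → ℝ → ℝ} {c0 C0 : ℝ} {g : ℝ → ℝ} (hB : Bg c0 C0 g L φ m) :
    Sm (Ioo 0 1) L φ := by
  have h : Sm (Ioo 0 1) L (fun t x => x * (1 - x / L) * m t x) := by
    refine Sm.mul (Sm.mul Sm.snd ((Sm.const 1).sub ?_)) hB.sm
    have := (Sm.const (s := Ioo 0 1) (L := L) (1 / L)).mul Sm.snd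
    refine this.congr fun t _ x _ => ?_
    ring
  exact h.congr fun t ht x hx => hB.phi_eq t ht x hx

theorem limit_time {φ m : ℝ → ℝ → ℝ} {c0 C0 κ : ℝ} {g : ℝ → ℝ} (hB : Bg c0 C0 g L φ m)
    (hg : Prof c0 C0 g) {η : ℝ → ℝ} (hη : EtaOK η) {E : ℝ → ℝ → ℝ} (hE : Sm (Ioo 0 1) L E)
    {d : ℕ → ℝ → ℝ → ℝ} (hI : Iter κ L φ E η d)
    (hJ : ∀ (J : ℕ) (τ1 : ℝ), 0 < τ1 → ∃ M : ℝ, ∀ i, ∀ τ ∈ Ioo τ1 (3 / 8), ∀ x ∈ Icc 0 L,
      |(dt^[J] (d i)) τ x| ≤ M) :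
    ∃ (D : ℕ → ℝ → ℝ → ℝ) (B : ℝ → ℝ → ℝ), LimData L φ E D B := by
  have hL : 0 < L := by linarith [hB.L_ge]
  have h38 : Ioo (0 : ℝ) (3 / 8) ⊆ Ioo 0 1 := Ioo_subset_Ioo_right (by norm_num)
  have h38' : Ioo (0 : ℝ) (3 / 8) ⊆ Ioo 0 (1 / 2) := Ioo_subset_Ioo_right (by norm_num)
  have h14 : Ioo (0 : ℝ) (1 / 4) ⊆ Ioo 0 (3 / 8) := Ioo_subset_Ioo_right (by norm_num)
  set K : ℝ := (L ^ 2 + 1) ^ 25 with hK
  have hK0 : 0 ≤ K := by positivity
  have hrho : ∀ τ ∈ Ioo (0 : ℝ) (3 / 8), ∀ x ∈ Icc 0 L, 0 ≤ rho τ x ∧ rho τ x ^ 25 ≤ K := by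
    intro τ hτ x hx
    have h0 : 0 ≤ rho τ x := add_nonneg (sq_nonneg _) hτ.1.le
    refine ⟨h0, pow_le_pow_left₀ h0 ?_ 25⟩
    have : x ^ 2 ≤ L ^ 2 := pow_le_pow_left₀ hx.1 hx.2 2
    have := hτ.2
    unfold rho
    linarith
  -- the functions
  have hd : ∀ i, ∀ τ ∈ Ioo (0 : ℝ) (3 / 8), ∀ x ∈ Icc 0 L,
      |d (i + 1) τ x - d i τ x| ≤ K * (1 / 2) ^ i := by
    intro i τ hτ x hx
    have h := hI.db_diff i 0 (by norm_num) τ (h38' hτ) x hx
    simp only [Function.iterate_zero, id_eq, pow_zero, mul_one] at h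
    have h2 := (hrho τ hτ x hx).2
    calc |d (i + 1) τ x - d i τ x| ≤ (1 / 2) ^ i * rho τ x ^ 25 := h
      _ ≤ (1 / 2) ^ i * K := mul_le_mul_of_nonneg_left h2 (by positivity)
      _ = K * (1 / 2) ^ i := mul_comm _ _
  obtain ⟨D, hD⟩ := exists_tlim (T := 3 / 8) hL hK0 (by norm_num : (0 : ℝ) < 1 / 2) (by norm_num)
    (fun i => (hI.sm i).mono h38) hd hJ
  -- the second derivatives
  have hbsm : ∀ i, Sm (Ioo 0 1) L (bb L φ (d i)) := fun i =>
    (limT_sm_phi hB).mul (((hI.sm i).dx isOpen_Ioo hL).dx isOpen_Ioo hL)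
  have hbd : ∀ i, ∀ p ∈ Ioo (0 : ℝ) (3 / 8) ×ˢ Icc 0 L,
      |bb L φ (d (i + 1)) p.1 p.2 - bb L φ (d i) p.1 p.2| ≤ K * (1 / 2) ^ i := by
    rintro i ⟨τ, x⟩ ⟨hτ, hx⟩
    have h := hI.pb_diff i 0 (by norm_num) τ (h38' hτ) x hx
    simp only [Function.iterate_zero, id_eq, pow_zero, mul_one, aa] at h
    norm_num at h
    have h2 := (hrho τ hτ x hx).2
    calc |bb L φ (d (i + 1)) τ x - bb L φ (d i) τ x| ≤ (1 / 2) ^ i * rho τ x ^ 25 := by
          simpa [rho] using h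
      _ ≤ (1 / 2) ^ i * K := mul_le_mul_of_nonneg_left h2 (by positivity)
      _ = K * (1 / 2) ^ i := mul_comm _ _
  set B : ℝ → ℝ → ℝ := fun τ x => limUnder atTop (fun i => bb L φ (d i) τ x) with hBdef
  have hBu : TendstoUniformlyOn (fun (i : ℕ) (p : ℝ × ℝ) => bb L φ (d i) p.1 p.2)
      (fun p => B p.1 p.2) atTop (Ioo (0 : ℝ) (3 / 8) ×ˢ Icc 0 L) :=
    exists_unif_limit (K := K) (by norm_num : (1 / 2 : ℝ) < 1) (by norm_num) hbd _
      (fun p hp => rfl)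
  have hBt : ∀ τ ∈ Ioo (0 : ℝ) (3 / 8), ∀ x ∈ Icc 0 L,
      Tendsto (fun i => bb L φ (d i) τ x) atTop (𝓝 (B τ x)) := fun τ hτ x hx =>
    hBu.tendsto_at (x := (τ, x)) ⟨hτ, hx⟩
  have hBc : ContinuousOn (fun p : ℝ × ℝ => B p.1 p.2) (Ioo (0 : ℝ) (3 / 8) ×ˢ Icc 0 L) := by
    refine hBu.continuousOn (Eventually.frequently (Eventually.of_forall fun i => ?_))
    exact (hbsm i).continuousOn.mono (Set.prod_mono h38 subset_rfl)
  have hBs : ∀ τ ∈ Ioo (0 : ℝ) (3 / 8), ∀ x ∈ Icc 0 L, |B τ x| ≤ 1 / 20 := by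
    intro τ hτ x hx
    refine le_of_tendsto (hBt τ hτ x hx).abs (Eventually.of_forall fun i => ?_)
    exact hI.small i τ (h38' hτ) x hx
  have hB1 : ∀ τ ∈ Ioo (0 : ℝ) (3 / 8), ∀ x ∈ Icc 0 L, 0 < 1 + B τ x := by
    intro τ hτ x hx
    have := (abs_le.1 (hBs τ hτ x hx)).1
    linarith
  have hB0 : ∀ τ ∈ Ioo (0 : ℝ) (3 / 8), B τ 0 = 0 ∧ B τ L = 0 := by
    intro τ hτ
    have h := limT_phi_zero hB (h38 hτ)
    have hz : ∀ x ∈ Icc 0 L, φ τ x = 0 → B τ x = 0 := by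
      intro x hx hφ
      have h1 := hBt τ hτ x hx
      have h2 : (fun i => bb L φ (d i) τ x) = fun _ => (0 : ℝ) := by
        funext i; simp [bb, hφ]
      rw [h2] at h1
      exact (tendsto_nhds_unique h1 tendsto_const_nhds)
    exact ⟨hz 0 ⟨le_rfl, hL.le⟩ h.1, hz L ⟨hL.le, le_rfl⟩ h.2⟩
  -- continuity in `x`
  have hDx : ∀ J, ∀ τ ∈ Ioo (0 : ℝ) (3 / 8), ContinuousOn (fun x => D J τ x) (Icc 0 L) := by
    intro J τ hτ
    exact (hD.cont J).comp (f := fun x => (τ, x)) (by fun_prop) (fun x hx => ⟨hτ, hx⟩)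
  have hBx : ∀ τ ∈ Ioo (0 : ℝ) (3 / 8), ContinuousOn (fun x => B τ x) (Icc 0 L) := by
    intro τ hτ
    exact hBc.comp (f := fun x => (τ, x)) (by fun_prop) (fun x hx => ⟨hτ, hx⟩)
  -- the equation
  have heqn : ∀ τ ∈ Ioo (0 : ℝ) (1 / 4), ∀ x ∈ Icc 0 L,
      x ^ 9 * φ τ x * (B τ x / (1 + B τ x)) = Kint (fun ξ => E τ ξ + D 1 τ ξ) x := by
    intro τ hτ' x hx
    have hτ := h14 hτ'
    have e1 : ∀ i, x ^ 9 * φ τ x * (bb L φ (d (i + 1)) τ x -
        bb L φ (d i) τ x ^ 2 / (1 + bb L φ (d i) τ x)) =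
        Kint (fun ξ => E τ ξ + dt (d (i + 1)) τ ξ) x := by
      intro i
      rw [← hI.eqS i τ (h38 hτ) x hx]
      simp only [hNL, bb]
      rw [hη.eq_one τ hτ'.2.le]
      ring
    have t1 : Tendsto (fun i => x ^ 9 * φ τ x * (bb L φ (d (i + 1)) τ x -
        bb L φ (d i) τ x ^ 2 / (1 + bb L φ (d i) τ x))) atTop
        (𝓝 (x ^ 9 * φ τ x * (B τ x - B τ x ^ 2 / (1 + B τ x)))) := by
      have h1 := hBt τ hτ x hx
      have h2 := (tendsto_add_atTop_iff_nat 1).2 h1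
      exact ((h2.sub ((h1.pow 2).div (h1.const_add 1) (hB1 τ hτ x hx).ne')).const_mul _)
    have t2 : Tendsto (fun i => Kint (fun ξ => E τ ξ + dt (d (i + 1)) τ ξ) x) atTop
        (𝓝 (Kint (fun ξ => E τ ξ + D 1 τ ξ) x)) := by
      have hu : TendstoUniformlyOn (fun (i : ℕ) ξ => ξ ^ 9 * (E τ ξ + dt (d (i + 1)) τ ξ))
          (fun ξ => ξ ^ 9 * (E τ ξ + D 1 τ ξ)) atTop (Icc 0 x) := by
        have h1 := hD.unif 1 (τ / 2) (half_pos hτ.1)
        rw [Metric.tendstoUniformlyOn_iff] at h1 ⊢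
        intro ε hε
        have hL9 : 0 < L ^ 9 := by positivity
        have h2 := h1 (ε / L ^ 9) (div_pos hε hL9)
        have h3 := (tendsto_add_atTop_nat 1).eventually h2
        filter_upwards [h3] with i hi
        intro ξ hξ
        have hξ' : ξ ∈ Icc 0 L := ⟨hξ.1, hξ.2.trans hx.2⟩
        have h4 := hi (τ, ξ) ⟨⟨by linarith [hτ.1], hτ.2⟩, hξ'⟩
        rw [Real.dist_eq] at h4 ⊢
        have h5 : ξ ^ 9 * (E τ ξ + D 1 τ ξ) - ξ ^ 9 * (E τ ξ + dt (d (i + 1)) τ ξ) =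
            ξ ^ 9 * (D 1 τ ξ - dt (d (i + 1)) τ ξ) := by ring
        rw [h5, abs_mul, abs_of_nonneg (pow_nonneg hξ.1 9)]
        have h6 : |D 1 τ ξ - dt (d (i + 1)) τ ξ| < ε / L ^ 9 := by simpa using h4
        calc ξ ^ 9 * |D 1 τ ξ - dt (d (i + 1)) τ ξ| ≤ L ^ 9 * |D 1 τ ξ - dt (d (i + 1)) τ ξ| :=
              mul_le_mul_of_nonneg_right (pow_le_pow_left₀ hξ.1 hξ'.2 9) (abs_nonneg _)
          _ < L ^ 9 * (ε / L ^ 9) := mul_lt_mul_of_pos_left h6 hL9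
          _ = ε := by field_simp
      have h7 := tendsto_int_of_unif (y := x) hx.1 (F := fun i ξ => ξ ^ 9 * (E τ ξ +
        dt (d (i + 1)) τ ξ)) ?_ hu
      · have e2 : ∀ F : ℝ → ℝ, Kint F x = ∫ s in (0 : ℝ)..x, (x - s) * (s ^ 9 * F s) := by
          intro F
          unfold Kint
          refine intervalIntegral.integral_congr (fun r _ => ?_)
          ring
        simp_rw [e2]
        exact h7
      · intro i
        have c1 := (hE.continuousOn_right (h38 hτ)).mono (Icc_subset_Icc_right hx.2)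
        have c2 := (((hI.sm (i + 1)).dt isOpen_Ioo hL).continuousOn_right (h38 hτ)).mono
          (Icc_subset_Icc_right hx.2)
        fun_prop
    have t3 := tendsto_nhds_unique (t1.congr e1) t2
    rw [← t3]
    have := (hB1 τ hτ x hx).ne'
    field_simp
    ring
  have hmom : ∀ τ ∈ Ioo (0 : ℝ) (1 / 4), K1 (fun ξ => E τ ξ + D 1 τ ξ) L = 0 := by
    intro τ hτ'
    have hτ := h14 hτ'
    have mL : L ∈ Icc 0 L := ⟨hL.le, le_rfl⟩
    have cF : ContinuousOn (fun ξ => E τ ξ + D 1 τ ξ) (Icc 0 L) :=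
      (hE.continuousOn_right (h38 hτ)).add (hDx 1 τ hτ)
    have d1 := Kint_hasDeriv cF mL
    -- the other expression
    set h : ℝ → ℝ := fun x => x ^ 10 / L * m τ x * (B τ x / (1 + B τ x)) with hh
    have hhL : h L = 0 := by simp [hh, (hB0 τ hτ).2]
    have ch : ContinuousOn h (Icc 0 L) := by
      have c1 := hB.sm.continuousOn_right (h38 hτ)
      have c2 := hBx τ hτ
      have c3 : ContinuousOn (fun x => B τ x / (1 + B τ x)) (Icc 0 L) :=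
        c2.div (by fun_prop) (fun x hx => (hB1 τ hτ x hx).ne')
      fun_prop
    have e1 : ∀ x ∈ Icc 0 L, Kint (fun ξ => E τ ξ + D 1 τ ξ) x = (L - x) * h x := by
      intro x hx
      rw [← heqn τ hτ' x hx, hB.phi_eq τ (h38 hτ) x hx, hh]
      field_simp
    have d2 : HasDerivWithinAt (Kint (fun ξ => E τ ξ + D 1 τ ξ)) 0 (Icc 0 L) L := by
      rw [hasDerivWithinAt_iff_tendsto_slope]
      have t1 : Tendsto (fun x => - h x) (𝓝[Icc 0 L \ {L}] L) (𝓝 0) := by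
        have h8 : Tendsto h (𝓝[Icc 0 L \ {L}] L) (𝓝 (h L)) :=
          (ch L mL).mono (sdiff_subset (t := {L}))
        rw [hhL] at h8
        have := h8.neg
        rwa [neg_zero] at this
      refine t1.congr' ?_
      filter_upwards [self_mem_nhdsWithin] with x hx
      rw [slope_def_field, e1 x hx.1, e1 L mL]
      have hne : x - L ≠ 0 := sub_ne_zero.2 (fun hc => hx.2 hc)
      field_simp
      ring
    have hU := uniqueDiffOn_Icc hL L mL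
    rw [← d1.derivWithin hU, d2.derivWithin hU]
  -- local uniform convergence of the second derivatives
  have hVu : ∀ τ ∈ Ioo (0 : ℝ) (3 / 8), ∀ V : ℝ → ℝ, (∀ x ∈ Ioo 0 L, φ τ x * V x = B τ x) →
      ∀ a b, 0 < a → b < L →
      TendstoUniformlyOn (fun i => dx L (dx L (d i)) τ) V atTop (Icc a b) := by
    intro τ hτ V hVB a b ha hb
    rw [Metric.tendstoUniformlyOn_iff]
    rw [Metric.tendstoUniformlyOn_iff] at hBu
    intro ε hε
    rcases le_or_gt a b with hab | hab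
    swap
    · refine Eventually.of_forall fun i x hx => ?_
      exact absurd (hx.1.trans hx.2) (not_le.2 hab)
    have hc : 0 < a * (1 - b / L) * c0 := by
      have h1 : 0 < 1 - b / L := by rw [sub_pos, div_lt_one hL]; exact hb
      have := hg.c0_pos
      positivity
    set c := a * (1 - b / L) * c0 with hcdef
    filter_upwards [hBu (c * ε) (by positivity)] with i hi
    intro x hx
    have hx' : x ∈ Icc 0 L := ⟨ha.le.trans hx.1, hx.2.trans hb.le⟩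
    have hx'' : x ∈ Ioo 0 L := ⟨lt_of_lt_of_le ha hx.1, lt_of_le_of_lt hx.2 hb⟩
    have h1 := hi (τ, x) ⟨hτ, hx'⟩
    have hφ := limT_phi_lower hB hg.c0_pos (h38 hτ) ha hb hx
    have hφ0 : 0 < φ τ x := lt_of_lt_of_le hc hφ
    rw [Real.dist_eq] at h1 ⊢
    simp only [bb] at h1
    rw [← hVB x hx'', ← mul_sub, abs_mul, abs_of_pos hφ0] at h1
    have h2 : c * |V x - dx L (dx L (d i)) τ x| < c * ε :=
      lt_of_le_of_lt (mul_le_mul_of_nonneg_right hφ (abs_nonneg _)) h1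
    exact lt_of_mul_lt_mul_left h2 hc.le
  have hddx : ∀ i, ∀ τ ∈ Ioo (0 : ℝ) (3 / 8), ContinuousOn (dx L (dx L (d i)) τ) (Icc 0 L) :=
    fun i τ hτ =>
      (((hI.sm i).dx isOpen_Ioo hL).dx isOpen_Ioo hL).continuousOn_right (h38 hτ)
  refine ⟨D, B, ?_, ?_, ?_, ?_, ?_, ?_, heqn, hmom, ?_, ?_, ?_⟩
  · exact fun J => (hD.cont J).mono (Set.prod_mono h14 subset_rfl)
  · exact fun J τ hτ x hx => hD.deriv J τ (h14 hτ) x hx
  · exact hBc.mono (Set.prod_mono h14 subset_rfl)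
  · exact fun τ hτ x hx => hBs τ (h14 hτ) x hx
  · exact fun τ hτ => (hB0 τ (h14 hτ)).1
  · exact fun τ hτ => (hB0 τ (h14 hτ)).2
  · intro τ hτ' V hV hVB
    have hτ := h14 hτ'
    obtain ⟨p, hp⟩ := rep_of_limit hL (F := fun i => d i τ) (F1 := fun i => dx L (d i) τ)
      (F2 := fun i => dx L (dx L (d i)) τ) (f := fun x => D 0 τ x) (V := V)
      (fun i s hs => (hI.sm i).hasDx hL (h38 hτ) hs)
      (fun i s hs => ((hI.sm i).dx isOpen_Ioo hL).hasDx hL (h38 hτ) hs)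
      (fun i => hddx i τ hτ)
      (hDx 0 τ hτ) hV (fun x hx => hD.tendsto 0 hτ hx) (hVu τ hτ V hVB)
    exact ⟨p, fun x hx => by rw [hp x hx, int_scale]⟩
  · intro τ hτ'
    have hτ := h14 hτ'
    have hVB : ∀ x ∈ Ioo 0 L, φ τ x * (B τ x / φ τ x) = B τ x := by
      intro x hx
      have := limT_phi_lower hB hg.c0_pos (h38 hτ) hx.1 hx.2 (x := x) ⟨le_rfl, le_rfl⟩
      have h1 : 0 < 1 - x / L := by rw [sub_pos, div_lt_one hL]; exact hx.2
      have h2 : 0 < x * (1 - x / L) * c0 := by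
        have := hg.c0_pos
        have := hx.1
        positivity
      have h3 : φ τ x ≠ 0 := (lt_of_lt_of_le h2 this).ne'
      field_simp
    refine tay_of_limit hL (F := fun i => d i τ) (F1 := fun i => dx L (d i) τ)
      (F2 := fun i => dx L (dx L (d i)) τ) (f := fun x => D 0 τ x)
      (V := fun ξ => B τ ξ / φ τ ξ)
      (fun i s hs => (hI.sm i).hasDx hL (h38 hτ) hs)
      (fun i s hs => ((hI.sm i).dx isOpen_Ioo hL).hasDx hL (h38 hτ) hs)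
      (fun i => hddx i τ hτ) (fun x hx => hD.tendsto 0 hτ hx) ?_
    intro x hx
    rcases le_total (L / 2) x with h | h
    · exact tendsto_int_of_unif h (fun i => (hddx i τ hτ).mono
        (Icc_subset_Icc (by linarith) hx.2.le)) (hVu τ hτ _ hVB _ _ (by linarith) hx.2)
    · have := (tendsto_int_of_unif (y := x) h (fun i => (hddx i τ hτ).mono
        (Icc_subset_Icc hx.1.le (by linarith)))
        (hVu τ hτ _ hVB _ _ hx.1 (by linarith))).neg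
      rw [← intervalIntegral.integral_symm] at this
      refine this.congr fun i => ?_
      rw [← intervalIntegral.integral_symm]
  · intro τ hτ'
    have hτ := h14 hτ'
    refine le_of_tendsto (hD.tendsto 1 hτ ⟨le_rfl, hL.le⟩).abs (Eventually.of_forall fun i => ?_)
    have h := hI.db i 1 (by norm_num) τ (h38' hτ) 0 ⟨le_rfl, hL.le⟩
    have hr : (0 : ℝ) ^ 2 + τ = τ := by ring
    rw [hr, pow_one, one_mul] at h
    have h1 : |(dt^[1] (d i)) τ 0| ≤ τ ^ 24 := by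
      have : |(dt^[1] (d i)) τ 0| * τ ≤ τ ^ 24 * τ := by
        calc _ ≤ τ ^ 25 := h
          _ = τ ^ 24 * τ := by ring
      exact le_of_mul_le_mul_right this hτ.1
    exact h1.trans (pow_le_one₀ hτ.1.le (by linarith [hτ.2]))

end Crest.Agent.R213.C
end
end

-- ▼ part R213/Boot
section

/-!
# Row 213: bootstrap of the regularity in `x` (helper283)

`RT n s L u`: all derivatives `∂_t^j u` exist and are `C^n` on `s × [0,L]`.
-/

set_option autoImplicit false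

open Set MeasureTheory Filter Topology intervalIntegral

noncomputable section

namespace Crest.Agent.R213

variable {n : ℕ} {s : Set ℝ} {L : ℝ} {u v w : ℝ → ℝ → ℝ} {J : ℕ}

/-- `u` and its first `J` derivatives in `t` exist and are `C^n` on `s × [0,L]` -/
def RJ (n : ℕ) (s : Set ℝ) (L : ℝ) : ℕ → (ℝ → ℝ → ℝ) → Prop
  | 0, u => ContDiffOn ℝ n (fun p : ℝ × ℝ => u p.1 p.2) (s ×ˢ Icc 0 L)
  | J + 1, u => ContDiffOn ℝ n (fun p : ℝ × ℝ => u p.1 p.2) (s ×ˢ Icc 0 L) ∧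
      ∃ u' : ℝ → ℝ → ℝ, (∀ t ∈ s, ∀ x ∈ Icc 0 L, HasDerivAt (fun r => u r x) (u' t x) t) ∧
        RJ n s L J u'

theorem RJ.cd (h : RJ n s L J u) :
    ContDiffOn ℝ n (fun p : ℝ × ℝ => u p.1 p.2) (s ×ˢ Icc 0 L) := by
  cases J with
  | zero => exact h
  | succ J => exact h.1

theorem RJ.pred (h : RJ n s L (J + 1) u) : RJ n s L J u := by
  induction J generalizing u with
  | zero => exact h.1
  | succ J ih =>
    obtain ⟨h1, u', h2, h3⟩ := h
    exact ⟨h1, u', h2, ih h3⟩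

theorem RJ.congr (hs : IsOpen s) (h : RJ n s L J u)
    (e : ∀ t ∈ s, ∀ x ∈ Icc 0 L, v t x = u t x) : RJ n s L J v := by
  cases J with
  | zero => exact ContDiffOn.congr h fun p hp => e p.1 hp.1 p.2 hp.2
  | succ J =>
    obtain ⟨h1, u', h2, h3⟩ := h
    refine ⟨h1.congr fun p hp => e p.1 hp.1 p.2 hp.2, u', fun t ht x hx => ?_, h3⟩
    exact (h2 t ht x hx).congr_of_eventuallyEq
      (Filter.eventuallyEq_of_mem (hs.mem_nhds ht) fun r hr => e r hr x hx)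

theorem RJ.add (h : RJ n s L J u) (h' : RJ n s L J v) : RJ n s L J (fun t x => u t x + v t x) := by
  induction J generalizing u v with
  | zero => exact ContDiffOn.add h h'
  | succ J ih =>
    obtain ⟨h1, u', h2, h3⟩ := h
    obtain ⟨h1', v', h2', h3'⟩ := h'
    exact ⟨h1.add h1', fun t x => u' t x + v' t x,
      fun t ht x hx => (h2 t ht x hx).add (h2' t ht x hx), ih h3 h3'⟩

theorem RJ.mul (h : RJ n s L J u) (h' : RJ n s L J v) : RJ n s L J (fun t x => u t x * v t x) := by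
  induction J generalizing u v with
  | zero => exact ContDiffOn.mul h h'
  | succ J ih =>
    have hp := h.pred
    have hp' := h'.pred
    obtain ⟨h1, u', h2, h3⟩ := h
    obtain ⟨h1', v', h2', h3'⟩ := h'
    exact ⟨h1.mul h1', fun t x => u' t x * v t x + u t x * v' t x,
      fun t ht x hx => (h2 t ht x hx).mul (h2' t ht x hx), (ih h3 hp').add (ih hp h3')⟩

theorem RJ.of_right {f : ℝ → ℝ} (hf : ContDiffOn ℝ n f (Icc 0 L)) :
    RJ n s L J (fun _ x => f x) := by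
  have h0 : ContDiffOn ℝ n (fun p : ℝ × ℝ => f p.2) (s ×ˢ Icc 0 L) :=
    hf.comp contDiff_snd.contDiffOn fun p hp => hp.2
  have z : ∀ J, RJ n s L J (fun _ _ => (0 : ℝ)) := by
    intro J
    induction J with
    | zero => exact contDiffOn_const
    | succ J ih => exact ⟨contDiffOn_const, fun _ _ => 0, fun t _ x _ => hasDerivAt_const _ _, ih⟩
  cases J with
  | zero => exact h0
  | succ J => exact ⟨h0, fun _ _ => 0, fun t _ x _ => hasDerivAt_const _ _, z J⟩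

theorem RJ.const (c : ℝ) : RJ n s L J (fun _ _ => c) :=
  RJ.of_right (f := fun _ => c) contDiffOn_const

theorem RJ.inv (h : RJ n s L J u) (h0 : ∀ t ∈ s, ∀ x ∈ Icc 0 L, u t x ≠ 0) :
    RJ n s L J (fun t x => (u t x)⁻¹) := by
  induction J with
  | zero => exact ContDiffOn.inv h fun p hp => h0 p.1 hp.1 p.2 hp.2
  | succ J ih =>
    have hp := h.pred
    obtain ⟨h1, u', h2, h3⟩ := h
    refine ⟨h1.inv fun p hp => h0 p.1 hp.1 p.2 hp.2,
      fun t x => (-1) * u' t x * ((u t x)⁻¹ * (u t x)⁻¹), fun t ht x hx => ?_, ?_⟩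
    · have := (h2 t ht x hx).inv (h0 t ht x hx)
      refine this.congr_deriv ?_
      simp only [div_eq_mul_inv, pow_two, mul_inv]
      ring
    · exact ((RJ.const (-1)).mul h3).mul ((ih hp).mul (ih hp))

theorem RJ.of_sm (hs : IsOpen s) (hL : 0 < L) (h : Sm s L u) : RJ n s L J u := by
  induction J generalizing u with
  | zero => exact ContDiffOn.of_le h (by exact_mod_cast le_top)
  | succ J ih =>
    exact ⟨ContDiffOn.of_le h (by exact_mod_cast le_top), Crest.Agent.R213.dt u,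
      fun t ht x hx => h.hasDt hs ht hx, ih (h.dt hs hL)⟩

/-- all derivatives `∂_t^j u` exist and are `C^n` on `s × [0,L]` -/
def RT (n : ℕ) (s : Set ℝ) (L : ℝ) (u : ℝ → ℝ → ℝ) : Prop := ∀ J, RJ n s L J u

theorem RT.cd (h : RT n s L u) :
    ContDiffOn ℝ n (fun p : ℝ × ℝ => u p.1 p.2) (s ×ˢ Icc 0 L) := (h 0).cd

theorem RT.congr (hs : IsOpen s) (h : RT n s L u)
    (e : ∀ t ∈ s, ∀ x ∈ Icc 0 L, v t x = u t x) : RT n s L v := fun J => (h J).congr hs e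

theorem RT.add (h : RT n s L u) (h' : RT n s L v) : RT n s L (fun t x => u t x + v t x) :=
  fun J => (h J).add (h' J)

theorem RT.mul (h : RT n s L u) (h' : RT n s L v) : RT n s L (fun t x => u t x * v t x) :=
  fun J => (h J).mul (h' J)

theorem RT.of_right {f : ℝ → ℝ} (hf : ContDiffOn ℝ n f (Icc 0 L)) : RT n s L (fun _ x => f x) :=
  fun _ => RJ.of_right hf

theorem RT.const (c : ℝ) : RT n s L (fun _ _ => c) := fun _ => RJ.const c

theorem RT.const_mul (c : ℝ) (h : RT n s L u) : RT n s L (fun t x => c * u t x) :=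
  (RT.const c).mul h

theorem RT.neg (h : RT n s L u) : RT n s L (fun t x => - u t x) := by
  simpa using h.const_mul (-1)

theorem RT.sub (h : RT n s L u) (h' : RT n s L v) : RT n s L (fun t x => u t x - v t x) := by
  simpa [sub_eq_add_neg] using h.add h'.neg

theorem RT.inv (h : RT n s L u) (h0 : ∀ t ∈ s, ∀ x ∈ Icc 0 L, u t x ≠ 0) :
    RT n s L (fun t x => (u t x)⁻¹) := fun J => (h J).inv h0

theorem RT.div (h : RT n s L u) (h' : RT n s L v) (h0 : ∀ t ∈ s, ∀ x ∈ Icc 0 L, v t x ≠ 0) :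
    RT n s L (fun t x => u t x / v t x) := by
  simpa [div_eq_mul_inv] using h.mul (h'.inv h0)

theorem RT.pow (h : RT n s L u) (k : ℕ) : RT n s L (fun t x => u t x ^ k) := by
  induction k with
  | zero => simpa using RT.const (n := n) (s := s) (L := L) 1
  | succ k ih => simpa [pow_succ] using ih.mul h

theorem RT.of_sm (hs : IsOpen s) (hL : 0 < L) (h : Sm s L u) : RT n s L u :=
  fun _ => RJ.of_sm hs hL h

theorem RT.hd (h : RT n s L u) {t x : ℝ} (ht : t ∈ s) (hx : x ∈ Icc 0 L) :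
    HasDerivAt (fun r => u r x) (Crest.Agent.R213.dt u t x) t := by
  obtain ⟨-, u', h2, -⟩ := h 1
  have := h2 t ht x hx
  rwa [dt_eq_of_hasDerivAt this]

theorem RT.dt (hs : IsOpen s) (h : RT n s L u) : RT n s L (Crest.Agent.R213.dt u) := by
  intro J
  obtain ⟨-, u', h2, h3⟩ := h (J + 1)
  exact h3.congr hs fun t ht x hx => dt_eq_of_hasDerivAt (h2 t ht x hx)

theorem RT.of_seq {D : ℕ → ℝ → ℝ → ℝ}
    (hc : ∀ j, ContDiffOn ℝ n (fun p : ℝ × ℝ => D j p.1 p.2) (s ×ˢ Icc 0 L))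
    (hd : ∀ j, ∀ t ∈ s, ∀ x ∈ Icc 0 L, HasDerivAt (fun r => D j r x) (D (j + 1) t x) t) :
    RT n s L (D 0) := by
  intro J
  have : ∀ J j, RJ n s L J (D j) := by
    intro J
    induction J with
    | zero => exact fun j => hc j
    | succ J ih => exact fun j => ⟨hc j, D (j + 1), hd j, ih (j + 1)⟩
  exact this J 0


theorem RT.contOn (h : RT n s L u) :
    ContinuousOn (fun p : ℝ × ℝ => u p.1 p.2) (s ×ˢ Icc 0 L) := h.cd.continuousOn

theorem RT.cont_right (h : RT n s L u) {t : ℝ} (ht : t ∈ s) : ContinuousOn (u t) (Icc 0 L) :=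
  h.contOn.comp (f := fun x => ((t, x) : ℝ × ℝ)) (by fun_prop) fun _ hx => ⟨ht, hx⟩

theorem RJ.mono {m : ℕ} (hm : m ≤ n) (h : RJ n s L J u) : RJ m s L J u := by
  induction J generalizing u with
  | zero => exact ContDiffOn.of_le h (by exact_mod_cast hm)
  | succ J ih =>
    obtain ⟨h1, u', h2, h3⟩ := h
    exact ⟨h1.of_le (by exact_mod_cast hm), u', h2, ih h3⟩

theorem RT.mono {m : ℕ} (hm : m ≤ n) (h : RT n s L u) : RT m s L u := fun J => (h J).mono hm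

/-! ### parametric integrals -/

/-- derivative in `t` of `∫₀¹ a(r,x) v(t, γ(r,x)) dr` -/
theorem hasDerivAt_pint (hs : Convex ℝ s) (hso : IsOpen s) {a γ v v' : ℝ → ℝ → ℝ}
    (ha : Continuous (fun p : ℝ × ℝ => a p.1 p.2))
    (hγ : Continuous (fun p : ℝ × ℝ => γ p.1 p.2))
    (hm : ∀ r ∈ Icc (0 : ℝ) 1, ∀ x ∈ Icc 0 L, γ r x ∈ Icc 0 L)
    (hc : ContinuousOn (fun p : ℝ × ℝ => v p.1 p.2) (s ×ˢ Icc 0 L))
    (hc' : ContinuousOn (fun p : ℝ × ℝ => v' p.1 p.2) (s ×ˢ Icc 0 L))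
    (hd : ∀ t ∈ s, ∀ x ∈ Icc 0 L, HasDerivAt (fun r => v r x) (v' t x) t)
    {t x : ℝ} (ht : t ∈ s) (hx : x ∈ Icc 0 L) :
    HasDerivAt (fun q => ∫ r in (0 : ℝ)..1, a r x * v q (γ r x))
      (∫ r in (0 : ℝ)..1, a r x * v' t (γ r x)) t := by
  have k0 : ∀ w : ℝ → ℝ → ℝ, ContinuousOn (fun p : ℝ × ℝ => w p.1 p.2) (s ×ˢ Icc 0 L) →
      ContinuousOn (fun z : ℝ × ℝ => a z.1 x * w z.2 (γ z.1 x)) (Icc 0 1 ×ˢ s) := by
    intro w hw
    have a1 : Continuous (fun z : ℝ × ℝ => a z.1 x) :=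
      ha.comp (f := fun z : ℝ × ℝ => ((z.1, x) : ℝ × ℝ)) (by fun_prop)
    have a2 : Continuous (fun z : ℝ × ℝ => γ z.1 x) :=
      hγ.comp (f := fun z : ℝ × ℝ => ((z.1, x) : ℝ × ℝ)) (by fun_prop)
    refine a1.continuousOn.mul (hw.comp (f := fun z : ℝ × ℝ => ((z.2, γ z.1 x) : ℝ × ℝ))
      (continuous_snd.prodMk a2).continuousOn fun z hz => ⟨hz.2, hm _ hz.1 _ hx⟩)
  have k1 := k0 v hc
  have k2 := k0 v' hc'
  have k3 : ContinuousOn (fun z : ℝ × ℝ => (ContinuousLinearMap.toSpanSingleton ℝ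
      (a z.1 x * v' z.2 (γ z.1 x)) : ℝ →L[ℝ] ℝ)) (Icc 0 1 ×ˢ s) :=
    (ContinuousLinearMap.toSpanSingletonLE ℝ ℝ
      ℝ).toLinearMap.continuous_of_finiteDimensional.comp_continuousOn k2
  have := hasFDerivWithinAt_pint (a := 0) (b := 1) zero_le_one hs (E := ℝ) (F := ℝ)
    (H := fun z : ℝ × ℝ => a z.1 x * v z.2 (γ z.1 x))
    (H' := fun z : ℝ × ℝ => (ContinuousLinearMap.toSpanSingleton ℝ
      (a z.1 x * v' z.2 (γ z.1 x)) : ℝ →L[ℝ] ℝ)) k1 k3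
    (fun r hr q hq => by
      have := (hd q hq _ (hm r hr x hx)).const_mul (a r x)
      exact this.hasFDerivAt.hasFDerivWithinAt) ht
  have h5 := (this.hasFDerivAt (hso.mem_nhds ht)).hasDerivAt
  have i3 : IntervalIntegrable (fun r => (ContinuousLinearMap.toSpanSingleton ℝ
      (a r x * v' t (γ r x)) : ℝ →L[ℝ] ℝ)) volume 0 1 := by
    refine ContinuousOn.intervalIntegrable_of_Icc zero_le_one ?_
    exact k3.comp (f := fun r : ℝ => ((r, t) : ℝ × ℝ)) (by fun_prop) fun r hr => ⟨hr, ht⟩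
  have h6 : (∫ r in (0 : ℝ)..1, (ContinuousLinearMap.toSpanSingleton ℝ
      (a r x * v' t (γ r x)) : ℝ →L[ℝ] ℝ)) (1 : ℝ) = ∫ r in (0 : ℝ)..1, a r x * v' t (γ r x) := by
    rw [ContinuousLinearMap.intervalIntegral_apply i3]
    simp
  rw [← h6]
  exact h5

/-- `∫₀¹ a(r,x) u(t, γ(r,x)) dr` is `C^n` when `u` is -/
theorem contDiffOn_pint2 (hs : Convex ℝ s) (hso : IsOpen s) (hL : 0 < L) {a γ : ℝ → ℝ → ℝ}
    (ha : ContDiff ℝ (⊤ : ℕ∞) (fun p : ℝ × ℝ => a p.1 p.2))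
    (hγ : ContDiff ℝ (⊤ : ℕ∞) (fun p : ℝ × ℝ => γ p.1 p.2))
    (hm : ∀ r ∈ Icc (0 : ℝ) 1, ∀ x ∈ Icc 0 L, γ r x ∈ Icc 0 L)
    (hv : ContDiffOn ℝ n (fun p : ℝ × ℝ => v p.1 p.2) (s ×ˢ Icc 0 L)) :
    ContDiffOn ℝ n (fun p : ℝ × ℝ => ∫ r in (0 : ℝ)..1, a r p.2 * v p.1 (γ r p.2))
      (s ×ˢ Icc 0 L) := by
  have hconv : Convex ℝ (s ×ˢ Icc 0 L) := hs.prod (convex_Icc 0 L)
  have hU : UniqueDiffOn ℝ (s ×ˢ Icc 0 L) := uniqueDiffOn_dom hso hL
  have hk : (n : WithTop ℕ∞) ≤ ((⊤ : ℕ∞) : WithTop ℕ∞) := by exact_mod_cast le_top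
  have b1 : ContDiff ℝ n (fun z : ℝ × (ℝ × ℝ) => a z.1 z.2.2) :=
    (ha.of_le hk).comp (f := fun z : ℝ × (ℝ × ℝ) => ((z.1, z.2.2) : ℝ × ℝ)) (by fun_prop)
  have b2 : ContDiff ℝ n (fun z : ℝ × (ℝ × ℝ) => γ z.1 z.2.2) :=
    (hγ.of_le hk).comp (f := fun z : ℝ × (ℝ × ℝ) => ((z.1, z.2.2) : ℝ × ℝ)) (by fun_prop)
  have b3 : ContDiffOn ℝ n (fun z : ℝ × (ℝ × ℝ) => ((z.2.1, γ z.1 z.2.2) : ℝ × ℝ))
      (Icc 0 1 ×ˢ (s ×ˢ Icc 0 L)) :=
    ((by fun_prop : ContDiff ℝ n (fun z : ℝ × (ℝ × ℝ) => z.2.1)).prodMk b2).contDiffOn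
  refine contDiffOn_pint_nat one_pos hconv hU n
    (H := fun z : ℝ × (ℝ × ℝ) => a z.1 z.2.2 * v z.2.1 (γ z.1 z.2.2)) ?_
  refine b1.contDiffOn.mul (hv.comp (f := fun z : ℝ × (ℝ × ℝ) => ((z.2.1, γ z.1 z.2.2) : ℝ × ℝ))
    b3 ?_)
  rintro ⟨r, t, x⟩ ⟨hr, ht, hx⟩
  exact ⟨ht, hm r hr x hx⟩

/-- `∫₀¹ a(r,x) u(t, γ(r,x)) dr` is in `RJ` when `u` is. -/
theorem RJ.pint (hs : Convex ℝ s) (hso : IsOpen s) (hL : 0 < L) {a γ : ℝ → ℝ → ℝ}
    (ha : ContDiff ℝ (⊤ : ℕ∞) (fun p : ℝ × ℝ => a p.1 p.2))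
    (hγ : ContDiff ℝ (⊤ : ℕ∞) (fun p : ℝ × ℝ => γ p.1 p.2))
    (hm : ∀ r ∈ Icc (0 : ℝ) 1, ∀ x ∈ Icc 0 L, γ r x ∈ Icc 0 L)
    (h : RJ n s L J u) :
    RJ n s L J (fun t x => ∫ r in (0 : ℝ)..1, a r x * u t (γ r x)) := by
  induction J generalizing u with
  | zero => exact contDiffOn_pint2 hs hso hL ha hγ hm h
  | succ J ih =>
    obtain ⟨h1, u', h2, h3⟩ := h
    exact ⟨contDiffOn_pint2 hs hso hL ha hγ hm h1,
      fun t x => ∫ r in (0 : ℝ)..1, a r x * u' t (γ r x), fun t ht x hx =>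
      hasDerivAt_pint hs hso ha.continuous hγ.continuous hm h1.continuousOn h3.cd.continuousOn
        h2 ht hx, ih h3⟩

theorem RT.pint (hs : Convex ℝ s) (hso : IsOpen s) (hL : 0 < L) {a γ : ℝ → ℝ → ℝ}
    (ha : ContDiff ℝ (⊤ : ℕ∞) (fun p : ℝ × ℝ => a p.1 p.2))
    (hγ : ContDiff ℝ (⊤ : ℕ∞) (fun p : ℝ × ℝ => γ p.1 p.2))
    (hm : ∀ r ∈ Icc (0 : ℝ) 1, ∀ x ∈ Icc 0 L, γ r x ∈ Icc 0 L)
    (h : RT n s L u) :
    RT n s L (fun t x => ∫ r in (0 : ℝ)..1, a r x * u t (γ r x)) :=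
  fun J => (h J).pint hs hso hL ha hγ hm

theorem RJ.eval {x0 : ℝ} (hx0 : x0 ∈ Icc 0 L) (h : RJ n s L J u) :
    RJ n s L J (fun t _ => u t x0) := by
  have e1 : ∀ (v : ℝ → ℝ → ℝ), ContDiffOn ℝ n (fun p : ℝ × ℝ => v p.1 p.2) (s ×ˢ Icc 0 L) →
      ContDiffOn ℝ n (fun p : ℝ × ℝ => v p.1 x0) (s ×ˢ Icc 0 L) := fun v hv =>
    hv.comp (f := fun p : ℝ × ℝ => ((p.1, x0) : ℝ × ℝ)) (by fun_prop) fun p hp => ⟨hp.1, hx0⟩
  induction J generalizing u with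
  | zero => exact e1 u h
  | succ J ih =>
    obtain ⟨h1, u', h2, h3⟩ := h
    exact ⟨e1 u h1, fun t _ => u' t x0, fun t ht x _ => h2 t ht x0 hx0, ih h3⟩

theorem RT.eval {x0 : ℝ} (hx0 : x0 ∈ Icc 0 L) (h : RT n s L u) : RT n s L (fun t _ => u t x0) :=
  fun J => (h J).eval hx0

theorem RT.dt_pint (hs : Convex ℝ s) (hso : IsOpen s) {a γ : ℝ → ℝ → ℝ}
    (ha : Continuous (fun p : ℝ × ℝ => a p.1 p.2))
    (hγ : Continuous (fun p : ℝ × ℝ => γ p.1 p.2))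
    (hm : ∀ r ∈ Icc (0 : ℝ) 1, ∀ x ∈ Icc 0 L, γ r x ∈ Icc 0 L)
    (h : RT n s L u) {t x : ℝ} (ht : t ∈ s) (hx : x ∈ Icc 0 L) :
    HasDerivAt (fun q => ∫ r in (0 : ℝ)..1, a r x * u q (γ r x))
      (∫ r in (0 : ℝ)..1, a r x * Crest.Agent.R213.dt u t (γ r x)) t :=
  hasDerivAt_pint hs hso ha hγ hm h.contOn (h.dt hso).contOn (fun _ ht _ hx => h.hd ht hx) ht hx

/-! ### double primitive and the bootstrap -/

/-- `∫₀ˣ (x-ξ) f(ξ) dξ` -/
def Dint (f : ℝ → ℝ) (x : ℝ) : ℝ := x ^ 2 * ∫ r in (0 : ℝ)..1, (1 - r) * f (r * x)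

theorem Dint_eq (f : ℝ → ℝ) (x : ℝ) : Dint f x = ∫ ξ in (0 : ℝ)..x, (x - ξ) * f ξ := by
  rw [Dint, J310.integral_scale (fun ξ => (x - ξ) * f ξ), ← intervalIntegral.integral_const_mul,
    ← intervalIntegral.integral_const_mul]
  refine intervalIntegral.integral_congr fun r _ => ?_
  ring

theorem hasDeriv_Dint {f : ℝ → ℝ} (hf : ContinuousOn f (Icc 0 L)) {x : ℝ} (hx : x ∈ Icc 0 L) :
    HasDerivWithinAt (Dint f) (∫ ξ in (0 : ℝ)..x, f ξ) (Icc 0 L) x := by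
  have e : ∀ y ∈ Icc 0 L, Dint f y = y * (∫ ξ in (0 : ℝ)..y, f ξ) - ∫ ξ in (0 : ℝ)..y, ξ * f ξ := by
    intro y hy
    have i1 : IntervalIntegrable f volume 0 y :=
      (hf.mono (Icc_subset_Icc_right hy.2)).intervalIntegrable_of_Icc hy.1
    have i2 : IntervalIntegrable (fun ξ => ξ * f ξ) volume 0 y :=
      (continuousOn_id.mul (hf.mono (Icc_subset_Icc_right hy.2))).intervalIntegrable_of_Icc hy.1
    rw [Dint_eq, ← intervalIntegral.integral_const_mul, ← intervalIntegral.integral_sub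
      (i1.const_mul y) i2]
    refine intervalIntegral.integral_congr fun r _ => ?_
    ring
  have h1 : HasDerivWithinAt (fun y => y * (∫ ξ in (0 : ℝ)..y, f ξ) - ∫ ξ in (0 : ℝ)..y, ξ * f ξ)
      (1 * (∫ ξ in (0 : ℝ)..x, f ξ) + x * f x - x * f x) (Icc 0 L) x :=
    ((hasDerivWithinAt_id x _).mul (J310.hasDerivWithin_integral hf hx)).sub
      (J310.hasDerivWithin_integral (f := fun ξ => ξ * f ξ) (continuousOn_id.mul hf) hx)
  have h2 := h1.congr e (e x hx)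
  rwa [one_mul, _root_.add_sub_cancel_right] at h2

/-- one step of the bootstrap -/
theorem RJ.succ_of (hs : Convex ℝ s) (hso : IsOpen s) (hL : 0 < L) {p : ℝ → ℝ}
    (hu : RT n s L u) (hv : RT n s L v) (hp : RT n s L (fun t _ => p t))
    (h : ∀ t ∈ s, ∀ x ∈ Icc 0 L, u t x = u t 0 + x * p t + Dint (v t) x) :
    RJ (n + 1) s L J u := by
  have hγ : ContDiff ℝ (⊤ : ℕ∞) (fun p : ℝ × ℝ => p.1 * p.2) := by fun_prop
  have hm : ∀ r ∈ Icc (0 : ℝ) 1, ∀ x ∈ Icc 0 L, r * x ∈ Icc 0 L := fun r hr x hx =>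
    ⟨mul_nonneg hr.1 hx.1, (mul_le_of_le_one_left hx.1 hr.2).trans hx.2⟩
  -- the function is `C^(n+1)`
  have key : ∀ {u v : ℝ → ℝ → ℝ} {p : ℝ → ℝ}, RT n s L u → RT n s L v →
      RT n s L (fun t _ => p t) →
      (∀ t ∈ s, ∀ x ∈ Icc 0 L, u t x = u t 0 + x * p t + Dint (v t) x) →
      ContDiffOn ℝ (n + 1 : ℕ) (fun p : ℝ × ℝ => u p.1 p.2) (s ×ˢ Icc 0 L) := by
    intro u v p hu hv hp h
    set ux : ℝ → ℝ → ℝ := fun t x => p t + x * ∫ r in (0 : ℝ)..1, (1 : ℝ) * v t (r * x) with hux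
    have hux_cd : ContDiffOn ℝ n (fun p : ℝ × ℝ => ux p.1 p.2) (s ×ˢ Icc 0 L) :=
      (hp.add ((RT.of_right (f := fun x => x) contDiffOn_id).mul
        (hv.pint hs hso hL (a := fun _ _ => 1) (γ := fun r x => r * x) contDiff_const hγ hm))).cd
    have hut_cd : ContDiffOn ℝ n (fun p : ℝ × ℝ => Crest.Agent.R213.dt u p.1 p.2)
        (s ×ˢ Icc 0 L) := (hu.dt hso).cd
    have hdx : ∀ t ∈ s, ∀ x ∈ Icc 0 L,
        HasDerivWithinAt (fun y => u t y) (ux t x) (Icc 0 L) x := by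
      intro t ht x hx
      have h1 : HasDerivWithinAt (fun y => u t 0 + y * p t + Dint (v t) y)
          (0 + 1 * p t + ∫ ξ in (0 : ℝ)..x, v t ξ) (Icc 0 L) x :=
        ((hasDerivWithinAt_const _ _ _).add ((hasDerivWithinAt_id x _).mul_const (p t))).add
          (hasDeriv_Dint (hv.cont_right ht) hx)
      have h2 := h1.congr (h t ht) (h t ht x hx)
      refine h2.congr_deriv ?_
      rw [J310.integral_scale]
      simp [hux]
    have e : ((n + 1 : ℕ) : WithTop ℕ∞) = (n : WithTop ℕ∞) + 1 := by norm_cast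
    rw [e, contDiffOn_succ_iff_hasFDerivWithinAt_of_uniqueDiffOn (uniqueDiffOn_dom hso hL)]
    refine ⟨fun h => by simp at h, fun p =>
        (ContinuousLinearMap.fst ℝ ℝ ℝ).smulRight (Crest.Agent.R213.dt u p.1 p.2) +
          (ContinuousLinearMap.snd ℝ ℝ ℝ).smulRight (ux p.1 p.2), ?_, ?_⟩
    · have a1 : ContDiffOn ℝ n (fun p : ℝ × ℝ =>
          (ContinuousLinearMap.fst ℝ ℝ ℝ).smulRight (Crest.Agent.R213.dt u p.1 p.2))
          (s ×ˢ Icc 0 L) :=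
        (ContinuousLinearMap.smulRightL ℝ (ℝ × ℝ) ℝ
          (ContinuousLinearMap.fst ℝ ℝ ℝ)).contDiff.comp_contDiffOn hut_cd
      have a2 : ContDiffOn ℝ n (fun p : ℝ × ℝ =>
          (ContinuousLinearMap.snd ℝ ℝ ℝ).smulRight (ux p.1 p.2)) (s ×ˢ Icc 0 L) :=
        (ContinuousLinearMap.smulRightL ℝ (ℝ × ℝ) ℝ
          (ContinuousLinearMap.snd ℝ ℝ ℝ)).contDiff.comp_contDiffOn hux_cd
      exact a1.add a2
    · rintro ⟨t, x⟩ ⟨ht, hx⟩
      exact J1.hasFDerivWithinAt_of_partials hs (convex_Icc 0 L) ht hx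
        (hut_cd.continuousOn (t, x) ⟨ht, hx⟩) (hux_cd.continuousOn (t, x) ⟨ht, hx⟩)
        (fun r hr y hy => (hu.hd hr hy).hasDerivWithinAt) hdx
  induction J generalizing u v p with
  | zero => exact key hu hv hp h
  | succ J ih =>
    refine ⟨key hu hv hp h, Crest.Agent.R213.dt u, fun t ht x hx => hu.hd ht hx, ?_⟩
    have z0 : (0 : ℝ) ∈ Icc 0 L := ⟨le_rfl, hL.le⟩
    refine ih (v := Crest.Agent.R213.dt v)
      (p := fun t => Crest.Agent.R213.dt (fun t _ => p t) t 0) (hu.dt hso) (hv.dt hso)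
      ?_ ?_
    · exact (hp.dt hso).congr hso fun t ht x hx => rfl
    · intro t ht x hx
      have h1 := hu.hd ht hx
      have h2 := hu.hd ht z0
      have h3 : HasDerivAt (fun r => p r) (Crest.Agent.R213.dt (fun t _ => p t) t 0) t :=
        hp.hd ht z0
      have h4 := (hv.dt_pint hs hso (a := fun r _ => 1 - r) (γ := fun r x => r * x)
        (by fun_prop) (by fun_prop) hm ht hx).const_mul (x ^ 2)
      have h5 := (h2.add (h3.const_mul x)).add h4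
      have h6 : HasDerivAt (fun r => u r x) _ t :=
        h5.congr_of_eventuallyEq (Filter.eventuallyEq_of_mem (hso.mem_nhds ht)
          fun r hr => h r hr x hx)
      rw [h1.unique h6]
      rfl

/-- **bootstrap**: if every step `C^n` produces a `C^n` second derivative `v` (with all
`t`-derivatives), then `u` is smooth up to the boundary. -/
theorem boot (hs : Convex ℝ s) (hso : IsOpen s) (hL : 0 < L) (h0 : RT 0 s L u)
    (hg : ∀ n, RT n s L u → ∃ (v : ℝ → ℝ → ℝ) (p : ℝ → ℝ), RT n s L v ∧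
      ∀ t ∈ s, ∀ x ∈ Icc 0 L, u t x = u t 0 + x * p t + Dint (v t) x) :
    (∀ n, RT n s L u) ∧ Sm s L u := by
  have hm : ∀ r ∈ Icc (0 : ℝ) 1, ∀ x ∈ Icc 0 L, r * x ∈ Icc 0 L := fun r hr x hx =>
    ⟨mul_nonneg hr.1 hx.1, (mul_le_of_le_one_left hx.1 hr.2).trans hx.2⟩
  have hall : ∀ n, RT n s L u := by
    intro n
    induction n with
    | zero => exact h0
    | succ n ih =>
      obtain ⟨v, p, hv, h⟩ := hg n ih
      have z0 : (0 : ℝ) ∈ Icc 0 L := ⟨le_rfl, hL.le⟩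
      have z1 : L ∈ Icc 0 L := ⟨hL.le, le_rfl⟩
      have hp : RT n s L (fun t _ => p t) := by
        have h1 : RT n s L (fun t x => L⁻¹ * (u t L - u t 0 - L ^ 2 *
            ∫ r in (0 : ℝ)..1, (1 - r) * v t (r * L))) :=
          (((ih.eval z1).sub (ih.eval z0)).sub (((hv.pint hs hso hL (a := fun r _ => 1 - r)
            (γ := fun r x => r * x) (by fun_prop) (by fun_prop) hm).eval z1).const_mul
              (L ^ 2))).const_mul L⁻¹
        refine h1.congr hso fun t ht x hx => ?_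
        have := h t ht L z1
        rw [Dint] at this
        have e : u t L - u t 0 - L ^ 2 * (∫ r in (0 : ℝ)..1, (1 - r) * v t (r * L)) = L * p t := by
          rw [this]; ring
        rw [e]
        field_simp
      exact fun J => RJ.succ_of hs hso hL ih hv hp h
  exact ⟨hall, contDiffOn_infty.2 fun n => (hall n).cd⟩

/-! ### the quotient `Kint F / (x^11 (1-x/L)^2)` -/

/-- `∫₀¹ (1-r) r⁹ F(r x) dr`: `Kint F x = x^11 * Q0 F x` -/
def Q0 (F : ℝ → ℝ) (x : ℝ) : ℝ := ∫ r in (0 : ℝ)..1, ((1 - r) * r ^ 9) * F (r * x)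

/-- `∫₀¹ r (x+r(L-x))⁹ F(x+r(L-x)) dr`: `Kint F x = (L-x)^2 * QL L F x` if both moments vanish -/
def QL (L : ℝ) (F : ℝ → ℝ) (x : ℝ) : ℝ :=
  ∫ r in (0 : ℝ)..1, (r * (x + r * (L - x)) ^ 9) * F (x + r * (L - x))

/-- `Kint F / (x^11 (1-x/L)^2)`, regular at both ends -/
def qq (L : ℝ) (F : ℝ → ℝ) (x : ℝ) : ℝ :=
  (∑ k ∈ Finset.range 11, ((k : ℝ) + 1) * (x / L) ^ k) * Q0 F x +
    (12 - 11 * (x / L)) * (L⁻¹) ^ 9 * QL L F x

theorem Kint_eq_Q0 (F : ℝ → ℝ) (x : ℝ) : Kint F x = x ^ 11 * Q0 F x := J310.Kint_scale F x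

theorem Kint_eq_QL (hL : 0 < L) {F : ℝ → ℝ} (hF : ContinuousOn F (Icc 0 L)) (h0 : Kint F L = 0)
    (h1 : J310.Kint1 F L = 0) {x : ℝ} (hx : x ∈ Icc 0 L) :
    Kint F x = (L - x) ^ 2 * QL L F x := by
  have hG : ContinuousOn (fun ξ => ξ ^ 9 * F ξ) (Icc 0 L) := by fun_prop
  have iG : ∀ a ∈ Icc 0 L, ∀ b ∈ Icc 0 L, ∀ c : ℝ,
      IntervalIntegrable (fun ξ => (c - ξ) * ξ ^ 9 * F ξ) volume a b := by
    intro a ha b hb c
    refine ContinuousOn.intervalIntegrable ?_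
    have : ContinuousOn (fun ξ => (c - ξ) * ξ ^ 9 * F ξ) (Icc 0 L) := by fun_prop
    exact this.mono (uIcc_subset_Icc ha hb)
  have z0 : (0 : ℝ) ∈ Icc 0 L := ⟨le_rfl, hL.le⟩
  have z1 : L ∈ Icc 0 L := ⟨hL.le, le_rfl⟩
  have iG1 : IntervalIntegrable (fun ξ => ξ ^ 9 * F ξ) volume 0 L :=
    hG.intervalIntegrable_of_Icc hL.le
  -- the full moment vanishes
  have e1 : ∫ ξ in (0 : ℝ)..L, (x - ξ) * ξ ^ 9 * F ξ = 0 := by
    have : ∫ ξ in (0 : ℝ)..L, (x - ξ) * ξ ^ 9 * F ξ =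
        (∫ ξ in (0 : ℝ)..L, (L - ξ) * ξ ^ 9 * F ξ) -
          (L - x) * ∫ ξ in (0 : ℝ)..L, ξ ^ 9 * F ξ := by
      rw [← intervalIntegral.integral_const_mul, ← intervalIntegral.integral_sub
        (iG 0 z0 L z1 L) (iG1.const_mul _)]
      refine intervalIntegral.integral_congr fun r _ => ?_
      ring
    rw [this]
    have h0' : ∫ ξ in (0 : ℝ)..L, (L - ξ) * ξ ^ 9 * F ξ = 0 := h0
    have h1' : ∫ ξ in (0 : ℝ)..L, ξ ^ 9 * F ξ = 0 := h1
    rw [h0', h1']; ring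
  have e2 := intervalIntegral.integral_add_adjacent_intervals (iG 0 z0 x hx x) (iG x hx L z1 x)
  rw [e1] at e2
  have e3 : Kint F x = - ∫ ξ in x..L, (x - ξ) * ξ ^ 9 * F ξ := by
    rw [Kint]; linarith
  -- substitution
  have e4 : ∫ ξ in x..L, (x - ξ) * ξ ^ 9 * F ξ = (L - x) *
      ∫ r in (0 : ℝ)..1, (x - (r * (L - x) + x)) * (r * (L - x) + x) ^ 9 * F (r * (L - x) + x) := by
    have := intervalIntegral.mul_integral_comp_mul_add
      (f := fun ξ => (x - ξ) * ξ ^ 9 * F ξ) (a := 0) (b := 1) (L - x) x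
    simp only [mul_zero, zero_add, mul_one, sub_add_cancel] at this
    rw [← this]
    congr 1
    refine intervalIntegral.integral_congr fun r _ => ?_
    simp only [mul_comm]
  rw [e3, e4, QL, ← intervalIntegral.integral_const_mul, ← intervalIntegral.integral_neg,
    ← intervalIntegral.integral_const_mul]
  refine intervalIntegral.integral_congr fun r _ => ?_
  have : r * (L - x) + x = x + r * (L - x) := by ring
  simp only [this]
  ring

theorem qq_eq (hL : 0 < L) {F : ℝ → ℝ} (hF : ContinuousOn F (Icc 0 L)) (h0 : Kint F L = 0)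
    (h1 : J310.Kint1 F L = 0) {x : ℝ} (hx : x ∈ Icc 0 L) :
    x ^ 9 * (x * (1 - x / L)) ^ 2 * qq L F x = Kint F x := by
  have k1 := Kint_eq_Q0 F x
  have k2 := Kint_eq_QL hL hF h0 h1 hx
  have hL' : L ≠ 0 := hL.ne'
  obtain ⟨y, hy⟩ : ∃ y, y = x / L := ⟨_, rfl⟩
  have hxy : x = y * L := by rw [hy]; field_simp
  rw [qq, ← hy]
  have hp : (∑ k ∈ Finset.range 11, ((k : ℝ) + 1) * y ^ k) * (1 - y) ^ 2 +
      (12 - 11 * y) * y ^ 11 = 1 := by
    simp only [Finset.sum_range_succ, Finset.sum_range_zero]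
    push_cast
    ring
  have e1 : x ^ 9 * (x * (1 - y)) ^ 2 * ((∑ k ∈ Finset.range 11, ((k : ℝ) + 1) * y ^ k) * Q0 F x) =
      (∑ k ∈ Finset.range 11, ((k : ℝ) + 1) * y ^ k) * (1 - y) ^ 2 * Kint F x := by
    rw [k1]; ring
  have e2 : x ^ 9 * (x * (1 - y)) ^ 2 * ((12 - 11 * y) * (L⁻¹) ^ 9 * QL L F x) =
      (12 - 11 * y) * y ^ 11 * Kint F x := by
    rw [k2, hxy]
    field_simp
  rw [mul_add, e1, e2, ← add_mul, hp, one_mul]

theorem RT.Q0 (hs : Convex ℝ s) (hso : IsOpen s) (hL : 0 < L) (h : RT n s L u) :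
    RT n s L (fun t x => Crest.Agent.R213.Q0 (u t) x) := by
  have hm : ∀ r ∈ Icc (0 : ℝ) 1, ∀ x ∈ Icc 0 L, r * x ∈ Icc 0 L := fun r hr x hx =>
    ⟨mul_nonneg hr.1 hx.1, (mul_le_of_le_one_left hx.1 hr.2).trans hx.2⟩
  exact h.pint hs hso hL (a := fun r _ => (1 - r) * r ^ 9) (γ := fun r x => r * x)
    (by fun_prop) (by fun_prop) hm

theorem RT.QL (hs : Convex ℝ s) (hso : IsOpen s) (hL : 0 < L) (h : RT n s L u) :
    RT n s L (fun t x => Crest.Agent.R213.QL L (u t) x) := by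
  have hm : ∀ r ∈ Icc (0 : ℝ) 1, ∀ x ∈ Icc 0 L, x + r * (L - x) ∈ Icc 0 L := by
    intro r hr x hx
    have h1 : 0 ≤ r * (L - x) := mul_nonneg hr.1 (by linarith [hx.2])
    have h2 : r * (L - x) ≤ L - x := mul_le_of_le_one_left (by linarith [hx.2]) hr.2
    exact ⟨by linarith [hx.1], by linarith⟩
  exact h.pint hs hso hL (a := fun r x => r * (x + r * (L - x)) ^ 9)
    (γ := fun r x => x + r * (L - x)) (by fun_prop) (by fun_prop) hm

theorem RT.qq (hs : Convex ℝ s) (hso : IsOpen s) (hL : 0 < L) (h : RT n s L u) :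
    RT n s L (fun t x => Crest.Agent.R213.qq L (u t) x) := by
  have a1 : RT n s L (fun _ x => ∑ k ∈ Finset.range 11, ((k : ℝ) + 1) * (x / L) ^ k) :=
    RT.of_right (by fun_prop)
  have a2 : RT n s L (fun _ x => (12 - 11 * (x / L)) * (L⁻¹) ^ 9) :=
    RT.of_right (by fun_prop)
  exact (a1.mul (h.Q0 hs hso hL)).add (a2.mul (h.QL hs hso hL))

end Crest.Agent.R213
end
end

-- ▼ part R213/C/LimitAsm
section

/-!
# Row 213, part C: assembly of the limit (helper283)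
-/

set_option autoImplicit false

open Set MeasureTheory Filter Topology

noncomputable section

namespace Crest.Agent.R213.C

/-- Assembly of `limit_solution` from the time part (helper924) and the `V`-step (helper465). -/
theorem limit_core {L : ℝ} (hL : 0 < L) {φ E : ℝ → ℝ → ℝ} {D : ℕ → ℝ → ℝ → ℝ} {Bi : ℝ → ℝ → ℝ}
    (hDc : ∀ j, ContinuousOn (fun p : ℝ × ℝ => D j p.1 p.2) (Ioo 0 (1 / 4) ×ˢ Icc 0 L))
    (hDd : ∀ j, ∀ t ∈ Ioo (0 : ℝ) (1 / 4), ∀ x ∈ Icc 0 L,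
      HasDerivAt (fun r => D j r x) (D (j + 1) t x) t)
    (hBs : ∀ t ∈ Ioo (0 : ℝ) (1 / 4), ∀ x ∈ Icc 0 L, |Bi t x| ≤ 1 / 4)
    (heq : ∀ t ∈ Ioo (0 : ℝ) (1 / 4), ∀ x ∈ Icc 0 L,
      x ^ 9 * φ t x * (Bi t x / (1 + Bi t x)) = Kint (fun ξ => E t ξ + D 1 t ξ) x)
    (hlim : Tendsto (fun τ => √τ * D 1 τ 0) (𝓝[>] 0) (𝓝 0))
    (hV : ∀ n, RT n (Ioo 0 (1 / 4)) L (D 0) → ∃ (V : ℝ → ℝ → ℝ) (p : ℝ → ℝ),
      RT n (Ioo 0 (1 / 4)) L V ∧
      (∀ t ∈ Ioo (0 : ℝ) (1 / 4), ∀ x ∈ Icc 0 L, φ t x * V t x = Bi t x) ∧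
      ∀ t ∈ Ioo (0 : ℝ) (1 / 4), ∀ x ∈ Icc 0 L, D 0 t x = D 0 t 0 + x * p t + Dint (V t) x) :
    ∃ δ : ℝ → ℝ → ℝ, Sm (Ioo 0 (1 / 4)) L δ ∧
        (∀ τ ∈ Ioo (0 : ℝ) (1 / 4), ∀ x ∈ Icc 0 L, |φ τ x * dx L (dx L δ) τ x| ≤ 1 / 2) ∧
        (∀ τ ∈ Ioo (0 : ℝ) (1 / 4), ∀ x ∈ Icc 0 L,
          x ^ 9 * φ τ x * (φ τ x * dx L (dx L δ) τ x / (1 + φ τ x * dx L (dx L δ) τ x)) =
            Kint (fun ξ => E τ ξ + dt δ τ ξ) x) ∧
        Tendsto (fun τ => √τ * dt δ τ 0) (𝓝[>] 0) (𝓝 0) := by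
  have hconv : Convex ℝ (Ioo (0 : ℝ) (1 / 4)) := convex_Ioo _ _
  have hopen : IsOpen (Ioo (0 : ℝ) (1 / 4)) := isOpen_Ioo
  have z0 : (0 : ℝ) ∈ Icc 0 L := ⟨le_rfl, hL.le⟩
  have h0 : RT 0 (Ioo 0 (1 / 4)) L (D 0) :=
    RT.of_seq (fun j => contDiffOn_zero.2 (hDc j)) hDd
  obtain ⟨hall, hsm⟩ := boot hconv hopen hL h0 fun n hn => by
    obtain ⟨V, p, h1, -, h2⟩ := hV n hn
    exact ⟨V, p, h1, h2⟩
  obtain ⟨V, p, hV1, hV2, hV3⟩ := hV 0 h0
  -- second derivative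
  have hd1 : ∀ t ∈ Ioo (0 : ℝ) (1 / 4), ∀ x ∈ Icc 0 L,
      dx L (D 0) t x = p t + ∫ ξ in (0 : ℝ)..x, V t ξ := by
    intro t ht x hx
    apply dx_eq_of_hasDerivWithinAt hL hx
    have h1 : HasDerivWithinAt (fun y => D 0 t 0 + y * p t + Dint (V t) y)
        (0 + 1 * p t + ∫ ξ in (0 : ℝ)..x, V t ξ) (Icc 0 L) x :=
      ((hasDerivWithinAt_const _ _ _).add ((hasDerivWithinAt_id x _).mul_const (p t))).add
        (hasDeriv_Dint (hV1.cont_right ht) hx)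
    have h2 := h1.congr (hV3 t ht) (hV3 t ht x hx)
    simpa using h2
  have hd2 : ∀ t ∈ Ioo (0 : ℝ) (1 / 4), ∀ x ∈ Icc 0 L, dx L (dx L (D 0)) t x = V t x := by
    intro t ht x hx
    apply dx_eq_of_hasDerivWithinAt hL hx
    have h1 : HasDerivWithinAt (fun y => p t + ∫ ξ in (0 : ℝ)..y, V t ξ)
        (0 + V t x) (Icc 0 L) x :=
      (hasDerivWithinAt_const _ _ _).add
        (J310.hasDerivWithin_integral (hV1.cont_right ht) hx)
    have h2 := h1.congr (hd1 t ht) (hd1 t ht x hx)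
    simpa using h2
  have hdt : ∀ t ∈ Ioo (0 : ℝ) (1 / 4), ∀ x ∈ Icc 0 L, dt (D 0) t x = D 1 t x :=
    fun t ht x hx => dt_eq_of_hasDerivAt (hDd 0 t ht x hx)
  refine ⟨D 0, hsm, fun τ hτ x hx => ?_, fun τ hτ x hx => ?_, ?_⟩
  · rw [hd2 τ hτ x hx, hV2 τ hτ x hx]
    exact (hBs τ hτ x hx).trans (by norm_num)
  · rw [hd2 τ hτ x hx, hV2 τ hτ x hx, heq τ hτ x hx]
    exact J310.Kint_congr hx fun y hy => by rw [hdt τ hτ y hy]
  · refine hlim.congr' ?_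
    have : Ioo (0 : ℝ) (1 / 4) ∈ 𝓝[>] (0 : ℝ) := Ioo_mem_nhdsGT (by norm_num)
    filter_upwards [this] with τ hτ
    rw [hdt τ hτ 0 z0]

end Crest.Agent.R213.C
end
end

-- ▼ part R213/C/VOne
section

/-!
# Row 213, part C, C9: one-variable lemmas for the V-step (helper465)
-/

set_option autoImplicit false

open Set MeasureTheory Filter Topology

noncomputable section

namespace Crest.Agent.R213.C

variable {L : ℝ}

/-- the product `(x - L) h(x)` has derivative `h(L)` at `L`, `h` only continuous at `L` -/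
theorem hasDeriv_at_end {h : ℝ → ℝ} (hh : ContinuousWithinAt h (Icc 0 L) L) :
    HasDerivWithinAt (fun x => (x - L) * h x) (h L) (Icc 0 L) L := by
  rw [hasDerivWithinAt_iff_tendsto_slope]
  have h1 : Tendsto h (𝓝[Icc 0 L \ {L}] L) (𝓝 (h L)) :=
    hh.mono_left (nhdsWithin_mono _ sdiff_subset)
  refine h1.congr' ?_
  filter_upwards [self_mem_nhdsWithin] with x hx
  have hx' : x - L ≠ 0 := sub_ne_zero.2 hx.2
  rw [slope_def_field]
  simp only [sub_self, zero_mul, sub_zero]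
  field_simp

/-- both moments of `F` vanish when `Kint F = x⁹ φ β`, `φ = x(1-x/L)m`, `β(L) = 0` -/
theorem moments_zero_V (hL : 0 < L) {F m β : ℝ → ℝ} (hF : ContinuousOn F (Icc 0 L))
    (hm : ContinuousOn m (Icc 0 L)) (hβ : ContinuousOn β (Icc 0 L)) (hβL : β L = 0)
    (heq : ∀ x ∈ Icc 0 L, x ^ 9 * (x * (1 - x / L) * m x) * β x = Kint F x) :
    Kint F L = 0 ∧ K1 F L = 0 := by
  have hLL : L ∈ Icc 0 L := ⟨hL.le, le_rfl⟩
  refine ⟨?_, ?_⟩
  · rw [← heq L hLL]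
    rw [div_self hL.ne']; ring
  · have h1 := Kint_hasDeriv hF hLL
    have h2 : HasDerivWithinAt (fun x => (x - L) * (-(x ^ 10 / L * m x * β x))) 0 (Icc 0 L) L := by
      have hc : ContinuousWithinAt (fun x => -(x ^ 10 / L * m x * β x)) (Icc 0 L) L :=
        (((((continuous_id.pow 10).div_const L).continuousOn.mul hm).mul hβ).neg) L hLL
      have := hasDeriv_at_end hc
      simpa [hβL] using this
    have h3 : HasDerivWithinAt (Kint F) 0 (Icc 0 L) L := by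
      refine h2.congr (fun x hx => ?_) ?_
      · rw [← heq x hx]
        field_simp
        ring
      · rw [← heq L hLL, hβL]; ring
    exact (uniqueDiffOn_Icc hL L hLL).eq_deriv _ h1 h3

/-- two functions continuous on `[0,L]` and equal on `(0,L)` are equal on `[0,L]` -/
theorem eqOn_Icc_of_Ioo (hL : 0 < L) {a b : ℝ → ℝ} (ha : ContinuousOn a (Icc 0 L))
    (hb : ContinuousOn b (Icc 0 L)) (h : ∀ x ∈ Ioo 0 L, a x = b x) :
    ∀ x ∈ Icc 0 L, a x = b x :=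
  Set.EqOn.of_subset_closure (s := Ioo 0 L) (t := Icc 0 L) h ha hb Ioo_subset_Icc_self
    (closure_Ioo hL.ne).ge

/-- identification of `β` -/
theorem beta_eq (hL : 0 < L) {F m β q : ℝ → ℝ}
    (hm : ContinuousOn m (Icc 0 L)) (hm0 : ∀ x ∈ Icc 0 L, 0 < m x)
    (hβ : ContinuousOn β (Icc 0 L)) (hq : ContinuousOn q (Icc 0 L))
    (heq : ∀ x ∈ Icc 0 L, x ^ 9 * (x * (1 - x / L) * m x) * β x = Kint F x)
    (hKq : ∀ x ∈ Icc 0 L, x ^ 9 * (x * (1 - x / L)) ^ 2 * q x = Kint F x) :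
    ∀ x ∈ Icc 0 L, β x = x * (1 - x / L) * q x / m x := by
  have hc : ContinuousOn (fun x => x * (1 - x / L) * q x / m x) (Icc 0 L) :=
    ((continuousOn_id.mul (continuousOn_const.sub (continuousOn_id.div_const L))).mul hq).div hm
      (fun x hx => (hm0 x hx).ne')
  refine eqOn_Icc_of_Ioo hL hβ hc (fun x hx => ?_)
  have hx' : x ∈ Icc 0 L := ⟨hx.1.le, hx.2.le⟩
  have h1 := (heq x hx').trans (hKq x hx').symm
  have hmx := (hm0 x hx').ne'
  have h2 : x ^ 9 * (x * (1 - x / L)) ≠ 0 := by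
    apply mul_ne_zero (pow_ne_zero 9 hx.1.ne')
    apply mul_ne_zero hx.1.ne'
    rw [sub_ne_zero]
    intro h
    rw [eq_comm, div_eq_one_iff_eq hL.ne'] at h
    exact hx.2.ne h
  rw [eq_div_iff hmx]
  apply mul_left_cancel₀ h2
  linear_combination h1

theorem scale_taylor (V : ℝ → ℝ) (x : ℝ) :
    ∫ ξ in (0 : ℝ)..x, (x - ξ) * V ξ = x ^ 2 * ∫ r in (0 : ℝ)..1, (1 - r) * V (r * x) := by
  have h := intervalIntegral.mul_integral_comp_mul_right (a := 0) (b := 1)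
    (f := fun ξ => (x - ξ) * V ξ) x
  rw [zero_mul, one_mul] at h
  rw [← h, ← intervalIntegral.integral_const_mul, ← intervalIntegral.integral_const_mul]
  refine intervalIntegral.integral_congr (fun r _ => ?_)
  ring

theorem taylor_split {V : ℝ → ℝ} (hV : ContinuousOn V (Icc 0 L)) {x y : ℝ} (hx : x ∈ Icc 0 L)
    (hy : y ∈ Icc 0 L) :
    ∫ ξ in y..x, (x - ξ) * V ξ = (∫ ξ in (0 : ℝ)..x, (x - ξ) * V ξ) - x * (∫ ξ in (0 : ℝ)..y, V ξ) +
      ∫ ξ in (0 : ℝ)..y, ξ * V ξ := by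
  have hii : ∀ {f : ℝ → ℝ}, ContinuousOn f (Icc 0 L) → ∀ {a b : ℝ}, a ∈ Icc 0 L → b ∈ Icc 0 L →
      IntervalIntegrable f volume a b := by
    intro f hf a b ha hb
    refine (hf.mono ?_).intervalIntegrable
    intro z hz
    rw [mem_uIcc] at hz
    rcases hz with hz | hz
    · exact ⟨ha.1.trans hz.1, hz.2.trans hb.2⟩
    · exact ⟨hb.1.trans hz.1, hz.2.trans ha.2⟩
  have h0 : (0 : ℝ) ∈ Icc 0 L := ⟨le_rfl, hx.1.trans hx.2⟩
  have c1 : ContinuousOn (fun ξ => (x - ξ) * V ξ) (Icc 0 L) :=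
    (continuousOn_const.sub continuousOn_id).mul hV
  have c2 : ContinuousOn (fun ξ => ξ * V ξ) (Icc 0 L) := continuousOn_id.mul hV
  have e1 := intervalIntegral.integral_interval_sub_left (hii c1 h0 hx) (hii c1 h0 hy)
  rw [← e1]
  have e2 : ∫ ξ in (0 : ℝ)..y, (x - ξ) * V ξ =
      x * (∫ ξ in (0 : ℝ)..y, V ξ) - ∫ ξ in (0 : ℝ)..y, ξ * V ξ := by
    rw [← intervalIntegral.integral_const_mul, ← intervalIntegral.integral_sub
      ((hii hV h0 hy).const_mul x) (hii c2 h0 hy)]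
    refine intervalIntegral.integral_congr (fun r _ => ?_)
    ring
  rw [e2]; ring

/-- extension of the interior Taylor formula up to both ends -/
theorem taylor_ext (hL : 0 < L) {V D : ℝ → ℝ} (hV : ContinuousOn V (Icc 0 L))
    (hD : ContinuousOn D (Icc 0 L)) {p : ℝ}
    (h : ∀ x ∈ Ioo 0 L, D x = D (L / 2) + (x - L / 2) * p + ∫ ξ in (L / 2)..x, (x - ξ) * V ξ) :
    ∀ x ∈ Icc 0 L, D x = D 0 + x * (p - ∫ ξ in (0 : ℝ)..(L / 2), V ξ) +
      x ^ 2 * ∫ r in (0 : ℝ)..1, (1 - r) * V (r * x) := by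
  have hy : L / 2 ∈ Icc 0 L := ⟨by linarith, by linarith⟩
  have h0 : (0 : ℝ) ∈ Icc 0 L := ⟨le_rfl, hL.le⟩
  -- the right-hand side as a continuous function
  have hK : ∀ x ∈ Icc 0 L, HasDerivWithinAt (fun x => ∫ ξ in (0 : ℝ)..x, (x - ξ) * V ξ)
      (∫ ξ in (0 : ℝ)..x, V ξ) (Icc 0 L) x := by
    intro x hx
    have c2 : ContinuousOn (fun ξ => ξ * V ξ) (Icc 0 L) := continuousOn_id.mul hV
    have d1 := ftc_Icc hV hx
    have d2 := ftc_Icc c2 hx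
    have d3 := ((hasDerivWithinAt_id x (Icc 0 L)).mul d1).sub d2
    have d4 : HasDerivWithinAt (fun x => ∫ ξ in (0 : ℝ)..x, (x - ξ) * V ξ)
        (1 * (∫ ξ in (0 : ℝ)..x, V ξ) + id x * V x - x * V x) (Icc 0 L) x := by
      refine d3.congr (fun y hy => ?_) ?_
      · have := taylor_split hV (x := y) (y := y) hy hy
        simp only [intervalIntegral.integral_same] at this
        simp only [id, Pi.mul_apply, Pi.sub_apply]
        linarith
      · have := taylor_split hV (x := x) (y := x) hx hx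
        simp only [intervalIntegral.integral_same] at this
        simp only [id, Pi.mul_apply, Pi.sub_apply]
        linarith
    convert d4 using 1
    simp
  have hKc : ContinuousOn (fun x => ∫ ξ in (0 : ℝ)..x, (x - ξ) * V ξ) (Icc 0 L) :=
    fun x hx => (hK x hx).continuousWithinAt
  have hext : ∀ x ∈ Icc 0 L, D x = D (L / 2) + (x - L / 2) * p +
      ((∫ ξ in (0 : ℝ)..x, (x - ξ) * V ξ) - x * (∫ ξ in (0 : ℝ)..(L / 2), V ξ) +
      ∫ ξ in (0 : ℝ)..(L / 2), ξ * V ξ) := by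
    refine eqOn_Icc_of_Ioo hL hD ?_ (fun x hx => ?_)
    · exact (continuousOn_const.add ((continuousOn_id.sub continuousOn_const).mul
        continuousOn_const)).add ((hKc.sub (continuousOn_id.mul continuousOn_const)).add
        continuousOn_const)
    · rw [h x hx, taylor_split hV ⟨hx.1.le, hx.2.le⟩ hy]
  intro x hx
  have e1 := hext x hx
  have e2 := hext 0 h0
  simp only [intervalIntegral.integral_same] at e2
  rw [← scale_taylor]
  linarith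


end Crest.Agent.R213.C
end
end

-- ▼ part R213/C/VStep

/-!
# Row 213, part C, C9: the V-step (helper465)

From the integrated nonlinear equation and all `τ`-derivatives continuous up to the boundary:
`∂ₓ² δ = v` is as regular as `δ`, hence (bootstrapping, `boot`) `δ` is smooth.
-/

set_option autoImplicit false

open Set MeasureTheory Filter Topology

noncomputable section

namespace Crest.Agent.R213.C

variable {c0 C0 L : ℝ} {g : ℝ → ℝ} {φ m E u Bi : ℝ → ℝ → ℝ} {s : Set ℝ}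

/-- the V-step -/
theorem V_step (hB : Bg c0 C0 g L φ m) (hc0 : 0 < c0) (hs : Convex ℝ s) (hso : IsOpen s)
    (hs1 : s ⊆ Ioo 0 1) (hE : Sm (Ioo 0 1) L E) {n : ℕ} (hu : RT n s L u)
    (hBc : ContinuousOn (fun p : ℝ × ℝ => Bi p.1 p.2) (s ×ˢ Icc 0 L))
    (hBs : ∀ t ∈ s, ∀ x ∈ Icc 0 L, |Bi t x| ≤ 1 / 4)
    (hBL : ∀ t ∈ s, Bi t L = 0)
    (heq : ∀ t ∈ s, ∀ x ∈ Icc 0 L,
      x ^ 9 * φ t x * (Bi t x / (1 + Bi t x)) = Kint (fun ξ => E t ξ + dt u t ξ) x)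
    (htay : ∀ t ∈ s, ∃ p : ℝ, ∀ x ∈ Ioo 0 L,
      u t x = u t (L / 2) + (x - L / 2) * p +
        ∫ ξ in (L / 2)..x, (x - ξ) * (Bi t ξ / φ t ξ)) :
    ∃ (v : ℝ → ℝ → ℝ) (p : ℝ → ℝ), RT n s L v ∧
      (∀ t ∈ s, ∀ x ∈ Icc 0 L, φ t x * v t x = Bi t x) ∧
      ∀ t ∈ s, ∀ x ∈ Icc 0 L, u t x = u t 0 + x * p t + Dint (v t) x := by
  have hL : 0 < L := by have := hB.L_ge; linarith
  -- the pieces
  have hm : Sm s L m := Sm.mono hB.sm hs1
  have hm0 : ∀ t ∈ s, ∀ x ∈ Icc 0 L, 0 < m t x := fun t ht x hx =>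
    hc0.trans_le (hB.lower t (hs1 ht) x hx)
  have hφ : ∀ t ∈ s, ∀ x ∈ Icc 0 L, φ t x = x * (1 - x / L) * m t x := fun t ht x hx =>
    hB.phi_eq t (hs1 ht) x hx
  set F : ℝ → ℝ → ℝ := fun t ξ => E t ξ + dt u t ξ with hFdef
  have hF : RT n s L F := (RT.of_sm hso hL (Sm.mono hE hs1)).add (hu.dt hso)
  have hq : RT n s L (fun t x => qq L (F t) x) := hF.qq hs hso hL
  -- β
  have hpos : ∀ t ∈ s, ∀ x ∈ Icc 0 L, 0 < 1 + Bi t x := fun t ht x hx => by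
    have := abs_le.1 (hBs t ht x hx); linarith
  have hBt : ∀ t ∈ s, ContinuousOn (Bi t) (Icc 0 L) := fun t ht =>
    hBc.comp (f := fun x => (t, x)) (by fun_prop) (fun x hx => ⟨ht, hx⟩)
  have hβc : ∀ t ∈ s, ContinuousOn (fun x => Bi t x / (1 + Bi t x)) (Icc 0 L) := fun t ht =>
    (hBt t ht).div (continuousOn_const.add (hBt t ht)) (fun x hx => (hpos t ht x hx).ne')
  have heq' : ∀ t ∈ s, ∀ x ∈ Icc 0 L, x ^ 9 * (x * (1 - x / L) * m t x) *
      (Bi t x / (1 + Bi t x)) = Kint (F t) x := fun t ht x hx => by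
    rw [← hφ t ht x hx]; exact heq t ht x hx
  have hβ : ∀ t ∈ s, ∀ x ∈ Icc 0 L,
      Bi t x / (1 + Bi t x) = x * (1 - x / L) * qq L (F t) x / m t x := by
    intro t ht
    have hFc := hF.cont_right ht
    obtain ⟨z1, z2⟩ := moments_zero_V hL hFc (hm.continuousOn_right ht) (hβc t ht) (by rw [hBL t ht]; simp)
      (heq' t ht)
    refine beta_eq hL (hm.continuousOn_right ht) (hm0 t ht) (hβc t ht) (hq.cont_right ht) (heq' t ht) ?_
    intro x hx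
    exact qq_eq hL hFc z1 z2 hx
  -- the denominator
  set W : ℝ → ℝ → ℝ := fun t x => 1 - x * (1 - x / L) * qq L (F t) x / m t x with hWdef
  have hW : ∀ t ∈ s, ∀ x ∈ Icc 0 L, W t x = (1 + Bi t x)⁻¹ := fun t ht x hx => by
    have h1 := (hpos t ht x hx).ne'
    have h2 : W t x = 1 - Bi t x / (1 + Bi t x) := by rw [hβ t ht x hx]
    rw [h2]; field_simp; ring
  have hmR : RT n s L m := RT.of_sm hso hL hm
  have hx1 : RT n s L (fun _ x => x * (1 - x / L)) :=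
    RT.of_right (ContDiff.contDiffOn (by fun_prop))
  have hWR : RT n s L W := (RT.const 1).sub ((hx1.mul hq).div hmR
    (fun t ht x hx => (hm0 t ht x hx).ne'))
  have hW0 : ∀ t ∈ s, ∀ x ∈ Icc 0 L, W t x ≠ 0 := fun t ht x hx => by
    rw [hW t ht x hx]; exact inv_ne_zero (hpos t ht x hx).ne'
  -- v
  set v : ℝ → ℝ → ℝ := fun t x => qq L (F t) x / m t x ^ 2 / W t x with hvdef
  have hv : RT n s L v := (hq.div (hmR.pow 2)
    (fun t ht x hx => pow_ne_zero 2 (hm0 t ht x hx).ne')).div hWR hW0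
  have hφv : ∀ t ∈ s, ∀ x ∈ Icc 0 L, φ t x * v t x = Bi t x := fun t ht x hx => by
    have h1 := (hpos t ht x hx).ne'
    have h2 := (hm0 t ht x hx).ne'
    have h3 := hβ t ht x hx
    rw [hvdef]
    simp only
    rw [hW t ht x hx, hφ t ht x hx]
    have h4 : x * (1 - x / L) * m t x * (qq L (F t) x / m t x ^ 2 / (1 + Bi t x)⁻¹) =
        (x * (1 - x / L) * qq L (F t) x / m t x) * (1 + Bi t x) := by
      field_simp
    rw [h4, ← h3]
    field_simp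
  -- Taylor formula
  have htay' : ∀ t ∈ s, ∃ p : ℝ, ∀ x ∈ Icc 0 L, u t x = u t 0 + x * p + Dint (v t) x := by
    intro t ht
    obtain ⟨p, hp⟩ := htay t ht
    refine ⟨p - ∫ ξ in (0 : ℝ)..(L / 2), v t ξ, ?_⟩
    have h1 := taylor_ext hL (hv.cont_right ht) (hu.cont_right ht) (p := p) ?_
    · intro x hx
      rw [h1 x hx]; rfl
    · intro x hx
      rw [hp x hx]
      congr 1
      refine intervalIntegral.integral_congr (fun ξ hξ => ?_)
      have hξ' : ξ ∈ Ioo 0 L := by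
        rw [mem_uIcc] at hξ
        rcases hξ with hξ | hξ
        · exact ⟨by linarith [hξ.1], hξ.2.trans_lt hx.2⟩
        · exact ⟨hx.1.trans_le hξ.1, by linarith [hξ.2]⟩
      have hξ'' : ξ ∈ Icc 0 L := ⟨hξ'.1.le, hξ'.2.le⟩
      have hφ0 : φ t ξ ≠ 0 := by
        rw [hφ t ht ξ hξ'']
        refine mul_ne_zero (mul_ne_zero hξ'.1.ne' ?_) (hm0 t ht ξ hξ'').ne'
        rw [sub_ne_zero]
        intro h
        rw [eq_comm, div_eq_one_iff_eq hL.ne'] at h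
        exact hξ'.2.ne h
      change (x - ξ) * (Bi t ξ / φ t ξ) = (x - ξ) * v t ξ
      rw [← hφv t ht ξ hξ'', mul_div_cancel_left₀ _ hφ0]
  classical
  refine ⟨v, fun t => if ht : t ∈ s then (htay' t ht).choose else 0, hv, hφv, ?_⟩
  intro t ht x hx
  simp only [dif_pos ht]
  exact (htay' t ht).choose_spec x hx


/-- the hypothesis `hV` of `limit_core` -/
theorem hV_of (hB : Bg c0 C0 g L φ m) (hc0 : 0 < c0) (hE : Sm (Ioo 0 1) L E)
    {D : ℕ → ℝ → ℝ → ℝ}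
    (hDd : ∀ j, ∀ t ∈ Ioo (0 : ℝ) (1 / 4), ∀ x ∈ Icc 0 L,
      HasDerivAt (fun r => D j r x) (D (j + 1) t x) t)
    (hBc : ContinuousOn (fun p : ℝ × ℝ => Bi p.1 p.2) (Ioo (0 : ℝ) (1 / 4) ×ˢ Icc 0 L))
    (hBs : ∀ t ∈ Ioo (0 : ℝ) (1 / 4), ∀ x ∈ Icc 0 L, |Bi t x| ≤ 1 / 4)
    (hBL : ∀ t ∈ Ioo (0 : ℝ) (1 / 4), Bi t L = 0)
    (heq : ∀ t ∈ Ioo (0 : ℝ) (1 / 4), ∀ x ∈ Icc 0 L,
      x ^ 9 * φ t x * (Bi t x / (1 + Bi t x)) = Kint (fun ξ => E t ξ + D 1 t ξ) x)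
    (htay : ∀ t ∈ Ioo (0 : ℝ) (1 / 4), ∃ p : ℝ, ∀ x ∈ Ioo 0 L,
      D 0 t x = D 0 t (L / 2) + (x - L / 2) * p +
        ∫ ξ in (L / 2)..x, (x - ξ) * (Bi t ξ / φ t ξ)) :
    ∀ n, RT n (Ioo 0 (1 / 4)) L (D 0) → ∃ (V : ℝ → ℝ → ℝ) (p : ℝ → ℝ),
      RT n (Ioo 0 (1 / 4)) L V ∧
      (∀ t ∈ Ioo (0 : ℝ) (1 / 4), ∀ x ∈ Icc 0 L, φ t x * V t x = Bi t x) ∧
      (∀ t ∈ Ioo (0 : ℝ) (1 / 4), ∀ x ∈ Icc 0 L,
        D 0 t x = D 0 t 0 + x * p t + Dint (V t) x) := by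
  intro n hn
  refine V_step hB hc0 (convex_Ioo _ _) isOpen_Ioo
    (Ioo_subset_Ioo le_rfl (by norm_num)) hE hn hBc hBs hBL ?_ htay
  intro t ht x hx
  rw [heq t ht x hx]
  refine J310.Kint_congr hx (fun y hy => ?_)
  rw [dt_eq_of_hasDerivAt (hDd 0 t ht y hy)]

end Crest.Agent.R213.C
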