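import Crest.Agent.R213.B.SpaceBoot_Mg
import Crest.Agent.R213.C.VStep_Mg
import Crest.Agent.R213.C.LinEstMain_Mg
import Crest.Agent.R213.C.Chain
import Crest.Agent.R213.C.AlgDiv
import Crest.Agent.R213.C.LinEst
import Crest.Agent.R213.C.EnReal
import Crest.Agent.R213.Defs
import Crest.Agent.R213.C.Intp
import Crest.Agent.R213.C.C8Defs
import Crest.Agent.R213.C.ChainApp
import Crest.Agent.R213.J0K
import Crest.Agent.R213.C.CDefs
import Crest.Agent.R213.C.Leib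
import Crest.Agent.R213.C.Level
import Crest.Agent.R213.C.C8Base_Mg

-- ▼ part R213/B/Reg
section

/-!
# Row 213, part B complete: `reg` (statement of `Iface.reg` with the additional hypothesis `0 < c0`)
-/

set_option autoImplicit false

open Set MeasureTheory Filter Topology
open scoped RealInnerProductSpace ContDiff

noncomputable section

namespace Crest.Agent.R213

theorem reg {c0 C0 : ℝ} {g : ℝ → ℝ} {L : ℝ} {φ m : ℝ → ℝ → ℝ} (hc0 : 0 < c0)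
    (hB : Bg c0 C0 g L φ m)
    {κ : ℝ} {E ht b δ : ℝ → ℝ → ℝ} (hE : Sm (Ioo 0 1) L E) (hh : Sm (Ioo 0 1) L ht)
    (hbm : Measurable (fun p : ℝ × ℝ => b p.1 p.2))
    (hdm : Measurable (fun p : ℝ × ℝ => δ p.1 p.2))
    (hb : N2 L (Wt κ) b < ⊤) (hd : N2 L (Wt' κ) δ < ⊤)
    (h1 : ∃ u : ℕ → ℝ → ℝ → ℝ, (∀ k, Tst L (u k)) ∧
          Tendsto (fun k => N2 L (Wt κ) (fun τ x => φ τ x * dx L (dx L (u k)) τ x - b τ x))
            atTop (𝓝 0) ∧
          Tendsto (fun k => N2 L (Wt' κ) (fun τ x => u k τ x - δ τ x)) atTop (𝓝 0))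
    (h2 : ∀ ψ, Tst L ψ →
          II L (fun τ x => x ^ 9 * (dt ψ τ x * δ τ x + φ τ x * dx L (dx L ψ) τ x * b τ x)) =
            II L (fun τ x => x ^ 9 * (E τ x * ψ τ x +
              (φ τ x * ht τ x) * φ τ x * dx L (dx L ψ) τ x))) :
    ∃ δ' : ℝ → ℝ → ℝ, Sm (Ioo 0 1) L δ' ∧
      (∀ᵐ p : ℝ × ℝ, p ∈ (Ioo (0 : ℝ) 1 ×ˢ Ioo (0 : ℝ) L) →
        δ' p.1 p.2 = δ p.1 p.2 ∧ φ p.1 p.2 * dx L (dx L δ') p.1 p.2 = b p.1 p.2) ∧
      ∀ τ ∈ Ioo (0 : ℝ) 1, ∀ x ∈ Icc 0 L,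
        x ^ 9 * (φ τ x ^ 2 * dx L (dx L δ') τ x - φ τ x ^ 2 * ht τ x) =
          Kint (fun ξ => E τ ξ + dt δ' τ ξ) x :=
  reg_of_boot B.bootStmt hc0 hB hE hh hbm hdm hb hd h1 h2

end Crest.Agent.R213
end
end

-- ▼ part R213/C/Limit
section

/-!
# Row 213, part C, C9+C10: `limit_solution` (helper924; from `limit_time`, `hV_of` (helper465) and
`limit_core` (helper283))
-/

set_option autoImplicit false

open Set MeasureTheory Filter Topology

noncomputable section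

namespace Crest.Agent.R213.C

variable {c0 C0 κ : ℝ} {g : ℝ → ℝ}

/-- [C9+C10: `limit_solution`] -/
theorem limit_solution {L : ℝ} {φ m : ℝ → ℝ → ℝ} (hB : Bg c0 C0 g L φ m) (hg : Prof c0 C0 g)
    (_hκ : κ ∈ Ioo (1 / 8 : ℝ) (1 / 4)) {η : ℝ → ℝ} (hη : EtaOK η) {E : ℝ → ℝ → ℝ}
    (hE : Sm (Ioo 0 1) L E)
    {d : ℕ → ℝ → ℝ → ℝ} (hI : Iter κ L φ E η d)
    (hJ : ∀ (J : ℕ) (τ1 : ℝ), 0 < τ1 → ∃ M : ℝ, ∀ i, ∀ τ ∈ Ioo τ1 (3 / 8), ∀ x ∈ Icc 0 L,
      |(dt^[J] (d i)) τ x| ≤ M) :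
    ∃ δ : ℝ → ℝ → ℝ, Sm (Ioo 0 (1 / 4)) L δ ∧
        (∀ τ ∈ Ioo (0 : ℝ) (1 / 4), ∀ x ∈ Icc 0 L, |φ τ x * dx L (dx L δ) τ x| ≤ 1 / 2) ∧
        (∀ τ ∈ Ioo (0 : ℝ) (1 / 4), ∀ x ∈ Icc 0 L,
          x ^ 9 * φ τ x * (φ τ x * dx L (dx L δ) τ x / (1 + φ τ x * dx L (dx L δ) τ x)) =
            Kint (fun ξ => E τ ξ + dt δ τ ξ) x) ∧
        Tendsto (fun τ => √τ * dt δ τ 0) (𝓝[>] 0) (𝓝 0) := by
  have hL : 0 < L := by linarith [hB.L_ge]
  obtain ⟨D, B, h⟩ := limit_time hB hg hη hE hI hJ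
  have hBs : ∀ t ∈ Ioo (0 : ℝ) (1 / 4), ∀ x ∈ Icc 0 L, |B t x| ≤ 1 / 4 := fun t ht x hx =>
    (h.small t ht x hx).trans (by norm_num)
  exact limit_core hL h.cont h.deriv hBs h.eqn h.lim
    (hV_of hB hg.c0_pos hE h.deriv h.contB hBs h.BL h.eqn h.tay)

end Crest.Agent.R213.C
end
end

-- ▼ part R213/C/Main
section

/-!
# Row 213, part C: assembly of `pde_main`

From the linear solver (`LinSolv`), the energy estimates (`EnergyLevels`) and the bounds of all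
time derivatives (`AllLevels`).
-/

set_option autoImplicit false

open Set MeasureTheory Filter Topology

noncomputable section

namespace Crest.Agent.R213.C

/-- the statement of C8, for the cut-off `eta` -/
def AllLevels (c0 C0 κ : ℝ) (g : ℝ → ℝ) : Prop :=
  ∀ (L : ℝ) (φ m E : ℝ → ℝ → ℝ), Bg c0 C0 g L φ m → Sm (Ioo 0 1) L E →
    (∀ τ ∈ Ioo (0 : ℝ) 1, ∀ x ∈ Icc (0 : ℝ) 1, E τ x = 0) →
    ∀ d : ℕ → ℝ → ℝ → ℝ, Iter κ L φ E eta d →
    ∀ (J : ℕ) (τ1 : ℝ), 0 < τ1 → ∃ M : ℝ, ∀ i, ∀ τ ∈ Ioo τ1 (3 / 8), ∀ x ∈ Icc 0 L,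
      |(dt^[J] (d i)) τ x| ≤ M

/-- the conclusion of `pde_main` -/
def PdeConcl (c0 C0 : ℝ) (g : ℝ → ℝ) : Prop :=
    ∃ (L1 : ℝ) (P : ℕ), ∀ L ≥ L1, ∀ φ m : ℝ → ℝ → ℝ, Bg c0 C0 g L φ m →
      ∀ E : ℝ → ℝ → ℝ, Sm (Ioo 0 1) L E →
        (∀ τ ∈ Ioo (0 : ℝ) 1, ∀ x ∈ Icc 0 1, E τ x = 0) →
        (∀ j ≤ 9, ∀ τ ∈ Ioo (0 : ℝ) 1, ∀ x ∈ Icc 0 L, |(dt^[j] E) τ x| ≤ L ^ (-(P : ℝ))) →
      ∃ δ : ℝ → ℝ → ℝ, Sm (Ioo 0 (1 / 4)) L δ ∧
        (∀ τ ∈ Ioo (0 : ℝ) (1 / 4), ∀ x ∈ Icc 0 L, |φ τ x * dx L (dx L δ) τ x| ≤ 1 / 2) ∧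
        (∀ τ ∈ Ioo (0 : ℝ) (1 / 4), ∀ x ∈ Icc 0 L,
          x ^ 9 * φ τ x * (φ τ x * dx L (dx L δ) τ x / (1 + φ τ x * dx L (dx L δ) τ x)) =
            Kint (fun ξ => E τ ξ + dt δ τ ξ) x) ∧
        Tendsto (fun τ => √τ * dt δ τ 0) (𝓝[>] 0) (𝓝 0)

theorem pde_main_core {c0 C0 κ : ℝ} {g : ℝ → ℝ} (hg : Prof c0 C0 g)
    (hκ : κ ∈ Ioo (1 / 8 : ℝ) (1 / 4)) (hEL : EnergyLevels c0 C0 κ g)
    (hAL : AllLevels c0 C0 κ g) {L1 C1 : ℝ} (hlin : LinSolv c0 C0 g κ L1 C1) :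
    PdeConcl c0 C0 g := by
  have hPC : PointwiseChain c0 C0 g := App.pointwise_chain_of chainThm hg
  obtain ⟨L2, C, q, h8, hC, h⟩ := lin_est_of hg hκ hEL hPC hlin
  obtain ⟨C', q', hC', h'⟩ := alg_nl hκ eta_ok
  obtain ⟨L3, P, h83, hI⟩ := iteration_of (q := q) (q' := q') h h' eta_ok hC hC'
    (fun L N N' u v hL hu hv => NB.add0 hL hu hv)
  refine ⟨L3, P, fun L hL φ m hB E hE hE0 hEe => ?_⟩
  obtain ⟨d, hd⟩ := hI L hL φ m hB E hE hE0 hEe
  exact limit_solution hB hg hκ eta_ok hE hd (hAL L φ m E hB hE hE0 d hd)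

end Crest.Agent.R213.C
end
end

-- ▼ part R213/C/EnergyMain
section

/-!
# Row 213, part C1+C2: `EnergyLevels`
-/

set_option autoImplicit false

open Set MeasureTheory Filter Topology

noncomputable section

namespace Crest.Agent.R213.C

theorem energyLevels {c0 C0 κ : ℝ} {g : ℝ → ℝ} (hg : Prof c0 C0 g)
    (hκ : κ ∈ Ioo (1 / 8 : ℝ) (1 / 4)) : EnergyLevels c0 C0 κ g := by
  have h0 : 0 ≤ κ := by linarith [hκ.1]
  obtain ⟨C, q, hC, h⟩ := EN.one_level_real (C0 := C0) (g := g) hg.c0_pos h0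
  exact EN.energyLevels_of_real hC h

end Crest.Agent.R213.C
end
end

-- ▼ part R213/C/KintBd
section

/-!
# Row 213, part C, block C4b: bounds for `Kint F` at a fixed time (helper337)

`ρ = x² + τ`, `0 < τ`.  All constants explicit, natural exponents, no loss in `L`.
-/

set_option autoImplicit false

open Set MeasureTheory Filter Topology intervalIntegral

noncomputable section

namespace Crest.Agent.R213.C

/-- weighted Cauchy–Schwarz on an interval. -/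
theorem cs_weighted {a b M K : ℝ} (hab : a ≤ b) {w f g : ℝ → ℝ}
    (hw : ∀ x ∈ Icc a b, 0 ≤ w x)
    (h1 : IntervalIntegrable (fun x => w x * f x ^ 2) volume a b)
    (h2 : IntervalIntegrable (fun x => w x * g x ^ 2) volume a b)
    (h3 : IntervalIntegrable (fun x => w x * |f x * g x|) volume a b)
    (hM : 0 ≤ M) (hK : 0 ≤ K) (hfM : ∫ x in a..b, w x * f x ^ 2 ≤ M ^ 2)
    (hgK : ∫ x in a..b, w x * g x ^ 2 ≤ K ^ 2) :
    ∫ x in a..b, w x * |f x * g x| ≤ M * K := by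
  have key : ∀ ε : ℝ, 0 < ε → ∫ x in a..b, w x * |f x * g x| ≤ (M + ε) * (K + ε) := by
    intro ε hε
    set t : ℝ := (K + ε) / (M + ε) with ht
    have hMe : 0 < M + ε := by linarith
    have hKe : 0 < K + ε := by linarith
    have ht0 : 0 < t := div_pos hKe hMe
    have hle : ∫ x in a..b, w x * |f x * g x| ≤
        ∫ x in a..b, (t / 2 * (w x * f x ^ 2) + 1 / (2 * t) * (w x * g x ^ 2)) := by
      apply intervalIntegral.integral_mono_on hab h3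
      · exact (h1.const_mul _).add (h2.const_mul _)
      · intro x hx
        have hwx := hw x hx
        have h4 : |f x * g x| ≤ t / 2 * f x ^ 2 + 1 / (2 * t) * g x ^ 2 := by
          rw [abs_mul]
          have h5 : 0 ≤ (t * |f x| - |g x|) ^ 2 := sq_nonneg _
          have h6 : |f x| ^ 2 = f x ^ 2 := sq_abs _
          have h7 : |g x| ^ 2 = g x ^ 2 := sq_abs _
          have h8 : t / 2 * f x ^ 2 + 1 / (2 * t) * g x ^ 2 - |f x| * |g x|
              = (t * |f x| - |g x|) ^ 2 / (2 * t) := by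
            rw [← h6, ← h7]
            field_simp
            ring
          have h9 : 0 ≤ (t * |f x| - |g x|) ^ 2 / (2 * t) := by positivity
          linarith
        calc w x * |f x * g x| ≤ w x * (t / 2 * f x ^ 2 + 1 / (2 * t) * g x ^ 2) :=
              mul_le_mul_of_nonneg_left h4 hwx
          _ = t / 2 * (w x * f x ^ 2) + 1 / (2 * t) * (w x * g x ^ 2) := by ring
    have hsplit : ∫ x in a..b, (t / 2 * (w x * f x ^ 2) + 1 / (2 * t) * (w x * g x ^ 2))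
        = t / 2 * (∫ x in a..b, w x * f x ^ 2) + 1 / (2 * t) * ∫ x in a..b, w x * g x ^ 2 := by
      rw [intervalIntegral.integral_add (h1.const_mul _) (h2.const_mul _),
        intervalIntegral.integral_const_mul, intervalIntegral.integral_const_mul]
    have hA : t / 2 * (∫ x in a..b, w x * f x ^ 2) ≤ t / 2 * (M + ε) ^ 2 := by
      apply mul_le_mul_of_nonneg_left _ (by positivity)
      nlinarith
    have hB : 1 / (2 * t) * (∫ x in a..b, w x * g x ^ 2) ≤ 1 / (2 * t) * (K + ε) ^ 2 := by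
      apply mul_le_mul_of_nonneg_left _ (by positivity)
      nlinarith
    have hfin : t / 2 * (M + ε) ^ 2 + 1 / (2 * t) * (K + ε) ^ 2 = (M + ε) * (K + ε) := by
      rw [ht]; field_simp; ring
    linarith
  have hlim : Tendsto (fun ε : ℝ => (M + ε) * (K + ε)) (𝓝[>] 0) (𝓝 ((M + 0) * (K + 0))) := by
    apply tendsto_nhdsWithin_of_tendsto_nhds
    have : Continuous (fun ε : ℝ => (M + ε) * (K + ε)) := by fun_prop
    exact this.tendsto 0
  have := ge_of_tendsto hlim (by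
    filter_upwards [self_mem_nhdsWithin] with ε hε using key ε hε)
  simpa using this

/-- pointwise triangle inequality for `Kint`. -/
theorem abs_Kint_le {F : ℝ → ℝ} {L x : ℝ} (hF : ContinuousOn F (Icc 0 L)) (hx : x ∈ Icc 0 L) :
    |Kint F x| ≤ x * ∫ s in (0 : ℝ)..x, s ^ 9 * |F s| := by
  have hx0 := hx.1
  have hFx : ContinuousOn F (Icc 0 x) := hF.mono (Icc_subset_Icc_right hx.2)
  unfold Kint
  calc |∫ ξ in (0 : ℝ)..x, (x - ξ) * ξ ^ 9 * F ξ|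
      ≤ ∫ ξ in (0 : ℝ)..x, |(x - ξ) * ξ ^ 9 * F ξ| := abs_integral_le_integral_abs hx0
    _ ≤ ∫ ξ in (0 : ℝ)..x, x * (ξ ^ 9 * |F ξ|) := by
        apply intervalIntegral.integral_mono_on hx0
        · apply ContinuousOn.intervalIntegrable
          rw [uIcc_of_le hx0]
          fun_prop
        · apply ContinuousOn.intervalIntegrable
          rw [uIcc_of_le hx0]
          fun_prop
        · intro ξ hξ
          rw [abs_mul, abs_mul, abs_of_nonneg (sub_nonneg.2 hξ.2), abs_of_nonneg (pow_nonneg hξ.1 9)]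
          have h1 : x - ξ ≤ x := by linarith [hξ.1]
          have h2 : 0 ≤ ξ ^ 9 * |F ξ| := mul_nonneg (pow_nonneg hξ.1 9) (abs_nonneg _)
          nlinarith
    _ = x * ∫ s in (0 : ℝ)..x, s ^ 9 * |F s| := intervalIntegral.integral_const_mul _ _

/-- `Kint` from the right end when both moments vanish. -/
theorem Kint_eq_right {F : ℝ → ℝ} {L x : ℝ} (hF : ContinuousOn F (Icc 0 L)) (hx : x ∈ Icc 0 L)
    (h0 : ∫ s in (0 : ℝ)..L, s ^ 9 * F s = 0) (h1 : ∫ s in (0 : ℝ)..L, s ^ 10 * F s = 0) :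
    Kint F x = ∫ s in x..L, (s - x) * s ^ 9 * F s := by
  have hL : 0 ≤ L := hx.1.trans hx.2
  have hi : ∀ a b : ℝ, a ∈ Icc 0 L → b ∈ Icc 0 L →
      IntervalIntegrable (fun s => (x - s) * s ^ 9 * F s) volume a b := by
    intro a b ha hb
    apply ContinuousOn.intervalIntegrable
    have : uIcc a b ⊆ Icc 0 L := by
      rw [uIcc]
      intro y hy
      exact ⟨le_trans (le_min ha.1 hb.1) hy.1, le_trans hy.2 (max_le ha.2 hb.2)⟩
    have hF' := hF.mono this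
    fun_prop
  have hi9 : IntervalIntegrable (fun s => s ^ 9 * F s) volume 0 L := by
    apply ContinuousOn.intervalIntegrable
    rw [uIcc_of_le hL]; fun_prop
  have hi10 : IntervalIntegrable (fun s => s ^ 10 * F s) volume 0 L := by
    apply ContinuousOn.intervalIntegrable
    rw [uIcc_of_le hL]; fun_prop
  have hz : ∫ s in (0 : ℝ)..L, (x - s) * s ^ 9 * F s = 0 := by
    have : ∀ s : ℝ, (x - s) * s ^ 9 * F s = x * (s ^ 9 * F s) - s ^ 10 * F s := by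
      intro s; ring
    simp_rw [this]
    rw [intervalIntegral.integral_sub (hi9.const_mul _) hi10, intervalIntegral.integral_const_mul,
      h0, h1]
    simp
  have hadd := intervalIntegral.integral_add_adjacent_intervals
    (hi 0 x ⟨le_refl _, hL⟩ hx) (hi x L hx ⟨hL, le_refl _⟩)
  unfold Kint
  have : ∫ s in x..L, (s - x) * s ^ 9 * F s = - ∫ s in x..L, (x - s) * s ^ 9 * F s := by
    rw [← intervalIntegral.integral_neg]
    congr 1; ext s; ring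
  rw [this]; linarith

/-- bound from the right end. -/
theorem abs_Kint_le_right {F : ℝ → ℝ} {L x : ℝ} (hF : ContinuousOn F (Icc 0 L))
    (hx : x ∈ Icc 0 L)
    (h0 : ∫ s in (0 : ℝ)..L, s ^ 9 * F s = 0) (h1 : ∫ s in (0 : ℝ)..L, s ^ 10 * F s = 0) :
    |Kint F x| ≤ (L - x) * ∫ s in x..L, s ^ 9 * |F s| := by
  rw [Kint_eq_right hF hx h0 h1]
  have hFx : ContinuousOn F (Icc x L) := hF.mono (Icc_subset_Icc_left hx.1)
  calc |∫ ξ in x..L, (ξ - x) * ξ ^ 9 * F ξ|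
      ≤ ∫ ξ in x..L, |(ξ - x) * ξ ^ 9 * F ξ| := abs_integral_le_integral_abs hx.2
    _ ≤ ∫ ξ in x..L, (L - x) * (ξ ^ 9 * |F ξ|) := by
        apply intervalIntegral.integral_mono_on hx.2
        · apply ContinuousOn.intervalIntegrable
          rw [uIcc_of_le hx.2]
          fun_prop
        · apply ContinuousOn.intervalIntegrable
          rw [uIcc_of_le hx.2]
          fun_prop
        · intro ξ hξ
          have hξ0 : 0 ≤ ξ := hx.1.trans hξ.1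
          rw [abs_mul, abs_mul, abs_of_nonneg (sub_nonneg.2 hξ.1), abs_of_nonneg (pow_nonneg hξ0 9)]
          have h1 : ξ - x ≤ L - x := by linarith [hξ.2]
          have h2 : 0 ≤ ξ ^ 9 * |F ξ| := mul_nonneg (pow_nonneg hξ0 9) (abs_nonneg _)
          nlinarith
    _ = (L - x) * ∫ s in x..L, s ^ 9 * |F s| := intervalIntegral.integral_const_mul _ _

/-- **(KB)** `Kint` bound from a mass bound valid up to `L`, with one factor `1 - x/L`. -/
theorem Kint_bd {F : ℝ → ℝ} {L τ A : ℝ} {m e : ℕ} (hL : 0 < L) (hτ : 0 ≤ τ) (hA : 0 ≤ A)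
    (hF : ContinuousOn F (Icc 0 L))
    (h0 : ∫ s in (0 : ℝ)..L, s ^ 9 * F s = 0) (h1 : ∫ s in (0 : ℝ)..L, s ^ 10 * F s = 0)
    (hm : ∀ x ∈ Icc 0 L, ∫ s in (0 : ℝ)..x, s ^ 9 * |F s| ≤ A * x ^ m * (x ^ 2 + τ) ^ e)
    {x : ℝ} (hx : x ∈ Icc 0 L) :
    |Kint F x| ≤ 2 ^ (m + 1) * 4 ^ e * A * x ^ (m + 1) * (x ^ 2 + τ) ^ e * (1 - x / L) := by
  have hx0 := hx.1
  have hρ : 0 ≤ x ^ 2 + τ := by positivity
  have hxL : x / L ≤ 1 := by rw [div_le_one hL]; exact hx.2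
  rcases le_total x (L / 2) with hx2 | hx2
  · have hhalf : (1 : ℝ) / 2 ≤ 1 - x / L := by
      have : x / L ≤ 1 / 2 := by rw [div_le_iff₀ hL]; linarith
      linarith
    have h3 := abs_Kint_le hF hx
    have h4 := hm x hx
    have h5 : |Kint F x| ≤ x * (A * x ^ m * (x ^ 2 + τ) ^ e) :=
      h3.trans (mul_le_mul_of_nonneg_left h4 hx0)
    have hX : 0 ≤ A * x ^ (m + 1) * (x ^ 2 + τ) ^ e := by positivity
    have h6 : (1 : ℝ) ≤ 4 ^ e := one_le_pow₀ (by norm_num)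
    have h7 : (2 : ℝ) ≤ 2 ^ (m + 1) := by
      calc (2 : ℝ) = 2 ^ 1 := by norm_num
        _ ≤ 2 ^ (m + 1) := pow_le_pow_right₀ (by norm_num) (by omega)
    have h8 : (1 : ℝ) ≤ 2 ^ (m + 1) * 4 ^ e * (1 - x / L) := by
      have : (1 : ℝ) = 2 * 1 * (1 / 2) := by norm_num
      calc (1 : ℝ) = 2 * 1 * (1 / 2) := by norm_num
        _ ≤ 2 ^ (m + 1) * 4 ^ e * (1 - x / L) := by gcongr
    calc |Kint F x| ≤ x * (A * x ^ m * (x ^ 2 + τ) ^ e) := h5
      _ = 1 * (A * x ^ (m + 1) * (x ^ 2 + τ) ^ e) := by ring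
      _ ≤ (2 ^ (m + 1) * 4 ^ e * (1 - x / L)) * (A * x ^ (m + 1) * (x ^ 2 + τ) ^ e) :=
          mul_le_mul_of_nonneg_right h8 hX
      _ = _ := by ring
  · have hLx : L ≤ 2 * x := by linarith
    have h3 := abs_Kint_le_right hF hx h0 h1
    have hLL : L ∈ Icc 0 L := ⟨hL.le, le_rfl⟩
    have hi : ∀ a b : ℝ, a ∈ Icc 0 L → b ∈ Icc 0 L →
        IntervalIntegrable (fun s => s ^ 9 * |F s|) volume a b := by
      intro a b ha hb
      apply ContinuousOn.intervalIntegrable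
      have : uIcc a b ⊆ Icc 0 L := by
        rw [uIcc]
        intro y hy
        exact ⟨le_trans (le_min ha.1 hb.1) hy.1, le_trans hy.2 (max_le ha.2 hb.2)⟩
      have hF' := hF.mono this
      fun_prop
    have h4 : ∫ s in x..L, s ^ 9 * |F s| ≤ ∫ s in (0 : ℝ)..L, s ^ 9 * |F s| := by
      rw [← intervalIntegral.integral_add_adjacent_intervals
        (hi 0 x ⟨le_refl _, hL.le⟩ hx) (hi x L hx hLL)]
      have : 0 ≤ ∫ s in (0 : ℝ)..x, s ^ 9 * |F s| :=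
        intervalIntegral.integral_nonneg hx0 (fun s hs => mul_nonneg (pow_nonneg hs.1 9) (abs_nonneg _))
      linarith
    have h5 := hm L hLL
    have hLm : L ^ m ≤ (2 * x) ^ m := pow_le_pow_left₀ hL.le hLx m
    have hLe : (L ^ 2 + τ) ^ e ≤ (4 * (x ^ 2 + τ)) ^ e := by
      apply pow_le_pow_left₀ (by positivity)
      nlinarith
    have h6 : ∫ s in x..L, s ^ 9 * |F s| ≤ A * (2 * x) ^ m * (4 * (x ^ 2 + τ)) ^ e := by
      refine (h4.trans h5).trans ?_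
      gcongr
    have h7 : L - x = L * (1 - x / L) := by field_simp
    have h1x : 0 ≤ 1 - x / L := by linarith
    calc |Kint F x| ≤ (L - x) * ∫ s in x..L, s ^ 9 * |F s| := h3
      _ ≤ (L - x) * (A * (2 * x) ^ m * (4 * (x ^ 2 + τ)) ^ e) :=
          mul_le_mul_of_nonneg_left h6 (by linarith [hx.2])
      _ = L * ((1 - x / L) * (A * (2 * x) ^ m * (4 * (x ^ 2 + τ)) ^ e)) := by rw [h7]; ring
      _ ≤ (2 * x) * ((1 - x / L) * (A * (2 * x) ^ m * (4 * (x ^ 2 + τ)) ^ e)) :=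
          mul_le_mul_of_nonneg_right hLx (by positivity)
      _ = _ := by rw [mul_pow, mul_pow]; ring

/-- **(I2)** mass bound from the weighted `L²` bound. -/
theorem mass_of_L2 {D : ℝ → ℝ} {L τ M : ℝ} {e : ℕ} (hτ : 0 < τ) (hM : 0 ≤ M)
    (hD : ContinuousOn D (Icc 0 L))
    (hm : ∫ s in (0 : ℝ)..L, s ^ 9 * D s ^ 2 / (s ^ 2 + τ) ^ (2 * e) ≤ M ^ 2)
    {x : ℝ} (hx : x ∈ Icc 0 L) :
    ∫ s in (0 : ℝ)..x, s ^ 9 * |D s| ≤ M * x ^ 5 * (x ^ 2 + τ) ^ e := by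
  have hx0 := hx.1
  have hρ : ∀ s : ℝ, 0 < s ^ 2 + τ := fun s => by positivity
  have hρe : ∀ s : ℝ, (s ^ 2 + τ) ^ e ≠ 0 := fun s => (pow_pos (hρ s) e).ne'
  have hDx : ContinuousOn D (Icc 0 x) := hD.mono (Icc_subset_Icc_right hx.2)
  have hcρ : Continuous (fun s : ℝ => (s ^ 2 + τ) ^ e) := by fun_prop
  have hc1 : ∀ y ∈ Icc 0 L, ContinuousOn (fun s => s ^ 9 * (D s / (s ^ 2 + τ) ^ e) ^ 2) (Icc 0 y) := by
    intro y hy
    have hDy : ContinuousOn D (Icc 0 y) := hD.mono (Icc_subset_Icc_right hy.2)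
    have : ContinuousOn (fun s => D s / (s ^ 2 + τ) ^ e) (Icc 0 y) :=
      hDy.div hcρ.continuousOn (fun s _ => hρe s)
    fun_prop
  have e1 : ∀ s : ℝ, s ^ 9 * (D s / (s ^ 2 + τ) ^ e) ^ 2 = s ^ 9 * D s ^ 2 / (s ^ 2 + τ) ^ (2 * e) := by
    intro s
    rw [div_pow, ← pow_mul, mul_comm e 2, mul_div_assoc]
  have e2 : ∀ s : ℝ, s ^ 9 * |D s| = s ^ 9 * |D s / (s ^ 2 + τ) ^ e * (s ^ 2 + τ) ^ e| := by
    intro s
    rw [div_mul_cancel₀ _ (hρe s)]
  have hLL : L ∈ Icc 0 L := ⟨hx0.trans hx.2, le_rfl⟩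
  have hmono : ∫ s in (0 : ℝ)..x, s ^ 9 * (D s / (s ^ 2 + τ) ^ e) ^ 2 ≤ M ^ 2 := by
    refine le_trans ?_ hm
    simp_rw [← e1]
    apply intervalIntegral.integral_mono_interval le_rfl hx0 hx.2
    · refine (ae_restrict_mem measurableSet_Ioc).mono ?_
      intro s hs
      exact mul_nonneg (pow_nonneg hs.1.le 9) (sq_nonneg _)
    · apply ContinuousOn.intervalIntegrable
      rw [uIcc_of_le hLL.1]
      exact hc1 L hLL
  have hK : ∫ s in (0 : ℝ)..x, s ^ 9 * ((s ^ 2 + τ) ^ e) ^ 2 ≤ (x ^ 5 * (x ^ 2 + τ) ^ e) ^ 2 := by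
    calc ∫ s in (0 : ℝ)..x, s ^ 9 * ((s ^ 2 + τ) ^ e) ^ 2
        ≤ ∫ s in (0 : ℝ)..x, x ^ 9 * ((x ^ 2 + τ) ^ e) ^ 2 := by
          apply intervalIntegral.integral_mono_on hx0
          · apply Continuous.intervalIntegrable; fun_prop
          · exact intervalIntegrable_const
          · intro s hs
            have h1 : s ^ 9 ≤ x ^ 9 := pow_le_pow_left₀ hs.1 hs.2 9
            have h2 : s ^ 2 + τ ≤ x ^ 2 + τ := by
              have := pow_le_pow_left₀ hs.1 hs.2 2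
              linarith
            have h3 : (s ^ 2 + τ) ^ e ≤ (x ^ 2 + τ) ^ e := pow_le_pow_left₀ (hρ s).le h2 e
            have h4 : ((s ^ 2 + τ) ^ e) ^ 2 ≤ ((x ^ 2 + τ) ^ e) ^ 2 :=
              pow_le_pow_left₀ (pow_nonneg (hρ s).le e) h3 2
            exact mul_le_mul h1 h4 (by positivity) (pow_nonneg hx0 9)
      _ = (x ^ 5 * (x ^ 2 + τ) ^ e) ^ 2 := by
          rw [intervalIntegral.integral_const, smul_eq_mul]; ring
  have := cs_weighted (a := 0) (b := x) (M := M) (K := x ^ 5 * (x ^ 2 + τ) ^ e) hx0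
    (w := fun s => s ^ 9) (f := fun s => D s / (s ^ 2 + τ) ^ e) (g := fun s => (s ^ 2 + τ) ^ e)
    (fun s hs => pow_nonneg hs.1 9) ?_ ?_ ?_ hM (by have := hρ x; positivity) hmono hK
  · simp_rw [e2]
    rw [mul_assoc]
    exact this
  · apply ContinuousOn.intervalIntegrable
    rw [uIcc_of_le hx0]
    exact hc1 x hx
  · apply Continuous.intervalIntegrable
    fun_prop
  · apply ContinuousOn.intervalIntegrable
    rw [uIcc_of_le hx0]
    simp_rw [← e2]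
    fun_prop

/-- **(Ia)** mass bound from a pointwise bound. -/
theorem mass_of_pt {D : ℝ → ℝ} {L τ N : ℝ} {a e : ℕ} (ha : a ≤ 9) (hτ : 0 ≤ τ) (hN : 0 ≤ N)
    (hD : ContinuousOn D (Icc 0 L))
    (hb : ∀ s ∈ Ioo 0 L, |D s| * s ^ a ≤ N * (s ^ 2 + τ) ^ e)
    {x : ℝ} (hx : x ∈ Icc 0 L) :
    ∫ s in (0 : ℝ)..x, s ^ 9 * |D s| ≤ N * x ^ (10 - a) * (x ^ 2 + τ) ^ e := by
  have hx0 := hx.1
  have hDx : ContinuousOn D (Icc 0 x) := hD.mono (Icc_subset_Icc_right hx.2)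
  calc ∫ s in (0 : ℝ)..x, s ^ 9 * |D s|
      ≤ ∫ s in (0 : ℝ)..x, x ^ (9 - a) * (N * (x ^ 2 + τ) ^ e) := by
        apply intervalIntegral.integral_mono_on_of_le_Ioo hx0
        · apply ContinuousOn.intervalIntegrable
          rw [uIcc_of_le hx0]
          fun_prop
        · exact intervalIntegrable_const
        · intro s hs
          have hsL : s ∈ Ioo 0 L := ⟨hs.1, hs.2.trans_le hx.2⟩
          have h1 := hb s hsL
          have h2 : s ^ 2 + τ ≤ x ^ 2 + τ := by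
            have := pow_le_pow_left₀ hs.1.le hs.2.le 2
            linarith
          have h0 : 0 ≤ s ^ 2 + τ := by positivity
          have h3 : (s ^ 2 + τ) ^ e ≤ (x ^ 2 + τ) ^ e := pow_le_pow_left₀ h0 h2 e
          have h4 : |D s| * s ^ a ≤ N * (x ^ 2 + τ) ^ e :=
            h1.trans (mul_le_mul_of_nonneg_left h3 hN)
          have h5 : s ^ (9 - a) ≤ x ^ (9 - a) := pow_le_pow_left₀ hs.1.le hs.2.le _
          have h6 : s ^ 9 = s ^ (9 - a) * s ^ a := by rw [← pow_add]; congr 1; omega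
          calc s ^ 9 * |D s| = s ^ (9 - a) * (|D s| * s ^ a) := by rw [h6]; ring
            _ ≤ x ^ (9 - a) * (N * (x ^ 2 + τ) ^ e) :=
              mul_le_mul h5 h4 (mul_nonneg (abs_nonneg _) (pow_nonneg hs.1.le _))
                (pow_nonneg hx0 _)
    _ = N * x ^ (10 - a) * (x ^ 2 + τ) ^ e := by
        rw [intervalIntegral.integral_const, smul_eq_mul]
        have : 10 - a = (9 - a) + 1 := by omega
        rw [this, pow_succ]; ring

end Crest.Agent.R213.C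
end
end

-- ▼ part R213/C/PassD
section

/-!
# Row 213, part C, block C4b: pass lemmas at a fixed time (helper337)

`ρ = x² + τ`, `r = max x √τ`.
* `Kint_bd_L2`, `Kint_bd_pt` : bounds of `Kint (E + D)`;
* `pass_D` : `|D| ≤ K M ρ^p / r⁵ + K N ρ^e / x^k` from `|D''| s^{k+2} (1 - s/L) ≤ N ρ^e`, `k ≥ 1`;
* `pass_D0` : the same with `|D''| s (1 - s/L) ≤ N ρ^e` and conclusion `… + K N ρ^e r`;
* `rmax_*` : comparison of `r` with `ρ`.
-/

set_option autoImplicit false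

open Set MeasureTheory Filter Topology intervalIntegral

noncomputable section

namespace Crest.Agent.R213.C


theorem mass_add_le {E D : ℝ → ℝ} {L : ℝ} (hE : ContinuousOn E (Icc 0 L))
    (hD : ContinuousOn D (Icc 0 L)) {x : ℝ} (hx : x ∈ Icc 0 L) :
    ∫ s in (0 : ℝ)..x, s ^ 9 * |E s + D s| ≤
      (∫ s in (0 : ℝ)..x, s ^ 9 * |E s|) + ∫ s in (0 : ℝ)..x, s ^ 9 * |D s| := by
  have hx0 := hx.1
  have hEx : ContinuousOn E (Icc 0 x) := hE.mono (Icc_subset_Icc_right hx.2)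
  have hDx : ContinuousOn D (Icc 0 x) := hD.mono (Icc_subset_Icc_right hx.2)
  have i1 : IntervalIntegrable (fun s => s ^ 9 * |E s|) volume 0 x := by
    apply ContinuousOn.intervalIntegrable
    rw [uIcc_of_le hx0]; fun_prop
  have i2 : IntervalIntegrable (fun s => s ^ 9 * |D s|) volume 0 x := by
    apply ContinuousOn.intervalIntegrable
    rw [uIcc_of_le hx0]; fun_prop
  rw [← intervalIntegral.integral_add i1 i2]
  apply intervalIntegral.integral_mono_on hx0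
  · apply ContinuousOn.intervalIntegrable
    rw [uIcc_of_le hx0]; fun_prop
  · exact i1.add i2
  · intro s hs
    have := abs_add_le (E s) (D s)
    have h9 : 0 ≤ s ^ 9 := pow_nonneg hs.1 9
    nlinarith



/-! ### the moments vanish -/


end Crest.Agent.R213.C
end
end

-- ▼ part R213/C/C8Pass
section

/-!
# Row 213, part C8: one pass at level `j` (`pass4`, `pass2`, `pass0`) (helper337)
-/

set_option autoImplicit false

open Set MeasureTheory Filter Topology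

noncomputable section

namespace Crest.Agent.R213.C8

open Crest.Agent.R213 Crest.Agent.R213.C Crest.Agent.R213.C.App

variable {c0 C0 κ L : ℝ} {g : ℝ → ℝ} {φ m E : ℝ → ℝ → ℝ}

theorem dtIter_sub {s : Set ℝ} {u v : ℝ → ℝ → ℝ} {t x : ℝ} (hs : IsOpen s) (hu : Sm s L u)
    (hv : Sm s L v) (ht : t ∈ s) (hx : x ∈ Icc 0 L) (j : ℕ) :
    (dt^[j] (fun t x => u t x - v t x)) t x = (dt^[j] u) t x - (dt^[j] v) t x := by
  simp only [dtIter_eq]
  exact iteratedDeriv_fun_sub (contDiffAt_left hs hu ht hx j) (contDiffAt_left hs hv ht hx j)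

/-- sup bound of a smooth function on a compact strip. -/
theorem exists_sup {u : ℝ → ℝ → ℝ} (hu : Sm (Ioo 0 1) L u) {a b : ℝ} (ha : 0 < a)
    (hb : b < 1 / 2) : ∃ C : ℝ, 0 ≤ C ∧ ∀ τ ∈ Icc a b, ∀ x ∈ Icc 0 L, |u τ x| ≤ C := by
  have hc : ContinuousOn (fun p : ℝ × ℝ => u p.1 p.2) (Icc a b ×ˢ Icc 0 L) :=
    hu.continuousOn.mono (prod_mono (fun t ht => ⟨ha.trans_le ht.1, by linarith [ht.2]⟩)
      (subset_refl _))
  obtain ⟨C, hC⟩ := (isCompact_Icc.prod isCompact_Icc).exists_bound_of_continuousOn hc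
  refine ⟨max C 0, le_max_right _ _, fun τ hτ x hx => ?_⟩
  have := hC (τ, x) ⟨hτ, hx⟩
  exact (le_of_eq (Real.norm_eq_abs _).symm).trans (this.trans (le_max_left _ _))

/-- The core: mass bound `A x^{m'}` of the source, `m' + e = 9`. -/
theorem pass_core (hB : Bg c0 C0 g L φ m) (hg : Prof c0 C0 g) (hE : Sm (Ioo 0 1) L E)
    {ht δ : ℕ → ℝ → ℝ → ℝ} (hsm : ∀ i, Sm (Ioo 0 1) L (ht i)) (hδ : ∀ i, Sm (Ioo 0 1) L (δ i))
    (heq : ∀ i, LinEq L φ E (ht i) (δ i)) (j : ℕ) {e n : ℕ} (hn : n + e = 9)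
    (hlow : ∀ l < j, UB L e (fun i => dt^[l] (bb L φ (δ i))) ∧
      UB L e (fun i => dt^[l] (fun τ x => φ τ x * ht i τ x)))
    (hmass : ∀ a b : ℝ, 0 < a → a < b → b < 1 / 2 → ∃ A : ℝ, 0 ≤ A ∧ ∀ i, ∀ τ ∈ Icc a b,
      ∀ x ∈ Icc 0 L, ∫ s in (0 : ℝ)..x, s ^ 9 * |(dt^[j] E) τ s + (dt^[j + 1] (δ i)) τ s| ≤
        A * x ^ n) :
    UB L e (fun i => fun τ x => (dt^[j] (bb L φ (δ i))) τ x -
      (dt^[j] (fun τ x => φ τ x * ht i τ x)) τ x) := by
  intro a b ha hab hb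
  have hL := Bg.Lpos hB
  have hc0 := hg.c0_pos
  obtain ⟨A, hA0, hA⟩ := hmass a b ha hab hb
  -- bounds of the derivatives of m
  have hmk : ∀ k, ∃ C : ℝ, 0 ≤ C ∧ ∀ τ ∈ Icc a b, ∀ x ∈ Icc 0 L, |(dt^[k] m) τ x| ≤ C :=
    fun k => exists_sup (hB.sm.dt_iter isOpen_Ioo hL k) ha hb
  choose Cm hCm0 hCm using hmk
  -- lower levels
  have hlo : ∀ l, ∃ C : ℝ, 0 ≤ C ∧ (l < j → ∀ i, ∀ τ ∈ Icc a b, ∀ x ∈ Ioo 0 L,
      |(dt^[l] (bb L φ (δ i))) τ x - (dt^[l] (fun τ x => φ τ x * ht i τ x)) τ x| * x ^ e ≤ C) := by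
    intro l
    by_cases hl : l < j
    · obtain ⟨C1, hC1⟩ := (hlow l hl).1 a b ha hab hb
      obtain ⟨C2, hC2⟩ := (hlow l hl).2 a b ha hab hb
      refine ⟨max (C1 + C2) 0, le_max_right _ _, fun _ i τ hτ x hx => ?_⟩
      have h1 := hC1 i τ hτ x hx
      have h2 := hC2 i τ hτ x hx
      have hxe : 0 ≤ x ^ e := pow_nonneg hx.1.le e
      have h3 := abs_sub (( dt^[l] (bb L φ (δ i))) τ x)
        ((dt^[l] (fun τ x => φ τ x * ht i τ x)) τ x)
      refine le_trans ?_ (le_max_left _ _)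
      calc _ ≤ (|(dt^[l] (bb L φ (δ i))) τ x| +
            |(dt^[l] (fun τ x => φ τ x * ht i τ x)) τ x|) * x ^ e :=
            mul_le_mul_of_nonneg_right h3 hxe
        _ ≤ C1 + C2 := by rw [add_mul]; exact add_le_add h1 h2
    · exact ⟨0, le_rfl, fun h => absurd h hl⟩
  choose Cl hCl0 hCl using hlo
  refine ⟨(1 / c0) * (2 ^ (n + 1) * A + ∑ l ∈ Finset.range j, (j.choose l : ℝ) * Cm (j - l) * Cl l),
    fun i τ hτ x hx => ?_⟩
  have hτ1 : τ ∈ Ioo (0 : ℝ) 1 := ⟨ha.trans_le hτ.1, by linarith [hτ.2]⟩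
  have hxI : x ∈ Icc 0 L := Ioo_subset_Icc_self hx
  have hx0 : 0 < x := hx.1
  have hq := qf_pos hL hx
  have hφs := Bg.sm_phi hB
  have hbbs : Sm (Ioo 0 1) L (bb L φ (δ i)) :=
    hφs.mul (((hδ i).dx isOpen_Ioo hL).dx isOpen_Ioo hL)
  have hhs : Sm (Ioo 0 1) L (fun τ x => φ τ x * ht i τ x) := hφs.mul (hsm i)
  set Dd : ℝ → ℝ → ℝ := fun τ x => bb L φ (δ i) τ x - φ τ x * ht i τ x with hDd
  have hDds : Sm (Ioo 0 1) L Dd := hbbs.sub hhs
  have hDdl : ∀ l, (dt^[l] Dd) τ x = (dt^[l] (bb L φ (δ i))) τ x -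
      (dt^[l] (fun τ x => φ τ x * ht i τ x)) τ x :=
    fun l => dtIter_sub isOpen_Ioo hbbs hhs hτ1 hxI l
  -- Z = qf * (m * Dd)
  have hZ : (dt^[j] (Zf L φ (ht i) (δ i))) τ x =
      qf L x * (dt^[j] (fun t x => m t x * Dd t x)) τ x := by
    rw [← dtIter_left_mul (fun x => qf L x)]
    refine dtIter_congr_at isOpen_Ioo (fun r hr => ?_) hτ1 j
    simp only [Zf, hDd, bb, Bg.phi_eq' hB hr hxI]
    ring
  have hLeib := dtIter_mul' isOpen_Ioo hB.sm hDds hτ1 hxI j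
  rw [Finset.sum_range_succ] at hLeib
  simp only [Nat.choose_self, Nat.cast_one, one_mul, Nat.sub_self, Function.iterate_zero,
    id_eq] at hLeib
  -- the Kint bound
  have hrel := Z_rel hB hE (hsm i) (hδ i) (heq i) j τ hτ1 x hxI
  obtain ⟨mo9, mo10⟩ := moments hB hE (hsm i) (hδ i) (heq i) j hτ1
  have hK := Kint_bd (F := fun ξ => (dt^[j] E) τ ξ + (dt^[j + 1] (δ i)) τ ξ) (L := L) (τ := 0)
    (A := A) (m := n) (e := 0) hL le_rfl hA0 (contF hB hE (hδ i) j hτ1) mo9 mo10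
    (fun y hy => by simpa using hA i τ hτ y hy) hxI
  rw [← hrel] at hK
  simp only [pow_zero, mul_one] at hK
  -- combine
  set S : ℝ := ∑ l ∈ Finset.range j, (j.choose l : ℝ) * (dt^[j - l] m) τ x * (dt^[l] Dd) τ x with hS
  have hmain : x ^ 9 * qf L x * (m τ x * (dt^[j] Dd) τ x) =
      x ^ 9 * (dt^[j] (Zf L φ (ht i) (δ i))) τ x - x ^ 9 * qf L x * S := by
    rw [hZ, hLeib]; ring
  have hSb : |S| * x ^ e ≤ ∑ l ∈ Finset.range j, (j.choose l : ℝ) * Cm (j - l) * Cl l := by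
    calc |S| * x ^ e ≤ (∑ l ∈ Finset.range j,
          |(j.choose l : ℝ) * (dt^[j - l] m) τ x * (dt^[l] Dd) τ x|) * x ^ e :=
          mul_le_mul_of_nonneg_right (Finset.abs_sum_le_sum_abs _ _) (pow_nonneg hx0.le e)
      _ = ∑ l ∈ Finset.range j,
          |(j.choose l : ℝ) * (dt^[j - l] m) τ x * (dt^[l] Dd) τ x| * x ^ e := by
          rw [Finset.sum_mul]
      _ ≤ _ := by
          refine Finset.sum_le_sum (fun l hl => ?_)
          have hl' : l < j := Finset.mem_range.1 hl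
          have e1 := hCm (j - l) τ hτ x hxI
          have e2 := hCl l hl' i τ hτ x hx
          rw [← hDdl l] at e2
          rw [abs_mul, abs_mul, abs_of_nonneg (by positivity : (0 : ℝ) ≤ (j.choose l : ℝ))]
          calc (j.choose l : ℝ) * |(dt^[j - l] m) τ x| * |(dt^[l] Dd) τ x| * x ^ e
              = (j.choose l : ℝ) * (|(dt^[j - l] m) τ x| * (|(dt^[l] Dd) τ x| * x ^ e)) := by ring
            _ ≤ (j.choose l : ℝ) * (Cm (j - l) * Cl l) := by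
                apply mul_le_mul_of_nonneg_left _ (by positivity)
                exact mul_le_mul e1 e2 (mul_nonneg (abs_nonneg _) (pow_nonneg hx0.le e)) (hCm0 _)
            _ = _ := by ring
  have hm0 : c0 ≤ m τ x := hB.lower τ hτ1 x hxI
  have hmpos : 0 < m τ x := hc0.trans_le hm0
  have hpos9 : 0 < x ^ 9 * qf L x := mul_pos (pow_pos hx0 9) hq
  have hxe : 0 ≤ x ^ e := pow_nonneg hx0.le e
  have hfin : (x ^ 9 * qf L x) * (c0 * (|(dt^[j] Dd) τ x| * x ^ e)) ≤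
      (x ^ 9 * qf L x) * (2 ^ (n + 1) * A +
        ∑ l ∈ Finset.range j, (j.choose l : ℝ) * Cm (j - l) * Cl l) := by
    have g1 : (x ^ 9 * qf L x) * (m τ x * |(dt^[j] Dd) τ x|) ≤
        |x ^ 9 * (dt^[j] (Zf L φ (ht i) (δ i))) τ x| + (x ^ 9 * qf L x) * |S| := by
      have e1 : (x ^ 9 * qf L x) * (m τ x * |(dt^[j] Dd) τ x|) =
          |x ^ 9 * qf L x * (m τ x * (dt^[j] Dd) τ x)| := by
        rw [abs_mul, abs_mul (m τ x), abs_of_pos hpos9, abs_of_pos hmpos]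
      rw [e1, hmain]
      refine (abs_sub _ _).trans ?_
      rw [abs_mul (x ^ 9 * qf L x), abs_of_pos hpos9]
    have g2 : |x ^ 9 * (dt^[j] (Zf L φ (ht i) (δ i))) τ x| * x ^ e ≤
        (x ^ 9 * qf L x) * (2 ^ (n + 1) * A) := by
      have e2 : x ^ (n + 1) * x ^ e = x ^ 10 := by rw [← pow_add]; congr 1; omega
      calc _ ≤ (2 ^ (n + 1) * A * x ^ (n + 1) * (1 - x / L)) * x ^ e :=
            mul_le_mul_of_nonneg_right hK hxe
        _ = 2 ^ (n + 1) * A * (x ^ (n + 1) * x ^ e) * (1 - x / L) := by ring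
        _ = (x ^ 9 * qf L x) * (2 ^ (n + 1) * A) := by rw [e2]; unfold qf; ring
    have g3 : (x ^ 9 * qf L x) * (m τ x * |(dt^[j] Dd) τ x|) * x ^ e ≤
        (x ^ 9 * qf L x) * (2 ^ (n + 1) * A) + (x ^ 9 * qf L x) * (|S| * x ^ e) := by
      calc _ ≤ (|x ^ 9 * (dt^[j] (Zf L φ (ht i) (δ i))) τ x| + (x ^ 9 * qf L x) * |S|) * x ^ e :=
            mul_le_mul_of_nonneg_right g1 hxe
        _ = |x ^ 9 * (dt^[j] (Zf L φ (ht i) (δ i))) τ x| * x ^ e +
            (x ^ 9 * qf L x) * (|S| * x ^ e) := by ring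
        _ ≤ _ := by linarith
    have g4 : (x ^ 9 * qf L x) * (c0 * (|(dt^[j] Dd) τ x| * x ^ e)) ≤
        (x ^ 9 * qf L x) * (m τ x * |(dt^[j] Dd) τ x|) * x ^ e := by
      have : c0 * (|(dt^[j] Dd) τ x| * x ^ e) ≤ m τ x * (|(dt^[j] Dd) τ x| * x ^ e) :=
        mul_le_mul_of_nonneg_right hm0 (mul_nonneg (abs_nonneg _) hxe)
      calc _ ≤ (x ^ 9 * qf L x) * (m τ x * (|(dt^[j] Dd) τ x| * x ^ e)) :=
            mul_le_mul_of_nonneg_left this hpos9.le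
        _ = _ := by ring
    calc _ ≤ _ := g4
      _ ≤ _ := g3
      _ = (x ^ 9 * qf L x) * (2 ^ (n + 1) * A + |S| * x ^ e) := by ring
      _ ≤ _ := by
          apply mul_le_mul_of_nonneg_left _ hpos9.le
          linarith
  have hfin2 := le_of_mul_le_mul_left hfin hpos9
  simp only
  rw [← hDdl j]
  rw [one_div, inv_mul_eq_div, le_div_iff₀ hc0]
  linarith

/-- mass of `E_j`. -/
theorem mass_E (hB : Bg c0 C0 g L φ m) (hE : Sm (Ioo 0 1) L E) (j : ℕ) {a b : ℝ} (ha : 0 < a)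
    (hb : b < 1 / 2) : ∃ C : ℝ, 0 ≤ C ∧ ∀ τ ∈ Icc a b, ∀ x ∈ Icc 0 L,
      ∫ s in (0 : ℝ)..x, s ^ 9 * |(dt^[j] E) τ s| ≤ C * x ^ 10 := by
  have hL := Bg.Lpos hB
  obtain ⟨C, hC0, hC⟩ := exists_sup (hE.dt_iter isOpen_Ioo hL j) ha hb
  refine ⟨C, hC0, fun τ hτ x hx => ?_⟩
  have hτ1 : τ ∈ Ioo (0 : ℝ) 1 := ⟨ha.trans_le hτ.1, by linarith [hτ.2]⟩
  have := mass_of_pt (D := fun s => (dt^[j] E) τ s) (L := L) (τ := 0) (N := C) (a := 0) (e := 0)
    (by norm_num) le_rfl hC0 ((hE.dt_iter isOpen_Ioo hL j).continuousOn_right hτ1)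
    (fun s hs => by simpa using hC τ hτ s (Ioo_subset_Icc_self hs)) hx
  simpa using this

theorem pow_le_of {x : ℝ} (hx : x ∈ Icc 0 L) (n : ℕ) (hn : n ≤ 10) :
    x ^ 10 ≤ L ^ (10 - n) * x ^ n := by
  have h1 : x ^ 10 = x ^ (10 - n) * x ^ n := by rw [← pow_add]; congr 1; omega
  rw [h1]
  exact mul_le_mul_of_nonneg_right (pow_le_pow_left₀ hx.1 hx.2 _) (pow_nonneg hx.1 n)

theorem pass4 (hB : Bg c0 C0 g L φ m) (hg : Prof c0 C0 g) (hE : Sm (Ioo 0 1) L E)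
    {ht δ : ℕ → ℝ → ℝ → ℝ} (hsm : ∀ i, Sm (Ioo 0 1) L (ht i)) (hδ : ∀ i, Sm (Ioo 0 1) L (δ i))
    (heq : ∀ i, LinEq L φ E (ht i) (δ i)) (j : ℕ)
    (hlow : ∀ l < j, UB L 4 (fun i => dt^[l] (bb L φ (δ i))) ∧
      UB L 4 (fun i => dt^[l] (fun τ x => φ τ x * ht i τ x)))
    (hsrc : USup L (fun i => dt^[j + 1] (δ i))) :
    UB L 4 (fun i => fun τ x => (dt^[j] (bb L φ (δ i))) τ x -
      (dt^[j] (fun τ x => φ τ x * ht i τ x)) τ x) := by
  refine pass_core hB hg hE hsm hδ heq j (n := 5) (by norm_num) hlow ?_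
  intro a b ha hab hb
  have hL := Bg.Lpos hB
  obtain ⟨CE, hCE0, hCE⟩ := mass_E hB hE j ha hb
  obtain ⟨C, hC⟩ := hsrc a b ha hab hb
  refine ⟨CE * L ^ 5 + √(max C 0), by positivity, fun i τ hτ x hx => ?_⟩
  have hτ1 : τ ∈ Ioo (0 : ℝ) 1 := ⟨ha.trans_le hτ.1, by linarith [hτ.2]⟩
  have c1 := (hE.dt_iter isOpen_Ioo hL j).continuousOn_right hτ1
  have c2 := ((hδ i).dt_iter isOpen_Ioo hL (j + 1)).continuousOn_right hτ1
  have h1 := mass_add_le c1 c2 hx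
  have h2 := hCE τ hτ x hx
  have h3 := mass_of_L2 (D := fun s => (dt^[j + 1] (δ i)) τ s) (L := L) (τ := 1)
    (M := √(max C 0)) (e := 0) one_pos (Real.sqrt_nonneg _) c2 (by
      rw [Real.sq_sqrt (le_max_right _ _)]
      have := hC i τ hτ
      unfold nsq at this
      simpa using Or.inl this) hx
  simp only [pow_zero, mul_one] at h3
  have h4 := pow_le_of hx 5 (by norm_num)
  have h5 : CE * x ^ 10 ≤ CE * L ^ 5 * x ^ 5 := by
    calc CE * x ^ 10 ≤ CE * (L ^ (10 - 5) * x ^ 5) := mul_le_mul_of_nonneg_left h4 hCE0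
      _ = _ := by norm_num; ring
  calc _ ≤ _ := h1
    _ ≤ CE * L ^ 5 * x ^ 5 + √(max C 0) * x ^ 5 := by linarith
    _ = _ := by ring

theorem pass_pt (hB : Bg c0 C0 g L φ m) (hg : Prof c0 C0 g) (hE : Sm (Ioo 0 1) L E)
    {ht δ : ℕ → ℝ → ℝ → ℝ} (hsm : ∀ i, Sm (Ioo 0 1) L (ht i)) (hδ : ∀ i, Sm (Ioo 0 1) L (δ i))
    (heq : ∀ i, LinEq L φ E (ht i) (δ i)) (j : ℕ) {e a0 n : ℕ} (ha0 : a0 ≤ 9) (hna : n = 10 - a0)
    (hn : n + e = 9)
    (hlow : ∀ l < j, UB L e (fun i => dt^[l] (bb L φ (δ i))) ∧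
      UB L e (fun i => dt^[l] (fun τ x => φ τ x * ht i τ x)))
    (hsrc : UB L a0 (fun i => dt^[j + 1] (δ i))) :
    UB L e (fun i => fun τ x => (dt^[j] (bb L φ (δ i))) τ x -
      (dt^[j] (fun τ x => φ τ x * ht i τ x)) τ x) := by
  refine pass_core hB hg hE hsm hδ heq j hn hlow ?_
  intro a b ha hab hb
  have hL := Bg.Lpos hB
  obtain ⟨CE, hCE0, hCE⟩ := mass_E hB hE j ha hb
  obtain ⟨C, hC⟩ := hsrc a b ha hab hb
  refine ⟨CE * L ^ (10 - n) + max C 0, by positivity, fun i τ hτ x hx => ?_⟩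
  have hτ1 : τ ∈ Ioo (0 : ℝ) 1 := ⟨ha.trans_le hτ.1, by linarith [hτ.2]⟩
  have c1 := (hE.dt_iter isOpen_Ioo hL j).continuousOn_right hτ1
  have c2 := ((hδ i).dt_iter isOpen_Ioo hL (j + 1)).continuousOn_right hτ1
  have h1 := mass_add_le c1 c2 hx
  have h2 := hCE τ hτ x hx
  have h3 := mass_of_pt (D := fun s => (dt^[j + 1] (δ i)) τ s) (L := L) (τ := 0)
    (N := max C 0) (a := a0) (e := 0) ha0 le_rfl (le_max_right _ _) c2 (fun s hs => by
      simpa using Or.inl (hC i τ hτ s hs)) hx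
  rw [← hna] at h3
  simp only [pow_zero, mul_one] at h3
  have h4 := pow_le_of hx n (by omega)
  have h5 : CE * x ^ 10 ≤ CE * L ^ (10 - n) * x ^ n := by
    calc CE * x ^ 10 ≤ CE * (L ^ (10 - n) * x ^ n) := mul_le_mul_of_nonneg_left h4 hCE0
      _ = _ := by ring
  calc _ ≤ _ := h1
    _ ≤ CE * L ^ (10 - n) * x ^ n + max C 0 * x ^ n := by linarith
    _ = _ := by ring

theorem pass2 (hB : Bg c0 C0 g L φ m) (hg : Prof c0 C0 g) (hE : Sm (Ioo 0 1) L E)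
    {ht δ : ℕ → ℝ → ℝ → ℝ} (hsm : ∀ i, Sm (Ioo 0 1) L (ht i)) (hδ : ∀ i, Sm (Ioo 0 1) L (δ i))
    (heq : ∀ i, LinEq L φ E (ht i) (δ i)) (j : ℕ)
    (hlow : ∀ l < j, UB L 2 (fun i => dt^[l] (bb L φ (δ i))) ∧
      UB L 2 (fun i => dt^[l] (fun τ x => φ τ x * ht i τ x)))
    (hsrc : UB L 3 (fun i => dt^[j + 1] (δ i))) :
    UB L 2 (fun i => fun τ x => (dt^[j] (bb L φ (δ i))) τ x -
      (dt^[j] (fun τ x => φ τ x * ht i τ x)) τ x) :=
  pass_pt hB hg hE hsm hδ heq j (a0 := 3) (n := 7) (by norm_num) (by norm_num) (by norm_num)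
    hlow hsrc

theorem pass0 (hB : Bg c0 C0 g L φ m) (hg : Prof c0 C0 g) (hE : Sm (Ioo 0 1) L E)
    {ht δ : ℕ → ℝ → ℝ → ℝ} (hsm : ∀ i, Sm (Ioo 0 1) L (ht i)) (hδ : ∀ i, Sm (Ioo 0 1) L (δ i))
    (heq : ∀ i, LinEq L φ E (ht i) (δ i)) (j : ℕ)
    (hlow : ∀ l < j, UB L 0 (fun i => dt^[l] (bb L φ (δ i))) ∧
      UB L 0 (fun i => dt^[l] (fun τ x => φ τ x * ht i τ x)))
    (hsrc : UB L 1 (fun i => dt^[j + 1] (δ i))) :
    UB L 0 (fun i => fun τ x => (dt^[j] (bb L φ (δ i))) τ x -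
      (dt^[j] (fun τ x => φ τ x * ht i τ x)) τ x) :=
  pass_pt hB hg hE hsm hδ heq j (a0 := 1) (n := 9) (by norm_num) (by norm_num) (by norm_num)
    hlow hsrc

end Crest.Agent.R213.C8
end
end

-- ▼ part R213/C/Recover
section

/-!
# Row 213, part C8: `recover` (bounds of `∂_τ^j δ` from the bounds of the levels of `b`)
-/

set_option autoImplicit false

open Set MeasureTheory Filter Topology

noncomputable section

namespace Crest.Agent.R213.C8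

open Crest.Agent.R213 Crest.Agent.R213.C Crest.Agent.R213.C.App

/-! ### one variable -/

/-- Taylor's formula with integral remainder on `(0,L)` -/
theorem taylor2 {L : ℝ} {v v1 v2 : ℝ → ℝ} (h1 : ∀ s ∈ Ioo 0 L, HasDerivAt v (v1 s) s)
    (h2 : ∀ s ∈ Ioo 0 L, HasDerivAt v1 (v2 s) s) (hc : ContinuousOn v2 (Ioo 0 L))
    {x ξ : ℝ} (hx : x ∈ Ioo 0 L) (hξ : ξ ∈ Ioo 0 L) :
    v x = v ξ + v1 ξ * (x - ξ) + ∫ s in ξ..x, (x - s) * v2 s := by
  have hsub : uIcc ξ x ⊆ Ioo 0 L := ordConnected_Ioo.uIcc_subset hξ hx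
  have e : ∫ s in ξ..x, (x - s) * v2 s = (v x + (x - x) * v1 x) - (v ξ + (x - ξ) * v1 ξ) := by
    refine intervalIntegral.integral_eq_sub_of_hasDerivAt
      (f := fun s => v s + (x - s) * v1 s) (fun s hs => ?_) ?_
    · have := (h1 s (hsub hs)).add (((hasDerivAt_id s).const_sub x).mul (h2 s (hsub hs)))
      refine this.congr_deriv ?_
      simp only [id]
      ring
    · exact ((continuousOn_const.sub continuousOn_id).mul (hc.mono hsub)).intervalIntegrable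
  rw [e]
  ring

theorem int_inv_sq_le {x ξ : ℝ} (hx : 0 < x) (hxξ : x ≤ ξ) :
    x * ∫ s in x..ξ, (s ^ 2)⁻¹ ≤ 1 := by
  have e : ∫ s in x..ξ, (s ^ 2)⁻¹ = (-ξ⁻¹) - (-x⁻¹) := by
    refine intervalIntegral.integral_eq_sub_of_hasDerivAt (f := fun s => -s⁻¹) (fun s hs => ?_) ?_
    · rw [uIcc_of_le hxξ] at hs
      have hs0 : s ≠ 0 := (lt_of_lt_of_le hx hs.1).ne'
      have := (hasDerivAt_inv hs0).neg
      refine this.congr_deriv ?_
      rw [neg_neg]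
    · refine ContinuousOn.intervalIntegrable fun s hs => ?_
      rw [uIcc_of_le hxξ] at hs
      have hs0 : s ≠ 0 := (lt_of_lt_of_le hx hs.1).ne'
      exact ((continuousAt_id.pow 2).inv₀ (pow_ne_zero 2 hs0)).continuousWithinAt
  rw [e]
  have hξ : 0 < ξ⁻¹ := inv_pos.2 (hx.trans_le hxξ)
  have h1 : x * x⁻¹ = 1 := mul_inv_cancel₀ hx.ne'
  nlinarith [mul_pos hx hξ]

/-- a point with small value, from the weighted `L²` norm -/
theorem exists_pt {L S a b : ℝ} (hL : 0 < L) {v : ℝ → ℝ} (hv : ContinuousOn v (Icc 0 L))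
    (hS : ∫ x in (0 : ℝ)..L, x ^ 9 * v x ^ 2 ≤ S) (ha : L / 4 ≤ a) (hab : b - a = L / 12)
    (hb : b ≤ L / 2) : ∃ y ∈ Icc a b, v y ^ 2 ≤ 12 / L * ((4 / L) ^ 9 * S) := by
  have hab' : a < b := by linarith [div_pos hL (by norm_num : (0 : ℝ) < 12)]
  have ha0 : 0 ≤ a := by linarith [div_pos hL (by norm_num : (0 : ℝ) < 4)]
  have hbL : b ≤ L := by linarith
  have hsub : Icc a b ⊆ Icc 0 L := Icc_subset_Icc ha0 hbL
  obtain ⟨y, hy, hm⟩ := exists_le_mean (v := fun x => v x ^ 2) hab' ((hv.mono hsub).pow 2)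
  refine ⟨y, hy, ?_⟩
  have e0 : |v y ^ 2| = v y ^ 2 := abs_of_nonneg (sq_nonneg _)
  have e1 : ∫ s in a..b, |v s ^ 2| ≤ (4 / L) ^ 9 * S := by
    have h1 : ∫ s in a..b, |v s ^ 2| ≤ ∫ s in a..b, (4 / L) ^ 9 * (s ^ 9 * v s ^ 2) := by
      refine intervalIntegral.integral_mono_on hab'.le
        (ContinuousOn.intervalIntegrable (by
          rw [uIcc_of_le hab'.le]; exact ((hv.mono hsub).pow 2).abs))
        (ContinuousOn.intervalIntegrable (by
          rw [uIcc_of_le hab'.le]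
          exact continuousOn_const.mul ((continuousOn_pow 9).mul ((hv.mono hsub).pow 2))))
        fun s hs => ?_
      rw [abs_of_nonneg (sq_nonneg _)]
      have h2 : 1 ≤ (4 / L) ^ 9 * s ^ 9 := by
        rw [← mul_pow]
        refine one_le_pow₀ ?_
        rw [div_mul_eq_mul_div, le_div_iff₀ hL]
        linarith [hs.1]
      nlinarith [sq_nonneg (v s)]
    rw [intervalIntegral.integral_const_mul] at h1
    have h3 : ∫ s in a..b, s ^ 9 * v s ^ 2 ≤ ∫ x in (0 : ℝ)..L, x ^ 9 * v x ^ 2 := by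
      refine intervalIntegral.integral_mono_interval ha0 hab'.le hbL ?_
        (ContinuousOn.intervalIntegrable (by
          rw [uIcc_of_le hL.le]; exact (continuousOn_pow 9).mul (hv.pow 2)))
      filter_upwards [ae_restrict_mem measurableSet_Ioc] with t ht
      exact mul_nonneg (pow_nonneg ht.1.le 9) (sq_nonneg _)
    exact h1.trans (mul_le_mul_of_nonneg_left (h3.trans hS) (by positivity))
  rw [e0, hab] at hm
  refine hm.trans ?_
  have e2 : 1 / (L / 12) = 12 / L := by field_simp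
  rw [e2]
  exact mul_le_mul_of_nonneg_left e1 (by positivity)

theorem left_bd {x ξ : ℝ} (hx : 0 < x) (hxξ : x ≤ ξ) {e : ℕ} (he : e = 4 ∨ e = 2 ∨ e = 0) :
    x ^ (e - 1) * ∫ s in x..ξ, (s ^ e)⁻¹ ≤ (ξ - x) + 1 := by
  have h1 := int_inv_sq_le hx hxξ
  have h0 : 0 ≤ ξ - x := sub_nonneg.2 hxξ
  have hci : ∀ n : ℕ, IntervalIntegrable (fun s : ℝ => (s ^ n)⁻¹) volume x ξ := fun n => by
    refine ContinuousOn.intervalIntegrable fun s hs => ?_
    rw [uIcc_of_le hxξ] at hs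
    have hs0 : s ≠ 0 := (lt_of_lt_of_le hx hs.1).ne'
    exact ((continuousAt_id.pow n).inv₀ (pow_ne_zero n hs0)).continuousWithinAt
  rcases he with rfl | rfl | rfl
  · have h2 : ∫ s in x..ξ, (s ^ 4)⁻¹ ≤ ∫ s in x..ξ, (x ^ 2)⁻¹ * (s ^ 2)⁻¹ := by
      refine intervalIntegral.integral_mono_on hxξ (hci 4) ((hci 2).const_mul _) fun s hs => ?_
      have hs0 : 0 < s := lt_of_lt_of_le hx hs.1
      have e1 : (s ^ 4)⁻¹ = (s ^ 2)⁻¹ * (s ^ 2)⁻¹ := by
        rw [← mul_inv, ← pow_add]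
      rw [e1]
      refine mul_le_mul_of_nonneg_right ?_ (by positivity)
      exact inv_anti₀ (by positivity) (pow_le_pow_left₀ hx.le hs.1 2)
    rw [intervalIntegral.integral_const_mul] at h2
    have h3 : x ^ (4 - 1) * ∫ s in x..ξ, (s ^ 4)⁻¹ ≤
        x ^ 3 * ((x ^ 2)⁻¹ * ∫ s in x..ξ, (s ^ 2)⁻¹) :=
      mul_le_mul_of_nonneg_left h2 (by positivity)
    have e2 : x ^ 3 * ((x ^ 2)⁻¹ * ∫ s in x..ξ, (s ^ 2)⁻¹) = x * ∫ s in x..ξ, (s ^ 2)⁻¹ := by
      field_simp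
    rw [e2] at h3
    linarith
  · have e1 : x ^ (2 - 1) = x := by norm_num
    rw [e1]
    linarith
  · simp

/-- `|v| x^{e-1} ≤ C` from `x(1-x/L)|v''| x^e ≤ K` and the weighted `L²` norm. -/
theorem interp_rec {L : ℝ} (hL : 0 < L) {e : ℕ} (he : e = 4 ∨ e = 2 ∨ e = 0) (K S : ℝ) :
    ∃ C : ℝ, ∀ v v1 v2 : ℝ → ℝ, ContinuousOn v (Icc 0 L) →
      (∀ s ∈ Ioo 0 L, HasDerivAt v (v1 s) s) → (∀ s ∈ Ioo 0 L, HasDerivAt v1 (v2 s) s) →
      ContinuousOn v2 (Ioo 0 L) → (∀ x ∈ Ioo 0 L, qf L x * |v2 x| * x ^ e ≤ K) →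
      ∫ x in (0 : ℝ)..L, x ^ 9 * v x ^ 2 ≤ S → ∀ x ∈ Ioo 0 L, |v x| * x ^ (e - 1) ≤ C := by
  set R : ℝ := √(12 / L * ((4 / L) ^ 9 * S)) with hR
  set B1 : ℝ := 2 * K * (L + 1) with hB1
  set K' : ℝ := L * K * (4 / L) ^ (e + 1) * L with hK'
  set V1 : ℝ := 24 * R / L with hV1
  set V0 : ℝ := R + V1 * L + B1 * (4 / L) ^ (e - 1) with hV0
  refine ⟨(V0 + V1 * L) * L ^ (e - 1) + B1 + K' * L ^ (e - 1), ?_⟩
  intro v v1 v2 hv h1 h2 hc hK hS x hx
  have hR0 : 0 ≤ R := Real.sqrt_nonneg _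
  have hV10 : 0 ≤ V1 := by positivity
  have hmid : L / 2 ∈ Ioo 0 L := ⟨by positivity, by linarith⟩
  have hK0 : 0 ≤ K := by
    refine le_trans ?_ (hK (L / 2) hmid)
    have := (qf_pos hL hmid).le
    have := abs_nonneg (v2 (L / 2))
    positivity
  have hB10 : 0 ≤ B1 := by positivity
  have hK'0 : 0 ≤ K' := by positivity
  -- reference points
  obtain ⟨y1, hy1, hm1⟩ := exists_pt (a := L / 4) (b := L / 3) hL hv hS le_rfl (by ring)
    (by linarith)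
  obtain ⟨y2, hy2, hm2⟩ := exists_pt (a := 5 * L / 12) (b := L / 2) hL hv hS (by linarith)
    (by ring) le_rfl
  have hv1 : |v y1| ≤ R := Real.abs_le_sqrt hm1
  have hv2 : |v y2| ≤ R := Real.abs_le_sqrt hm2
  have h12 : L / 12 ≤ y2 - y1 := by linarith [hy1.2, hy2.1]
  have hL12 : 0 < L / 12 := by positivity
  have hlt : y1 < y2 := by linarith
  have hy10 : 0 < y1 := by linarith [hy1.1, div_pos hL (by norm_num : (0 : ℝ) < 4)]
  have hy2L : y2 < L := by linarith [hy2.2]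
  obtain ⟨ξ, hξ, hsl⟩ := exists_hasDerivAt_eq_slope v v1 hlt
    (hv.mono (Icc_subset_Icc hy10.le hy2L.le))
    (fun s hs => h1 s ⟨hy10.trans hs.1, hs.2.trans hy2L⟩)
  have hξ0 : 0 < ξ := hy10.trans hξ.1
  have hξ4 : L / 4 ≤ ξ := hy1.1.trans hξ.1.le
  have hξ2 : ξ ≤ L / 2 := hξ.2.le.trans hy2.2
  have hξm : ξ ∈ Ioo 0 L := ⟨hξ0, by linarith⟩
  have hslope : |v1 ξ| ≤ V1 := by
    rw [hsl, abs_div, abs_of_pos (by linarith : 0 < y2 - y1), div_le_iff₀ (by linarith)]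
    have h3 : |v y2 - v y1| ≤ 2 * R := by
      have := abs_sub (v y2) (v y1)
      linarith
    have h4 : V1 * (L / 12) ≤ V1 * (y2 - y1) := mul_le_mul_of_nonneg_left h12 hV10
    have h5 : V1 * (L / 12) = 2 * R := by rw [hV1]; field_simp; ring
    linarith
  -- the remainder
  have hleft : ∀ z ∈ Ioo 0 L, z ≤ ξ → |∫ s in ξ..z, (z - s) * v2 s| * z ^ (e - 1) ≤ B1 := by
    intro z hz hzξ
    have hci : IntervalIntegrable (fun s : ℝ => 2 * K * (s ^ e)⁻¹) volume z ξ := by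
      refine ContinuousOn.intervalIntegrable fun s hs => ?_
      rw [uIcc_of_le hzξ] at hs
      have hs0 : s ≠ 0 := (lt_of_lt_of_le hz.1 hs.1).ne'
      exact (continuousAt_const.mul
        ((continuousAt_id.pow e).inv₀ (pow_ne_zero e hs0))).continuousWithinAt
    have h3 : |∫ s in ξ..z, (z - s) * v2 s| ≤ ∫ s in z..ξ, 2 * K * (s ^ e)⁻¹ := by
      rw [intervalIntegral.integral_symm, abs_neg, ← Real.norm_eq_abs]
      refine intervalIntegral.norm_integral_le_of_norm_le hzξ ?_ hci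
      refine Eventually.of_forall fun s hs => ?_
      have hs0 : 0 < s := hz.1.trans hs.1
      have hsL : s ∈ Ioo 0 L := ⟨hs0, by linarith [hs.2]⟩
      have h4 := hK s hsL
      have h5 : s / 2 ≤ qf L s := by
        unfold qf
        have : s / L ≤ 1 / 2 := by rw [div_le_iff₀ hL]; linarith [hs.2]
        nlinarith
      have h6 : s * |v2 s| * s ^ e ≤ 2 * K := by
        have : s / 2 * |v2 s| * s ^ e ≤ qf L s * |v2 s| * s ^ e := by
          have := abs_nonneg (v2 s)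
          gcongr
        linarith
      rw [Real.norm_eq_abs, abs_mul]
      have h7 : |z - s| ≤ s := by
        rw [abs_sub_comm, abs_of_nonneg (by linarith [hs.1])]
        linarith [hz.1]
      have h8 : |z - s| * |v2 s| ≤ s * |v2 s| := mul_le_mul_of_nonneg_right h7 (abs_nonneg _)
      refine h8.trans ?_
      rw [← div_eq_mul_inv, le_div_iff₀ (by positivity)]
      exact h6
    rw [intervalIntegral.integral_const_mul] at h3
    have h4 := left_bd hz.1 hzξ he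
    have hz0 : 0 ≤ z ^ (e - 1) := pow_nonneg hz.1.le _
    calc |∫ s in ξ..z, (z - s) * v2 s| * z ^ (e - 1)
        ≤ (2 * K * ∫ s in z..ξ, (s ^ e)⁻¹) * z ^ (e - 1) := mul_le_mul_of_nonneg_right h3 hz0
      _ = 2 * K * (z ^ (e - 1) * ∫ s in z..ξ, (s ^ e)⁻¹) := by ring
      _ ≤ 2 * K * ((ξ - z) + 1) := mul_le_mul_of_nonneg_left h4 (by positivity)
      _ ≤ B1 := mul_le_mul_of_nonneg_left (by linarith [hz.1]) (by positivity)
  have hright : ∀ z ∈ Ioo 0 L, ξ ≤ z → |∫ s in ξ..z, (z - s) * v2 s| ≤ K' := by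
    intro z hz hzξ
    have h3 : ∀ s ∈ uIoc ξ z, ‖(z - s) * v2 s‖ ≤ L * K * (4 / L) ^ (e + 1) := by
      intro s hs
      rw [uIoc_of_le hzξ] at hs
      have hs0 : 0 < s := hξ0.trans hs.1
      have hsL : s ∈ Ioo 0 L := ⟨hs0, lt_of_le_of_lt hs.2 hz.2⟩
      have h4 := hK s hsL
      have h5 : 1 ≤ (4 / L) ^ (e + 1) * s ^ (e + 1) := by
        rw [← mul_pow]
        refine one_le_pow₀ ?_
        rw [div_mul_eq_mul_div, le_div_iff₀ hL]
        linarith [hs.1]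
      have h6 : qf L s * |v2 s| * s ^ e * L = (L - s) * |v2 s| * s ^ (e + 1) := by
        unfold qf
        rw [pow_succ]
        field_simp
      have h7 : (L - s) * |v2 s| * s ^ (e + 1) ≤ L * K := by
        rw [← h6]; nlinarith
      have h8 : 0 ≤ (L - s) * |v2 s| := mul_nonneg (by linarith [hsL.2]) (abs_nonneg _)
      have h9 : (L - s) * |v2 s| ≤ L * K * (4 / L) ^ (e + 1) := by
        calc (L - s) * |v2 s| = (L - s) * |v2 s| * 1 := by ring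
          _ ≤ (L - s) * |v2 s| * ((4 / L) ^ (e + 1) * s ^ (e + 1)) :=
            mul_le_mul_of_nonneg_left h5 h8
          _ = ((L - s) * |v2 s| * s ^ (e + 1)) * (4 / L) ^ (e + 1) := by ring
          _ ≤ L * K * (4 / L) ^ (e + 1) := mul_le_mul_of_nonneg_right h7 (by positivity)
      rw [Real.norm_eq_abs, abs_mul, abs_of_nonneg (by linarith [hs.2] : 0 ≤ z - s)]
      exact (mul_le_mul_of_nonneg_right (by linarith [hz.2]) (abs_nonneg _)).trans h9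
    have h4 := intervalIntegral.norm_integral_le_of_norm_le_const h3
    rw [Real.norm_eq_abs] at h4
    refine h4.trans ?_
    refine mul_le_mul_of_nonneg_left ?_ (by positivity)
    rw [abs_of_nonneg (by linarith)]
    linarith [hz.2]
  -- value at `ξ`
  have hy1m : y1 ∈ Ioo 0 L := ⟨hy10, hlt.trans hy2L⟩
  have hvξ : |v ξ| ≤ V0 := by
    have h3 := taylor2 h1 h2 hc hy1m hξm
    have h4 := hleft y1 hy1m hξ.1.le
    have h5 : 1 ≤ y1 ^ (e - 1) * (4 / L) ^ (e - 1) := by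
      rw [← mul_pow]
      refine one_le_pow₀ ?_
      rw [mul_div_assoc', le_div_iff₀ hL]
      linarith [hy1.1]
    have h6 : |∫ s in ξ..y1, (y1 - s) * v2 s| ≤ B1 * (4 / L) ^ (e - 1) := by
      calc |∫ s in ξ..y1, (y1 - s) * v2 s| = |∫ s in ξ..y1, (y1 - s) * v2 s| * 1 := by ring
        _ ≤ |∫ s in ξ..y1, (y1 - s) * v2 s| * (y1 ^ (e - 1) * (4 / L) ^ (e - 1)) :=
          mul_le_mul_of_nonneg_left h5 (abs_nonneg _)
        _ = (|∫ s in ξ..y1, (y1 - s) * v2 s| * y1 ^ (e - 1)) * (4 / L) ^ (e - 1) := by ring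
        _ ≤ B1 * (4 / L) ^ (e - 1) := mul_le_mul_of_nonneg_right h4 (by positivity)
    have h7 : |v1 ξ * (y1 - ξ)| ≤ V1 * L := by
      rw [abs_mul]
      refine mul_le_mul hslope ?_ (abs_nonneg _) hV10
      rw [abs_le]
      constructor <;> linarith [hξ.1]
    have h8 : v ξ = v y1 - v1 ξ * (y1 - ξ) - ∫ s in ξ..y1, (y1 - s) * v2 s := by linarith
    rw [h8]
    refine (abs_sub _ _).trans ?_
    have := abs_sub (v y1) (v1 ξ * (y1 - ξ))
    linarith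
  have h3 := taylor2 h1 h2 hc hx hξm
  have h7 : |v1 ξ * (x - ξ)| ≤ V1 * L := by
    rw [abs_mul]
    refine mul_le_mul hslope ?_ (abs_nonneg _) hV10
    rw [abs_le]
    constructor <;> linarith [hx.1, hx.2]
  have hxe : x ^ (e - 1) ≤ L ^ (e - 1) := pow_le_pow_left₀ hx.1.le hx.2.le _
  have hx0 : 0 ≤ x ^ (e - 1) := pow_nonneg hx.1.le _
  have h9 : |∫ s in ξ..x, (x - s) * v2 s| * x ^ (e - 1) ≤ B1 + K' * L ^ (e - 1) := by
    rcases le_total x ξ with h | h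
    · have := hleft x hx h
      have : 0 ≤ K' * L ^ (e - 1) := by positivity
      linarith
    · have h10 := hright x hx h
      have h11 : |∫ s in ξ..x, (x - s) * v2 s| * x ^ (e - 1) ≤ K' * L ^ (e - 1) :=
        mul_le_mul h10 hxe hx0 hK'0
      linarith
  have hV00 : 0 ≤ V0 := (abs_nonneg _).trans hvξ
  have h10 : |v x| ≤ (V0 + V1 * L) + |∫ s in ξ..x, (x - s) * v2 s| := by
    rw [h3]
    refine (abs_add_le _ _).trans (add_le_add ((abs_add_le _ _).trans ?_) le_rfl)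
    linarith
  calc |v x| * x ^ (e - 1) ≤ ((V0 + V1 * L) + |∫ s in ξ..x, (x - s) * v2 s|) * x ^ (e - 1) :=
        mul_le_mul_of_nonneg_right h10 hx0
    _ = (V0 + V1 * L) * x ^ (e - 1) + |∫ s in ξ..x, (x - s) * v2 s| * x ^ (e - 1) := by ring
    _ ≤ (V0 + V1 * L) * L ^ (e - 1) + (B1 + K' * L ^ (e - 1)) :=
        add_le_add (mul_le_mul_of_nonneg_left hxe (by positivity)) h9
    _ = _ := by ring

/-! ### algebra of the levels -/

section levels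

variable {c0 C0 L : ℝ} {g : ℝ → ℝ} {φ m : ℝ → ℝ → ℝ}

/-- `∂_τ^k φ = x(1-x/L) ∂_τ^k m` -/
theorem dt_iter_phi (hB : Bg c0 C0 g L φ m) (k : ℕ) {τ x : ℝ} (hτ : τ ∈ Ioo (0 : ℝ) 1)
    (hx : x ∈ Icc 0 L) : (dt^[k] φ) τ x = qf L x * (dt^[k] m) τ x := by
  rw [dtIter_congr_at isOpen_Ioo (u := fun t x => qf L x * m t x)
    (fun r hr => Bg.phi_eq' hB hr hx) hτ k, dtIter_left_mul]

/-- Leibniz formula for the levels of `b = φ δ_xx`, with the factor `x(1-x/L)` extracted. -/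
theorem bb_level (hB : Bg c0 C0 g L φ m) {δ : ℝ → ℝ → ℝ} (hδ : Sm (Ioo 0 1) L δ) (l : ℕ)
    {τ x : ℝ} (hτ : τ ∈ Ioo (0 : ℝ) 1) (hx : x ∈ Icc 0 L) :
    (dt^[l] (bb L φ δ)) τ x = ∑ k ∈ Finset.range (l + 1), (l.choose k : ℝ) *
      (dt^[l - k] m) τ x * (qf L x * dx L (dx L (dt^[k] δ)) τ x) := by
  have hL := Bg.Lpos hB
  have h2 : Sm (Ioo 0 1) L (dx L (dx L δ)) := (hδ.dx isOpen_Ioo hL).dx isOpen_Ioo hL
  have h3 := dtIter_mul' isOpen_Ioo (Bg.sm_phi hB) h2 hτ hx l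
  change (dt^[l] (fun t x => φ t x * dx L (dx L δ) t x)) τ x = _
  rw [h3]
  refine Finset.sum_congr rfl fun k _ => ?_
  rw [dt_iter_phi hB _ hτ hx, dtIter_dxdx isOpen_Ioo hL hδ k τ hτ x hx]
  ring

/-- bound of a smooth function on a compact time interval -/
theorem sm_bdd {u : ℝ → ℝ → ℝ} (hu : Sm (Ioo 0 1) L u) {a b : ℝ} (ha : 0 < a) (hb : b < 1) :
    ∃ A : ℝ, 0 ≤ A ∧ ∀ τ ∈ Icc a b, ∀ x ∈ Icc 0 L, |u τ x| ≤ A := by
  have hc : ContinuousOn (fun p : ℝ × ℝ => u p.1 p.2) (Icc a b ×ˢ Icc 0 L) :=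
    hu.continuousOn.mono (prod_mono_left fun r hr => ⟨ha.trans_le hr.1, hr.2.trans_lt hb⟩)
  obtain ⟨M, hM⟩ := (isCompact_Icc.prod isCompact_Icc).exists_bound_of_continuousOn hc
  exact ⟨max M 0, le_max_right _ _, fun τ hτ x hx => (hM (τ, x) ⟨hτ, hx⟩).trans (le_max_left _ _)⟩

/-- bounds of `x(1-x/L) ∂_τ^l δ_xx` from the bounds of the levels of `b` -/
theorem dxx_bd (hc0 : 0 < c0) (hB : Bg c0 C0 g L φ m) {δ : ℕ → ℝ → ℝ → ℝ}
    (hδ : ∀ i, Sm (Ioo 0 1) L (δ i)) {e : ℕ} (j : ℕ)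
    (hb : ∀ l ≤ j, UB L e (fun i => dt^[l] (bb L φ (δ i)))) {a b : ℝ} (ha : 0 < a) (hab : a < b)
    (hb2 : b < 1 / 2) : ∀ l ≤ j, ∃ K : ℝ, ∀ i, ∀ τ ∈ Icc a b, ∀ x ∈ Ioo 0 L,
      qf L x * |dx L (dx L (dt^[l] (δ i))) τ x| * x ^ e ≤ K := by
  have hL := Bg.Lpos hB
  intro l
  induction l using Nat.strong_induction_on with
  | _ l ih =>
    intro hl
    obtain ⟨Cb, hCb⟩ := hb l hl a b ha hab hb2
    choose! K hK using fun k (hk : k < l) => ih k hk (hk.le.trans hl)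
    choose A hA0 hA using fun k : ℕ =>
      sm_bdd (L := L) (hB.sm.dt_iter isOpen_Ioo hL k) ha (by linarith : b < 1)
    refine ⟨(Cb + ∑ k ∈ Finset.range l, (l.choose k : ℝ) * A (l - k) * K k) / c0, ?_⟩
    intro i τ hτ x hx
    have hτ1 : τ ∈ Ioo (0 : ℝ) 1 := ⟨ha.trans_le hτ.1, by linarith [hτ.2]⟩
    have hxI : x ∈ Icc 0 L := Ioo_subset_Icc_self hx
    have h1 := bb_level hB (hδ i) l hτ1 hxI
    rw [Finset.sum_range_succ] at h1
    set D := dx L (dx L (dt^[l] (δ i))) τ x with hD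
    have hq := qf_pos hL hx
    have hxe : 0 ≤ x ^ e := pow_nonneg hx.1.le e
    have hm := hB.lower τ hτ1 x hxI
    have h2 : m τ x * (qf L x * D) = (dt^[l] (bb L φ (δ i))) τ x -
        ∑ k ∈ Finset.range l, (l.choose k : ℝ) *
          (dt^[l - k] m) τ x * (qf L x * dx L (dx L (dt^[k] (δ i))) τ x) := by
      rw [h1]
      simp only [Nat.choose_self, Nat.cast_one, one_mul, Nat.sub_self, Function.iterate_zero, id]
      ring
    have h3 : c0 * (qf L x * |D|) ≤ |(dt^[l] (bb L φ (δ i))) τ x| +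
        ∑ k ∈ Finset.range l, (l.choose k : ℝ) * A (l - k) *
          (qf L x * |dx L (dx L (dt^[k] (δ i))) τ x|) := by
      have h4 : c0 * (qf L x * |D|) ≤ |m τ x * (qf L x * D)| := by
        rw [abs_mul, abs_mul, abs_of_pos hq, abs_of_pos (hc0.trans_le hm)]
        exact mul_le_mul_of_nonneg_right hm (mul_nonneg hq.le (abs_nonneg _))
      refine h4.trans ?_
      rw [h2]
      refine (abs_sub _ _).trans (add_le_add le_rfl ?_)
      refine (Finset.abs_sum_le_sum_abs _ _).trans (Finset.sum_le_sum fun k _ => ?_)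
      rw [abs_mul, abs_mul, abs_mul, abs_of_pos hq,
        abs_of_nonneg (by positivity : (0 : ℝ) ≤ (l.choose k : ℝ))]
      exact mul_le_mul_of_nonneg_right (mul_le_mul_of_nonneg_left (hA (l - k) τ hτ x hxI)
        (by positivity)) (mul_nonneg hq.le (abs_nonneg _))
    rw [le_div_iff₀ hc0]
    calc qf L x * |D| * x ^ e * c0 = c0 * (qf L x * |D|) * x ^ e := by ring
      _ ≤ (|(dt^[l] (bb L φ (δ i))) τ x| + ∑ k ∈ Finset.range l, (l.choose k : ℝ) * A (l - k) *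
          (qf L x * |dx L (dx L (dt^[k] (δ i))) τ x|)) * x ^ e :=
        mul_le_mul_of_nonneg_right h3 hxe
      _ = |(dt^[l] (bb L φ (δ i))) τ x| * x ^ e + ∑ k ∈ Finset.range l, (l.choose k : ℝ) *
          A (l - k) * (qf L x * |dx L (dx L (dt^[k] (δ i))) τ x| * x ^ e) := by
        rw [add_mul, Finset.sum_mul]
        congr 1
        refine Finset.sum_congr rfl fun k _ => ?_
        ring
      _ ≤ Cb + ∑ k ∈ Finset.range l, (l.choose k : ℝ) * A (l - k) * K k := by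
        refine add_le_add (hCb i τ hτ x hx) (Finset.sum_le_sum fun k hk => ?_)
        exact mul_le_mul_of_nonneg_left (hK k (Finset.mem_range.1 hk) i τ hτ x hx)
          (mul_nonneg (by positivity) (hA0 _))

/-- **recover**: `δ_j = O(x^{-(e-1)})` from `b_l = O(x^{-e})`, `l ≤ j`. -/
theorem recover (hB : Bg c0 C0 g L φ m) (hg : Prof c0 C0 g) {δ : ℕ → ℝ → ℝ → ℝ}
    (hδ : ∀ i, Sm (Ioo 0 1) L (δ i)) {e : ℕ} (he : e = 4 ∨ e = 2 ∨ e = 0) (j : ℕ)
    (hb : ∀ l ≤ j, UB L e (fun i => dt^[l] (bb L φ (δ i))))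
    (hs : USup L (fun i => dt^[j] (δ i))) :
    UB L (e - 1) (fun i => dt^[j] (δ i)) := by
  have hL := Bg.Lpos hB
  intro a b ha hab hb2
  obtain ⟨K, hK⟩ := dxx_bd hg.c0_pos hB hδ j hb ha hab hb2 j le_rfl
  obtain ⟨S, hS⟩ := hs a b ha hab hb2
  obtain ⟨C, hC⟩ := interp_rec hL he K S
  refine ⟨C, fun i τ hτ x hx => ?_⟩
  have hτ1 : τ ∈ Ioo (0 : ℝ) 1 := ⟨ha.trans_le hτ.1, by linarith [hτ.2]⟩
  have hu : Sm (Ioo 0 1) L (dt^[j] (δ i)) := (hδ i).dt_iter isOpen_Ioo hL j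
  have hu1 : Sm (Ioo 0 1) L (dx L (dt^[j] (δ i))) := hu.dx isOpen_Ioo hL
  have hu2 : Sm (Ioo 0 1) L (dx L (dx L (dt^[j] (δ i)))) := hu1.dx isOpen_Ioo hL
  exact hC (fun x => (dt^[j] (δ i)) τ x) (fun x => dx L (dt^[j] (δ i)) τ x)
    (fun x => dx L (dx L (dt^[j] (δ i))) τ x) (hu.continuousOn_right hτ1)
    (fun s hs => hu.hasDx_interior hL hτ1 hs) (fun s hs => hu1.hasDx_interior hL hτ1 hs)
    ((hu2.continuousOn_right hτ1).mono Ioo_subset_Icc_self)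
    (fun x hx => hK i τ hτ x hx) (hS i τ hτ) x hx

end levels

end Crest.Agent.R213.C8
end
end

-- ▼ part R213/C/LocEn
section

/-!
# Row 213, Part C8: local energy inequality at level `J`

`nn L u τ = ∫₀ᴸ x⁹ u²`.  `Lev c φ E h δ K j` is the structure of the `j`-times differentiated
equation (conclusion of `level`), with the bound of the remainder on the time interval `[a,b]`.
-/

set_option autoImplicit false

open Set MeasureTheory Filter Topology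

noncomputable section

namespace Crest.Agent.R213.C8.LE

open Crest.Agent.R213 Crest.Agent.R213.C

/-- `∫₀ᴸ x⁹ u²` at time `τ`. -/
def nn (L : ℝ) (u : ℝ → ℝ → ℝ) (τ : ℝ) : ℝ := ∫ x in (0 : ℝ)..L, x ^ 9 * (u τ x) ^ 2

/-- sum of the norms of all levels `< j`. -/
def low (L : ℝ) (φ h δ : ℝ → ℝ → ℝ) (j : ℕ) (τ : ℝ) : ℝ :=
  ∑ i ∈ Finset.range j, (nn L (be L φ i δ) τ + nn L (dt^[i] h) τ)

/-- level structure: the `j`-times differentiated equation; remainder bound on `[a,b]`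
(`h = φ ht`). -/
def Lev (L : ℝ) (φ E h δ : ℝ → ℝ → ℝ) (a b K : ℝ) (j : ℕ) : Prop :=
  ∃ R : ℝ → ℝ → ℝ, Sm (Ioo 0 1) L R ∧ (∀ τ ∈ Ioo (0 : ℝ) 1, R τ L = 0) ∧
    (∀ τ ∈ Ioo (0 : ℝ) 1, ∀ x ∈ Icc 0 L,
      x ^ 9 * (φ τ x * (φ τ x * dx L (dx L (dt^[j] δ)) τ x + R τ x)) =
        Kint (fun ξ => (dt^[j] E) τ ξ + (dt^[j + 1] δ) τ ξ) x) ∧
    (∀ τ ∈ Icc a b, ∀ x ∈ Icc 0 L,
      |R τ x| ≤ |(dt^[j] h) τ x| +
        K * ∑ i ∈ Finset.range j, (|be L φ i δ τ x| + |(dt^[i] h) τ x|))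

section basic

variable {L : ℝ} {u v : ℝ → ℝ → ℝ} {s : Set ℝ}

theorem cont_w {t : ℝ} (hu : Sm (Ioo 0 1) L u) (ht : t ∈ Ioo (0 : ℝ) 1) :
    ContinuousOn (u t) (Icc 0 L) := hu.continuousOn_right ht

theorem ii {f : ℝ → ℝ} (hL : 0 ≤ L) (hf : ContinuousOn f (Icc 0 L)) :
    IntervalIntegrable f volume 0 L := by
  apply ContinuousOn.intervalIntegrable; rwa [uIcc_of_le hL]

theorem sm_sq (hu : Sm (Ioo 0 1) L u) : Sm (Ioo 0 1) L (fun t x => x ^ 9 * u t x ^ 2) :=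
  (Sm.snd.pow 9).mul (hu.pow 2)


theorem nn_nonneg (hL : 0 ≤ L) (τ : ℝ) : 0 ≤ nn L u τ :=
  intervalIntegral.integral_nonneg hL (fun _ hx => mul_nonneg (pow_nonneg hx.1 9) (sq_nonneg _))

theorem hasDerivAt_nn (hL : 0 < L) (hu : Sm (Ioo 0 1) L u) {τ : ℝ} (hτ : τ ∈ Ioo (0 : ℝ) 1) :
    HasDerivAt (nn L u) (∫ x in (0 : ℝ)..L, x ^ 9 * (2 * (u τ x * dt u τ x))) τ := by
  have hs := sm_sq hu
  have hP : Sm (Ioo 0 1) L (J310.Px (fun t x => x ^ 9 * u t x ^ 2)) :=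
    J310.sm_Px (convex_Ioo 0 1) isOpen_Ioo.uniqueDiffOn hL hs
  have hLm : L ∈ Icc 0 L := ⟨hL.le, le_rfl⟩
  have h1 := hP.hasDt isOpen_Ioo hτ hLm
  rw [J310.dt_Px (convex_Ioo 0 1) isOpen_Ioo hL hs hτ hLm] at h1
  refine h1.congr_deriv ?_
  unfold J310.Px
  refine intervalIntegral.integral_congr (fun x hx => ?_)
  rw [uIcc_of_le hL.le] at hx
  have h2 : HasDerivAt (fun r => x ^ 9 * u r x ^ 2) (x ^ 9 * (2 * (u τ x * dt u τ x))) τ := by
    have := ((hu.hasDt isOpen_Ioo hτ hx).pow 2).const_mul (x ^ 9)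
    refine this.congr_deriv ?_
    ring
  exact dt_eq_of_hasDerivAt h2

theorem cont_nn (hL : 0 < L) (hu : Sm (Ioo 0 1) L u) : ContinuousOn (nn L u) (Ioo 0 1) :=
  fun _ hτ => (hasDerivAt_nn hL hu hτ).continuousAt.continuousWithinAt

theorem cont_dnn (hL : 0 < L) (hu : Sm (Ioo 0 1) L u) (hv : Sm (Ioo 0 1) L v) :
    ContinuousOn (fun τ => ∫ x in (0 : ℝ)..L, x ^ 9 * (2 * (u τ x * v τ x))) (Ioo 0 1) := by
  have hs : Sm (Ioo 0 1) L (fun τ x => x ^ 9 * (2 * (u τ x * v τ x))) :=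
    (Sm.snd.pow 9).mul ((hu.mul hv).const_mul 2)
  have hP : Sm (Ioo 0 1) L (J310.Px (fun τ x => x ^ 9 * (2 * (u τ x * v τ x)))) :=
    J310.sm_Px (convex_Ioo 0 1) isOpen_Ioo.uniqueDiffOn hL hs
  exact hP.continuousOn_left ⟨hL.le, le_rfl⟩

end basic

section identity

variable {c0 C0 : ℝ} {g : ℝ → ℝ} {L : ℝ} {φ m E h δ : ℝ → ℝ → ℝ}

/-- testing identity at level `j` with `δ_k` -/
theorem test_level (hL : 0 < L) (hφ : Sm (Ioo 0 1) L φ) (hφL : ∀ τ ∈ Ioo (0 : ℝ) 1, φ τ L = 0)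
    {A G u : ℝ → ℝ → ℝ} (hA : Sm (Ioo 0 1) L A) (hAL : ∀ τ ∈ Ioo (0 : ℝ) 1, A τ L = 0)
    (hG : Sm (Ioo 0 1) L G) (hu : Sm (Ioo 0 1) L u)
    (heq : ∀ τ ∈ Ioo (0 : ℝ) 1, ∀ x ∈ Icc 0 L, x ^ 9 * (φ τ x * A τ x) = Kint (G τ) x)
    {τ : ℝ} (hτ : τ ∈ Ioo (0 : ℝ) 1) :
    ∫ x in (0 : ℝ)..L, x ^ 9 * (A τ x * (φ τ x * dx L (dx L u) τ x)) =
      ∫ x in (0 : ℝ)..L, x ^ 9 * (G τ x * u τ x) := by
  have hLm : L ∈ Icc 0 L := ⟨hL.le, le_rfl⟩
  have hGc := cont_w hG hτ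
  have key := sm_Kint_pair hu isOpen_Ioo hL hτ hGc
  have k0 : Kint (G τ) L = 0 := by
    rw [← heq τ hτ L hLm, hφL τ hτ]; ring
  have k1 : J310.Kint1 (G τ) L = 0 := by
    have h1 : HasDerivWithinAt (Kint (G τ)) (J310.Kint1 (G τ) L) (Icc 0 L) L :=
      J310.hasDeriv_Kint hGc hLm
    have hφd := hφ.hasDx hL hτ hLm
    have hAd := hA.hasDx hL hτ hLm
    have h2 : HasDerivWithinAt (fun x => x ^ 9 * (φ τ x * A τ x)) 0 (Icc 0 L) L := by
      have h3 := ((hasDerivAt_pow 9 L).hasDerivWithinAt (s := Icc 0 L)).mul (hφd.mul hAd)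
      refine h3.congr_deriv ?_
      simp only [Pi.mul_apply]
      rw [hφL τ hτ, hAL τ hτ]; ring
    have h4 : HasDerivWithinAt (Kint (G τ)) 0 (Icc 0 L) L :=
      h2.congr (fun x hx => (heq τ hτ x hx).symm) (heq τ hτ L hLm).symm
    exact (uniqueDiffOn_Icc hL L hLm).eq_deriv _ h1 h4
  rw [k0, k1] at key
  simp only [zero_mul, sub_zero, zero_add] at key
  have e1 : ∫ x in (0 : ℝ)..L, Kint (G τ) x * dx L (dx L u) τ x =
      ∫ x in (0 : ℝ)..L, x ^ 9 * (A τ x * (φ τ x * dx L (dx L u) τ x)) := by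
    refine intervalIntegral.integral_congr (fun x hx => ?_)
    rw [uIcc_of_le hL.le] at hx
    show Kint (G τ) x * dx L (dx L u) τ x = x ^ 9 * (A τ x * (φ τ x * dx L (dx L u) τ x))
    rw [← heq τ hτ x hx]; ring
  rw [← e1, key]
  refine intervalIntegral.integral_congr (fun x _ => ?_)
  show x ^ 9 * G τ x * u τ x = x ^ 9 * (G τ x * u τ x)
  ring

end identity

section sums

/-- Cauchy–Schwarz for the lower order sum, pointwise. -/
theorem sum_sq_le {ι : Type*} (I : Finset ι) (f g : ι → ℝ) :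
    (∑ i ∈ I, (|f i| + |g i|)) ^ 2 ≤ 2 * I.card * ∑ i ∈ I, (f i ^ 2 + g i ^ 2) := by
  have h1 : (∑ i ∈ I, (|f i| + |g i|)) ^ 2 ≤ I.card * ∑ i ∈ I, (|f i| + |g i|) ^ 2 :=
    sq_sum_le_card_mul_sum_sq
  refine h1.trans ?_
  have h2 : ∑ i ∈ I, (|f i| + |g i|) ^ 2 ≤ 2 * ∑ i ∈ I, (f i ^ 2 + g i ^ 2) := by
    rw [Finset.mul_sum]
    refine Finset.sum_le_sum fun i _ => ?_
    nlinarith [sq_nonneg (|f i| - |g i|), sq_abs (f i), sq_abs (g i)]
  calc (I.card : ℝ) * ∑ i ∈ I, (|f i| + |g i|) ^ 2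
      ≤ I.card * (2 * ∑ i ∈ I, (f i ^ 2 + g i ^ 2)) :=
        mul_le_mul_of_nonneg_left h2 (Nat.cast_nonneg _)
    _ = _ := by ring

end sums

section energy

variable {L : ℝ} {φ E h δ : ℝ → ℝ → ℝ} {a b K : ℝ} {j : ℕ}

theorem sm_be (hL : 0 < L) (hφ : Sm (Ioo 0 1) L φ) (hδ : Sm (Ioo 0 1) L δ) (i : ℕ) :
    Sm (Ioo 0 1) L (be L φ i δ) :=
  hφ.mul (Sm.dx isOpen_Ioo hL (Sm.dx isOpen_Ioo hL (Sm.dt_iter isOpen_Ioo hL hδ i)))

/-- the lower order sum at a point -/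
def ls (L : ℝ) (φ h δ : ℝ → ℝ → ℝ) (j : ℕ) (τ x : ℝ) : ℝ :=
  ∑ i ∈ Finset.range j, (|be L φ i δ τ x| + |(dt^[i] h) τ x|)

theorem ls_nonneg (τ x : ℝ) : 0 ≤ ls L φ h δ j τ x :=
  Finset.sum_nonneg fun _ _ => add_nonneg (abs_nonneg _) (abs_nonneg _)

theorem ls_succ (τ x : ℝ) : ls L φ h δ (j + 1) τ x =
    ls L φ h δ j τ x + (|be L φ j δ τ x| + |(dt^[j] h) τ x|) := Finset.sum_range_succ _ _

theorem cont_ls (hL : 0 < L) (hφ : Sm (Ioo 0 1) L φ) (hδ : Sm (Ioo 0 1) L δ)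
    (hh : Sm (Ioo 0 1) L h) (j : ℕ) {τ : ℝ} (hτ : τ ∈ Ioo (0 : ℝ) 1) :
    ContinuousOn (ls L φ h δ j τ) (Icc 0 L) := by
  unfold ls
  refine continuousOn_finsetSum _ fun i _ => ?_
  exact ((cont_w (sm_be hL hφ hδ i) hτ).abs).add
    ((cont_w (Sm.dt_iter isOpen_Ioo hL hh i) hτ).abs)

/-- `∫ x⁹ ls² ≤ 2 j low` -/
theorem int_ls_sq (hL : 0 < L) (hφ : Sm (Ioo 0 1) L φ) (hδ : Sm (Ioo 0 1) L δ)
    (hh : Sm (Ioo 0 1) L h) (j : ℕ) {τ : ℝ} (hτ : τ ∈ Ioo (0 : ℝ) 1) :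
    ∫ x in (0 : ℝ)..L, x ^ 9 * (ls L φ h δ j τ x) ^ 2 ≤ 2 * j * low L φ h δ j τ := by
  have hc : ∀ i, ContinuousOn (be L φ i δ τ) (Icc 0 L) := fun i => cont_w (sm_be hL hφ hδ i) hτ
  have hc' : ∀ i, ContinuousOn ((dt^[i] h) τ) (Icc 0 L) :=
    fun i => cont_w (Sm.dt_iter isOpen_Ioo hL hh i) hτ
  have h1 : ∫ x in (0 : ℝ)..L, x ^ 9 * (ls L φ h δ j τ x) ^ 2 ≤
      ∫ x in (0 : ℝ)..L, (2 * j) * ∑ i ∈ Finset.range j,
        (x ^ 9 * (be L φ i δ τ x) ^ 2 + x ^ 9 * ((dt^[i] h) τ x) ^ 2) := by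
    refine intervalIntegral.integral_mono_on hL.le ?_ ?_ fun x hx => ?_
    · exact ii hL.le ((continuous_pow 9).continuousOn.mul ((cont_ls hL hφ hδ hh j hτ).pow 2))
    · refine ii hL.le (continuousOn_const.mul (continuousOn_finsetSum _ fun i _ => ?_))
      exact ((continuous_pow 9).continuousOn.mul ((hc i).pow 2)).add
        ((continuous_pow 9).continuousOn.mul ((hc' i).pow 2))
    · have := sum_sq_le (Finset.range j) (fun i => be L φ i δ τ x) (fun i => (dt^[i] h) τ x)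
      rw [Finset.card_range] at this
      calc x ^ 9 * (ls L φ h δ j τ x) ^ 2
          ≤ x ^ 9 * (2 * j * ∑ i ∈ Finset.range j,
            ((be L φ i δ τ x) ^ 2 + ((dt^[i] h) τ x) ^ 2)) :=
            mul_le_mul_of_nonneg_left this (pow_nonneg hx.1 9)
        _ = _ := by
          simp_rw [← mul_add]
          rw [← Finset.mul_sum]; ring
  refine h1.trans (le_of_eq ?_)
  rw [intervalIntegral.integral_const_mul, intervalIntegral.integral_finsetSum]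
  · congr 1
    unfold low
    refine Finset.sum_congr rfl fun i _ => ?_
    rw [intervalIntegral.integral_add]
    · rfl
    · exact ii hL.le ((continuous_pow 9).continuousOn.mul ((hc i).pow 2))
    · exact ii hL.le ((continuous_pow 9).continuousOn.mul ((hc' i).pow 2))
  · intro i _
    exact ii hL.le (((continuous_pow 9).continuousOn.mul ((hc i).pow 2)).add
        ((continuous_pow 9).continuousOn.mul ((hc' i).pow 2)))

theorem low_nonneg (hL : 0 ≤ L) (j : ℕ) (τ : ℝ) : 0 ≤ low L φ h δ j τ :=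
  Finset.sum_nonneg fun _ _ => add_nonneg (nn_nonneg hL _) (nn_nonneg hL _)

/-- **(I)**: interpolation, at fixed time. -/
theorem interp_delta (hL : 0 < L) (hφ : Sm (Ioo 0 1) L φ) (hφL : ∀ τ ∈ Ioo (0 : ℝ) 1, φ τ L = 0)
    (hδ : Sm (Ioo 0 1) L δ) (hh : Sm (Ioo 0 1) L h) (hE : Sm (Ioo 0 1) L E) (hK : 0 ≤ K)
    (hlev : Lev L φ E h δ a b K j) {τ : ℝ} (hτ : τ ∈ Ioo (0 : ℝ) 1) (hτ' : τ ∈ Icc a b)
    (p q : ℝ) {ε : ℝ} (hε : 0 < ε) :
    |p * q| * nn L (dt^[j + 1] δ) τ ≤ ε * p ^ 2 * nn L (be L φ (j + 1) δ) τ +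
      (1 / ε) * (1 + K) ^ 2 * q ^ 2 * (2 * ((j + 1 : ℕ) : ℝ) * low L φ h δ (j + 1) τ) +
      (p ^ 2 + q ^ 2) / 2 * nn L (dt^[j] E) τ := by
  obtain ⟨R, hR, hRL, heq, hRb⟩ := hlev
  have hδj : ∀ i, Sm (Ioo 0 1) L (dt^[i] δ) := fun i => Sm.dt_iter isOpen_Ioo hL hδ i
  have hEj : ∀ i, Sm (Ioo 0 1) L (dt^[i] E) := fun i => Sm.dt_iter isOpen_Ioo hL hE i
  have hbe : ∀ i, Sm (Ioo 0 1) L (be L φ i δ) := fun i => sm_be hL hφ hδ i
  have hbeL : ∀ τ ∈ Ioo (0 : ℝ) 1, be L φ j δ τ L = 0 := fun τ hτ => by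
    simp [be, hφL τ hτ]
  have hA : Sm (Ioo 0 1) L (fun τ x => be L φ j δ τ x + R τ x) := (hbe j).add hR
  have hG : Sm (Ioo 0 1) L (fun τ x => (dt^[j] E) τ x + (dt^[j + 1] δ) τ x) :=
    (hEj j).add (hδj (j + 1))
  have key := test_level hL hφ hφL (A := fun τ x => be L φ j δ τ x + R τ x)
    (G := fun τ x => (dt^[j] E) τ x + (dt^[j + 1] δ) τ x) (u := dt^[j + 1] δ) hA
    (fun τ hτ => by simp [hbeL τ hτ, hRL τ hτ]) hG (hδj (j + 1)) (fun τ hτ x hx => heq τ hτ x hx) hτ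
  have c9 : ContinuousOn (fun x : ℝ => x ^ 9) (Icc 0 L) := (continuous_pow 9).continuousOn
  have cb := cont_w (hbe (j + 1)) hτ
  have cbj := cont_w (hbe j) hτ
  have cR := cont_w hR hτ
  have cE := cont_w (hEj j) hτ
  have cd := cont_w (hδj (j + 1)) hτ
  have cl := cont_ls hL hφ hδ hh (j + 1) hτ
  -- pointwise
  have hpt : ∀ x ∈ Icc 0 L, |be L φ j δ τ x + R τ x| ≤ (1 + K) * ls L φ h δ (j + 1) τ x := by
    intro x hx
    have h1 := hRb τ hτ' x hx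
    have h2 : ls L φ h δ (j + 1) τ x = ls L φ h δ j τ x + (|be L φ j δ τ x| + |(dt^[j] h) τ x|) :=
      ls_succ τ x
    have h3 : 0 ≤ ls L φ h δ j τ x := ls_nonneg τ x
    have h4 : |R τ x| ≤ |(dt^[j] h) τ x| + K * ls L φ h δ j τ x := h1
    calc |be L φ j δ τ x + R τ x| ≤ |be L φ j δ τ x| + |R τ x| := abs_add_le _ _
      _ ≤ _ := by
        rw [h2]
        nlinarith [abs_nonneg (be L φ j δ τ x), abs_nonneg ((dt^[j] h) τ x),
          mul_nonneg hK (abs_nonneg (be L φ j δ τ x)), mul_nonneg hK (abs_nonneg ((dt^[j] h) τ x))]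
  -- the tested identity gives the integral of `δ²`
  have e1 : nn L (dt^[j + 1] δ) τ =
      ∫ x in (0 : ℝ)..L, x ^ 9 * ((be L φ j δ τ x + R τ x) * be L φ (j + 1) δ τ x
        - (dt^[j] E) τ x * (dt^[j + 1] δ) τ x) := by
    have h5 : ∫ x in (0 : ℝ)..L, x ^ 9 * ((be L φ j δ τ x + R τ x) * be L φ (j + 1) δ τ x
        - (dt^[j] E) τ x * (dt^[j + 1] δ) τ x) =
        (∫ x in (0 : ℝ)..L, x ^ 9 * ((be L φ j δ τ x + R τ x) * be L φ (j + 1) δ τ x)) -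
        ∫ x in (0 : ℝ)..L, x ^ 9 * ((dt^[j] E) τ x * (dt^[j + 1] δ) τ x) := by
      rw [← intervalIntegral.integral_sub]
      · refine intervalIntegral.integral_congr fun x _ => ?_
        show x ^ 9 * _ = x ^ 9 * _ - x ^ 9 * _
        ring
      · exact ii hL.le (c9.mul ((cbj.add cR).mul cb))
      · exact ii hL.le (c9.mul (cE.mul cd))
    rw [h5]
    have h6 : (∫ x in (0 : ℝ)..L, x ^ 9 * ((be L φ j δ τ x + R τ x) * be L φ (j + 1) δ τ x)) =
      ∫ x in (0 : ℝ)..L, x ^ 9 * (((dt^[j] E) τ x + (dt^[j + 1] δ) τ x) * (dt^[j + 1] δ) τ x) :=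
      key
    rw [h6, ← intervalIntegral.integral_sub]
    · unfold nn
      refine intervalIntegral.integral_congr fun x _ => ?_
      show x ^ 9 * _ = x ^ 9 * _ - x ^ 9 * _
      ring
    · exact ii hL.le (c9.mul ((cE.add cd).mul cd))
    · exact ii hL.le (c9.mul (cE.mul cd))
  have h7 : |p * q| * nn L (dt^[j + 1] δ) τ ≤
      ∫ x in (0 : ℝ)..L, (ε / 2 * p ^ 2 * (x ^ 9 * (be L φ (j + 1) δ τ x) ^ 2)
        + (1 / ε) / 2 * (1 + K) ^ 2 * q ^ 2 * (x ^ 9 * (ls L φ h δ (j + 1) τ x) ^ 2)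
        + (p ^ 2 + q ^ 2) / 4 * (x ^ 9 * ((dt^[j] E) τ x) ^ 2)
        + |p * q| / 2 * (x ^ 9 * ((dt^[j + 1] δ) τ x) ^ 2)) := by
    rw [e1, ← intervalIntegral.integral_const_mul]
    refine intervalIntegral.integral_mono_on hL.le ?_ ?_ fun x hx => ?_
    · exact ii hL.le (continuousOn_const.mul (c9.mul (((cbj.add cR).mul cb).sub (cE.mul cd))))
    · exact ii hL.le ((((continuousOn_const.mul (c9.mul (cb.pow 2))).add
        (continuousOn_const.mul (c9.mul (cl.pow 2)))).add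
        (continuousOn_const.mul (c9.mul (cE.pow 2)))).add
        (continuousOn_const.mul (c9.mul (cd.pow 2))))
    · have hp := hpt x hx
      have hx9 : 0 ≤ x ^ 9 := pow_nonneg hx.1 9
      set A := be L φ j δ τ x + R τ x
      set B := be L φ (j + 1) δ τ x
      set S := ls L φ h δ (j + 1) τ x
      set e := (dt^[j] E) τ x
      set d := (dt^[j + 1] δ) τ x
      have hS : 0 ≤ S := ls_nonneg τ x
      have b1 : |p * q| * (A * B) ≤ ε / 2 * p ^ 2 * B ^ 2 + (1 / ε) / 2 * (1 + K) ^ 2 * q ^ 2 * S ^ 2 := by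
        have b2 : |p * q| * (A * B) ≤ |p * B| * (|q| * ((1 + K) * S)) := by
          calc |p * q| * (A * B) ≤ |p * q| * |A * B| :=
                mul_le_mul_of_nonneg_left (le_abs_self _) (abs_nonneg _)
            _ = |p * B| * (|q| * |A|) := by rw [abs_mul, abs_mul, abs_mul]; ring
            _ ≤ _ := by gcongr
        refine b2.trans ?_
        have b3 : |p * B| * (|q| * ((1 + K) * S)) ≤
            ε / 2 * (|p * B|) ^ 2 + (1 / ε) / 2 * (|q| * ((1 + K) * S)) ^ 2 := by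
          have := sq_nonneg (ε * |p * B| - (|q| * ((1 + K) * S)))
          have h8 : ε / 2 * (|p * B|) ^ 2 + (1 / ε) / 2 * (|q| * ((1 + K) * S)) ^ 2
              - |p * B| * (|q| * ((1 + K) * S)) =
              (ε * |p * B| - (|q| * ((1 + K) * S))) ^ 2 / (2 * ε) := by
            field_simp; ring
          have h9 : 0 ≤ (ε * |p * B| - (|q| * ((1 + K) * S))) ^ 2 / (2 * ε) := by positivity
          linarith
        refine b3.trans (le_of_eq ?_)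
        rw [sq_abs, mul_pow |q|, sq_abs]; ring
      have b4 : |p * q| * (-(e * d)) ≤ (p ^ 2 + q ^ 2) / 4 * e ^ 2 + |p * q| / 2 * d ^ 2 := by
        have h8 : |p * q| ≤ (p ^ 2 + q ^ 2) / 2 := by
          rw [abs_mul]
          nlinarith [sq_nonneg (|p| - |q|), sq_abs p, sq_abs q]
        have h9 : -(e * d) ≤ e ^ 2 / 2 + d ^ 2 / 2 := by nlinarith [sq_nonneg (e + d)]
        have h10 : |p * q| * (-(e * d)) ≤ |p * q| * (e ^ 2 / 2 + d ^ 2 / 2) :=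
          mul_le_mul_of_nonneg_left h9 (abs_nonneg _)
        have h11 : |p * q| * (e ^ 2 / 2) ≤ (p ^ 2 + q ^ 2) / 2 * (e ^ 2 / 2) :=
          mul_le_mul_of_nonneg_right h8 (by positivity)
        nlinarith
      calc |p * q| * (x ^ 9 * (A * B - e * d)) = x ^ 9 * (|p * q| * (A * B) + |p * q| * (-(e * d))) := by
            ring
        _ ≤ x ^ 9 * ((ε / 2 * p ^ 2 * B ^ 2 + (1 / ε) / 2 * (1 + K) ^ 2 * q ^ 2 * S ^ 2)
            + ((p ^ 2 + q ^ 2) / 4 * e ^ 2 + |p * q| / 2 * d ^ 2)) :=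
            mul_le_mul_of_nonneg_left (add_le_add b1 b4) hx9
        _ = _ := by ring
  rw [intervalIntegral.integral_add, intervalIntegral.integral_add, intervalIntegral.integral_add,
    intervalIntegral.integral_const_mul, intervalIntegral.integral_const_mul,
    intervalIntegral.integral_const_mul, intervalIntegral.integral_const_mul] at h7
  · have h8 := int_ls_sq hL hφ hδ hh (j + 1) hτ
    have h9 : (1 / ε) / 2 * (1 + K) ^ 2 * q ^ 2 *
        (∫ x in (0 : ℝ)..L, x ^ 9 * (ls L φ h δ (j + 1) τ x) ^ 2) ≤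
        (1 / ε) / 2 * (1 + K) ^ 2 * q ^ 2 * (2 * ((j + 1 : ℕ) : ℝ) * low L φ h δ (j + 1) τ) :=
      mul_le_mul_of_nonneg_left h8 (by positivity)
    have e2 : (∫ x in (0 : ℝ)..L, x ^ 9 * (be L φ (j + 1) δ τ x) ^ 2) = nn L (be L φ (j + 1) δ) τ := rfl
    have e3 : (∫ x in (0 : ℝ)..L, x ^ 9 * ((dt^[j] E) τ x) ^ 2) = nn L (dt^[j] E) τ := rfl
    have e4 : (∫ x in (0 : ℝ)..L, x ^ 9 * ((dt^[j + 1] δ) τ x) ^ 2) = nn L (dt^[j + 1] δ) τ := rfl
    rw [e2, e3, e4] at h7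
    nlinarith
  all_goals first
    | exact ii hL.le (continuousOn_const.mul (c9.mul (cb.pow 2)))
    | exact ii hL.le (continuousOn_const.mul (c9.mul (cl.pow 2)))
    | exact ii hL.le (continuousOn_const.mul (c9.mul (cE.pow 2)))
    | exact ii hL.le (continuousOn_const.mul (c9.mul (cd.pow 2)))
    | exact ii hL.le (((continuousOn_const.mul (c9.mul (cb.pow 2))).add
        (continuousOn_const.mul (c9.mul (cl.pow 2)))).add
        (continuousOn_const.mul (c9.mul (cE.pow 2))))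
    | exact ii hL.le ((continuousOn_const.mul (c9.mul (cb.pow 2))).add
        (continuousOn_const.mul (c9.mul (cl.pow 2))))

/-- **(E)**: energy at level `j`, at fixed time. -/
theorem energy_fix (hL : 0 < L) (hφ : Sm (Ioo 0 1) L φ) (hφL : ∀ τ ∈ Ioo (0 : ℝ) 1, φ τ L = 0)
    (hδ : Sm (Ioo 0 1) L δ) (hh : Sm (Ioo 0 1) L h) (hE : Sm (Ioo 0 1) L E)
    (hlev : Lev L φ E h δ a b K j) {τ : ℝ} (hτ : τ ∈ Ioo (0 : ℝ) 1) (hτ' : τ ∈ Icc a b) :
    nn L (be L φ j δ) τ ≤ 9 / 16 * nn L (be L φ j δ) τ + 1 / 2 * nn L (dt^[j] h) τ +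
      4 * K ^ 2 * (2 * (j : ℝ) * low L φ h δ j τ) + 1 / 2 * nn L (dt^[j] E) τ +
      1 / 2 * nn L (dt^[j] δ) τ +
      1 / 2 * ∫ x in (0 : ℝ)..L, x ^ 9 * (2 * ((dt^[j] δ) τ x * dt (dt^[j] δ) τ x)) := by
  obtain ⟨R, hR, hRL, heq, hRb⟩ := hlev
  have hδj : ∀ i, Sm (Ioo 0 1) L (dt^[i] δ) := fun i => Sm.dt_iter isOpen_Ioo hL hδ i
  have hEj : ∀ i, Sm (Ioo 0 1) L (dt^[i] E) := fun i => Sm.dt_iter isOpen_Ioo hL hE i
  have hhj : ∀ i, Sm (Ioo 0 1) L (dt^[i] h) := fun i => Sm.dt_iter isOpen_Ioo hL hh i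
  have hbe : ∀ i, Sm (Ioo 0 1) L (be L φ i δ) := fun i => sm_be hL hφ hδ i
  have hbeL : ∀ τ ∈ Ioo (0 : ℝ) 1, be L φ j δ τ L = 0 := fun τ hτ => by
    simp [be, hφL τ hτ]
  have hA : Sm (Ioo 0 1) L (fun τ x => be L φ j δ τ x + R τ x) := (hbe j).add hR
  have hG : Sm (Ioo 0 1) L (fun τ x => (dt^[j] E) τ x + (dt^[j + 1] δ) τ x) :=
    (hEj j).add (hδj (j + 1))
  have key := test_level hL hφ hφL (A := fun τ x => be L φ j δ τ x + R τ x)
    (G := fun τ x => (dt^[j] E) τ x + (dt^[j + 1] δ) τ x) (u := dt^[j] δ) hA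
    (fun τ hτ => by simp [hbeL τ hτ, hRL τ hτ]) hG (hδj j) (fun τ hτ x hx => heq τ hτ x hx) hτ
  have c9 : ContinuousOn (fun x : ℝ => x ^ 9) (Icc 0 L) := (continuous_pow 9).continuousOn
  have cb := cont_w (hbe j) hτ
  have cR := cont_w hR hτ
  have cE := cont_w (hEj j) hτ
  have ch := cont_w (hhj j) hτ
  have cd := cont_w (hδj j) hτ
  have cdt : ContinuousOn (dt (dt^[j] δ) τ) (Icc 0 L) :=
    cont_w (Sm.dt isOpen_Ioo hL (hδj j)) hτ
  have cl := cont_ls hL hφ hδ hh j hτ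
  have e0 : (dt^[j + 1] δ) = dt (dt^[j] δ) := Function.iterate_succ_apply' _ _ _
  rw [e0] at key
  -- identity for `nn be`
  have e1 : nn L (be L φ j δ) τ =
      ∫ x in (0 : ℝ)..L, x ^ 9 * (-(R τ x * be L φ j δ τ x) + (dt^[j] E) τ x * (dt^[j] δ) τ x
        + dt (dt^[j] δ) τ x * (dt^[j] δ) τ x) := by
    have k1 : (∫ x in (0 : ℝ)..L, x ^ 9 * ((be L φ j δ τ x + R τ x) * be L φ j δ τ x)) =
      ∫ x in (0 : ℝ)..L, x ^ 9 * (((dt^[j] E) τ x + dt (dt^[j] δ) τ x) * (dt^[j] δ) τ x) := key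
    have h5 : nn L (be L φ j δ) τ =
        (∫ x in (0 : ℝ)..L, x ^ 9 * ((be L φ j δ τ x + R τ x) * be L φ j δ τ x)) -
        ∫ x in (0 : ℝ)..L, x ^ 9 * (R τ x * be L φ j δ τ x) := by
      rw [← intervalIntegral.integral_sub]
      · unfold nn
        refine intervalIntegral.integral_congr fun x _ => ?_
        show x ^ 9 * _ = x ^ 9 * _ - x ^ 9 * _
        ring
      · exact ii hL.le (c9.mul ((cb.add cR).mul cb))
      · exact ii hL.le (c9.mul (cR.mul cb))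
    rw [h5, k1, ← intervalIntegral.integral_sub]
    · refine intervalIntegral.integral_congr fun x _ => ?_
      show x ^ 9 * _ - x ^ 9 * _ = x ^ 9 * _
      ring
    · exact ii hL.le (c9.mul ((cE.add cdt).mul cd))
    · exact ii hL.le (c9.mul (cR.mul cb))
  have h7 : nn L (be L φ j δ) τ ≤
      ∫ x in (0 : ℝ)..L, (9 / 16 * (x ^ 9 * (be L φ j δ τ x) ^ 2)
        + 1 / 2 * (x ^ 9 * ((dt^[j] h) τ x) ^ 2)
        + 4 * K ^ 2 * (x ^ 9 * (ls L φ h δ j τ x) ^ 2)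
        + 1 / 2 * (x ^ 9 * ((dt^[j] E) τ x) ^ 2)
        + 1 / 2 * (x ^ 9 * ((dt^[j] δ) τ x) ^ 2)
        + 1 / 2 * (x ^ 9 * (2 * ((dt^[j] δ) τ x * dt (dt^[j] δ) τ x)))) := by
    conv_lhs => rw [e1]
    refine intervalIntegral.integral_mono_on hL.le ?_ ?_ fun x hx => ?_
    · exact ii hL.le (c9.mul (((cR.mul cb).neg.add (cE.mul cd)).add (cdt.mul cd)))
    · exact ii hL.le ((((((continuousOn_const.mul (c9.mul (cb.pow 2))).add
        (continuousOn_const.mul (c9.mul (ch.pow 2)))).add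
        (continuousOn_const.mul (c9.mul (cl.pow 2)))).add
        (continuousOn_const.mul (c9.mul (cE.pow 2)))).add
        (continuousOn_const.mul (c9.mul (cd.pow 2)))).add
        (continuousOn_const.mul (c9.mul (continuousOn_const.mul (cd.mul cdt)))))
    · have hx9 : 0 ≤ x ^ 9 := pow_nonneg hx.1 9
      have hRb' : |R τ x| ≤ |(dt^[j] h) τ x| + K * ls L φ h δ j τ x := hRb τ hτ' x hx
      set B := be L φ j δ τ x
      set H := (dt^[j] h) τ x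
      set r := R τ x
      set S := ls L φ h δ j τ x
      set e := (dt^[j] E) τ x
      set d := (dt^[j] δ) τ x
      set dd := dt (dt^[j] δ) τ x
      have b1 : -(r * B) ≤ 9 / 16 * B ^ 2 + 1 / 2 * H ^ 2 + 4 * K ^ 2 * S ^ 2 := by
        have h8 : -(r * B) ≤ |r| * |B| := by rw [← abs_mul]; exact neg_le_abs _
        have h9 : |r| * |B| ≤ (|H| + K * S) * |B| :=
          mul_le_mul_of_nonneg_right hRb' (abs_nonneg _)
        nlinarith [sq_nonneg (|H| - |B|), sq_nonneg (|B| / 4 - 2 * (K * S)), sq_abs H, sq_abs B]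
      have b2 : e * d ≤ 1 / 2 * e ^ 2 + 1 / 2 * d ^ 2 := by nlinarith [sq_nonneg (e - d)]
      calc x ^ 9 * (-(r * B) + e * d + dd * d)
          ≤ x ^ 9 * ((9 / 16 * B ^ 2 + 1 / 2 * H ^ 2 + 4 * K ^ 2 * S ^ 2)
            + (1 / 2 * e ^ 2 + 1 / 2 * d ^ 2) + dd * d) :=
            mul_le_mul_of_nonneg_left (by linarith) hx9
        _ = _ := by ring
  have i1 : IntervalIntegrable (fun x => 9 / 16 * (x ^ 9 * (be L φ j δ τ x) ^ 2)) volume 0 L :=
    ii hL.le (continuousOn_const.mul (c9.mul (cb.pow 2)))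
  have i2 : IntervalIntegrable (fun x => 1 / 2 * (x ^ 9 * ((dt^[j] h) τ x) ^ 2)) volume 0 L :=
    ii hL.le (continuousOn_const.mul (c9.mul (ch.pow 2)))
  have i3 : IntervalIntegrable (fun x => 4 * K ^ 2 * (x ^ 9 * (ls L φ h δ j τ x) ^ 2))
      volume 0 L := ii hL.le (continuousOn_const.mul (c9.mul (cl.pow 2)))
  have i4 : IntervalIntegrable (fun x => 1 / 2 * (x ^ 9 * ((dt^[j] E) τ x) ^ 2)) volume 0 L :=
    ii hL.le (continuousOn_const.mul (c9.mul (cE.pow 2)))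
  have i5 : IntervalIntegrable (fun x => 1 / 2 * (x ^ 9 * ((dt^[j] δ) τ x) ^ 2)) volume 0 L :=
    ii hL.le (continuousOn_const.mul (c9.mul (cd.pow 2)))
  have i6 : IntervalIntegrable (fun x => 1 / 2 * (x ^ 9 * (2 * ((dt^[j] δ) τ x *
      dt (dt^[j] δ) τ x)))) volume 0 L :=
    ii hL.le (continuousOn_const.mul (c9.mul (continuousOn_const.mul (cd.mul cdt))))
  rw [intervalIntegral.integral_add ((((i1.add i2).add i3).add i4).add i5) i6,
    intervalIntegral.integral_add (((i1.add i2).add i3).add i4) i5,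
    intervalIntegral.integral_add ((i1.add i2).add i3) i4,
    intervalIntegral.integral_add (i1.add i2) i3,
    intervalIntegral.integral_add i1 i2,
    intervalIntegral.integral_const_mul, intervalIntegral.integral_const_mul,
    intervalIntegral.integral_const_mul, intervalIntegral.integral_const_mul,
    intervalIntegral.integral_const_mul, intervalIntegral.integral_const_mul] at h7
  have h8 := int_ls_sq hL hφ hδ hh j hτ
  have h9 : 4 * K ^ 2 * (∫ x in (0 : ℝ)..L, x ^ 9 * (ls L φ h δ j τ x) ^ 2) ≤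
      4 * K ^ 2 * (2 * (j : ℝ) * low L φ h δ j τ) :=
    mul_le_mul_of_nonneg_left h8 (by positivity)
  have e2 : (∫ x in (0 : ℝ)..L, x ^ 9 * (be L φ j δ τ x) ^ 2) = nn L (be L φ j δ) τ := rfl
  have e3 : (∫ x in (0 : ℝ)..L, x ^ 9 * ((dt^[j] E) τ x) ^ 2) = nn L (dt^[j] E) τ := rfl
  have e4 : (∫ x in (0 : ℝ)..L, x ^ 9 * ((dt^[j] δ) τ x) ^ 2) = nn L (dt^[j] δ) τ := rfl
  have e5 : (∫ x in (0 : ℝ)..L, x ^ 9 * ((dt^[j] h) τ x) ^ 2) = nn L (dt^[j] h) τ := rfl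
  rw [e2, e3, e4, e5] at h7
  linarith

/-- constant in the local energy inequality -/
def CE (K : ℝ) (j : ℕ) : ℝ := 200 * ((1 + K) ^ 2 * ((j + 1 : ℕ) : ℝ) + 1)

set_option maxHeartbeats 1600000 in
/-- **local energy inequality at level `J = j+1`**, with cut-off `ζ` supported in `[a,b]`. -/
theorem loc_energy (hL : 0 < L) (hφ : Sm (Ioo 0 1) L φ) (hφL : ∀ τ ∈ Ioo (0 : ℝ) 1, φ τ L = 0)
    (hδ : Sm (Ioo 0 1) L δ) (hh : Sm (Ioo 0 1) L h) (hE : Sm (Ioo 0 1) L E) (hK : 0 ≤ K)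
    (ha : 0 < a) (hab : a ≤ b) (hb : b < 1)
    (h1 : Lev L φ E h δ a b K j) (h2 : Lev L φ E h δ a b K (j + 1))
    {ζ ζ' : ℝ → ℝ} (hζ : ∀ τ, HasDerivAt ζ (ζ' τ) τ) (hζ' : Continuous ζ')
    (hza : ζ a = 0) (hzb : ζ b = 0) :
    ∫ τ in a..b, ζ τ ^ 2 * nn L (be L φ (j + 1) δ) τ ≤
      2 * (∫ τ in a..b, ζ τ ^ 2 * nn L (dt^[j + 1] h) τ) +
      CE K j * ∫ τ in a..b, (ζ τ ^ 2 + ζ' τ ^ 2) *
        (low L φ h δ (j + 1) τ + nn L (dt^[j + 1] E) τ + nn L (dt^[j] E) τ) := by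
  have hsub : Icc a b ⊆ Ioo (0 : ℝ) 1 := fun τ hτ => ⟨lt_of_lt_of_le ha hτ.1, lt_of_le_of_lt hτ.2 hb⟩
  have hδj : ∀ i, Sm (Ioo 0 1) L (dt^[i] δ) := fun i => Sm.dt_iter isOpen_Ioo hL hδ i
  have hEj : ∀ i, Sm (Ioo 0 1) L (dt^[i] E) := fun i => Sm.dt_iter isOpen_Ioo hL hE i
  have hhj : ∀ i, Sm (Ioo 0 1) L (dt^[i] h) := fun i => Sm.dt_iter isOpen_Ioo hL hh i
  have hbe : ∀ i, Sm (Ioo 0 1) L (be L φ i δ) := fun i => sm_be hL hφ hδ i
  have cζ : Continuous ζ := continuous_iff_continuousAt.2 fun τ => (hζ τ).continuousAt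
  have cc : ∀ {u : ℝ → ℝ → ℝ}, Sm (Ioo 0 1) L u → ContinuousOn (nn L u) (Icc a b) :=
    fun hu => (cont_nn hL hu).mono hsub
  have clow : ContinuousOn (low L φ h δ (j + 1)) (Icc a b) := by
    unfold low
    exact continuousOn_finsetSum _ fun i _ => (cc (hbe i)).add (cc (hhj i))
  have cD' : ContinuousOn (fun τ => ∫ x in (0 : ℝ)..L,
      x ^ 9 * (2 * ((dt^[j + 1] δ) τ x * dt (dt^[j + 1] δ) τ x))) (Icc a b) :=
    (cont_dnn hL (hδj (j + 1)) (Sm.dt isOpen_Ioo hL (hδj (j + 1)))).mono hsub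
  have iab : ∀ {f : ℝ → ℝ}, ContinuousOn f (Icc a b) → IntervalIntegrable f volume a b := by
    intro f hf
    apply ContinuousOn.intervalIntegrable; rwa [uIcc_of_le hab]
  -- abbreviations
  set B := nn L (be L φ (j + 1) δ) with hBdef
  set Hn := nn L (dt^[j + 1] h) with hHdef
  set D := nn L (dt^[j + 1] δ) with hDdef
  set E1 := nn L (dt^[j + 1] E) with hE1def
  set E0 := nn L (dt^[j] E) with hE0def
  set Lw := low L φ h δ (j + 1) with hLwdef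
  set D' := (fun τ => ∫ x in (0 : ℝ)..L,
      x ^ 9 * (2 * ((dt^[j + 1] δ) τ x * dt (dt^[j + 1] δ) τ x))) with hD'def
  -- integration by parts in time
  have ibp : ∫ τ in a..b, (2 * (ζ τ * ζ' τ) * D τ + ζ τ ^ 2 * D' τ) = 0 := by
    have hd : ∀ τ ∈ Ioo a b, HasDerivAt (fun τ => ζ τ ^ 2 * D τ)
        (2 * (ζ τ * ζ' τ) * D τ + ζ τ ^ 2 * D' τ) τ := by
      intro τ hτ
      have := ((hζ τ).pow 2).mul (hasDerivAt_nn hL (hδj (j + 1)) (hsub (Ioo_subset_Icc_self hτ)))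
      refine this.congr_deriv ?_
      simp only [Pi.pow_apply, hDdef, hD'def]
      ring
    rw [intervalIntegral.integral_eq_sub_of_hasDerivAt_of_le hab
      ((cζ.continuousOn.pow 2).mul (cc (hδj (j + 1)))) hd]
    · simp only [Pi.mul_apply, Pi.pow_apply]
      rw [hza, hzb]; ring
    · exact iab (((continuousOn_const.mul (cζ.continuousOn.mul hζ'.continuousOn)).mul
        (cc (hδj (j + 1)))).add ((cζ.continuousOn.pow 2).mul cD'))
  -- pointwise in time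
  have hpt : ∀ τ ∈ Icc a b, 11 / 32 * (ζ τ ^ 2 * B τ) ≤ 1 / 2 * (ζ τ ^ 2 * Hn τ)
      + (ζ τ ^ 2 + ζ' τ ^ 2) * ((40 * (1 + K) ^ 2 * ((j + 1 : ℕ) : ℝ)) * Lw τ + E1 τ + 2 * E0 τ)
      + 1 / 2 * (2 * (ζ τ * ζ' τ) * D τ + ζ τ ^ 2 * D' τ) := by
    intro τ hτ
    have hτ1 := hsub hτ
    have f1 := energy_fix hL hφ hφL hδ hh hE h2 hτ1 hτ
    have f2 := interp_delta hL hφ hφL hδ hh hE hK h1 hτ1 hτ (ζ τ) (ζ τ) (ε := 1 / 16) (by norm_num)
    have f3 := interp_delta hL hφ hφL hδ hh hE hK h1 hτ1 hτ (ζ τ) (ζ' τ) (ε := 1 / 16) (by norm_num)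
    have f1' : B τ ≤ 9 / 16 * B τ + 1 / 2 * Hn τ + 4 * K ^ 2 * (2 * ((j + 1 : ℕ) : ℝ) * Lw τ)
      + 1 / 2 * E1 τ + 1 / 2 * D τ + 1 / 2 * D' τ := f1
    have f2' : |ζ τ * ζ τ| * D τ ≤ 1 / 16 * ζ τ ^ 2 * B τ +
      (1 / (1 / 16)) * (1 + K) ^ 2 * ζ τ ^ 2 * (2 * ((j + 1 : ℕ) : ℝ) * Lw τ) +
      (ζ τ ^ 2 + ζ τ ^ 2) / 2 * E0 τ := f2
    have f3' : |ζ τ * ζ' τ| * D τ ≤ 1 / 16 * ζ τ ^ 2 * B τ +
      (1 / (1 / 16)) * (1 + K) ^ 2 * ζ' τ ^ 2 * (2 * ((j + 1 : ℕ) : ℝ) * Lw τ) +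
      (ζ τ ^ 2 + ζ' τ ^ 2) / 2 * E0 τ := f3
    have hJ : (0 : ℝ) ≤ ((j + 1 : ℕ) : ℝ) := Nat.cast_nonneg _
    have hLw0 : 0 ≤ Lw τ := low_nonneg hL.le _ _
    have hE10 : 0 ≤ E1 τ := nn_nonneg hL.le _
    have hE00 : 0 ≤ E0 τ := nn_nonneg hL.le _
    have hD0 : 0 ≤ D τ := nn_nonneg hL.le _
    have hz : |ζ τ * ζ τ| = ζ τ ^ 2 := by rw [abs_mul_self]; ring
    rw [hz] at f2'
    have hneg : -(ζ τ * ζ' τ * D τ) ≤ |ζ τ * ζ' τ| * D τ := by
      have : -(ζ τ * ζ' τ) ≤ |ζ τ * ζ' τ| := neg_le_abs _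
      nlinarith
    have f1'' := mul_le_mul_of_nonneg_left f1' (sq_nonneg (ζ τ))
    set z := ζ τ ^ 2 with hzdef
    set z' := ζ' τ ^ 2 with hz'def
    have hz0 : 0 ≤ z := sq_nonneg _
    have hz'0 : 0 ≤ z' := sq_nonneg _
    set P := ((j + 1 : ℕ) : ℝ) * Lw τ with hPdef
    have hP0 : 0 ≤ P := mul_nonneg hJ hLw0
    have e6 : (40 * (1 + K) ^ 2 * ((j + 1 : ℕ) : ℝ)) * Lw τ = 40 * (1 + K) ^ 2 * P := by
      rw [hPdef]; ring
    have e7 : 2 * ((j + 1 : ℕ) : ℝ) * Lw τ = 2 * P := by rw [hPdef]; ring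
    rw [e7] at f1'' f2' f3'
    rw [e6]
    have hKK : K ^ 2 ≤ (1 + K) ^ 2 := by nlinarith
    have g1 : z * (4 * K ^ 2 * (2 * P)) ≤ 8 * (1 + K) ^ 2 * (z * P) := by
      have : 0 ≤ z * P := mul_nonneg hz0 hP0
      nlinarith
    have g2 : 0 ≤ (1 + K) ^ 2 * (z' * P) := by positivity
    have g3 : 0 ≤ (1 + K) ^ 2 * (z * P) := by positivity
    have g4 : 0 ≤ z * E1 τ := mul_nonneg hz0 hE10
    have g5 : 0 ≤ z' * E1 τ := mul_nonneg hz'0 hE10
    have g6 : 0 ≤ z * E0 τ := mul_nonneg hz0 hE00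
    have g7 : 0 ≤ z' * E0 τ := mul_nonneg hz'0 hE00
    clear_value z z' P B Hn D E1 E0 Lw D'
    linarith
  -- integrate
  have cB := cc (hbe (j + 1))
  have cH := cc (hhj (j + 1))
  have cD := cc (hδj (j + 1))
  have cE1 := cc (hEj (j + 1))
  have cE0 := cc (hEj j)
  have cz : ContinuousOn (fun τ => ζ τ ^ 2) (Icc a b) := (cζ.pow 2).continuousOn
  have cz' : ContinuousOn (fun τ => ζ τ ^ 2 + ζ' τ ^ 2) (Icc a b) :=
    ((cζ.pow 2).add (hζ'.pow 2)).continuousOn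
  have cI : ContinuousOn (fun τ => 2 * (ζ τ * ζ' τ) * D τ + ζ τ ^ 2 * D' τ) (Icc a b) :=
    ((continuousOn_const.mul (cζ.continuousOn.mul hζ'.continuousOn)).mul cD).add
      ((cζ.continuousOn.pow 2).mul cD')
  have cM : ContinuousOn (fun τ => (ζ τ ^ 2 + ζ' τ ^ 2) *
      ((40 * (1 + K) ^ 2 * ((j + 1 : ℕ) : ℝ)) * Lw τ + E1 τ + 2 * E0 τ)) (Icc a b) :=
    cz'.mul (((continuousOn_const.mul clow).add cE1).add (continuousOn_const.mul cE0))
  have hint : ∫ τ in a..b, 11 / 32 * (ζ τ ^ 2 * B τ) ≤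
      ∫ τ in a..b, (1 / 2 * (ζ τ ^ 2 * Hn τ)
      + (ζ τ ^ 2 + ζ' τ ^ 2) * ((40 * (1 + K) ^ 2 * ((j + 1 : ℕ) : ℝ)) * Lw τ + E1 τ + 2 * E0 τ)
      + 1 / 2 * (2 * (ζ τ * ζ' τ) * D τ + ζ τ ^ 2 * D' τ)) :=
    intervalIntegral.integral_mono_on hab
      (iab (continuousOn_const.mul (cz.mul cB)))
      (iab (((continuousOn_const.mul (cz.mul cH)).add cM).add (continuousOn_const.mul cI))) hpt
  have j1 : IntervalIntegrable (fun τ => 1 / 2 * (ζ τ ^ 2 * Hn τ)) volume a b :=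
    iab (continuousOn_const.mul (cz.mul cH))
  have j2 : IntervalIntegrable (fun τ => (ζ τ ^ 2 + ζ' τ ^ 2) *
      ((40 * (1 + K) ^ 2 * ((j + 1 : ℕ) : ℝ)) * Lw τ + E1 τ + 2 * E0 τ)) volume a b := iab cM
  have j3 : IntervalIntegrable (fun τ => 1 / 2 * (2 * (ζ τ * ζ' τ) * D τ + ζ τ ^ 2 * D' τ))
      volume a b := iab (continuousOn_const.mul cI)
  rw [intervalIntegral.integral_const_mul, intervalIntegral.integral_add (j1.add j2) j3,
    intervalIntegral.integral_add j1 j2, intervalIntegral.integral_const_mul,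
    intervalIntegral.integral_const_mul, ibp] at hint
  have hfin : ∫ τ in a..b, (ζ τ ^ 2 + ζ' τ ^ 2) *
      ((40 * (1 + K) ^ 2 * ((j + 1 : ℕ) : ℝ)) * Lw τ + E1 τ + 2 * E0 τ) ≤
      (40 * ((1 + K) ^ 2 * ((j + 1 : ℕ) : ℝ)) + 2) * ∫ τ in a..b, (ζ τ ^ 2 + ζ' τ ^ 2) *
        (Lw τ + E1 τ + E0 τ) := by
    rw [← intervalIntegral.integral_const_mul]
    refine intervalIntegral.integral_mono_on hab (iab cM)
      (iab (continuousOn_const.mul (cz'.mul ((clow.add cE1).add cE0)))) fun τ hτ => ?_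
    have hLw0 : 0 ≤ Lw τ := low_nonneg hL.le _ _
    have hE10 : 0 ≤ E1 τ := nn_nonneg hL.le _
    have hE00 : 0 ≤ E0 τ := nn_nonneg hL.le _
    have hz0 : 0 ≤ ζ τ ^ 2 + ζ' τ ^ 2 := by positivity
    have hC : 0 ≤ (1 + K) ^ 2 * ((j + 1 : ℕ) : ℝ) := by positivity
    have : (40 * (1 + K) ^ 2 * ((j + 1 : ℕ) : ℝ)) * Lw τ + E1 τ + 2 * E0 τ ≤
        (40 * ((1 + K) ^ 2 * ((j + 1 : ℕ) : ℝ)) + 2) * (Lw τ + E1 τ + E0 τ) := by
      nlinarith [mul_nonneg hC hE10, mul_nonneg hC hE00]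
    calc (ζ τ ^ 2 + ζ' τ ^ 2) *
        ((40 * (1 + K) ^ 2 * ((j + 1 : ℕ) : ℝ)) * Lw τ + E1 τ + 2 * E0 τ) ≤
        (ζ τ ^ 2 + ζ' τ ^ 2) * ((40 * ((1 + K) ^ 2 * ((j + 1 : ℕ) : ℝ)) + 2)
          * (Lw τ + E1 τ + E0 τ)) := mul_le_mul_of_nonneg_left this hz0
      _ = _ := by ring
  have hI0 : 0 ≤ ∫ τ in a..b, (ζ τ ^ 2 + ζ' τ ^ 2) * (Lw τ + E1 τ + E0 τ) := by
    refine intervalIntegral.integral_nonneg hab fun τ _ => ?_
    have hLw0 : 0 ≤ Lw τ := low_nonneg hL.le _ _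
    have hE10 : 0 ≤ E1 τ := nn_nonneg hL.le _
    have hE00 : 0 ≤ E0 τ := nn_nonneg hL.le _
    positivity
  have hH0 : 0 ≤ ∫ τ in a..b, ζ τ ^ 2 * Hn τ :=
    intervalIntegral.integral_nonneg hab fun τ _ => mul_nonneg (sq_nonneg _) (nn_nonneg hL.le _)
  have hC : 0 ≤ (1 + K) ^ 2 * ((j + 1 : ℕ) : ℝ) := by positivity
  unfold CE
  set X := ∫ τ in a..b, ζ τ ^ 2 * B τ
  set Y := ∫ τ in a..b, ζ τ ^ 2 * Hn τ
  set Z := ∫ τ in a..b, (ζ τ ^ 2 + ζ' τ ^ 2) * (Lw τ + E1 τ + E0 τ)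
  have : 0 ≤ (1 + K) ^ 2 * ((j + 1 : ℕ) : ℝ) * Z := mul_nonneg hC hI0
  nlinarith

/-- `δ_{j+1}` is controlled by `be_{j+1}` and the lower levels, at fixed time. -/
theorem loc_delta_be (hL : 0 < L) (hφ : Sm (Ioo 0 1) L φ) (hφL : ∀ τ ∈ Ioo (0 : ℝ) 1, φ τ L = 0)
    (hδ : Sm (Ioo 0 1) L δ) (hh : Sm (Ioo 0 1) L h) (hE : Sm (Ioo 0 1) L E) (hK : 0 ≤ K)
    (hlev : Lev L φ E h δ a b K j) {τ : ℝ} (hτ : τ ∈ Ioo (0 : ℝ) 1) (hτ' : τ ∈ Icc a b) :
    nn L (dt^[j + 1] δ) τ ≤ nn L (be L φ (j + 1) δ) τ +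
      2 * (1 + K) ^ 2 * ((j + 1 : ℕ) : ℝ) * low L φ h δ (j + 1) τ + nn L (dt^[j] E) τ := by
  have := interp_delta hL hφ hφL hδ hh hE hK hlev hτ hτ' 1 1 (ε := 1) one_pos
  simp only [mul_one, abs_one, one_mul, one_pow, div_one] at this
  nlinarith

end energy

end Crest.Agent.R213.C8.LE
end
end

-- ▼ part R213/C/BBe
section

/-!
# Row 213, Part C8: `dt^[j] (bb L φ δ)` versus `be L φ j δ` on compact time intervals (helper236)
-/

set_option autoImplicit false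

open Set MeasureTheory Filter Topology

noncomputable section

namespace Crest.Agent.R213.C8.LE

open Crest.Agent.R213 Crest.Agent.R213.C

variable {c0 C0 : ℝ} {g : ℝ → ℝ} {L : ℝ} {φ m δ u : ℝ → ℝ → ℝ} {a b : ℝ}

theorem exists_bd (hu : Sm (Ioo 0 1) L u) (ha : 0 < a) (hb : b < 1) :
    ∃ C : ℝ, 0 ≤ C ∧ ∀ τ ∈ Icc a b, ∀ x ∈ Icc 0 L, |u τ x| ≤ C := by
  have hsub : Icc a b ⊆ Ioo (0 : ℝ) 1 := fun τ hτ => ⟨lt_of_lt_of_le ha hτ.1, lt_of_le_of_lt hτ.2 hb⟩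
  obtain ⟨C, hC⟩ := (isCompact_Icc.prod isCompact_Icc).exists_bound_of_continuousOn
    (hu.continuousOn.mono (prod_mono_left hsub) : ContinuousOn (fun p : ℝ × ℝ => u p.1 p.2)
      (Icc a b ×ˢ Icc 0 L))
  refine ⟨max C 0, le_max_right _ _, fun τ hτ x hx => ?_⟩
  exact (hC (τ, x) ⟨hτ, hx⟩).trans (le_max_left _ _)

theorem exists_bd_iter (hL : 0 < L) (hu : Sm (Ioo 0 1) L u) (ha : 0 < a) (hb : b < 1) (J : ℕ) :
    ∃ M : ℝ, 1 ≤ M ∧ ∀ i ≤ J, ∀ τ ∈ Icc a b, ∀ x ∈ Icc 0 L, |(dt^[i] u) τ x| ≤ M := by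
  induction J with
  | zero =>
    obtain ⟨C, hC0, hC⟩ := exists_bd (a := a) (b := b) hu ha hb
    refine ⟨C + 1, by linarith, fun i hi τ hτ x hx => ?_⟩
    have : i = 0 := by omega
    subst this
    exact (hC τ hτ x hx).trans (by linarith)
  | succ J ih =>
    obtain ⟨M, hM1, hM⟩ := ih
    obtain ⟨C, hC0, hC⟩ := exists_bd (a := a) (b := b) (hu.dt_iter isOpen_Ioo hL (J + 1)) ha hb
    refine ⟨M + C, by linarith, fun i hi τ hτ x hx => ?_⟩
    rcases Nat.lt_or_ge J i with h | h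
    · have : i = J + 1 := by omega
      subst this
      exact (hC τ hτ x hx).trans (by linarith)
    · exact (hM i h τ hτ x hx).trans (by linarith)

/-- `b_j - be_j` is controlled by the lower `be_l`. -/
theorem b_sub_be (hB : Bg c0 C0 g L φ m) (hc0 : 0 < c0) (hδ : Sm (Ioo 0 1) L δ) {τ x : ℝ}
    (hτ : τ ∈ Ioo (0 : ℝ) 1) (hx : x ∈ Icc 0 L) (j : ℕ) {M : ℝ}
    (hM : ∀ i ≤ j, |(dt^[i] m) τ x| ≤ M) :
    |(dt^[j] (bb L φ δ)) τ x - be L φ j δ τ x| ≤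
      2 ^ j * (M / c0) * ∑ l ∈ Finset.range j, |be L φ l δ τ x| := by
  have hL : 0 < L := by have := hB.L_ge; linarith
  have hM0 : 0 ≤ M := (abs_nonneg _).trans (hM 0 (Nat.zero_le _))
  have hxx := (hδ.dx isOpen_Ioo hL).dx isOpen_Ioo hL
  have hm0 : 0 < m τ x := lt_of_lt_of_le hc0 (hB.lower τ hτ x hx)
  have e1 : (dt^[j] (bb L φ δ)) τ x =
      (x * (1 - x / L)) * (dt^[j] (fun t x => dx L (dx L δ) t x * m t x)) τ x := by
    rw [← Leib.dt_iter_right_mul (fun x => x * (1 - x / L))]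
    refine dt_iter_congr isOpen_Ioo (fun r hr => ?_) hτ j
    simp only [bb]
    rw [hB.phi_eq r hr x hx]; ring
  rw [Leib.dt_iter_mul hxx hB.sm isOpen_Ioo hτ hx j, Finset.sum_range_succ] at e1
  simp only [Nat.choose_self, Nat.cast_one, one_mul, Nat.sub_self, Function.iterate_zero, id] at e1
  have e2 : ∀ l, (dt^[l] (dx L (dx L δ))) τ x = dx L (dx L (dt^[l] δ)) τ x := fun l =>
    Leib.dt_iter_dx_dx isOpen_Ioo hL hδ hτ hx l
  have e3 : ∀ l, (x * (1 - x / L)) * dx L (dx L (dt^[l] δ)) τ x = be L φ l δ τ x / m τ x := by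
    intro l
    rw [eq_div_iff hm0.ne']
    simp only [be]
    rw [hB.phi_eq τ hτ x hx]; ring
  have e4 : (dt^[j] (bb L φ δ)) τ x - be L φ j δ τ x =
      ∑ l ∈ Finset.range j, (j.choose l : ℝ) * (be L φ l δ τ x / m τ x) * (dt^[j - l] m) τ x := by
    rw [e1, mul_add, Finset.mul_sum]
    have h5 : (x * (1 - x / L)) * ((dt^[j] (dx L (dx L δ))) τ x * m τ x) = be L φ j δ τ x := by
      rw [← mul_assoc, e2, e3, div_mul_cancel₀ _ hm0.ne']
    rw [h5, add_sub_cancel_right]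
    refine Finset.sum_congr rfl fun l _ => ?_
    rw [e2, ← e3 l]; ring
  rw [e4, Finset.mul_sum]
  refine (Finset.abs_sum_le_sum_abs _ _).trans (Finset.sum_le_sum fun l hl => ?_)
  have hl' : l ≤ j := (Finset.mem_range.1 hl).le
  rw [abs_mul, abs_mul, abs_div, abs_of_pos hm0, abs_of_nonneg (Nat.cast_nonneg _ : (0:ℝ) ≤ (j.choose l : ℝ))]
  have h6 : (j.choose l : ℝ) ≤ 2 ^ j := by
    have h7 : j.choose l ≤ 2 ^ j := by
      rw [← Nat.sum_range_choose j]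
      exact Finset.single_le_sum (f := fun i => j.choose i) (fun _ _ => Nat.zero_le _)
        (Finset.mem_range.2 (Nat.lt_succ_of_le hl'))
    exact_mod_cast h7
  have h8 : |be L φ l δ τ x| / m τ x ≤ |be L φ l δ τ x| / c0 :=
    div_le_div_of_nonneg_left (abs_nonneg _) hc0 (hB.lower τ hτ x hx)
  have h9 := hM (j - l) (Nat.sub_le _ _)
  calc (j.choose l : ℝ) * (|be L φ l δ τ x| / m τ x) * |(dt^[j - l] m) τ x|
      ≤ 2 ^ j * (|be L φ l δ τ x| / c0) * M := by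
        apply mul_le_mul _ h9 (abs_nonneg _) (by positivity)
        exact mul_le_mul h6 h8 (by positivity) (by positivity)
    _ = 2 ^ j * (M / c0) * |be L φ l δ τ x| := by ring

/-- sums of `be_l` are controlled by sums of `b_l`. -/
theorem sum_be_le (hB : Bg c0 C0 g L φ m) (hc0 : 0 < c0) (hδ : Sm (Ioo 0 1) L δ) {τ x : ℝ}
    (hτ : τ ∈ Ioo (0 : ℝ) 1) (hx : x ∈ Icc 0 L) (J : ℕ) {M : ℝ}
    (hM : ∀ i ≤ J, |(dt^[i] m) τ x| ≤ M) : ∀ j ≤ J + 1,
    ∑ l ∈ Finset.range j, |be L φ l δ τ x| ≤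
      (1 + 2 ^ J * (M / c0)) ^ j * ∑ l ∈ Finset.range j, |(dt^[l] (bb L φ δ)) τ x| := by
  have hM0 : 0 ≤ M := (abs_nonneg _).trans (hM 0 (Nat.zero_le _))
  have hK : 0 ≤ 2 ^ J * (M / c0) := by positivity
  intro j
  induction j with
  | zero => intro _; simp
  | succ j ih =>
    intro hj
    have h1 := ih (by omega)
    have h2 := b_sub_be hB hc0 hδ hτ hx j (M := M) (fun i hi => hM i (by omega))
    have h3 : (2 : ℝ) ^ j * (M / c0) ≤ 2 ^ J * (M / c0) :=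
      mul_le_mul_of_nonneg_right (pow_le_pow_right₀ one_le_two (by omega)) (by positivity)
    rw [Finset.sum_range_succ, Finset.sum_range_succ]
    set S := ∑ l ∈ Finset.range j, |be L φ l δ τ x|
    set T := ∑ l ∈ Finset.range j, |(dt^[l] (bb L φ δ)) τ x|
    have hS : 0 ≤ S := Finset.sum_nonneg fun _ _ => abs_nonneg _
    have hT : 0 ≤ T := Finset.sum_nonneg fun _ _ => abs_nonneg _
    set K := 1 + 2 ^ J * (M / c0) with hKdef
    have hK1 : 1 ≤ K := by linarith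
    have hKj : 1 ≤ K ^ j := one_le_pow₀ hK1
    have h4 : |be L φ j δ τ x| ≤ |(dt^[j] (bb L φ δ)) τ x| + (K - 1) * S := by
      have h5 : |be L φ j δ τ x| ≤ |(dt^[j] (bb L φ δ)) τ x| +
          |(dt^[j] (bb L φ δ)) τ x - be L φ j δ τ x| := by
        have := abs_sub_abs_le_abs_sub (be L φ j δ τ x) ((dt^[j] (bb L φ δ)) τ x)
        rw [abs_sub_comm] at this
        linarith
      have h6 : 2 ^ j * (M / c0) * S ≤ (K - 1) * S :=
        mul_le_mul_of_nonneg_right (by linarith) hS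
      linarith
    have h7 : K * S ≤ K ^ (j + 1) * T := by
      rw [pow_succ']
      rw [mul_assoc]
      exact mul_le_mul_of_nonneg_left h1 (by linarith)
    have h8 : |(dt^[j] (bb L φ δ)) τ x| ≤ K ^ (j + 1) * |(dt^[j] (bb L φ δ)) τ x| :=
      le_mul_of_one_le_left (abs_nonneg _) (one_le_pow₀ hK1)
    calc S + |be L φ j δ τ x| ≤ K * S + |(dt^[j] (bb L φ δ)) τ x| := by linarith
      _ ≤ K ^ (j + 1) * T + K ^ (j + 1) * |(dt^[j] (bb L φ δ)) τ x| := add_le_add h7 h8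
      _ = _ := by ring

end Crest.Agent.R213.C8.LE
end
end

-- ▼ part R213/C/LocEnI
section

/-!
# Row 213, Part C8: `loc_en`, `loc_delta` (interface forms, helper236)
-/

set_option autoImplicit false

open Set MeasureTheory Filter Topology

noncomputable section

namespace Crest.Agent.R213.C8

open Crest.Agent.R213 Crest.Agent.R213.C

variable {c0 C0 : ℝ} {g : ℝ → ℝ} {L : ℝ} {φ m E : ℝ → ℝ → ℝ}

namespace LE

theorem phi_sm (hB : Bg c0 C0 g L φ m) : Sm (Ioo 0 1) L φ := by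
  have hL : 0 < L := by have := hB.L_ge; linarith
  have h1 : Sm (Ioo 0 1) L (fun τ x => x * (1 - x / L) * m τ x) :=
    Sm.mul (Sm.of_right (ContDiff.contDiffOn (by fun_prop))) hB.sm
  exact h1.congr fun τ hτ x hx => hB.phi_eq τ hτ x hx

theorem phi_L (hB : Bg c0 C0 g L φ m) : ∀ τ ∈ Ioo (0 : ℝ) 1, φ τ L = 0 := by
  have hL : 0 < L := by have := hB.L_ge; linarith
  intro τ hτ
  rw [hB.phi_eq τ hτ L ⟨hL.le, le_rfl⟩, div_self hL.ne']; ring

/-- the level structure, uniformly over the solutions -/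
theorem lev_of (hB : Bg c0 C0 g L φ m) (hc0 : 0 < c0) (hE : Sm (Ioo 0 1) L E) {a b : ℝ}
    (ha : 0 < a) (hb : b < 1) (J : ℕ) :
    ∃ K : ℝ, 0 ≤ K ∧ ∀ ht δ : ℝ → ℝ → ℝ, Sm (Ioo 0 1) L ht → Sm (Ioo 0 1) L δ →
      LinEq L φ E ht δ → ∀ j ≤ J, Lev L φ E (fun τ x => φ τ x * ht τ x) δ a b K j := by
  have hL : 0 < L := by have := hB.L_ge; linarith
  obtain ⟨M, hM1, hM⟩ := exists_bd_iter (a := a) (b := b) hL hB.sm ha hb J
  set M' := M * (L ^ 2 + 1) ^ J with hM'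
  have hL1 : 1 ≤ L ^ 2 + 1 := by nlinarith
  have hM'1 : 1 ≤ M' := by
    have : 1 ≤ (L ^ 2 + 1) ^ J := one_le_pow₀ hL1
    calc (1 : ℝ) = 1 * 1 := by ring
      _ ≤ M * (L ^ 2 + 1) ^ J := mul_le_mul hM1 this zero_le_one (by linarith)
  set A := (1 + 1 / a) ^ J with hA
  have hA1 : 1 ≤ 1 + 1 / a := by
    have : 0 < 1 / a := by positivity
    linarith
  have hA0 : 0 ≤ A := by positivity
  have hC0 : 0 ≤ CLev c0 M' J := by unfold CLev; positivity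
  refine ⟨CLev c0 M' J * A, by positivity, fun ht δ hht hδ heq j hj => ?_⟩
  obtain ⟨R, hR, hRL, hReq, hRb⟩ := level hc0 hB hE hht hδ heq j
  refine ⟨R, hR, hRL, fun τ hτ x hx => ?_, fun τ hτ x hx => ?_⟩
  · exact hReq τ hτ x hx
  · have hτ1 : τ ∈ Ioo (0 : ℝ) 1 := ⟨lt_of_lt_of_le ha hτ.1, lt_of_le_of_lt hτ.2 hb⟩
    have hρ : a ≤ x ^ 2 + τ := by nlinarith [hτ.1, sq_nonneg x]
    have hρ0 : 0 < x ^ 2 + τ := lt_of_lt_of_le ha hρ
    have hρ1 : x ^ 2 + τ ≤ L ^ 2 + 1 := by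
      have : x ^ 2 ≤ L ^ 2 := pow_le_pow_left₀ hx.1 hx.2 2
      linarith [hτ1.2]
    have h1 := hRb M' hM'1 τ hτ1 x hx (fun i hi => by
      have h2 := hM i (hi.trans hj) τ hτ x hx
      have h3 : (x ^ 2 + τ) ^ i ≤ (L ^ 2 + 1) ^ J :=
        (pow_le_pow_left₀ hρ0.le hρ1 i).trans (pow_le_pow_right₀ hL1 (hi.trans hj))
      calc (x ^ 2 + τ) ^ i * |(dt^[i] m) τ x| ≤ (L ^ 2 + 1) ^ J * M :=
            mul_le_mul h3 h2 (abs_nonneg _) (by positivity)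
        _ = M' := by rw [hM']; ring)
    refine h1.trans (add_le_add le_rfl ?_)
    have h4 : CLev c0 M' j ≤ CLev c0 M' J := by
      unfold CLev
      have h5 : (4 : ℝ) ^ j ≤ 4 ^ J := pow_le_pow_right₀ (by norm_num) hj
      have h6 : 0 ≤ M' ^ 2 / c0 ^ 2 + M' / c0 := by positivity
      have := mul_le_mul_of_nonneg_right h5 h6
      linarith
    have h7 : ∑ i ∈ Finset.range j, (|φ τ x * dx L (dx L (dt^[i] δ)) τ x| +
        |(dt^[i] (fun τ x => φ τ x * ht τ x)) τ x|) / (x ^ 2 + τ) ^ (j - i) ≤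
        A * ∑ i ∈ Finset.range j, (|be L φ i δ τ x| +
          |(dt^[i] (fun τ x => φ τ x * ht τ x)) τ x|) := by
      rw [Finset.mul_sum]
      refine Finset.sum_le_sum fun i hi => ?_
      have h8 : 1 / (x ^ 2 + τ) ^ (j - i) ≤ A := by
        rw [hA, ← one_div_pow]
        have h9 : 1 / (x ^ 2 + τ) ≤ 1 + 1 / a := by
          have : 1 / (x ^ 2 + τ) ≤ 1 / a := one_div_le_one_div_of_le ha hρ
          linarith
        exact (pow_le_pow_left₀ (by positivity) h9 _).trans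
          (pow_le_pow_right₀ hA1 ((Nat.sub_le _ _).trans hj))
      rw [div_eq_mul_one_div, mul_comm]
      exact mul_le_mul_of_nonneg_right h8 (by positivity)
    calc CLev c0 M' j * ∑ i ∈ Finset.range j, (|φ τ x * dx L (dx L (dt^[i] δ)) τ x| +
        |(dt^[i] (fun τ x => φ τ x * ht τ x)) τ x|) / (x ^ 2 + τ) ^ (j - i)
        ≤ CLev c0 M' J * (A * ∑ i ∈ Finset.range j, (|be L φ i δ τ x| +
          |(dt^[i] (fun τ x => φ τ x * ht τ x)) τ x|)) := by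
          refine mul_le_mul h4 h7 (Finset.sum_nonneg fun i _ => by positivity) hC0
      _ = _ := by ring

/-- `nsq` of a function dominated by a sum -/
theorem nsq_sum_le (hL : 0 < L) {u : ℝ → ℝ → ℝ} {v : ℕ → ℝ → ℝ → ℝ} {τ K : ℝ} {j : ℕ}
    (hu : ContinuousOn (u τ) (Icc 0 L)) (hv : ∀ i, ContinuousOn (v i τ) (Icc 0 L))
    (h : ∀ x ∈ Icc 0 L, |u τ x| ≤ K * ∑ i ∈ Finset.range j, |v i τ x|) :
    nsq L u τ ≤ K ^ 2 * j * ∑ i ∈ Finset.range j, nsq L (v i) τ := by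
  unfold nsq
  rw [← intervalIntegral.integral_finsetSum, ← intervalIntegral.integral_const_mul]
  · refine intervalIntegral.integral_mono_on hL.le
      (ii hL.le ((continuous_pow 9).continuousOn.mul (hu.pow 2)))
      (ii hL.le (continuousOn_const.mul (continuousOn_finsetSum _ fun i _ =>
        (continuous_pow 9).continuousOn.mul ((hv i).pow 2)))) fun x hx => ?_
    have h1 : u τ x ^ 2 ≤ K ^ 2 * (j * ∑ i ∈ Finset.range j, (v i τ x) ^ 2) := by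
      have h2 : u τ x ^ 2 ≤ (K * ∑ i ∈ Finset.range j, |v i τ x|) ^ 2 := by
        rw [← sq_abs]
        exact pow_le_pow_left₀ (abs_nonneg _) (h x hx) 2
      rw [mul_pow] at h2
      refine h2.trans (mul_le_mul_of_nonneg_left ?_ (sq_nonneg K))
      have h3 := sq_sum_le_card_mul_sum_sq (s := Finset.range j) (f := fun i => |v i τ x|)
      simpa [sq_abs] using h3
    calc x ^ 9 * u τ x ^ 2 ≤ x ^ 9 * (K ^ 2 * (j * ∑ i ∈ Finset.range j, (v i τ x) ^ 2)) :=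
          mul_le_mul_of_nonneg_left h1 (pow_nonneg hx.1 9)
      _ = K ^ 2 * j * ∑ i ∈ Finset.range j, x ^ 9 * (v i τ x) ^ 2 := by
          rw [← Finset.mul_sum]; ring
  · intro i _
    exact ii hL.le ((continuous_pow 9).continuousOn.mul ((hv i).pow 2))

/-- the sum of the lower levels, interface form -/
def SJ (L : ℝ) (φ ht δ : ℝ → ℝ → ℝ) (J : ℕ) (τ : ℝ) : ℝ :=
  ∑ l ∈ Finset.range J, (nsq L (dt^[l] (bb L φ δ)) τ +
    nsq L (dt^[l] (fun τ x => φ τ x * ht τ x)) τ)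

theorem bb_sm (hL : 0 < L) {φ δ : ℝ → ℝ → ℝ} (hφ : Sm (Ioo 0 1) L φ) (hδ : Sm (Ioo 0 1) L δ) :
    Sm (Ioo 0 1) L (bb L φ δ) := hφ.mul ((hδ.dx isOpen_Ioo hL).dx isOpen_Ioo hL)

theorem fixed_time (hB : Bg c0 C0 g L φ m) (hc0 : 0 < c0) {a b : ℝ} (ha : 0 < a) (hb : b < 1)
    (J : ℕ) :
    ∃ C1 : ℝ, 0 ≤ C1 ∧ ∀ ht δ : ℝ → ℝ → ℝ, Sm (Ioo 0 1) L ht → Sm (Ioo 0 1) L δ →
      ∀ τ ∈ Icc a b,
        low L φ (fun τ x => φ τ x * ht τ x) δ J τ ≤ C1 * SJ L φ ht δ J τ ∧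
        nsq L (be L φ J δ) τ ≤ C1 * SJ L φ ht δ (J + 1) τ ∧
        nsq L (dt^[J] (bb L φ δ)) τ ≤ 3 / 2 * nsq L (be L φ J δ) τ +
          C1 * low L φ (fun τ x => φ τ x * ht τ x) δ J τ := by
  have hL : 0 < L := by have := hB.L_ge; linarith
  have hφ := phi_sm hB
  obtain ⟨M, hM1, hM⟩ := exists_bd_iter (a := a) (b := b) hL hB.sm ha hb J
  have hM0 : 0 ≤ M := by linarith
  set K1 := (1 + 2 ^ J * (M / c0)) ^ (J + 1) with hK1
  have hbase : 1 ≤ 1 + 2 ^ J * (M / c0) := by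
    have : 0 ≤ 2 ^ J * (M / c0) := by positivity
    linarith
  have hK10 : 0 ≤ K1 := by positivity
  set K2 := 2 ^ J * (M / c0) with hK2
  have hK20 : 0 ≤ K2 := by positivity
  set C1 := K1 ^ 2 * (J + 1) * (J + 1) + 1 + 6 * K2 ^ 2 * J with hC1
  refine ⟨C1, by positivity, fun ht δ hht hδ τ hτ => ?_⟩
  have hτ1 : τ ∈ Ioo (0 : ℝ) 1 := ⟨lt_of_lt_of_le ha hτ.1, lt_of_le_of_lt hτ.2 hb⟩
  have hh : Sm (Ioo 0 1) L (fun τ x => φ τ x * ht τ x) := hφ.mul hht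
  have hbb := bb_sm hL hφ hδ
  have cb : ∀ l, ContinuousOn ((dt^[l] (bb L φ δ)) τ) (Icc 0 L) := fun l =>
    cont_w (hbb.dt_iter isOpen_Ioo hL l) hτ1
  have cbe : ∀ l, ContinuousOn (be L φ l δ τ) (Icc 0 L) := fun l =>
    cont_w (sm_be hL hφ hδ l) hτ1
  -- each `be_i`
  have hone : ∀ i ≤ J, nsq L (be L φ i δ) τ ≤
      K1 ^ 2 * (J + 1) * ∑ l ∈ Finset.range (i + 1), nsq L (dt^[l] (bb L φ δ)) τ := by
    intro i hi
    have h1 : ∀ x ∈ Icc 0 L, |be L φ i δ τ x| ≤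
        K1 * ∑ l ∈ Finset.range (i + 1), |(dt^[l] (bb L φ δ)) τ x| := by
      intro x hx
      have h2 := sum_be_le hB hc0 hδ hτ1 hx J (M := M) (fun i hi => hM i hi τ hτ x hx) (i + 1)
        (by omega)
      have h3 : |be L φ i δ τ x| ≤ ∑ l ∈ Finset.range (i + 1), |be L φ l δ τ x| :=
        Finset.single_le_sum (f := fun l => |be L φ l δ τ x|) (fun _ _ => abs_nonneg _)
          (Finset.mem_range.2 (Nat.lt_succ_self i))
      refine (h3.trans h2).trans (mul_le_mul_of_nonneg_right ?_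
        (Finset.sum_nonneg fun _ _ => abs_nonneg _))
      rw [hK1]
      exact pow_le_pow_right₀ hbase (by omega)
    have h4 := nsq_sum_le (u := be L φ i δ) (v := fun l => dt^[l] (bb L φ δ)) (j := i + 1) hL
      (cbe i) cb h1
    refine h4.trans (mul_le_mul_of_nonneg_right ?_
      (Finset.sum_nonneg fun _ _ => nsq_nonneg hL.le _ _))
    have h5 : ((i + 1 : ℕ) : ℝ) ≤ (J : ℝ) + 1 := by exact_mod_cast Nat.succ_le_succ hi
    exact mul_le_mul_of_nonneg_left h5 (sq_nonneg _)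
  have hSJ : ∀ n, ∑ l ∈ Finset.range n, nsq L (dt^[l] (bb L φ δ)) τ ≤ SJ L φ ht δ n τ := by
    intro n
    unfold SJ
    exact Finset.sum_le_sum fun l _ => le_add_of_nonneg_right (nsq_nonneg hL.le _ _)
  have hSJ0 : ∀ n, 0 ≤ SJ L φ ht δ n τ := fun n =>
    Finset.sum_nonneg fun _ _ => add_nonneg (nsq_nonneg hL.le _ _) (nsq_nonneg hL.le _ _)
  have hSJm : ∀ {n k : ℕ}, n ≤ k → SJ L φ ht δ n τ ≤ SJ L φ ht δ k τ := by
    intro n k hnk
    exact Finset.sum_le_sum_of_subset_of_nonneg (Finset.range_mono hnk)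
      fun _ _ _ => add_nonneg (nsq_nonneg hL.le _ _) (nsq_nonneg hL.le _ _)
  refine ⟨?_, ?_, ?_⟩
  · unfold low
    rw [Finset.sum_add_distrib]
    have h6 : ∑ i ∈ Finset.range J, nn L (be L φ i δ) τ ≤
        ∑ _i ∈ Finset.range J, K1 ^ 2 * (J + 1) * SJ L φ ht δ J τ := by
      refine Finset.sum_le_sum fun i hi => ?_
      have hi' := Finset.mem_range.1 hi
      exact (hone i hi'.le).trans (mul_le_mul_of_nonneg_left ((hSJ _).trans (hSJm hi'))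
        (by positivity))
    rw [Finset.sum_const, Finset.card_range, nsmul_eq_mul] at h6
    have h7 : ∑ i ∈ Finset.range J, nn L (dt^[i] (fun τ x => φ τ x * ht τ x)) τ ≤
        SJ L φ ht δ J τ :=
      Finset.sum_le_sum fun l _ => le_add_of_nonneg_left (nsq_nonneg hL.le _ _)
    have h8 : (J : ℝ) * (K1 ^ 2 * (J + 1) * SJ L φ ht δ J τ) ≤
        (J + 1) * (K1 ^ 2 * (J + 1) * SJ L φ ht δ J τ) :=
      mul_le_mul_of_nonneg_right (by linarith) (mul_nonneg (by positivity) (hSJ0 J))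
    have h9 : 0 ≤ 6 * K2 ^ 2 * J * SJ L φ ht δ J τ := mul_nonneg (by positivity) (hSJ0 J)
    rw [hC1]
    nlinarith
  · have h6 := (hone J le_rfl).trans (mul_le_mul_of_nonneg_left (hSJ (J + 1)) (by positivity))
    refine h6.trans (mul_le_mul_of_nonneg_right ?_ (hSJ0 _))
    rw [hC1]
    have h7 : K1 ^ 2 * (J + 1) * 1 ≤ K1 ^ 2 * (J + 1) * ((J : ℝ) + 1) := by
      refine mul_le_mul_of_nonneg_left ?_ (by positivity)
      have : (0 : ℝ) ≤ J := Nat.cast_nonneg _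
      linarith
    have h8 : 0 ≤ 6 * K2 ^ 2 * (J : ℝ) := by positivity
    linarith
  · have hbx : ∀ x ∈ Icc 0 L, |(dt^[J] (bb L φ δ)) τ x| ≤ |be L φ J δ τ x| +
        K2 * ls L φ (fun τ x => φ τ x * ht τ x) δ J τ x := by
      intro x hx
      have h1 := b_sub_be hB hc0 hδ hτ1 hx J (M := M) (fun i hi => hM i hi τ hτ x hx)
      have h2 : ∑ l ∈ Finset.range J, |be L φ l δ τ x| ≤
          ls L φ (fun τ x => φ τ x * ht τ x) δ J τ x :=
        Finset.sum_le_sum fun l _ => le_add_of_nonneg_right (abs_nonneg _)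
      have h3 := mul_le_mul_of_nonneg_left h2 hK20
      have h4 := abs_sub_abs_le_abs_sub ((dt^[J] (bb L φ δ)) τ x) (be L φ J δ τ x)
      linarith
    have c9 : ContinuousOn (fun x : ℝ => x ^ 9) (Icc 0 L) := (continuous_pow 9).continuousOn
    have cl := cont_ls hL hφ hδ hh J hτ1
    have h5 : nsq L (dt^[J] (bb L φ δ)) τ ≤ ∫ x in (0 : ℝ)..L,
        (3 / 2 * (x ^ 9 * (be L φ J δ τ x) ^ 2) +
          3 * K2 ^ 2 * (x ^ 9 * (ls L φ (fun τ x => φ τ x * ht τ x) δ J τ x) ^ 2)) := by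
      refine intervalIntegral.integral_mono_on hL.le (ii hL.le (c9.mul ((cb J).pow 2)))
        (ii hL.le ((continuousOn_const.mul (c9.mul ((cbe J).pow 2))).add
          (continuousOn_const.mul (c9.mul (cl.pow 2))))) fun x hx => ?_
      have h6 := hbx x hx
      set B := (dt^[J] (bb L φ δ)) τ x
      set e := be L φ J δ τ x
      set S := ls L φ (fun τ x => φ τ x * ht τ x) δ J τ x
      have h7 : B ^ 2 ≤ 3 / 2 * e ^ 2 + 3 * (K2 * S) ^ 2 := by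
        have h8 : B ^ 2 ≤ (|e| + K2 * S) ^ 2 := by
          rw [← sq_abs B]; exact pow_le_pow_left₀ (abs_nonneg _) h6 2
        nlinarith [sq_nonneg (|e| - 2 * (K2 * S)), sq_abs e]
      calc x ^ 9 * B ^ 2 ≤ x ^ 9 * (3 / 2 * e ^ 2 + 3 * (K2 * S) ^ 2) :=
            mul_le_mul_of_nonneg_left h7 (pow_nonneg hx.1 9)
        _ = _ := by ring
    rw [intervalIntegral.integral_add, intervalIntegral.integral_const_mul,
      intervalIntegral.integral_const_mul] at h5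
    · have h6 := int_ls_sq hL hφ hδ hh J hτ1
      have h7 := mul_le_mul_of_nonneg_left h6 (by positivity : 0 ≤ 3 * K2 ^ 2)
      have hl0 : 0 ≤ low L φ (fun τ x => φ τ x * ht τ x) δ J τ := low_nonneg hL.le _ _
      have h8 : 3 * K2 ^ 2 * (2 * J * low L φ (fun τ x => φ τ x * ht τ x) δ J τ) ≤
          C1 * low L φ (fun τ x => φ τ x * ht τ x) δ J τ := by
        have h9 : 6 * K2 ^ 2 * J ≤ C1 := by
          rw [hC1]
          have : 0 ≤ K1 ^ 2 * (J + 1) * ((J : ℝ) + 1) := by positivity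
          linarith
        have := mul_le_mul_of_nonneg_right h9 hl0
        linarith
      have h9 : (∫ x in (0 : ℝ)..L, x ^ 9 * (be L φ J δ τ x) ^ 2) = nsq L (be L φ J δ) τ := rfl
      rw [h9] at h5
      linarith
    · exact ii hL.le (continuousOn_const.mul (c9.mul ((cbe J).pow 2)))
    · exact ii hL.le (continuousOn_const.mul (c9.mul (cl.pow 2)))

end LE

open Crest.Agent.R213.C8.LE

/-- `δ_J` from the levels `≤ J` of `b` and `h` (fixed time). -/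
theorem loc_delta (hB : Bg c0 C0 g L φ m) (hg : Prof c0 C0 g) (hE : Sm (Ioo 0 1) L E) (J : ℕ)
    (hJ : 1 ≤ J) {a b : ℝ} (ha : 0 < a) (_hab : a < b) (hb : b < 1 / 2) :
    ∃ C : ℝ, ∀ ht δ : ℝ → ℝ → ℝ, Sm (Ioo 0 1) L ht → Sm (Ioo 0 1) L δ → LinEq L φ E ht δ →
      ∀ τ ∈ Icc a b, nsq L (dt^[J] δ) τ ≤
        C * (1 + ∑ l ∈ Finset.range (J + 1), (nsq L (dt^[l] (bb L φ δ)) τ +
          nsq L (dt^[l] (fun τ x => φ τ x * ht τ x)) τ)) := by
  have hL : 0 < L := by have := hB.L_ge; linarith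
  have hc0 := hg.c0_pos
  have hb1 : b < 1 := by linarith
  obtain ⟨j, rfl⟩ : ∃ j, J = j + 1 := ⟨J - 1, by omega⟩
  obtain ⟨K, hK0, hK⟩ := lev_of hB hc0 hE ha hb1 (j + 1)
  obtain ⟨C1, hC10, hC1⟩ := fixed_time hB hc0 ha hb1 (j + 1)
  have hEj : ∀ i, Sm (Ioo 0 1) L (dt^[i] E) := fun i => Sm.dt_iter isOpen_Ioo hL hE i
  have hsub : Icc a b ⊆ Ioo (0 : ℝ) 1 := fun τ hτ => ⟨lt_of_lt_of_le ha hτ.1, lt_of_le_of_lt hτ.2 hb1⟩
  obtain ⟨CE0, hCE0⟩ := isCompact_Icc.exists_bound_of_continuousOn ((cont_nn hL (hEj j)).mono hsub)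
  set A := 2 * (1 + K) ^ 2 * ((j + 1 : ℕ) : ℝ) with hA
  have hA0 : 0 ≤ A := by positivity
  refine ⟨C1 + A * C1 + |CE0|, fun ht δ hht hδ heq τ hτ => ?_⟩
  have hh : Sm (Ioo 0 1) L (fun τ x => φ τ x * ht τ x) := (phi_sm hB).mul hht
  have h1 := loc_delta_be hL (phi_sm hB) (phi_L hB) hδ hh hE hK0 (hK ht δ hht hδ heq j (by omega))
    (hsub hτ) hτ
  obtain ⟨h2, h3, -⟩ := hC1 ht δ hht hδ τ hτ
  have h4 := hCE0 τ hτ
  have h5 : nn L (dt^[j] E) τ ≤ |CE0| := (le_abs_self _).trans (h4.trans (le_abs_self _))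
  have hS0 : ∀ n, 0 ≤ SJ L φ ht δ n τ := fun n =>
    Finset.sum_nonneg fun _ _ => add_nonneg (nsq_nonneg hL.le _ _) (nsq_nonneg hL.le _ _)
  have hSm : SJ L φ ht δ (j + 1) τ ≤ SJ L φ ht δ (j + 1 + 1) τ :=
    Finset.sum_le_sum_of_subset_of_nonneg (Finset.range_mono (Nat.le_succ _))
      fun _ _ _ => add_nonneg (nsq_nonneg hL.le _ _) (nsq_nonneg hL.le _ _)
  have e1 : (∑ l ∈ Finset.range (j + 1 + 1), (nsq L (dt^[l] (bb L φ δ)) τ +
          nsq L (dt^[l] (fun τ x => φ τ x * ht τ x)) τ)) = SJ L φ ht δ (j + 1 + 1) τ := rfl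
  rw [e1]
  have e2 : nsq L (dt^[j + 1] δ) τ = nn L (dt^[j + 1] δ) τ := rfl
  have e3 : nn L (be L φ (j + 1) δ) τ = nsq L (be L φ (j + 1) δ) τ := rfl
  rw [e2]
  rw [e3] at h1
  set S := SJ L φ ht δ (j + 1 + 1) τ
  have h6 : A * low L φ (fun τ x => φ τ x * ht τ x) δ (j + 1) τ ≤ A * (C1 * S) :=
    mul_le_mul_of_nonneg_left (h2.trans (mul_le_mul_of_nonneg_left hSm hC10)) hA0
  have h7 : 0 ≤ |CE0| * S := mul_nonneg (abs_nonneg _) (hS0 _)
  have h8 : 0 ≤ A * C1 := mul_nonneg hA0 hC10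
  nlinarith

/-- local energy at level `J ≥ 1`, uniform over all solutions. -/
theorem loc_en (hB : Bg c0 C0 g L φ m) (hg : Prof c0 C0 g) (hE : Sm (Ioo 0 1) L E) (J : ℕ)
    (hJ : 1 ≤ J) {ζ : ℝ → ℝ} (hζ : ContDiff ℝ (⊤ : ℕ∞) ζ) {a b : ℝ} (ha : 0 < a) (hab : a < b)
    (hb : b < 1 / 2) (hζs : ∀ τ, τ ∉ Icc a b → ζ τ = 0) :
    ∃ C : ℝ, ∀ ht δ : ℝ → ℝ → ℝ, Sm (Ioo 0 1) L ht → Sm (Ioo 0 1) L δ → LinEq L φ E ht δ →
      ∫ τ in a..b, ζ τ ^ 2 * nsq L (dt^[J] (bb L φ δ)) τ ≤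
        3 * (∫ τ in a..b, ζ τ ^ 2 * nsq L (dt^[J] (fun τ x => φ τ x * ht τ x)) τ) +
        C * (1 + ∑ l ∈ Finset.range J, ∫ τ in a..b, (nsq L (dt^[l] (bb L φ δ)) τ +
          nsq L (dt^[l] (fun τ x => φ τ x * ht τ x)) τ)) := by
  have hL : 0 < L := by have := hB.L_ge; linarith
  have hc0 := hg.c0_pos
  have hb1 : b < 1 := by linarith
  obtain ⟨j, rfl⟩ : ∃ j, J = j + 1 := ⟨J - 1, by omega⟩
  obtain ⟨K, hK0, hK⟩ := lev_of hB hc0 hE ha hb1 (j + 1)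
  obtain ⟨C1, hC10, hC1⟩ := fixed_time hB hc0 ha hb1 (j + 1)
  have hEj : ∀ i, Sm (Ioo 0 1) L (dt^[i] E) := fun i => Sm.dt_iter isOpen_Ioo hL hE i
  have hsub : Icc a b ⊆ Ioo (0 : ℝ) 1 := fun τ hτ => ⟨lt_of_lt_of_le ha hτ.1, lt_of_le_of_lt hτ.2 hb1⟩
  have cEE : ContinuousOn (fun τ => nn L (dt^[j + 1] E) τ + nn L (dt^[j] E) τ) (Icc a b) :=
    (((cont_nn hL (hEj (j + 1))).mono hsub)).add ((cont_nn hL (hEj j)).mono hsub)
  obtain ⟨CE0, hCE0⟩ := isCompact_Icc.exists_bound_of_continuousOn cEE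
  have hζd : ∀ τ, HasDerivAt ζ (deriv ζ τ) τ := fun τ =>
    (hζ.differentiable (by simp)).differentiableAt.hasDerivAt
  have hζc : Continuous ζ := hζ.continuous
  have hζ'c : Continuous (deriv ζ) := hζ.continuous_deriv (by exact_mod_cast le_top)
  obtain ⟨Z, hZ⟩ := isCompact_Icc.exists_bound_of_continuousOn
    (f := fun τ => ζ τ ^ 2 + deriv ζ τ ^ 2) (s := Icc a b)
    ((hζc.pow 2).add (hζ'c.pow 2)).continuousOn
  have hza : ζ a = 0 := by
    have h1 : a ∈ closure (Iio a) := by rw [closure_Iio]; exact Set.mem_Iic.2 le_rfl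
    have h2 : closure (Iio a) ⊆ {τ | ζ τ = 0} :=
      closure_minimal (fun τ hτ => hζs τ fun h => absurd h.1 (not_le.2 hτ))
        (isClosed_eq hζc continuous_const)
    exact h2 h1
  have hzb : ζ b = 0 := by
    have h1 : b ∈ closure (Ioi b) := by rw [closure_Ioi]; exact Set.mem_Ici.2 le_rfl
    have h2 : closure (Ioi b) ⊆ {τ | ζ τ = 0} :=
      closure_minimal (fun τ hτ => hζs τ fun h => absurd h.2 (not_le.2 hτ))
        (isClosed_eq hζc continuous_const)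
    exact h2 h1
  have hCEn : 0 ≤ CE K j := by unfold CE; positivity
  refine ⟨3 / 2 * CE K j * |Z| * (C1 + |CE0| * (b - a)) + C1 * |Z| * C1,
    fun ht δ hht hδ heq => ?_⟩
  have hh : Sm (Ioo 0 1) L (fun τ x => φ τ x * ht τ x) := (phi_sm hB).mul hht
  have hbb := bb_sm hL (phi_sm hB) hδ
  have hEn := loc_energy hL (phi_sm hB) (phi_L hB) hδ hh hE hK0 ha hab.le hb1
    (hK ht δ hht hδ heq j (by omega)) (hK ht δ hht hδ heq (j + 1) le_rfl) hζd hζ'c hza hzb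
  have cn : ∀ {u : ℝ → ℝ → ℝ}, Sm (Ioo 0 1) L u → ContinuousOn (nsq L u) (Icc a b) :=
    fun hu => (cont_nn hL hu).mono hsub
  have iab : ∀ {f : ℝ → ℝ}, ContinuousOn f (Icc a b) → IntervalIntegrable f volume a b := by
    intro f hf
    apply ContinuousOn.intervalIntegrable; rwa [uIcc_of_le hab.le]
  have cS : ContinuousOn (SJ L φ ht δ (j + 1)) (Icc a b) := by
    unfold SJ
    exact continuousOn_finsetSum _ fun i _ => (cn (hbb.dt_iter isOpen_Ioo hL i)).add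
      (cn (hh.dt_iter isOpen_Ioo hL i))
  have clow : ContinuousOn (low L φ (fun τ x => φ τ x * ht τ x) δ (j + 1)) (Icc a b) := by
    unfold low
    exact continuousOn_finsetSum _ fun i _ => (cn (sm_be hL (phi_sm hB) hδ i)).add
      (cn (hh.dt_iter isOpen_Ioo hL i))
  have cz : ContinuousOn (fun τ => ζ τ ^ 2) (Icc a b) := (hζc.pow 2).continuousOn
  have cz' : ContinuousOn (fun τ => ζ τ ^ 2 + deriv ζ τ ^ 2) (Icc a b) :=
    ((hζc.pow 2).add (hζ'c.pow 2)).continuousOn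
  have hS0 : ∀ τ, 0 ≤ SJ L φ ht δ (j + 1) τ := fun τ =>
    Finset.sum_nonneg fun _ _ => add_nonneg (nsq_nonneg hL.le _ _) (nsq_nonneg hL.le _ _)
  have eS : (∑ l ∈ Finset.range (j + 1), ∫ τ in a..b, (nsq L (dt^[l] (bb L φ δ)) τ +
      nsq L (dt^[l] (fun τ x => φ τ x * ht τ x)) τ)) = ∫ τ in a..b, SJ L φ ht δ (j + 1) τ := by
    unfold SJ
    rw [intervalIntegral.integral_finsetSum]
    intro i _
    exact iab ((cn (hbb.dt_iter isOpen_Ioo hL i)).add (cn (hh.dt_iter isOpen_Ioo hL i)))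
  rw [eS]
  -- step 1
  have s1 : ∫ τ in a..b, ζ τ ^ 2 * nsq L (dt^[j + 1] (bb L φ δ)) τ ≤
      ∫ τ in a..b, (3 / 2 * (ζ τ ^ 2 * nn L (be L φ (j + 1) δ) τ) +
        C1 * |Z| * C1 * SJ L φ ht δ (j + 1) τ) := by
    refine intervalIntegral.integral_mono_on hab.le
      (iab (cz.mul (cn (hbb.dt_iter isOpen_Ioo hL (j + 1)))))
      (iab ((continuousOn_const.mul (cz.mul (cn (sm_be hL (phi_sm hB) hδ (j + 1))))).add
        (continuousOn_const.mul cS))) fun τ hτ => ?_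
    obtain ⟨h2, -, h3⟩ := hC1 ht δ hht hδ τ hτ
    have h4 := hZ τ hτ
    rw [Real.norm_eq_abs, abs_of_nonneg (by positivity)] at h4
    have h5 : ζ τ ^ 2 ≤ |Z| := by
      have := sq_nonneg (deriv ζ τ)
      linarith [le_abs_self Z]
    have h6 : C1 * low L φ (fun τ x => φ τ x * ht τ x) δ (j + 1) τ ≤
        C1 * (C1 * SJ L φ ht δ (j + 1) τ) := mul_le_mul_of_nonneg_left h2 hC10
    have h7 : 0 ≤ C1 * (C1 * SJ L φ ht δ (j + 1) τ) := mul_nonneg hC10 (mul_nonneg hC10 (hS0 τ))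
    have h8 : ζ τ ^ 2 * (C1 * low L φ (fun τ x => φ τ x * ht τ x) δ (j + 1) τ) ≤
        |Z| * (C1 * (C1 * SJ L φ ht δ (j + 1) τ)) :=
      (mul_le_mul_of_nonneg_left h6 (sq_nonneg _)).trans (mul_le_mul_of_nonneg_right h5 h7)
    have h9 := mul_le_mul_of_nonneg_left h3 (sq_nonneg (ζ τ))
    have e3 : nn L (be L φ (j + 1) δ) τ = nsq L (be L φ (j + 1) δ) τ := rfl
    rw [e3]
    linarith
  have q1 : IntervalIntegrable (fun τ => 3 / 2 * (ζ τ ^ 2 * nn L (be L φ (j + 1) δ) τ))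
      volume a b := iab (continuousOn_const.mul (cz.mul (cn (sm_be hL (phi_sm hB) hδ (j + 1)))))
  have q2 : IntervalIntegrable (fun τ => C1 * |Z| * C1 * SJ L φ ht δ (j + 1) τ)
      volume a b := iab (continuousOn_const.mul cS)
  have q3 : IntervalIntegrable (fun τ => |Z| * C1 * SJ L φ ht δ (j + 1) τ)
      volume a b := iab (continuousOn_const.mul cS)
  have q4 : IntervalIntegrable (fun _ : ℝ => |Z| * |CE0|) volume a b := iab continuousOn_const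
  rw [intervalIntegral.integral_add q1 q2, intervalIntegral.integral_const_mul,
    intervalIntegral.integral_const_mul] at s1
  -- step 2
  have s2 : ∫ τ in a..b, (ζ τ ^ 2 + deriv ζ τ ^ 2) *
        (low L φ (fun τ x => φ τ x * ht τ x) δ (j + 1) τ + nn L (dt^[j + 1] E) τ
          + nn L (dt^[j] E) τ) ≤
      ∫ τ in a..b, (|Z| * C1 * SJ L φ ht δ (j + 1) τ + |Z| * |CE0|) := by
    refine intervalIntegral.integral_mono_on hab.le
      (iab (cz'.mul ((clow.add (cn (hEj (j + 1)))).add (cn (hEj j)))))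
      (iab ((continuousOn_const.mul cS).add continuousOn_const)) fun τ hτ => ?_
    obtain ⟨h2, -, -⟩ := hC1 ht δ hht hδ τ hτ
    have h4 := hZ τ hτ
    rw [Real.norm_eq_abs, abs_of_nonneg (by positivity)] at h4
    have h5 := hCE0 τ hτ
    rw [Real.norm_eq_abs] at h5
    have h6 : nn L (dt^[j + 1] E) τ + nn L (dt^[j] E) τ ≤ |CE0| :=
      (le_abs_self _).trans (h5.trans (le_abs_self _))
    have h7 : low L φ (fun τ x => φ τ x * ht τ x) δ (j + 1) τ + nn L (dt^[j + 1] E) τ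
          + nn L (dt^[j] E) τ ≤ C1 * SJ L φ ht δ (j + 1) τ + |CE0| := by linarith
    calc (ζ τ ^ 2 + deriv ζ τ ^ 2) *
        (low L φ (fun τ x => φ τ x * ht τ x) δ (j + 1) τ + nn L (dt^[j + 1] E) τ
          + nn L (dt^[j] E) τ) ≤
        (ζ τ ^ 2 + deriv ζ τ ^ 2) * (C1 * SJ L φ ht δ (j + 1) τ + |CE0|) :=
          mul_le_mul_of_nonneg_left h7 (by positivity)
      _ ≤ |Z| * (C1 * SJ L φ ht δ (j + 1) τ + |CE0|) :=
          mul_le_mul_of_nonneg_right (h4.trans (le_abs_self _))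
            (add_nonneg (mul_nonneg hC10 (hS0 τ)) (abs_nonneg _))
      _ = _ := by ring
  rw [intervalIntegral.integral_add q3 q4,
    intervalIntegral.integral_const_mul, intervalIntegral.integral_const, smul_eq_mul] at s2
  have hI0 : 0 ≤ ∫ τ in a..b, SJ L φ ht δ (j + 1) τ :=
    intervalIntegral.integral_nonneg hab.le fun τ _ => hS0 τ
  have e4 : (∫ τ in a..b, ζ τ ^ 2 * nn L (dt^[j + 1] (fun τ x => φ τ x * ht τ x)) τ) =
    ∫ τ in a..b, ζ τ ^ 2 * nsq L (dt^[j + 1] (fun τ x => φ τ x * ht τ x)) τ := rfl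
  rw [e4] at hEn
  have e5 : (∫ τ in a..b, ζ τ ^ 2 * nn L (be L φ (j + 1) δ) τ) =
    ∫ τ in a..b, ζ τ ^ 2 * nsq L (be L φ (j + 1) δ) τ := rfl
  rw [e5] at hEn s1
  set X := ∫ τ in a..b, ζ τ ^ 2 * nsq L (be L φ (j + 1) δ) τ
  set Y := ∫ τ in a..b, ζ τ ^ 2 * nsq L (dt^[j + 1] (fun τ x => φ τ x * ht τ x)) τ
  set W := ∫ τ in a..b, (ζ τ ^ 2 + deriv ζ τ ^ 2) *
        (low L φ (fun τ x => φ τ x * ht τ x) δ (j + 1) τ + nn L (dt^[j + 1] E) τ
          + nn L (dt^[j] E) τ)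
  set I := ∫ τ in a..b, SJ L φ ht δ (j + 1) τ
  have hba : 0 < b - a := sub_pos.2 hab
  have t1 : CE K j * W ≤ CE K j * (|Z| * C1 * I + (b - a) * (|Z| * |CE0|)) :=
    mul_le_mul_of_nonneg_left s2 hCEn
  have t2 : 0 ≤ CE K j * |Z| * C1 := by positivity
  have t3 : 0 ≤ CE K j * |Z| * (|CE0| * (b - a)) * I := by positivity
  have t4 : 0 ≤ C1 * |Z| * C1 := by positivity
  nlinarith

end Crest.Agent.R213.C8
end
end

-- ▼ part R213/C/AllJ302
section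

/-!
# Row 213, part C8: assembly (helper302's version)
-/

set_option autoImplicit false

open Set MeasureTheory Filter Topology

noncomputable section

namespace Crest.Agent.R213.C8.H302

open Crest.Agent.R213 Crest.Agent.R213.C Crest.Agent.R213.C8

variable {c0 C0 κ L : ℝ} {g : ℝ → ℝ} {φ m E : ℝ → ℝ → ℝ} {η : ℝ → ℝ} {d : ℕ → ℝ → ℝ → ℝ}

/-- shifted nonlinear terms: `(hs i, d i)` solves the linear equation for all `i` -/
def hs (L : ℝ) (φ : ℝ → ℝ → ℝ) (η : ℝ → ℝ) (d : ℕ → ℝ → ℝ → ℝ) : ℕ → ℝ → ℝ → ℝ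
  | 0 => fun _ _ => 0
  | i + 1 => hNL L φ η (d i)

theorem dt_iter_zero' (l : ℕ) (τ x : ℝ) :
    (dt^[l] (fun τ x => φ τ x * (0 : ℝ))) τ x = 0 := by
  have h : (fun τ x => φ τ x * (0 : ℝ)) = fun _ _ => (0 : ℝ) := by
    funext τ x
    exact mul_zero _
  rw [h]
  induction l generalizing τ x with
  | zero => rfl
  | succ l ih =>
    rw [Function.iterate_succ_apply']
    have : (dt^[l] fun _ _ => (0 : ℝ)) = fun _ _ => (0 : ℝ) := by
      funext a b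
      exact ih a b
    rw [this]
    exact dt_const 0

theorem ub_shift {e l : ℕ} (h : UB L e (fun i => dt^[l] (hh L φ η (d i)))) :
    UB L e (fun i => dt^[l] (fun τ x => φ τ x * hs L φ η d i τ x)) := by
  intro a b ha hab hb
  obtain ⟨C, hC0, hC⟩ := h.exists_nonneg ha hab hb
  refine ⟨C, fun i τ hτ x hx => ?_⟩
  rcases i with _ | i
  · have : (dt^[l] (fun τ x => φ τ x * hs L φ η d 0 τ x)) τ x = 0 := dt_iter_zero' l τ x
    simp only [this, abs_zero, zero_mul]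
    exact hC0
  · exact hC i τ hτ x hx

theorem nsq_zero_fn {τ : ℝ} {f : ℝ → ℝ → ℝ} (h : ∀ x, f τ x = 0) : nsq L f τ = 0 := by
  unfold nsq
  simp [h]

theorem ul2_shift {l : ℕ} (h : UL2 L (fun i => dt^[l] (hh L φ η (d i)))) :
    UL2 L (fun i => dt^[l] (fun τ x => φ τ x * hs L φ η d i τ x)) := by
  intro a b ha hab hb
  obtain ⟨C, hC0, hC⟩ := h.exists_nonneg ha hab hb
  refine ⟨C, fun i => ?_⟩
  rcases i with _ | i
  · have : ∀ t, nsq L (dt^[l] (fun τ x => φ τ x * hs L φ η d 0 τ x)) t = 0 := fun t =>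
      nsq_zero_fn (fun x => dt_iter_zero' l t x)
    simp only [this, intervalIntegral.integral_zero]
    exact hC0
  · exact hC i

section

variable (hB : Bg c0 C0 g L φ m) (hg : Prof c0 C0 g) (hη : EtaOK η) (hE : Sm (Ioo 0 1) L E)
  (hI : Iter κ L φ E η d)

include hB hη hI

theorem hN (i : ℕ) : NL (Ioo 0 (1 / 2)) L η (bb L φ (d i)) (hh L φ η (d i)) :=
  nl hB hη (hI.sm i) (hI.small i)

theorem sm_hs (i : ℕ) : Sm (Ioo 0 1) L (hs L φ η d i) := by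
  rcases i with _ | i
  · exact Sm.const 0
  · exact hNL_sm hB hη (hI.sm i) (hI.small i)

omit hB hη in
theorem eq_hs (i : ℕ) : LinEq L φ E (hs L φ η d i) (d i) := by
  rcases i with _ | i
  · exact hI.eq0
  · exact hI.eqS i

/-- closing a pass -/
theorem close (hL : 0 < L) {e : ℕ → ℕ} {J : ℕ} (he : ExpOK e (J + 1))
    (h1 : ∀ l < J + 1, UB L (e l) (bj L φ d l))
    (hR : UB L (e (J + 1)) (fun i => fun τ x => (dt^[J + 1] (bb L φ (d i))) τ x -
      (dt^[J + 1] (fun τ x => φ τ x * hs L φ η d i τ x)) τ x)) :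
    UB L (e (J + 1)) (bj L φ d (J + 1)) := by
  have h2 : ∀ l < J + 1, UB L (e l) (fun i => dt^[l] (hh L φ η (d i))) := fun l hl =>
    h_ub (he.le (Nat.le_succ J)) (hN hB hη hI) hI.small (fun l hl => h1 l (by omega)) l (by omega)
  refine it_ub hL (fun i => (hN hB hη hI i).smb.dt_iter isOpen_Ioo hL (J + 1)) ?_
  intro a b ha hab hb
  obtain ⟨C1, hC1⟩ := h_level he (hN hB hη hI) hI.small h1 h2 ha hab hb
  obtain ⟨C2, hC2⟩ := hR a b ha hab hb
  refine ⟨C1 + C2, fun i τ hτ x hx => ?_⟩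
  have k1 := hC1 i τ hτ x hx
  have k2 := hC2 (i + 1) τ hτ x hx
  have hx0 : 0 ≤ x ^ e (J + 1) := pow_nonneg hx.1.le _
  have k3 : |(dt^[J + 1] (bb L φ (d (i + 1)))) τ x| ≤
      |(dt^[J + 1] (bb L φ (d (i + 1)))) τ x - (dt^[J + 1] (hh L φ η (d i))) τ x| +
        |(dt^[J + 1] (hh L φ η (d i))) τ x| := by
    have := abs_add_le ((dt^[J + 1] (bb L φ (d (i + 1)))) τ x - (dt^[J + 1] (hh L φ η (d i))) τ x)
      ((dt^[J + 1] (hh L φ η (d i))) τ x)
    rwa [sub_add_cancel] at this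
  have k4 := mul_le_mul_of_nonneg_right k3 hx0
  rw [add_mul] at k4
  have k5 : |(dt^[J + 1] (bb L φ (d (i + 1)))) τ x - (dt^[J + 1] (hh L φ η (d i))) τ x| *
      x ^ e (J + 1) ≤ C2 := k2
  have k6 : 0 ≤ |(dt^[J + 1] (bb L φ (d i))) τ x| * x ^ e (J + 1) := by positivity
  linarith

end

theorem expOK_zero (n : ℕ) : ExpOK (fun _ => 0) n := ⟨fun _ _ _ _ => le_rfl, fun _ _ _ => le_rfl⟩

def e4 (K l : ℕ) : ℕ := if l < K then 0 else if l = K then 2 else 4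

def e2 (K l : ℕ) : ℕ := if l < K then 0 else 2

theorem expOK_e4 {K : ℕ} (hK : 5 ≤ K) : ExpOK (e4 K) (K + 2) := by
  constructor
  · intro p q hpq hq
    unfold e4
    split_ifs <;> omega
  · intro p q hpq
    unfold e4
    split_ifs <;> omega

theorem expOK_e2 {K : ℕ} (hK : 5 ≤ K) : ExpOK (e2 K) (K + 1) := by
  constructor
  · intro p q hpq hq
    unfold e2
    split_ifs <;> omega
  · intro p q hpq
    unfold e2
    split_ifs <;> omega

theorem step (hB : Bg c0 C0 g L φ m) (hg : Prof c0 C0 g) (hη : EtaOK η) (hE : Sm (Ioo 0 1) L E)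
    (hI : Iter κ L φ E η d) {K : ℕ} (hK : 5 ≤ K) (H : Hyp L φ d (K + 4)) :
    Hyp L φ d (K + 5) ∧ UB L 0 (dj d K) := by
  have hL : 0 < L := by linarith [hB.L_ge]
  have hNL' := hN hB hη hI
  -- pointwise classes of b, l ≤ K + 1
  have hb0 : ∀ l < K, UB L 0 (bj L φ d l) := fun l hl => H.ub0 l (by omega)
  have hbK : UB L 2 (bj L φ d K) := H.ub2 K rfl
  have hbK1 : UB L 4 (bj L φ d (K + 1)) := H.ub4 (K + 1) rfl
  have cb4 : ∀ l < K + 2, UB L (e4 K l) (bj L φ d l) := by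
    intro l hl
    unfold e4
    split_ifs with h1 h2
    · exact hb0 l h1
    · subst h2; exact hbK
    · obtain rfl : l = K + 1 := by omega
      exact hbK1
  have cb2 : ∀ l < K + 1, UB L (e2 K l) (bj L φ d l) := by
    intro l hl
    unfold e2
    split_ifs with h1
    · exact hb0 l h1
    · obtain rfl : l = K := by omega
      exact hbK
  have ch4 : ∀ l < K + 2, UB L (e4 K l) (fun i => dt^[l] (hh L φ η (d i))) := fun l hl =>
    h_ub ((expOK_e4 hK).le (show K + 1 ≤ K + 2 by omega)) hNL' hI.small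
      (fun l hl => cb4 l (by omega)) l (by omega)
  have ch2 : ∀ l < K + 1, UB L (e2 K l) (fun i => dt^[l] (hh L φ η (d i))) := fun l hl =>
    h_ub ((expOK_e2 hK).le (show K ≤ K + 1 by omega)) hNL' hI.small
      (fun l hl => cb2 l (by omega)) l (by omega)
  have ch0 : ∀ l < K, UB L 0 (fun i => dt^[l] (hh L φ η (d i))) := by
    intro l hl
    have h1 := h_ub (expOK_zero (K - 1)) hNL' hI.small
      (fun l hl => hb0 l (by omega)) l (by omega)
    exact h1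
  -- L² levels of h, l < K + 4
  have hh2 : ∀ l < K + 4, UL2 L (fun i => dt^[l] (hh L φ η (d i))) :=
    h_l2 hL hNL' hI.small (fun l hl => hb0 l (by omega)) (fun l hl => ch0 l (by omega)) H.l2
  -- energy step
  have hb2 : UL2 L (bj L φ d (K + 4)) := by
    refine energy_step (J := K + 3) hL hNL' hI.small (fun l hl => hb0 l (by omega))
      (fun l hl => ch0 l (by omega)) H.l2 hh2 ?_
    intro ζ hζ a c ha hac hc hz
    obtain ⟨C, hC⟩ := loc_en hB hg hE (K + 4) (by omega) hζ ha hac hc hz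
    exact ⟨C, fun i => hC (hNL L φ η (d i)) (d (i + 1)) (hNL_sm hB hη (hI.sm i) (hI.small i))
      (hI.sm (i + 1)) (hI.eqS i)⟩
  have hball : ∀ l < K + 5, UL2 L (bj L φ d l) := by
    intro l hl
    rcases Nat.lt_or_ge l (K + 4) with h | h
    · exact H.l2 l h
    · obtain rfl : l = K + 4 := by omega
      exact hb2
  have hhall : ∀ l < K + 5, UL2 L (fun i => dt^[l] (hh L φ η (d i))) :=
    h_l2 hL hNL' hI.small (fun l hl => hb0 l (by omega)) (fun l hl => ch0 l (by omega)) hball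
  -- L² levels of δ
  have hd2 : ∀ j, 1 ≤ j → j < K + 5 → UL2 L (dj d j) := by
    intro j hj1 hj a b ha hab hb
    obtain ⟨C, hC⟩ := loc_delta hB hg hE j hj1 ha hab hb
    obtain ⟨B1, hB10, hB1⟩ := UL2.common (n := j + 1) (v := fun l => bj L φ d l)
      (fun l hl => hball l (by omega)) ha hab hb
    obtain ⟨B2, hB20, hB2⟩ := UL2.common (n := j + 1)
      (v := fun l i => dt^[l] (fun τ x => φ τ x * hs L φ η d i τ x))
      (fun l hl => ul2_shift (hhall l (by omega))) ha hab hb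
    have hsub : Icc a b ⊆ Ioo (0 : ℝ) (1 / 2) := fun t ht => mem_half ha hb ht
    have cn : ∀ {f : ℝ → ℝ → ℝ}, Sm (Ioo 0 (1 / 2)) L f → ContinuousOn (nsq L f) (Icc a b) :=
      fun hf => (continuousOn_nsq isOpen_Ioo hL.le hf).mono hsub
    have ii : ∀ {f : ℝ → ℝ}, ContinuousOn f (Icc a b) → IntervalIntegrable f volume a b :=
      fun hf => ContinuousOn.intervalIntegrable (by rwa [uIcc_of_le hab.le])
    have half : Ioo (0 : ℝ) (1 / 2) ⊆ Ioo (0 : ℝ) 1 := Ioo_subset_Ioo_right (by norm_num)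
    have smb : ∀ l i, Sm (Ioo 0 (1 / 2)) L (dt^[l] (bb L φ (d i))) := fun l i =>
      (hNL' i).smb.dt_iter isOpen_Ioo hL l
    have smh : ∀ l i, Sm (Ioo 0 (1 / 2)) L (dt^[l] (fun τ x => φ τ x * hs L φ η d i τ x)) :=
      fun l i => (((Base.phi_sm hB).mul (sm_hs hB hη hI i)).dt_iter isOpen_Ioo hL l).mono half
    refine ⟨max C 0 * ((b - a) + ∑ l ∈ Finset.range (j + 1), (B1 + B2)), fun i => ?_⟩
    have hpt : ∀ τ ∈ Icc a b, nsq L (dt^[j] (d i)) τ ≤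
        max C 0 * (1 + ∑ l ∈ Finset.range (j + 1), (nsq L (dt^[l] (bb L φ (d i))) τ +
          nsq L (dt^[l] (fun τ x => φ τ x * hs L φ η d i τ x)) τ)) := by
      intro τ hτ
      refine (hC (hs L φ η d i) (d i) (sm_hs hB hη hI i) (hI.sm i) (eq_hs hI i) τ hτ).trans ?_
      refine mul_le_mul_of_nonneg_right (le_max_left _ _) ?_
      have : 0 ≤ ∑ l ∈ Finset.range (j + 1), (nsq L (dt^[l] (bb L φ (d i))) τ +
          nsq L (dt^[l] (fun τ x => φ τ x * hs L φ η d i τ x)) τ) :=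
        Finset.sum_nonneg fun l _ => add_nonneg (nsq_nonneg hL.le _ _) (nsq_nonneg hL.le _ _)
      linarith
    have cs : ∀ l, ContinuousOn (fun τ => nsq L (dt^[l] (bb L φ (d i))) τ +
          nsq L (dt^[l] (fun τ x => φ τ x * hs L φ η d i τ x)) τ) (Icc a b) := fun l =>
      (cn (smb l i)).add (cn (smh l i))
    have csum : ContinuousOn (fun τ => ∑ l ∈ Finset.range (j + 1),
        (nsq L (dt^[l] (bb L φ (d i))) τ +
          nsq L (dt^[l] (fun τ x => φ τ x * hs L φ η d i τ x)) τ)) (Icc a b) :=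
      continuousOn_finsetSum _ fun l _ => cs l
    have smd : Sm (Ioo 0 (1 / 2)) L (dt^[j] (d i)) :=
      ((hI.sm i).dt_iter isOpen_Ioo hL j).mono half
    calc ∫ t in a..b, nsq L (dj d j i) t ≤ ∫ t in a..b,
          max C 0 * (1 + ∑ l ∈ Finset.range (j + 1), (nsq L (dt^[l] (bb L φ (d i))) t +
          nsq L (dt^[l] (fun τ x => φ τ x * hs L φ η d i τ x)) t)) :=
          intervalIntegral.integral_mono_on hab.le (ii (cn smd))
            (ii (continuousOn_const.mul (continuousOn_const.add csum))) hpt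
      _ = max C 0 * ((b - a) + ∑ l ∈ Finset.range (j + 1),
          (∫ t in a..b, nsq L (dt^[l] (bb L φ (d i))) t) +
          ∑ l ∈ Finset.range (j + 1),
          (∫ t in a..b, nsq L (dt^[l] (fun τ x => φ τ x * hs L φ η d i τ x)) t)) := by
          rw [intervalIntegral.integral_const_mul,
            intervalIntegral.integral_add (ii continuousOn_const) (ii csum),
            intervalIntegral.integral_const,
            intervalIntegral.integral_finsetSum (fun l _ => ii (cs l))]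
          congr 1
          rw [add_assoc]
          congr 1
          · simp
          · rw [← Finset.sum_add_distrib]
            refine Finset.sum_congr rfl fun l _ => ?_
            exact intervalIntegral.integral_add (ii (cn (smb l i))) (ii (cn (smh l i)))
      _ ≤ _ := by
          refine mul_le_mul_of_nonneg_left ?_ (le_max_right _ _)
          rw [add_assoc, ← Finset.sum_add_distrib]
          refine add_le_add le_rfl (Finset.sum_le_sum fun l hl => ?_)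
          have hl' : l < j + 1 := Finset.mem_range.1 hl
          exact add_le_add (hB1 l hl' i) (hB2 l hl' i)
  have hdsup : ∀ j, 1 ≤ j → j + 1 < K + 5 → USup L (dj d j) := by
    intro j hj1 hj
    have half : Ioo (0 : ℝ) (1 / 2) ⊆ Ioo (0 : ℝ) 1 := Ioo_subset_Ioo_right (by norm_num)
    refine USup.of_UL2 hL (fun i => ((hI.sm i).dt_iter isOpen_Ioo hL j).mono half)
      (hd2 j hj1 (by omega)) ?_
    have h1 := hd2 (j + 1) (by omega) (by omega)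
    have h2 : (fun i => dt (dj d j i)) = dj d (j + 1) := by
      funext i
      simp only [dj]
      rw [Function.iterate_succ_apply']
    rw [h2]
    exact h1
  -- pass 4
  have r4 := pass4 hB hg hE (sm_hs hB hη hI) hI.sm (eq_hs hI) (K + 2)
    (fun l hl => ⟨(cb4 l hl).mono_exp ((expOK_e4 hK).mono l (K + 2) (by omega) le_rfl |>.trans
        (by unfold e4; split_ifs <;> omega)),
      ub_shift ((ch4 l hl).mono_exp ((expOK_e4 hK).mono l (K + 2) (by omega) le_rfl |>.trans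
        (by unfold e4; split_ifs <;> omega)))⟩) (hdsup (K + 3) (by omega) (by omega))
  have e4K2 : e4 K (K + 2) = 4 := by unfold e4; split_ifs <;> omega
  have b4 : UB L 4 (bj L φ d (K + 2)) := by
    have := close hB hη hI hL (e := e4 K) (J := K + 1) (expOK_e4 hK) cb4
      (by rw [e4K2]; exact r4)
    rwa [e4K2] at this
  have hd3 : UB L 3 (dj d (K + 2)) := by
    refine recover hB hg hI.sm (e := 4) (Or.inl rfl) (K + 2) ?_ (hdsup (K + 2) (by omega) (by omega))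
    intro l hl
    rcases Nat.lt_or_ge l (K + 2) with h | h
    · exact (cb4 l h).mono_exp ((expOK_e4 hK).mono l (K + 2) (by omega) le_rfl |>.trans e4K2.le)
    · obtain rfl : l = K + 2 := by omega
      exact b4
  -- pass 2
  have e2le : ∀ l, e2 K l ≤ 2 := fun l => by unfold e2; split_ifs <;> omega
  have e2K1 : e2 K (K + 1) = 2 := by unfold e2; split_ifs <;> omega
  have r2 := pass2 hB hg hE (sm_hs hB hη hI) hI.sm (eq_hs hI) (K + 1)
    (fun l hl => ⟨(cb2 l hl).mono_exp (e2le l), ub_shift ((ch2 l hl).mono_exp (e2le l))⟩) hd3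
  have b2 : UB L 2 (bj L φ d (K + 1)) := by
    have := close hB hη hI hL (e := e2 K) (J := K) (expOK_e2 hK) cb2
      (by rw [e2K1]; exact r2)
    rwa [e2K1] at this
  have hd1 : UB L 1 (dj d (K + 1)) := by
    refine recover hB hg hI.sm (e := 2) (Or.inr (Or.inl rfl)) (K + 1) ?_
      (hdsup (K + 1) (by omega) (by omega))
    intro l hl
    rcases Nat.lt_or_ge l (K + 1) with h | h
    · exact (cb2 l h).mono_exp (e2le l)
    · obtain rfl : l = K + 1 := by omega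
      exact b2
  -- pass 0
  have r0 := pass0 hB hg hE (sm_hs hB hη hI) hI.sm (eq_hs hI) K
    (fun l hl => ⟨hb0 l hl, ub_shift (ch0 l hl)⟩) hd1
  have b0 : UB L 0 (bj L φ d K) := by
    obtain ⟨K', rfl⟩ : ∃ K', K = K' + 1 := ⟨K - 1, by omega⟩
    exact close hB hη hI hL (e := fun _ => 0) (J := K') (expOK_zero _) hb0 r0
  have hd0 : UB L 0 (dj d K) := by
    refine recover hB hg hI.sm (e := 0) (Or.inr (Or.inr rfl)) K ?_
      (hdsup K (by omega) (by omega))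
    intro l hl
    rcases Nat.lt_or_ge l K with h | h
    · exact hb0 l h
    · obtain rfl : l = K := by omega
      exact b0
  refine ⟨⟨hball, ?_, ?_, ?_⟩, hd0⟩
  · intro l hl
    rcases Nat.lt_or_ge l K with h | h
    · exact hb0 l h
    · obtain rfl : l = K := by omega
      exact b0
  · intro l hl
    obtain rfl : l = K + 1 := by omega
    exact b2
  · intro l hl
    obtain rfl : l = K + 2 := by omega
    exact b4

theorem hyp_all (hB : Bg c0 C0 g L φ m) (hg : Prof c0 C0 g) (hκ : κ ∈ Ioo (1 / 8 : ℝ) (1 / 4))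
    (hη : EtaOK η) (hE : Sm (Ioo 0 1) L E) (hI : Iter κ L φ E η d) (n : ℕ) :
    Hyp L φ d (n + 5 + 4) := by
  induction n with
  | zero => exact base hB hκ hI
  | succ n ih => exact (step hB hg hη hE hI (K := n + 5) (by omega) ih).1

theorem ub_dj (hB : Bg c0 C0 g L φ m) (hg : Prof c0 C0 g) (hκ : κ ∈ Ioo (1 / 8 : ℝ) (1 / 4))
    (hη : EtaOK η) (hE : Sm (Ioo 0 1) L E) (hI : Iter κ L φ E η d) (J : ℕ) :
    UB L 0 (dj d J) := by
  rcases Nat.lt_or_ge J 5 with h | h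
  · exact base_d hB hI J (by omega)
  · obtain ⟨n, rfl⟩ : ∃ n, J = n + 5 := ⟨J - 5, by omega⟩
    exact (step hB hg hη hE hI (K := n + 5) (by omega) (hyp_all hB hg hκ hη hE hI n)).2

theorem all_levels (hB : Bg c0 C0 g L φ m) (hg : Prof c0 C0 g)
    (hκ : κ ∈ Ioo (1 / 8 : ℝ) (1 / 4)) (hη : EtaOK η) (hE : Sm (Ioo 0 1) L E)
    (hI : Iter κ L φ E η d) :
    ∀ (J : ℕ) (τ1 : ℝ), 0 < τ1 → ∃ M : ℝ, ∀ i, ∀ τ ∈ Ioo τ1 (3 / 8), ∀ x ∈ Icc 0 L,
      |(dt^[J] (d i)) τ x| ≤ M := by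
  intro J τ1 hτ1
  have hL : 0 < L := by linarith [hB.L_ge]
  rcases lt_or_ge τ1 (3 / 8) with h | h
  · obtain ⟨C, hC⟩ := ub_dj hB hg hκ hη hE hI J τ1 (3 / 8) hτ1 h (by norm_num)
    refine ⟨C, fun i τ hτ x hx => ?_⟩
    have hτ' : τ ∈ Ioo (0 : ℝ) 1 := ⟨hτ1.trans hτ.1, by linarith [hτ.2]⟩
    have hcont : ContinuousOn (fun y => |(dt^[J] (d i)) τ y|) (Icc 0 L) :=
      (((hI.sm i).dt_iter isOpen_Ioo hL J).continuousOn_right hτ').abs
    have hcl : Icc 0 L = closure (Ioo 0 L) := (closure_Ioo hL.ne).symm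
    have hx' : x ∈ closure (Ioo 0 L) := hcl ▸ hx
    have hin : ∀ y ∈ Ioo 0 L, |(dt^[J] (d i)) τ y| ≤ C := fun y hy => by
      have := hC i τ ⟨hτ.1.le, hτ.2.le⟩ y hy
      simpa [dj] using this
    have hcw : ContinuousWithinAt (fun y => |(dt^[J] (d i)) τ y|) (Ioo 0 L) x :=
      (hcont x hx).mono Ioo_subset_Icc_self
    have : (𝓝[Ioo 0 L] x).NeBot := mem_closure_iff_nhdsWithin_neBot.1 hx'
    exact le_of_tendsto hcw (eventually_nhdsWithin_of_forall hin)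
  · exact ⟨0, fun i τ hτ => absurd (hτ.1.trans hτ.2) (not_lt.2 h)⟩

end Crest.Agent.R213.C8.H302
end
end

-- ▼ part R213/C/PdeMain

/-!
# Row 213, part C: `pde_main`, given the linear solver
-/

set_option autoImplicit false

open Set MeasureTheory Filter Topology

noncomputable section

namespace Crest.Agent.R213.C

theorem allLevels {c0 C0 κ : ℝ} {g : ℝ → ℝ} (hg : Prof c0 C0 g)
    (hκ : κ ∈ Ioo (1 / 8 : ℝ) (1 / 4)) : AllLevels c0 C0 κ g :=
  fun _L _φ _m _E hB hE _hE0 _d hI => C8.H302.all_levels hB hg hκ eta_ok hE hI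

/-- `pde_main` of the interface, from the conclusion of `lin` -/
theorem pde_main_of_lin {c0 C0 : ℝ} {g : ℝ → ℝ} (hg : Prof c0 C0 g)
    (hlin : ∃ κ ∈ Ioo (1 / 8 : ℝ) (1 / 4), ∃ L1 C : ℝ, ∀ L ≥ L1, ∀ φ m : ℝ → ℝ → ℝ,
      Bg c0 C0 g L φ m →
      ∀ E ht : ℝ → ℝ → ℝ, Sm (Ioo 0 1) L E → Sm (Ioo 0 1) L ht →
        N2 L (Wt'' κ) E < ⊤ → N2 L (Wt κ) (fun τ x => φ τ x * ht τ x) < ⊤ →
      ∃ δ : ℝ → ℝ → ℝ, Sm (Ioo 0 1) L δ ∧
        N2 L (Wt κ) (fun τ x => φ τ x * dx L (dx L δ) τ x) + N2 L (Wt' κ) δ ≤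
          ENNReal.ofReal C *
            (N2 L (Wt κ) (fun τ x => φ τ x * ht τ x) + N2 L (Wt'' κ) E) ∧
        ∀ τ ∈ Ioo (0 : ℝ) 1, ∀ x ∈ Icc 0 L,
          x ^ 9 * (φ τ x ^ 2 * dx L (dx L δ) τ x - φ τ x ^ 2 * ht τ x) =
            Kint (fun ξ => E τ ξ + dt δ τ ξ) x) :
    ∃ (L1 : ℝ) (P : ℕ), ∀ L ≥ L1, ∀ φ m : ℝ → ℝ → ℝ, Bg c0 C0 g L φ m →
      ∀ E : ℝ → ℝ → ℝ, Sm (Ioo 0 1) L E →
        (∀ τ ∈ Ioo (0 : ℝ) 1, ∀ x ∈ Icc 0 1, E τ x = 0) →
        (∀ j ≤ 9, ∀ τ ∈ Ioo (0 : ℝ) 1, ∀ x ∈ Icc 0 L, |(dt^[j] E) τ x| ≤ L ^ (-(P : ℝ))) →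
      ∃ δ : ℝ → ℝ → ℝ, Sm (Ioo 0 (1 / 4)) L δ ∧
        (∀ τ ∈ Ioo (0 : ℝ) (1 / 4), ∀ x ∈ Icc 0 L, |φ τ x * dx L (dx L δ) τ x| ≤ 1 / 2) ∧
        (∀ τ ∈ Ioo (0 : ℝ) (1 / 4), ∀ x ∈ Icc 0 L,
          x ^ 9 * φ τ x * (φ τ x * dx L (dx L δ) τ x / (1 + φ τ x * dx L (dx L δ) τ x)) =
            Kint (fun ξ => E τ ξ + dt δ τ ξ) x) ∧
        Tendsto (fun τ => √τ * dt δ τ 0) (𝓝[>] 0) (𝓝 0) := by
  obtain ⟨κ, hκ, L1, C, h⟩ := hlin
  exact pde_main_core (κ := κ) hg hκ (energyLevels hg hκ) (allLevels hg hκ) (L1 := L1) (C1 := C) h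

end Crest.Agent.R213.C
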